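import Mathlib
import Crest.Prelude.Def_Cochain

/-!
# Row 66: copy of Coset.lean and Endgame.lean (helper741, helper819) in the namespace `Asm`
(the original names clash with those of Basic.lean)

# coset calculus

A finite group `G` with subgroups `K S` indexed by finite sets of types.  A face of type `S` is a
coset `g K_S`; an `n`-cochain (on faces with `n` vertices) is a family `f S : G → ZMod 2`
(`S.card = n`), each `f S` being right `K_S`-invariant.  The link of the face `(g,T)` is described
by functions on `K T`.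
-/

set_option autoImplicit false

namespace Crest.Agent.R066.Asm

section CosetPart
open Finset

/-- A coset system: subgroups indexed by finite sets of types. -/
structure CosetSystem (G : Type*) [Group G] (I : Type*) [DecidableEq I] where
  K : Finset I → Subgroup G
  K_empty : K ∅ = ⊤
  K_union : ∀ S T, K (S ∪ T) = K S ⊓ K T

variable {G : Type*} [Group G] {I : Type*} [DecidableEq I]

theorem CosetSystem.K_mono (X : CosetSystem G I) {S T : Finset I} (h : S ⊆ T) : X.K T ≤ X.K S := by
  have := X.K_union S T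
  rw [Finset.union_eq_right.mpr h] at this
  rw [this]; exact inf_le_left

/-- Coboundary of a family. -/
def cob (f : Finset I → G → ZMod 2) : Finset I → G → ZMod 2 :=
  fun S g => ∑ s ∈ S, f (S.erase s) g

/-- `f` is a cochain on faces of size `n` in the link of type `T`. -/
def IsCochain (X : CosetSystem G I) (T : Finset I) (n : ℕ) (f : Finset I → G → ZMod 2) : Prop :=
  ∀ S : Finset I, S.card = n → Disjoint T S →
    ∀ g ∈ X.K T, ∀ k ∈ X.K (T ∪ S), f S (g * k) = f S g

/-- Localisation of `f` at the face `(g,T)`. -/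
def loc (f : Finset I → G → ZMod 2) (T : Finset I) (g : G) : Finset I → G → ZMod 2 :=
  fun S k => f (T ∪ S) (g * k)

theorem cob_add (f g : Finset I → G → ZMod 2) : cob (f + g) = cob f + cob g := by
  funext S x; simp [cob, Finset.sum_add_distrib]

theorem cob_zero : cob (0 : Finset I → G → ZMod 2) = 0 := by
  funext S x; simp [cob]

theorem cob_cob (f : Finset I → G → ZMod 2) : cob (cob f) = 0 := by
  funext S x
  simp only [cob, Pi.zero_apply]
  rw [Finset.sum_sigma']
  refine Finset.sum_involution (fun p _ => ⟨p.2, p.1⟩) ?_ ?_ ?_ ?_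
  · rintro ⟨a, b⟩ h
    simp only [Finset.mem_sigma, Finset.mem_erase] at h
    rw [Finset.erase_right_comm]
    exact CharTwo.add_self_eq_zero _
  · rintro ⟨a, b⟩ h _
    simp only [Finset.mem_sigma, Finset.mem_erase] at h
    intro e
    simp only [Sigma.mk.injEq, heq_eq_eq] at e
    exact h.2.1 e.1
  · rintro ⟨a, b⟩ h
    simp only [Finset.mem_sigma, Finset.mem_erase] at h ⊢
    exact ⟨h.2.2, fun e => h.2.1 e.symm, h.1⟩
  · rintro ⟨a, b⟩ h
    rfl

theorem IsCochain.loc {X : CosetSystem G I} {n : ℕ} {f : Finset I → G → ZMod 2}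
    (hf : IsCochain X ∅ n f) (T : Finset I) (hT : T.card ≤ n) (g : G) :
    IsCochain X T (n - T.card) (loc f T g) := by
  intro S hS hd x hx k hk
  simp only [Asm.loc]
  rw [← mul_assoc]
  refine hf (T ∪ S) ?_ (Finset.disjoint_empty_left _) (g * x) ?_ k ?_
  · rw [Finset.card_union_of_disjoint hd, hS]; omega
  · rw [X.K_empty]; trivial
  · simpa using hk

theorem IsCochain.cob {X : CosetSystem G I} {T : Finset I} {n : ℕ} {f : Finset I → G → ZMod 2}
    (hf : IsCochain X T n f) : IsCochain X T (n + 1) (cob f) := by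
  intro S hS hd g hg k hk
  simp only [Asm.cob]
  refine Finset.sum_congr rfl fun s hs => ?_
  refine hf (S.erase s) ?_ ?_ g hg k ?_
  · rw [Finset.card_erase_of_mem hs, hS]; rfl
  · exact hd.mono_right (Finset.erase_subset _ _)
  · exact X.K_mono (Finset.union_subset_union_right (Finset.erase_subset _ _)) hk

theorem IsCochain.add {X : CosetSystem G I} {T : Finset I} {n : ℕ} {f g : Finset I → G → ZMod 2}
    (hf : IsCochain X T n f) (hg : IsCochain X T n g) : IsCochain X T n (f + g) := by
  intro S hS hd x hx k hk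
  simp only [Pi.add_apply]
  rw [hf S hS hd x hx k hk, hg S hS hd x hx k hk]

section Count

variable [Fintype G] [Fintype I]

/-- The faces of size `n` in the link of type `T`. -/
def faces (T : Finset I) (n : ℕ) : Finset (Finset I) :=
  univ.filter (fun S => S.card = n ∧ Disjoint T S)

open Classical in
/-- Number of elements of the subgroup `H` where `u` does not vanish. -/
noncomputable def supp (H : Subgroup G) (u : G → ZMod 2) : ℕ :=
  (univ.filter (fun g => g ∈ H ∧ u g ≠ 0)).card

/-- Counting norm of a cochain of the link of type `T`. -/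
noncomputable def cnt (X : CosetSystem G I) (T : Finset I) (n : ℕ)
    (f : Finset I → G → ZMod 2) : ℕ :=
  ∑ S ∈ faces T n, supp (X.K T) (f S)

open Classical in
theorem supp_top (u : G → ZMod 2) :
    supp (⊤ : Subgroup G) u = (univ.filter (fun g => u g ≠ 0)).card := by
  simp [supp]

open Classical in
/-- Double counting. -/
theorem sum_supp_mul (H : Subgroup G) (P : G → Prop) (hP : ∀ g, ∀ k ∈ H, P (g * k) ↔ P g)
    (u : G → ZMod 2) :
    ∑ g ∈ univ.filter P, supp H (fun k => u (g * k)) =
      Fintype.card H * (univ.filter (fun g => P g ∧ u g ≠ 0)).card := by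
  have h1 : ∀ g, supp H (fun k => u (g * k)) = ∑ k : H, if u (g * (k : G)) ≠ 0 then 1 else 0 := by
    intro g
    rw [supp, ← Finset.sum_subtype (univ.filter (fun k => k ∈ H)) (by simp)
      (fun k => if u (g * k) ≠ 0 then 1 else 0), Finset.sum_boole, Finset.filter_filter]
    simp
  simp_rw [h1]
  rw [Finset.sum_comm]
  have h2 : ∀ k : H, ∑ g ∈ univ.filter P, (if u (g * (k : G)) ≠ 0 then 1 else 0) =
      (univ.filter (fun g => P g ∧ u g ≠ 0)).card := by
    intro k
    rw [Finset.sum_boole, Finset.filter_filter]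
    simp only [Nat.cast_id]
    refine Finset.card_bij (fun g _ => g * (k : G)) ?_ ?_ ?_
    · intro g hg
      simp only [mem_filter, mem_univ, true_and] at hg ⊢
      exact ⟨(hP g k k.2).mpr hg.1, hg.2⟩
    · intro a _ b _ h
      exact mul_right_cancel h
    · intro b hb
      simp only [mem_filter, mem_univ, true_and] at hb
      refine ⟨b * (k : G)⁻¹, ?_, by simp⟩
      simp only [mem_filter, mem_univ, true_and, inv_mul_cancel_right]
      refine ⟨?_, hb.2⟩
      rw [← hP (b * (k : G)⁻¹) k k.2]; simpa using hb.1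
  rw [Finset.sum_congr rfl (fun k _ => h2 k)]
  simp

end Count

end CosetPart

end Crest.Agent.R066.Asm


/-!
# Row 66: endgame

From coset-calculus expansion of a family of finite coset systems to the frozen statement.
-/


namespace Crest.Agent.R066.Asm

open Crest.CombinatoricsR.Cochain

section
variable {G : Type} [Group G] {I : Type} [DecidableEq I] (X : CosetSystem G I)

theorem mem_K {S : Finset I} {g : G} : g ∈ X.K S ↔ ∀ s ∈ S, g ∈ X.K {s} := by
  classical
  induction S using Finset.induction_on with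
  | empty => simp [X.K_empty]
  | insert a S ha ih =>
    rw [Finset.insert_eq, X.K_union, Subgroup.mem_inf, ih]
    constructor
    · rintro ⟨h1, h2⟩ s hs
      rw [Finset.mem_union, Finset.mem_singleton] at hs
      rcases hs with rfl | hs
      · exact h1
      · exact h2 s hs
    · intro h
      exact ⟨h a (Finset.mem_union_left _ (Finset.mem_singleton_self a)),
        fun s hs => h s (Finset.mem_union_right _ hs)⟩

variable [Fintype G] [Fintype I]

/-- vertices -/
abbrev Vtx := Σ i : I, G ⧸ X.K {i}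

noncomputable instance : Fintype (Vtx X) := by
  classical
  exact Fintype.ofFinite _

/-- number of vertices -/
noncomputable def nV : ℕ := Fintype.card (Vtx X)

/-- numbering of the vertices -/
noncomputable def eV : Vtx X ≃ Fin (nV X) := Fintype.equivFin _

/-- the vertex of type `s` of `g` -/
noncomputable def vx (s : I) (g : G) : Fin (nV X) :=
  eV X ⟨s, (QuotientGroup.mk g : G ⧸ X.K {s})⟩

theorem vx_eq {s s' : I} {g g' : G} : vx X s g = vx X s' g' ↔ s = s' ∧ g⁻¹ * g' ∈ X.K {s} := by
  unfold vx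
  rw [(eV X).apply_eq_iff_eq]
  constructor
  · intro h
    have h1 : s = s' := congrArg Sigma.fst h
    subst h1
    refine ⟨rfl, ?_⟩
    have h2 := eq_of_heq (Sigma.mk.inj h).2
    exact QuotientGroup.eq.mp h2
  · rintro ⟨rfl, h⟩
    congr 1
    exact QuotientGroup.eq.mpr h

theorem exists_vx (v : Fin (nV X)) : ∃ s g, v = vx X s g := by
  obtain ⟨⟨s, q⟩, rfl⟩ := (eV X).surjective v
  obtain ⟨g, rfl⟩ := QuotientGroup.mk_surjective q
  exact ⟨s, g, rfl⟩

/-- the face of type `S` of `g` -/
noncomputable def face (S : Finset I) (g : G) : Finset (Fin (nV X)) :=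
  S.image (fun s => vx X s g)

theorem vx_inj (g : G) : Function.Injective (fun s => vx X s g) := by
  intro s s' h
  exact ((vx_eq X).1 h).1

theorem card_face (S : Finset I) (g : G) : (face X S g).card = S.card :=
  Finset.card_image_of_injective _ (vx_inj X g)

theorem mem_face {S : Finset I} {g g' : G} {s : I} :
    vx X s g' ∈ face X S g ↔ s ∈ S ∧ g⁻¹ * g' ∈ X.K {s} := by
  unfold face
  rw [Finset.mem_image]
  constructor
  · rintro ⟨a, ha, h⟩
    obtain ⟨rfl, h2⟩ := (vx_eq X).1 h
    exact ⟨ha, h2⟩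
  · rintro ⟨h1, h2⟩
    exact ⟨s, h1, (vx_eq X).2 ⟨rfl, h2⟩⟩

theorem face_subset {S S' : Finset I} {g g' : G} :
    face X S g ⊆ face X S' g' ↔ S ⊆ S' ∧ g⁻¹ * g' ∈ X.K S := by
  constructor
  · intro h
    have h1 : ∀ s ∈ S, s ∈ S' ∧ g'⁻¹ * g ∈ X.K {s} := by
      intro s hs
      have h2 : vx X s g ∈ face X S g := (mem_face X).2 ⟨hs, by simp [(X.K {s}).one_mem]⟩
      exact (mem_face X).1 (h h2)
    refine ⟨fun s hs => (h1 s hs).1, (mem_K X).2 ?_⟩
    intro s hs
    have h3 := (X.K {s}).inv_mem (h1 s hs).2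
    simpa using h3
  · rintro ⟨h1, h2⟩ x hx
    unfold face at hx
    rw [Finset.mem_image] at hx
    obtain ⟨s, hs, rfl⟩ := hx
    refine (mem_face X).2 ⟨h1 hs, ?_⟩
    have h3 := (X.K {s}).inv_mem ((mem_K X).1 h2 s hs)
    simpa using h3

theorem face_eq {S S' : Finset I} {g g' : G} :
    face X S g = face X S' g' ↔ S = S' ∧ g⁻¹ * g' ∈ X.K S := by
  constructor
  · intro h
    have h1 := (face_subset X).1 h.subset
    have h2 := (face_subset X).1 h.symm.subset
    exact ⟨Finset.Subset.antisymm h1.1 h2.1, h1.2⟩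
  · rintro ⟨rfl, h⟩
    refine Finset.Subset.antisymm ((face_subset X).2 ⟨Finset.Subset.refl _, h⟩)
      ((face_subset X).2 ⟨Finset.Subset.refl _, ?_⟩)
    have h3 := (X.K S).inv_mem h
    simpa using h3

/-- subsets of a face are faces -/
theorem sub_face {S : Finset I} {g : G} {σ : Finset (Fin (nV X))} (h : σ ⊆ face X S g) :
    ∃ S' ⊆ S, σ = face X S' g := by
  classical
  refine ⟨S.filter (fun s => vx X s g ∈ σ), Finset.filter_subset _ _, ?_⟩
  ext x
  constructor
  · intro hx
    have h1 := h hx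
    unfold face at h1
    rw [Finset.mem_image] at h1
    obtain ⟨s, hs, rfl⟩ := h1
    exact (mem_face X).2 ⟨Finset.mem_filter.2 ⟨hs, hx⟩, by simp [(X.K {s}).one_mem]⟩
  · intro hx
    unfold face at hx
    rw [Finset.mem_image] at hx
    obtain ⟨s, hs, rfl⟩ := hx
    exact (Finset.mem_filter.1 hs).2

variable (d : ℕ)

/-- the top faces of the `d`-skeleton -/
noncomputable def TT : Finset (Finset (Fin (nV X))) :=
  ((Finset.univ : Finset I).powersetCard (d + 1) ×ˢ (Finset.univ : Finset G)).image
    (fun x => face X x.1 x.2)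

theorem mem_TT {τ : Finset (Fin (nV X))} : τ ∈ TT X d ↔ ∃ S : Finset I, S.card = d + 1 ∧ ∃ g : G,
    τ = face X S g := by
  classical
  unfold TT
  rw [Finset.mem_image]
  constructor
  · rintro ⟨⟨S, g⟩, h, rfl⟩
    rw [Finset.mem_product, Finset.mem_powersetCard] at h
    exact ⟨S, h.1.2, g, rfl⟩
  · rintro ⟨S, h, g, rfl⟩
    refine ⟨(S, g), ?_, rfl⟩
    rw [Finset.mem_product, Finset.mem_powersetCard]
    exact ⟨⟨Finset.subset_univ _, h⟩, Finset.mem_univ _⟩

theorem coboundary_face (f : Finset (Fin (nV X)) → ZMod 2) (i : ℕ) (S : Finset I)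
    (hS : S.card = i + 2) (g : G) :
    coboundary i f (face X S g) = cob (fun S g => f (face X S g)) S g := by
  classical
  unfold coboundary cob
  symm
  refine Finset.sum_bij (fun s _ => face X (S.erase s) g) ?_ ?_ ?_ ?_
  · intro s hs
    rw [Finset.mem_powersetCard, card_face, Finset.card_erase_of_mem hs, hS]
    refine ⟨(face_subset X).2 ⟨Finset.erase_subset _ _, by simp [(X.K _).one_mem]⟩, rfl⟩
  · intro a ha b hb h
    have h1 := ((face_eq X).1 h).1
    by_contra hne
    have h2 : b ∈ S.erase a := Finset.mem_erase.2 ⟨fun h => hne h.symm, hb⟩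
    rw [h1] at h2
    exact absurd h2 (Finset.notMem_erase _ _)
  · intro σ hσ
    rw [Finset.mem_powersetCard] at hσ
    obtain ⟨S', hS', rfl⟩ := sub_face X hσ.1
    rw [card_face] at hσ
    have h1 : (S \ S').card = 1 := by
      rw [Finset.card_sdiff_of_subset hS', hS, hσ.2]
      omega
    obtain ⟨s, hs⟩ := Finset.card_eq_one.1 h1
    have hs1 : s ∈ S \ S' := by rw [hs]; exact Finset.mem_singleton_self s
    rw [Finset.mem_sdiff] at hs1
    refine ⟨s, hs1.1, ?_⟩
    congr 1
    rw [← Finset.sdiff_singleton_eq_erase, ← hs, Finset.sdiff_sdiff_eq_self hS']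
  · intro s hs
    rfl

/-! ## degrees and weights -/

theorem one_le_vertexDegree (hd : d + 1 ≤ Fintype.card I) (v : Fin (nV X)) :
    1 ≤ vertexDegree (TT X d) v := by
  classical
  obtain ⟨s, g, rfl⟩ := exists_vx X v
  obtain ⟨S, hS1, hS2⟩ : ∃ S : Finset I, {s} ⊆ S ∧ S.card = d + 1 := by
    obtain ⟨S, hS1, _, hS2⟩ := Finset.exists_subsuperset_card_eq
      (Finset.subset_univ ({s} : Finset I)) (n := d + 1) (by simp) (by simpa using hd)
    exact ⟨S, hS1, hS2⟩
  unfold vertexDegree
  rw [Nat.one_le_iff_ne_zero, Ne, Finset.card_eq_zero, ← Ne, ← Finset.nonempty_iff_ne_empty]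
  refine ⟨face X S g, Finset.mem_filter.2 ⟨(mem_TT X d).2 ⟨S, hS2, g, rfl⟩, ?_⟩⟩
  exact (mem_face X).2 ⟨hS1 (Finset.mem_singleton_self s), by simp [(X.K {s}).one_mem]⟩

theorem vertexDegree_le {B : ℕ} (hB : ∀ s, Nat.card (X.K {s}) ≤ B) (v : Fin (nV X)) :
    vertexDegree (TT X d) v ≤ 2 ^ Fintype.card I * B := by
  classical
  obtain ⟨s, g, rfl⟩ := exists_vx X v
  unfold vertexDegree
  have h1 : ((TT X d).filter (fun τ => vx X s g ∈ τ)) ⊆
      ((Finset.univ : Finset (Finset I)) ×ˢ
        ((Finset.univ : Finset (X.K {s})))).image (fun x => face X x.1 (g * (x.2 : G))) := by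
    intro τ hτ
    rw [Finset.mem_filter, mem_TT] at hτ
    obtain ⟨⟨S, hS, g', rfl⟩, h⟩ := hτ
    have h2 := (mem_face X).1 h
    rw [Finset.mem_image]
    have h3 : g⁻¹ * g' ∈ X.K {s} := by
      have := (X.K {s}).inv_mem h2.2
      simpa using this
    exact ⟨(S, ⟨g⁻¹ * g', h3⟩), Finset.mem_product.2 ⟨Finset.mem_univ _, Finset.mem_univ _⟩,
      by simp⟩
  refine (Finset.card_le_card h1).trans (Finset.card_image_le.trans ?_)
  rw [Finset.card_product, Finset.card_univ, Fintype.card_finset]
  refine Nat.mul_le_mul_left _ ?_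
  rw [Finset.card_univ, ← Nat.card_eq_fintype_card]
  exact hB s

theorem filter_super_le {B : ℕ} (hB : ∀ s, Nat.card (X.K {s}) ≤ B) (σ : Finset (Fin (nV X)))
    (hσ : σ.Nonempty) :
    ((TT X d).filter (fun τ => σ ⊆ τ)).card ≤ 2 ^ Fintype.card I * B := by
  classical
  obtain ⟨v, hv⟩ := hσ
  refine le_trans (Finset.card_le_card ?_) (vertexDegree_le X d hB v)
  intro τ hτ
  rw [Finset.mem_filter] at hτ ⊢
  exact ⟨hτ.1, hτ.2 hv⟩

theorem one_le_filter_super (hd : d + 1 ≤ Fintype.card I) (S : Finset I) (hS : S.card ≤ d + 1)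
    (g : G) : 1 ≤ ((TT X d).filter (fun τ => face X S g ⊆ τ)).card := by
  classical
  obtain ⟨S', hS1, _, hS2⟩ := Finset.exists_subsuperset_card_eq
      (Finset.subset_univ S) (n := d + 1) hS (by simpa using hd)
  rw [Nat.one_le_iff_ne_zero, Ne, Finset.card_eq_zero, ← Ne, ← Finset.nonempty_iff_ne_empty]
  refine ⟨face X S' g, Finset.mem_filter.2 ⟨(mem_TT X d).2 ⟨S', hS2, g, rfl⟩, ?_⟩⟩
  exact (face_subset X).2 ⟨hS1, by simp [(X.K S).one_mem]⟩

/-- upper bound for the norm -/
theorem cochainNorm_le {B : ℕ} (hB : ∀ s, Nat.card (X.K {s}) ≤ B) (i : ℕ)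
    (f : Finset (Fin (nV X)) → ZMod 2) (c : ℝ) (hc : 0 < c)
    (hc1 : c ≤ (Nat.choose (d + 1) (i + 1) : ℝ) * ((TT X d).card : ℝ)) :
    cochainNorm d (TT X d) i f ≤
      (2 ^ Fintype.card I * B : ℕ) / c * (cnt X ∅ (i + 1) (fun S g => f (face X S g)) : ℕ) := by
  classical
  unfold cochainNorm
  -- each weight is at most `D / c`, zero on non-faces
  have h1 : ∀ σ : Finset (Fin (nV X)), σ.card = i + 1 →
      faceWeight d (TT X d) i σ ≤ if (∃ S g, S.card = i + 1 ∧ σ = face X S g) then
        ((2 ^ Fintype.card I * B : ℕ) : ℝ) / c else 0 := by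
    intro σ hσ
    split_ifs with h
    · unfold faceWeight
      refine div_le_div₀ (by positivity) ?_ hc hc1
      exact_mod_cast filter_super_le X d hB σ (Finset.card_pos.1 (by omega))
    · unfold faceWeight
      have h2 : (TT X d).filter (fun τ => σ ⊆ τ) = ∅ := by
        rw [Finset.filter_eq_empty_iff]
        intro τ hτ hστ
        obtain ⟨S, hS, g, rfl⟩ := (mem_TT X d).1 hτ
        obtain ⟨S', _, rfl⟩ := sub_face X hστ
        rw [card_face] at hσ
        exact h ⟨S', g, hσ, rfl⟩
      rw [h2]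
      simp
  calc ∑ σ ∈ (Finset.univ.powersetCard (i + 1)).filter (fun σ => f σ ≠ 0),
        faceWeight d (TT X d) i σ
      ≤ ∑ σ ∈ (Finset.univ.powersetCard (i + 1)).filter (fun σ => f σ ≠ 0),
        (if (∃ S g, S.card = i + 1 ∧ σ = face X S g) then
          ((2 ^ Fintype.card I * B : ℕ) : ℝ) / c else 0) := by
        refine Finset.sum_le_sum fun σ hσ => h1 σ ?_
        rw [Finset.mem_filter, Finset.mem_powersetCard] at hσ
        exact hσ.1.2
    _ = ((2 ^ Fintype.card I * B : ℕ) : ℝ) / c *
        ((((Finset.univ.powersetCard (i + 1)).filter (fun σ => f σ ≠ 0)).filter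
          (fun σ => ∃ S g, S.card = i + 1 ∧ σ = face X S g)).card : ℝ) := by
        rw [← Finset.sum_filter, Finset.sum_const, nsmul_eq_mul, mul_comm]
    _ ≤ _ := by
        refine mul_le_mul_of_nonneg_left ?_ (by positivity)
        norm_cast
        unfold cnt
        -- count faces
        have h3 : (((Finset.univ.powersetCard (i + 1)).filter (fun σ => f σ ≠ 0)).filter
          (fun σ => ∃ S g, S.card = i + 1 ∧ σ = face X S g)) ⊆
          (faces (∅ : Finset I) (i + 1)).biUnion (fun S =>
            ((Finset.univ.filter (fun g : G => g ∈ X.K ∅ ∧ f (face X S g) ≠ 0)).image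
              (fun g => face X S g))) := by
          intro σ hσ
          rw [Finset.mem_filter, Finset.mem_filter] at hσ
          obtain ⟨⟨_, h4⟩, S, g, hS, rfl⟩ := hσ
          rw [Finset.mem_biUnion]
          refine ⟨S, ?_, ?_⟩
          · unfold faces
            rw [Finset.mem_filter]
            exact ⟨Finset.mem_univ _, hS, Finset.disjoint_empty_left _⟩
          · rw [Finset.mem_image]
            refine ⟨g, ?_, rfl⟩
            rw [Finset.mem_filter]
            exact ⟨Finset.mem_univ _, by rw [X.K_empty]; trivial, h4⟩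
        refine (Finset.card_le_card h3).trans (Finset.card_biUnion_le.trans ?_)
        refine Finset.sum_le_sum fun S _ => ?_
        unfold supp
        exact Finset.card_image_le

/-- lower bound for the norm -/
theorem le_cochainNorm {B : ℕ} (hB : ∀ s, Nat.card (X.K {s}) ≤ B) (hd : d + 1 ≤ Fintype.card I)
    (i : ℕ) (hi : i ≤ d) (f : Finset (Fin (nV X)) → ZMod 2) (c : ℝ) (hc : 0 < c)
    (hc1 : (Nat.choose (d + 1) (i + 1) : ℝ) * ((TT X d).card : ℝ) ≤ c) :
    (cnt X ∅ (i + 1) (fun S g => f (face X S g)) : ℕ) ≤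
      (B : ℝ) * c * cochainNorm d (TT X d) i f := by
  classical
  -- fibre bound
  have hfib : cnt X ∅ (i + 1) (fun S g => f (face X S g)) ≤
      B * (((Finset.univ.powersetCard (i + 1)).filter (fun σ => f σ ≠ 0)).filter
          (fun σ => ∃ S g, S.card = i + 1 ∧ σ = face X S g)).card := by
    set Fs := (((Finset.univ.powersetCard (i + 1)).filter (fun σ => f σ ≠ 0)).filter
          (fun σ => ∃ S g, S.card = i + 1 ∧ σ = face X S g)) with hFs
    have h1 : cnt X ∅ (i + 1) (fun S g => f (face X S g)) =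
        ((faces (∅ : Finset I) (i + 1)).sigma (fun S =>
          (Finset.univ.filter (fun g : G => g ∈ X.K ∅ ∧ f (face X S g) ≠ 0)))).card := by
      rw [Finset.card_sigma]
      rfl
    rw [h1]
    refine Finset.card_le_mul_card_image_of_maps_to
      (f := fun x : (_ : Finset I) × G => face X x.1 x.2) ?_ B ?_
    · rintro ⟨S, g⟩ hx
      rw [Finset.mem_sigma, Finset.mem_filter] at hx
      simp only [faces, Finset.mem_filter] at hx
      rw [hFs, Finset.mem_filter, Finset.mem_filter, Finset.mem_powersetCard]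
      exact ⟨⟨⟨Finset.subset_univ _, by rw [card_face]; exact hx.1.2.1⟩, hx.2.2.2⟩,
        S, g, hx.1.2.1, rfl⟩
    · intro σ hσ
      rw [hFs, Finset.mem_filter] at hσ
      obtain ⟨_, S, g, hS, rfl⟩ := hσ
      obtain ⟨s, hs⟩ : S.Nonempty := Finset.card_pos.1 (by omega)
      have h2 : (((faces (∅ : Finset I) (i + 1)).sigma (fun S =>
          (Finset.univ.filter (fun g : G => g ∈ X.K ∅ ∧ f (face X S g) ≠ 0)))).filter
          (fun x => face X x.1 x.2 = face X S g)) ⊆
          (Finset.univ : Finset (X.K {s})).image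
            (fun k : X.K {s} => (⟨S, g * (k : G)⟩ : (_ : Finset I) × G)) := by
        rintro ⟨S', g'⟩ hx
        rw [Finset.mem_filter] at hx
        obtain ⟨h3, h4⟩ := (face_eq X).1 hx.2.symm
        subst h3
        rw [Finset.mem_image]
        refine ⟨⟨g⁻¹ * g', (mem_K X).1 h4 s hs⟩, Finset.mem_univ _, by simp⟩
      refine (Finset.card_le_card h2).trans (Finset.card_image_le.trans ?_)
      rw [Finset.card_univ, ← Nat.card_eq_fintype_card]
      exact hB s
  have hw : ∀ σ ∈ (((Finset.univ.powersetCard (i + 1)).filter (fun σ => f σ ≠ 0)).filter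
          (fun σ => ∃ S g, S.card = i + 1 ∧ σ = face X S g)),
          1 / c ≤ faceWeight d (TT X d) i σ := by
    intro σ hσ
    rw [Finset.mem_filter] at hσ
    obtain ⟨_, S, g, hS, rfl⟩ := hσ
    unfold faceWeight
    have hT : 0 < (TT X d).card := by
      have := one_le_filter_super X d hd S (by omega) g
      exact lt_of_lt_of_le (by omega) (this.trans (Finset.card_filter_le _ _))
    have hch : 0 < Nat.choose (d + 1) (i + 1) := Nat.choose_pos (by omega)
    refine div_le_div₀ (by positivity) ?_ (by positivity) hc1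
    exact_mod_cast one_le_filter_super X d hd S (by omega) g
  have hge : (1 / c) * ((((Finset.univ.powersetCard (i + 1)).filter (fun σ => f σ ≠ 0)).filter
          (fun σ => ∃ S g, S.card = i + 1 ∧ σ = face X S g)).card : ℝ) ≤
          cochainNorm d (TT X d) i f := by
    unfold cochainNorm
    calc (1 / c) * ((((Finset.univ.powersetCard (i + 1)).filter (fun σ => f σ ≠ 0)).filter
          (fun σ => ∃ S g, S.card = i + 1 ∧ σ = face X S g)).card : ℝ)
        = ∑ σ ∈ (((Finset.univ.powersetCard (i + 1)).filter (fun σ => f σ ≠ 0)).filter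
          (fun σ => ∃ S g, S.card = i + 1 ∧ σ = face X S g)), (1 / c) := by
          rw [Finset.sum_const, nsmul_eq_mul, mul_comm]
      _ ≤ ∑ σ ∈ (((Finset.univ.powersetCard (i + 1)).filter (fun σ => f σ ≠ 0)).filter
          (fun σ => ∃ S g, S.card = i + 1 ∧ σ = face X S g)), faceWeight d (TT X d) i σ :=
          Finset.sum_le_sum hw
      _ ≤ _ := by
          refine Finset.sum_le_sum_of_subset_of_nonneg (Finset.filter_subset _ _) ?_
          intro σ _ _
          unfold faceWeight
          positivity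
  have h5 : ((((Finset.univ.powersetCard (i + 1)).filter (fun σ => f σ ≠ 0)).filter
          (fun σ => ∃ S g, S.card = i + 1 ∧ σ = face X S g)).card : ℝ) ≤
          c * cochainNorm d (TT X d) i f := by
    have := mul_le_mul_of_nonneg_left hge hc.le
    rwa [← mul_assoc, mul_one_div_cancel hc.ne', one_mul] at this
  calc ((cnt X ∅ (i + 1) (fun S g => f (face X S g)) : ℕ) : ℝ)
      ≤ (B : ℝ) * ((((Finset.univ.powersetCard (i + 1)).filter (fun σ => f σ ≠ 0)).filter
          (fun σ => ∃ S g, S.card = i + 1 ∧ σ = face X S g)).card : ℝ) := by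
        exact_mod_cast hfib
    _ ≤ (B : ℝ) * (c * cochainNorm d (TT X d) i f) :=
        mul_le_mul_of_nonneg_left h5 (by positivity)
    _ = _ := by ring

/-- the norm only depends on the values on faces -/
theorem cochainNorm_congr (i : ℕ) (f f' : Finset (Fin (nV X)) → ZMod 2)
    (h : ∀ S g, S.card = i + 1 → f (face X S g) = f' (face X S g)) :
    cochainNorm d (TT X d) i f = cochainNorm d (TT X d) i f' := by
  classical
  unfold cochainNorm
  rw [Finset.sum_filter, Finset.sum_filter]
  refine Finset.sum_congr rfl fun σ hσ => ?_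
  rw [Finset.mem_powersetCard] at hσ
  by_cases hf : ∃ S g, S.card = i + 1 ∧ σ = face X S g
  · obtain ⟨S, g, hS, rfl⟩ := hf
    rw [h S g hS]
  · have h2 : faceWeight d (TT X d) i σ = 0 := by
      unfold faceWeight
      have h2 : (TT X d).filter (fun τ => σ ⊆ τ) = ∅ := by
        rw [Finset.filter_eq_empty_iff]
        intro τ hτ hστ
        obtain ⟨S, hS, g, rfl⟩ := (mem_TT X d).1 hτ
        obtain ⟨S', _, rfl⟩ := sub_face X hστ
        rw [card_face] at hσ
        exact hf ⟨S', g, hσ.2, rfl⟩
      rw [h2]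
      simp
    rw [h2]
    simp

/-- coset-calculus expansion in all degrees `< d` with constant `ε` (counting norms). -/
def Expands (ε : ℝ) : Prop :=
  ∀ n : ℕ, 1 ≤ n → n ≤ d → ∀ f : Finset I → G → ZMod 2, IsCochain X ∅ n f →
    ∃ h : Finset I → G → ZMod 2, IsCochain X ∅ (n - 1) h ∧
      ε * (cnt X ∅ n (f + cob h) : ℝ) ≤ (cnt X ∅ (n + 1) (cob f) : ℝ)

theorem isCochain_face (n : ℕ) (f : Finset (Fin (nV X)) → ZMod 2) :
    IsCochain X ∅ n (fun S g => f (face X S g)) := by
  intro S _ _ g _ k hk
  have : face X S (g * k) = face X S g := by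
    rw [Finset.empty_union] at hk
    rw [face_eq]
    refine ⟨rfl, ?_⟩
    have := (X.K S).inv_mem hk
    simpa using this
  simp only [this]

theorem main_ineq {B : ℕ} (hB : ∀ s, Nat.card (X.K {s}) ≤ B) (hd : d + 1 ≤ Fintype.card I)
    (ε : ℝ) (hε : 0 < ε) (hX : Expands X d ε) (hB1 : 1 ≤ B) (i : ℕ) (hi : i < d)
    (f : Finset (Fin (nV X)) → ZMod 2) :
    ∃ b : Finset (Fin (nV X)) → ZMod 2, IsCoboundaryClass i b ∧
      ε / ((2 ^ Fintype.card I * B : ℕ) * B * 2 ^ (d + 1) : ℝ) *
        cochainNorm d (TT X d) i (f - b) ≤ cochainNorm d (TT X d) (i + 1) (coboundary i f) := by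
  classical
  obtain ⟨h, hh, hle⟩ := hX (i + 1) (by omega) (by omega) _ (isCochain_face X (i + 1) f)
  simp only [Nat.add_sub_cancel] at hh
  -- the coboundary
  obtain ⟨b, hb1, hb2⟩ : ∃ b : Finset (Fin (nV X)) → ZMod 2, IsCoboundaryClass i b ∧
      ∀ S g, S.card = i + 1 → b (face X S g) = cob h S g := by
    rcases Nat.eq_zero_or_pos i with rfl | hi0
    · refine ⟨fun _ => h ∅ 1, Or.inl ⟨rfl, h ∅ 1, fun _ => rfl⟩, ?_⟩
      intro S g hS
      obtain ⟨s, rfl⟩ := Finset.card_eq_one.1 hS
      simp only [cob, Finset.sum_singleton, Finset.erase_singleton]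
      have := hh ∅ rfl (Finset.disjoint_empty_left _) 1 (Subgroup.one_mem _) g
        (by rw [Finset.empty_union, X.K_empty]; trivial)
      rw [one_mul] at this
      exact this.symm
    · -- extend `h` to all sets
      let h' : Finset (Fin (nV X)) → ZMod 2 := fun σ =>
        if hσ : ∃ x : Finset I × G, x.1.card = i ∧ σ = face X x.1 x.2 then
          h hσ.choose.1 hσ.choose.2 else 0
      have hh' : ∀ S g, S.card = i → h' (face X S g) = h S g := by
        intro S g hS
        have hex : ∃ x : Finset I × G, x.1.card = i ∧ face X S g = face X x.1 x.2 :=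
          ⟨(S, g), hS, rfl⟩
        have h0 : h' (face X S g) = h hex.choose.1 hex.choose.2 := dif_pos hex
        rw [h0]
        obtain ⟨h1, h2⟩ := hex.choose_spec
        obtain ⟨h3, h4⟩ := (face_eq X).1 h2
        have h5 := hh S hS (Finset.disjoint_empty_left _) g (by rw [X.K_empty]; trivial)
          (g⁻¹ * hex.choose.2) (by rw [Finset.empty_union]; exact h4)
        rw [mul_inv_cancel_left] at h5
        rw [← h5, ← h3]
      refine ⟨coboundary (i - 1) h', Or.inr ⟨hi0, h', rfl⟩, ?_⟩
      intro S g hS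
      rw [coboundary_face X h' (i - 1) S (by omega) g]
      unfold cob
      refine Finset.sum_congr rfl fun s hs => ?_
      exact hh' _ _ (by rw [Finset.card_erase_of_mem hs, hS]; rfl)
  refine ⟨b, hb1, ?_⟩
  -- the two cochains
  have hT : 0 < (TT X d).card := by
    obtain ⟨S, _, hS⟩ := Finset.exists_subset_card_eq
      (s := (Finset.univ : Finset I)) (n := d + 1) (by simpa using hd)
    exact Finset.card_pos.2 ⟨face X S 1, (mem_TT X d).2 ⟨S, hS, 1, rfl⟩⟩
  have hTr : (0 : ℝ) < (TT X d).card := by exact_mod_cast hT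
  have hch : 1 ≤ Nat.choose (d + 1) (i + 1) := Nat.choose_pos (by omega)
  have hchr : (1 : ℝ) ≤ (Nat.choose (d + 1) (i + 1) : ℝ) := by exact_mod_cast hch
  have hch2 : Nat.choose (d + 1) (i + 1 + 1) ≤ 2 ^ (d + 1) := by
    exact Nat.choose_le_two_pow _ _
  have hch2r : (Nat.choose (d + 1) (i + 1 + 1) : ℝ) ≤ 2 ^ (d + 1) := by exact_mod_cast hch2
  have hA := cochainNorm_le X d hB i (f - b) ((TT X d).card : ℝ) hTr (by nlinarith)
  have hA2 := le_cochainNorm X d hB hd (i + 1) (by omega) (coboundary i f)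
    (2 ^ (d + 1) * ((TT X d).card : ℝ)) (by positivity)
    (mul_le_mul_of_nonneg_right hch2r (by positivity))
  have hc1 : cnt X ∅ (i + 1) (fun S g => (f - b) (face X S g)) =
      cnt X ∅ (i + 1) ((fun S g => f (face X S g)) + cob h) := by
    unfold cnt
    refine Finset.sum_congr rfl fun S hS => ?_
    unfold faces at hS
    rw [Finset.mem_filter] at hS
    unfold supp
    congr 1
    refine Finset.filter_congr fun g _ => ?_
    have : (f - b) (face X S g) = ((fun S g => f (face X S g)) + cob h) S g := by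
      simp only [Pi.sub_apply, Pi.add_apply]
      rw [hb2 S g hS.2.1, CharTwo.sub_eq_add]
    simp only [this]
  have hc2 : cnt X ∅ (i + 1 + 1) (fun S g => (coboundary i f) (face X S g)) =
      cnt X ∅ (i + 1 + 1) (cob (fun S g => f (face X S g))) := by
    unfold cnt
    refine Finset.sum_congr rfl fun S hS => ?_
    unfold faces at hS
    rw [Finset.mem_filter] at hS
    unfold supp
    congr 1
    refine Finset.filter_congr fun g _ => ?_
    have := coboundary_face X f i S hS.2.1 g
    simp only [this]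
  rw [hc1] at hA
  rw [hc2] at hA2
  have hBr : (1 : ℝ) ≤ B := by exact_mod_cast hB1
  set D : ℝ := ((2 ^ Fintype.card I * B : ℕ) : ℝ) with hD
  have hDpos : 0 < D := by
    rw [hD]; exact_mod_cast Nat.mul_pos (Nat.pos_of_ne_zero (by positivity)) (by omega)
  set N1 : ℝ := ((cnt X ∅ (i + 1) ((fun S g => f (face X S g)) + cob h) : ℕ) : ℝ) with hN1
  set N2 : ℝ := ((cnt X ∅ (i + 1 + 1) (cob (fun S g => f (face X S g))) : ℕ) : ℝ) with hN2
  set t : ℝ := ((TT X d).card : ℝ) with ht
  -- combine
  have h7 : D / t * N1 ≤ D / t * (N2 / ε) := by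
    refine mul_le_mul_of_nonneg_left ?_ (by positivity)
    rw [le_div_iff₀ hε]
    linarith [hle, mul_comm ε N1]
  have h8 : cochainNorm d (TT X d) i (f - b) ≤
      D / t * ((B * (2 ^ (d + 1) * t) * cochainNorm d (TT X d) (i + 1) (coboundary i f)) / ε) := by
    refine hA.trans (h7.trans ?_)
    refine mul_le_mul_of_nonneg_left ?_ (by positivity)
    exact div_le_div_of_nonneg_right hA2 hε.le
  have h9 : D / t * ((B * (2 ^ (d + 1) * t) * cochainNorm d (TT X d) (i + 1) (coboundary i f)) / ε)
      = (D * B * 2 ^ (d + 1)) / ε * cochainNorm d (TT X d) (i + 1) (coboundary i f) := by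
    field_simp
  rw [h9] at h8
  have h10 : (0 : ℝ) < D * B * 2 ^ (d + 1) := by positivity
  calc ε / (D * B * 2 ^ (d + 1)) * cochainNorm d (TT X d) i (f - b)
      ≤ ε / (D * B * 2 ^ (d + 1)) * ((D * B * 2 ^ (d + 1)) / ε *
          cochainNorm d (TT X d) (i + 1) (coboundary i f)) :=
        mul_le_mul_of_nonneg_left h8 (by positivity)
    _ = cochainNorm d (TT X d) (i + 1) (coboundary i f) := by
        field_simp

/-- connectivity of the 1-skeleton from expansion in degree 0 -/
theorem skeleton_connected (hd : d + 1 ≤ Fintype.card I) (hd1 : 1 ≤ d)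
    (ε : ℝ) (hε : 0 < ε) (hX : Expands X d ε) : (skeleton (TT X d)).Connected := by
  classical
  have hI : 0 < Fintype.card I := by omega
  obtain ⟨s0⟩ : Nonempty I := Fintype.card_pos_iff.1 hI
  let v0 : Fin (nV X) := vx X s0 1
  have : Nonempty (Fin (nV X)) := ⟨v0⟩
  refine SimpleGraph.Connected.mk ?_
  suffices h : ∀ v, (skeleton (TT X d)).Reachable v0 v by
    intro u v
    exact (h u).symm.trans (h v)
  -- indicator of the component
  let f : Finset I → G → ZMod 2 := fun S g =>
    if (∀ s ∈ S, (skeleton (TT X d)).Reachable v0 (vx X s g)) then 1 else 0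
  have hf : IsCochain X ∅ 1 f := by
    intro S hS _ g _ k hk
    rw [Finset.empty_union] at hk
    have : ∀ s ∈ S, vx X s (g * k) = vx X s g := by
      intro s hs
      rw [vx_eq]
      refine ⟨rfl, ?_⟩
      have := (X.K {s}).inv_mem ((mem_K X).1 hk s hs)
      simpa using this
    simp only [f]
    congr 1
    rw [eq_iff_iff]
    exact forall₂_congr fun s hs => by rw [this s hs]
  obtain ⟨h, hh, hle⟩ := hX 1 le_rfl hd1 f hf
  -- cob f = 0
  have hadj : ∀ s s' : I, s ≠ s' → ∀ g : G,
      (skeleton (TT X d)).Reachable (vx X s g) (vx X s' g) := by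
    intro s s' hss g
    refine SimpleGraph.Adj.reachable ?_
    obtain ⟨S', hS1, _, hS2⟩ := Finset.exists_subsuperset_card_eq
      (Finset.subset_univ ({s, s'} : Finset I)) (n := d + 1)
      (by rw [Finset.card_pair hss]; omega) (by simpa using hd)
    refine ⟨fun e => hss ((vx_eq X).1 e).1, face X S' g, (mem_TT X d).2 ⟨S', hS2, g, rfl⟩, ?_, ?_⟩
    · exact (mem_face X).2 ⟨hS1 (by simp), by simp [(X.K _).one_mem]⟩
    · exact (mem_face X).2 ⟨hS1 (by simp), by simp [(X.K _).one_mem]⟩
  have hcob : ∀ S : Finset I, S.card = 2 → ∀ g, cob f S g = 0 := by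
    intro S hS g
    obtain ⟨a, b, hab, rfl⟩ := Finset.card_eq_two.1 hS
    have h1 : cob f {a, b} g = f {b} g + f {a} g := by
      unfold cob
      rw [Finset.sum_pair hab]
      congr 2
      · rw [Finset.erase_insert]; simpa using hab
      · ext x
        simp only [Finset.mem_erase, Finset.mem_insert, Finset.mem_singleton]
        constructor
        · rintro ⟨h1, h2 | h2⟩
          · exact h2
          · exact absurd h2 h1
        · rintro rfl
          exact ⟨hab, Or.inl rfl⟩
    rw [h1]
    have h2 : (skeleton (TT X d)).Reachable v0 (vx X a g) ↔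
        (skeleton (TT X d)).Reachable v0 (vx X b g) :=
      ⟨fun h => h.trans (hadj a b hab g), fun h => h.trans (hadj b a hab.symm g)⟩
    simp only [f, Finset.mem_singleton, forall_eq]
    by_cases h3 : (skeleton (TT X d)).Reachable v0 (vx X a g)
    · rw [if_pos h3, if_pos (h2.1 h3)]; rfl
    · rw [if_neg h3, if_neg (fun h => h3 (h2.2 h))]; rfl
  have hc0 : cnt X ∅ (1 + 1) (cob f) = 0 := by
    unfold cnt
    refine Finset.sum_eq_zero fun S hS => ?_
    unfold faces at hS
    rw [Finset.mem_filter] at hS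
    unfold supp
    rw [Finset.card_eq_zero, Finset.filter_eq_empty_iff]
    rintro g _ ⟨_, h2⟩
    exact h2 (hcob S hS.2.1 g)
  rw [hc0] at hle
  have hc1 : cnt X ∅ 1 (f + cob h) = 0 := by
    have h1 : ε * (cnt X ∅ 1 (f + cob h) : ℝ) ≤ 0 := by simpa using hle
    have h2 : (cnt X ∅ 1 (f + cob h) : ℝ) ≤ 0 := by
      by_contra h3
      push Not at h3
      nlinarith
    have h4 : cnt X ∅ 1 (f + cob h) ≤ 0 := by exact_mod_cast h2
    omega
  have hval : ∀ s g, f {s} g = h ∅ 1 := by
    intro s g
    unfold cnt at hc1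
    rw [Finset.sum_eq_zero_iff] at hc1
    have h1 := hc1 {s} (by simp [faces])
    unfold supp at h1
    rw [Finset.card_eq_zero, Finset.filter_eq_empty_iff] at h1
    have h2 := h1 (Finset.mem_univ g)
    push Not at h2
    have h3 := h2 (by rw [X.K_empty]; trivial)
    simp only [Pi.add_apply, cob, Finset.sum_singleton, Finset.erase_singleton] at h3
    have h4 := hh ∅ rfl (Finset.disjoint_empty_left _) 1 (Subgroup.one_mem _) g
        (by rw [Finset.empty_union, X.K_empty]; trivial)
    rw [one_mul] at h4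
    rw [h4] at h3
    have h5 := CharTwo.add_eq_zero.1 h3
    exact h5
  intro v
  obtain ⟨s, g, rfl⟩ := exists_vx X v
  have h0 : f {s0} 1 = 1 := by
    simp only [f, Finset.mem_singleton, forall_eq]
    exact if_pos (SimpleGraph.Reachable.refl _)
  have h1 : f {s} g = 1 := by rw [hval, ← hval s0 1, h0]
  by_contra h2
  simp only [f, Finset.mem_singleton, forall_eq] at h1
  rw [if_neg h2] at h1
  exact absurd h1 (by decide)

theorem nV_ge {B : ℕ} (hB : ∀ s, Nat.card (X.K {s}) ≤ B) (s : I) :
    Fintype.card G ≤ B * nV X := by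
  classical
  have h1 : Nat.card G = Nat.card (G ⧸ X.K {s}) * Nat.card (X.K {s}) :=
    (X.K {s}).card_eq_card_quotient_mul_card_subgroup
  rw [Nat.card_eq_fintype_card] at h1
  rw [h1, mul_comm]
  refine Nat.mul_le_mul (hB s) ?_
  have h2 : Nat.card (G ⧸ X.K {s}) ≤ Nat.card (Vtx X) :=
    Nat.card_le_card_of_injective (fun q => (⟨s, q⟩ : Vtx X)) (fun a b h => by
      exact eq_of_heq (Sigma.mk.inj h).2)
  rw [Nat.card_eq_fintype_card (α := Vtx X)] at h2
  exact h2

end

/-- **Endgame**: a family of finite coset systems with uniformly bounded vertex groups, uniform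
coset-calculus expansion and unbounded order gives the frozen statement. -/
theorem endgame (d : ℕ) (hd1 : 1 ≤ d)
    (h : ∃ (I : Type) (_ : DecidableEq I) (_ : Fintype I) (B : ℕ) (ε : ℝ), 0 < ε ∧
      d + 1 ≤ Fintype.card I ∧
      ∀ N : ℕ, ∃ (G : Type) (_ : Group G) (_ : Fintype G) (X : CosetSystem G I),
        N ≤ Fintype.card G ∧ (∀ s, Nat.card (X.K {s}) ≤ B) ∧ Expands X d ε) :
    ∃ D : ℕ, ∃ ε : ℝ, 0 < ε ∧ ∀ N : ℕ, ∃ n : ℕ, ∃ T : Finset (Finset (Fin n)), N ≤ n ∧
      (∀ τ ∈ T, τ.card = d + 1) ∧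
      (∀ v : Fin n, 1 ≤ Crest.CombinatoricsR.Cochain.vertexDegree T v ∧
        Crest.CombinatoricsR.Cochain.vertexDegree T v ≤ D) ∧
      (Crest.CombinatoricsR.Cochain.skeleton T).Connected ∧
      ∀ i : ℕ, i < d → ∀ f : Finset (Fin n) → ZMod 2,
        ∃ b : Finset (Fin n) → ZMod 2, Crest.CombinatoricsR.Cochain.IsCoboundaryClass i b ∧
          ε * Crest.CombinatoricsR.Cochain.cochainNorm d T i (f - b) ≤
            Crest.CombinatoricsR.Cochain.cochainNorm d T (i + 1)
              (Crest.CombinatoricsR.Cochain.coboundary i f) := by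
  obtain ⟨I, _, _, B, ε, hε, hdI, hfam⟩ := h
  have hI : 0 < Fintype.card I := by omega
  obtain ⟨s0⟩ : Nonempty I := Fintype.card_pos_iff.1 hI
  have hB1 : 1 ≤ B := by
    obtain ⟨G, _, _, X, _, hB, _⟩ := hfam 0
    exact (Nat.card_pos (α := X.K {s0})).trans_le (hB s0)
  have hBr : (1 : ℝ) ≤ B := by exact_mod_cast hB1
  refine ⟨2 ^ Fintype.card I * B, ε / ((2 ^ Fintype.card I * B : ℕ) * B * 2 ^ (d + 1) : ℝ),
    ?_, ?_⟩
  · have : (0 : ℝ) < ((2 ^ Fintype.card I * B : ℕ) : ℝ) := by
      exact_mod_cast Nat.mul_pos (Nat.pos_of_ne_zero (by positivity)) (by omega)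
    positivity
  · intro N
    obtain ⟨G, _, _, X, hN, hB, hX⟩ := hfam (B * N)
    refine ⟨nV X, TT X d, ?_, ?_, ?_, ?_, ?_⟩
    · have := nV_ge X hB s0
      exact Nat.le_of_mul_le_mul_left (hN.trans this) (by omega)
    · intro τ hτ
      obtain ⟨S, hS, g, rfl⟩ := (mem_TT X d).1 hτ
      rw [card_face, hS]
    · intro v
      exact ⟨one_le_vertexDegree X d hdI v, vertexDegree_le X d hB v⟩
    · exact skeleton_connected X d hdI hd1 ε hε hX
    · intro i hi f
      exact main_ineq X d hB hdI ε hε hX hB1 i hi f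

end Crest.Agent.R066.Asm
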