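import Crest.Agent.R066.Basic
import Crest.Agent.R066.AssembleAux
import Crest.Prelude.Def_Cochain

/-! From a typed coset system to a simplicial complex in the sense of S0088 (task T6). -/

set_option autoImplicit false
open scoped BigOperators

namespace Crest.Agent.R066

namespace Assemble

variable {I : Type} [DecidableEq I] {G : Type} [Group G]

/-- The coset system of a family of subgroups. -/
def sys (P : I → Subgroup G) : Asm.CosetSystem G I where
  K := PJ P
  K_empty := by simp [PJ]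
  K_union S T := by
    unfold PJ
    rw [Finset.iInf_union]

theorem PJ_empty (P : I → Subgroup G) : PJ P ∅ = ⊤ := by simp [PJ]

theorem isCoch_iff (P : I → Subgroup G) (m : ℕ) (f : Finset I → G → ZMod 2) :
    IsCoch P ∅ m f ↔ Asm.IsCochain (sys P) ∅ m f := by
  unfold IsCoch Asm.IsCochain
  constructor
  · intro h S hS _ g hg k hk
    refine h S hS (Finset.disjoint_empty_right _) g hg k ?_
    rw [Finset.union_empty]
    rw [Finset.empty_union] at hk
    exact hk
  · intro h S hS _ g hg k hk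
    refine h S hS (Finset.disjoint_empty_left _) g hg k ?_
    rw [Finset.empty_union]
    rw [Finset.union_empty] at hk
    exact hk

theorem cob_eq (f : Finset I → G → ZMod 2) : R066.cob f = Asm.cob f := rfl

theorem wt_eq [Fintype I] [Fintype G] (P : I → Subgroup G) (m : ℕ) (f : Finset I → G → ZMod 2) :
    wt P ∅ m f = Asm.cnt (sys P) ∅ m f := by
  classical
  unfold wt Asm.cnt Asm.faces
  refine Finset.sum_congr (Finset.ext fun J => by simp) fun S _ => ?_
  unfold Asm.supp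
  congr 1

end Assemble

theorem assemble (d n : ℕ) (hd : 1 ≤ d) (hdn : d + 2 ≤ n) (D₀ : ℕ) (C₁ : ℝ) (hC : 0 < C₁) :
    ∃ D : ℕ, ∃ ε : ℝ, 0 < ε ∧
    ∀ (G : Type) [Group G] [Fintype G] (P : Fin n → Subgroup G), (∀ i, Nat.card (P i) ≤ D₀) →
      (∀ m : ℕ, 1 ≤ m → m ≤ d → ∀ f : Finset (Fin n) → G → ZMod 2, IsCoch P ∅ m f →
        ∃ b : Finset (Fin n) → G → ZMod 2, IsCoch P ∅ (m - 1) b ∧
          (wt P ∅ m (f + cob b) : ℝ) ≤ C₁ * (wt P ∅ (m + 1) (cob f) : ℝ)) →
      ∃ N : ℕ, ∃ T : Finset (Finset (Fin N)), Nat.card G ≤ D₀ * N ∧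
      (∀ τ ∈ T, τ.card = d + 1) ∧
      (∀ v : Fin N, 1 ≤ Crest.CombinatoricsR.Cochain.vertexDegree T v ∧ Crest.CombinatoricsR.Cochain.vertexDegree T v ≤ D) ∧
      (Crest.CombinatoricsR.Cochain.skeleton T).Connected ∧
      ∀ i : ℕ, i < d → ∀ f : Finset (Fin N) → ZMod 2,
        ∃ b : Finset (Fin N) → ZMod 2, Crest.CombinatoricsR.Cochain.IsCoboundaryClass i b ∧
          ε * Crest.CombinatoricsR.Cochain.cochainNorm d T i (f - b) ≤ Crest.CombinatoricsR.Cochain.cochainNorm d T (i + 1) (Crest.CombinatoricsR.Cochain.coboundary i f) := by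
  classical
  have hn : 0 < n := by omega
  have hcard : d + 1 ≤ Fintype.card (Fin n) := by rw [Fintype.card_fin]; omega
  refine ⟨2 ^ Fintype.card (Fin n) * (D₀ + 1),
    (1 / C₁) / ((2 ^ Fintype.card (Fin n) * (D₀ + 1) : ℕ) * (D₀ + 1 : ℕ) * 2 ^ (d + 1) : ℝ), ?_, ?_⟩
  · have h1 : (0 : ℝ) < ((2 ^ Fintype.card (Fin n) * (D₀ + 1) : ℕ) : ℝ) := by
      exact_mod_cast Nat.mul_pos (Nat.pos_of_ne_zero (by positivity)) (by omega)
    have h2 : (0 : ℝ) < ((D₀ + 1 : ℕ) : ℝ) := by exact_mod_cast Nat.succ_pos D₀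
    positivity
  · intro G _ _ P hP hE
    have hX : Asm.Expands (Assemble.sys P) d (1 / C₁) := by
      intro m hm1 hmd f hf
      obtain ⟨b, hb1, hb2⟩ := hE m hm1 hmd f ((Assemble.isCoch_iff P m f).2 hf)
      refine ⟨b, (Assemble.isCoch_iff P (m - 1) b).1 hb1, ?_⟩
      rw [Assemble.wt_eq, Assemble.wt_eq] at hb2
      have h3 : (1 / C₁) * (Asm.cnt (Assemble.sys P) ∅ m (f + Asm.cob b) : ℝ) ≤
          (1 / C₁) * (C₁ * (Asm.cnt (Assemble.sys P) ∅ (m + 1) (Asm.cob f) : ℝ)) :=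
        mul_le_mul_of_nonneg_left hb2 (by positivity)
      refine h3.trans (le_of_eq ?_)
      field_simp
    have hK : ∀ s, (Assemble.sys P).K {s} = P s := by
      intro s
      show PJ P {s} = P s
      simp [PJ]
    have hB0 : ∀ s, Nat.card ((Assemble.sys P).K {s}) ≤ D₀ := by
      intro s; rw [hK s]; exact hP s
    have hB : ∀ s, Nat.card ((Assemble.sys P).K {s}) ≤ D₀ + 1 := fun s => (hB0 s).trans (Nat.le_succ _)
    refine ⟨Asm.nV (Assemble.sys P), Asm.TT (Assemble.sys P) d, ?_, ?_, ?_, ?_, ?_⟩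
    · rw [Nat.card_eq_fintype_card]
      exact Asm.nV_ge (Assemble.sys P) hB0 ⟨0, hn⟩
    · intro τ hτ
      obtain ⟨S, hS, g, rfl⟩ := (Asm.mem_TT (Assemble.sys P) d).1 hτ
      rw [Asm.card_face, hS]
    · intro v
      exact ⟨Asm.one_le_vertexDegree _ d hcard v, Asm.vertexDegree_le _ d hB v⟩
    · exact Asm.skeleton_connected _ d hcard hd (1 / C₁) (by positivity) hX
    · intro i hi f
      exact Asm.main_ineq _ d hB hcard (1 / C₁) (by positivity) hX (by omega) i hi f

end Crest.Agent.R066
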