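import Mathlib
import Crest.Agent.R066.Coset

/-!
Row 66 (S0088): bounded degree coboundary expanders.  Shared definitions.

* `Ch V`            augmented F₂-chains on all finite subsets of `V`, `bd` its boundary
* `chains K i`      chains supported on members of `K` of cardinality `i` (dimension `i-1`)
* `ExactAt K i`     every cycle of cardinality `i` bounds
* `cosetCx P`       the coset complex of a family of subgroups `P i ≤ G`, on the vertex type `Σ i, G ⧸ P i`
* typed cochains    `f : Finset I → G → ZMod 2`, `IsCoch`, `cob`, `wt`, `LinkExp`, `Mix`, `Van`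
* local model       `U n p` (lower unitriangular matrices), `Bsub c` (block cut at `c`), `LocallyU`
* global model      `Uplus`, `Hsub`, `Gam` inside `SL n (ZMod p)[X]`
* flags             `Gen`, `GenCx`
* lattices          `Lat.V`, `Lat.M`, `Lat.L0`, `Lat.IsLat`, `Lat.BCx`, `Lat.XCx`
-/

set_option autoImplicit false

open scoped BigOperators
open Module (finrank)

namespace Crest.Agent.R066

/-! ### Chains -/
section Chains

variable {V : Type*}

/-- Augmented F₂-chains on the finite subsets of `V`. -/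
abbrev Ch (V : Type*) := Finset V →₀ ZMod 2

/-- The boundary: `∂ s = ∑_{v ∈ s} s \ {v}`. -/
noncomputable def bd [DecidableEq V] : Ch V →ₗ[ZMod 2] Ch V :=
  Finsupp.lsum (ZMod 2) (fun s => ∑ v ∈ s, Finsupp.lsingle (s.erase v))

/-- Chains supported on the members of `K` of cardinality `i` (so of dimension `i - 1`). -/
def chains (K : Set (Finset V)) (i : ℕ) : Submodule (ZMod 2) (Ch V) :=
  Finsupp.supported (ZMod 2) (ZMod 2) {s | s ∈ K ∧ s.card = i}

/-- Abstract simplicial complexes (the empty set may or may not be a member). -/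
def IsCx (K : Set (Finset V)) : Prop := ∀ s ∈ K, ∀ t, t ⊆ s → t ∈ K

/-- Exactness of the augmented chain complex of `K` in cardinality `i`, i.e. reduced homology
with F₂-coefficients vanishes in dimension `i - 1`. -/
def ExactAt [DecidableEq V] (K : Set (Finset V)) (i : ℕ) : Prop :=
  ∀ z ∈ chains K i, bd z = 0 → ∃ y ∈ chains K (i + 1), bd y = z

end Chains

/-! ### Coset complexes -/
section Coset

variable {I : Type*} {G : Type*} [Group G]

/-- Vertices of the coset complex. `G` acts by left multiplication (instance by `Sigma.instMulAction`-like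
argument is *not* used; the action is `cosetSmul`). -/
abbrev CosetVert (P : I → Subgroup G) := Σ i, G ⧸ P i

/-- The coset complex: finite sets of cosets having a common element. -/
def cosetCx (P : I → Subgroup G) : Set (Finset (CosetVert P)) :=
  {s | ∃ g : G, ∀ v ∈ s, v.2 = (g : G ⧸ P v.1)}

/-- Left multiplication on the vertices of the coset complex. -/
def cosetSmul (P : I → Subgroup G) (g : G) (v : CosetVert P) : CosetVert P := ⟨v.1, g • v.2⟩

end Coset

/-! ### Typed cochains on a finite group with a family of subgroups -/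
section Typed

variable {I : Type*} {G : Type*} [Group G]

/-- The stabiliser of the face of type `J`; `PJ P ∅ = ⊤`. -/
def PJ (P : I → Subgroup G) (J : Finset I) : Subgroup G := ⨅ i ∈ J, P i

/-- `f` is a cochain of cardinality `m` (degree `m - 1`) on the link of the face of type `J₀` at `1`;
`J₀ = ∅` is the global case. A value `f J g`, `J` disjoint from `J₀`, `g ∈ PJ P J₀`, is the value of the
cochain on the face of type `J` of the chamber `g`. -/
def IsCoch [DecidableEq I] (P : I → Subgroup G) (J₀ : Finset I) (m : ℕ) (f : Finset I → G → ZMod 2) : Prop :=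
  ∀ J : Finset I, J.card = m → Disjoint J J₀ → ∀ g ∈ PJ P J₀, ∀ h ∈ PJ P (J ∪ J₀), f J (g * h) = f J g

/- The coboundary `cob` of a typed cochain is defined in `Coset.lean`:
`cob f J g = ∑ i ∈ J, f (J.erase i) g`. -/

open Classical in
/-- Unnormalised weight of the cardinality `m` part of `f` in the link of `J₀`: number of pairs
`(J, g)`, `|J| = m`, `J` disjoint from `J₀`, `g ∈ PJ P J₀`, with `f J g ≠ 0`. -/
noncomputable def wt [Fintype I] [Fintype G] (P : I → Subgroup G) (J₀ : Finset I) (m : ℕ)
    (f : Finset I → G → ZMod 2) : ℕ :=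
  ∑ J ∈ (Finset.univ : Finset (Finset I)).filter (fun J => J.card = m ∧ Disjoint J J₀),
    ((Finset.univ : Finset G).filter (fun g => g ∈ PJ P J₀ ∧ f J g ≠ 0)).card

/-- `β`-coboundary expansion (unnormalised weights) of the link of `J₀` for cochains of
cardinality `m ≥ 1` (degree `m - 1`). -/
def LinkExp [DecidableEq I] [Fintype I] [Fintype G] (P : I → Subgroup G) (J₀ : Finset I) (m : ℕ)
    (β : ℝ) : Prop :=
  ∀ f : Finset I → G → ZMod 2, IsCoch P J₀ m f →
    ∃ b : Finset I → G → ZMod 2, IsCoch P J₀ (m - 1) b ∧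
      β * (wt P J₀ m (f + cob b) : ℝ) ≤ (wt P J₀ (m + 1) (cob f) : ℝ)

open Classical in
/-- Mixing in the link of `J₀` between the types `a` and `b`. -/
def Mix [DecidableEq I] [Fintype G] (P : I → Subgroup G) (J₀ : Finset I) (a b : I) (lam : ℝ) : Prop :=
  ∀ φ ψ : G → ℝ,
    (∀ g ∈ PJ P J₀, ∀ h ∈ PJ P (insert a J₀), φ (g * h) = φ g) →
    (∀ g ∈ PJ P J₀, ∀ h ∈ PJ P (insert b J₀), ψ (g * h) = ψ g) →
    (∑ g ∈ Finset.univ.filter (fun g : G => g ∈ PJ P J₀), φ g = 0) →
    (∑ g ∈ Finset.univ.filter (fun g : G => g ∈ PJ P J₀), φ g * ψ g) ^ 2 ≤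
      lam ^ 2 * (∑ g ∈ Finset.univ.filter (fun g : G => g ∈ PJ P J₀), φ g ^ 2) *
        (∑ g ∈ Finset.univ.filter (fun g : G => g ∈ PJ P J₀), ψ g ^ 2)

/-- Vanishing of the (reduced) F₂-cohomology in cardinality `m ≥ 1` (degree `m - 1`). -/
def Van [DecidableEq I] (P : I → Subgroup G) (m : ℕ) : Prop :=
  ∀ f : Finset I → G → ZMod 2, IsCoch P ∅ m f →
    (∀ J : Finset I, J.card = m + 1 → ∀ g, cob f J g = 0) →
    ∃ b : Finset I → G → ZMod 2, IsCoch P ∅ (m - 1) b ∧
      ∀ J : Finset I, J.card = m → ∀ g, f J g = cob b J g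

end Typed

/-! ### Local model: lower unitriangular matrices over `ZMod p` and block cuts -/
section LocalModel

open Matrix

theorem blockTriangular_inv_SL {n : ℕ} {R : Type*} [CommRing R] {α : Type*} [LinearOrder α]
    (b : Fin n → α) (g : Matrix.SpecialLinearGroup (Fin n) R) (h : BlockTriangular g.1 b) :
    BlockTriangular (g⁻¹).1 b := by
  have : Invertible g.1 := ⟨(g⁻¹).1, by rw [← Matrix.SpecialLinearGroup.coe_mul]; simp,
    by rw [← Matrix.SpecialLinearGroup.coe_mul]; simp⟩
  have h1 := blockTriangular_inv_of_blockTriangular h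
  have e : g.1⁻¹ = (g⁻¹).1 := by
    apply Matrix.inv_eq_left_inv
    rw [← Matrix.SpecialLinearGroup.coe_mul]; simp
  rwa [e] at h1

/-- Lower unitriangular matrices of determinant one over any commutative ring. -/
def lowerU (n : ℕ) (R : Type*) [CommRing R] : Subgroup (Matrix.SpecialLinearGroup (Fin n) R) where
  carrier := {g | (∀ i, g.1 i i = 1) ∧ ∀ i j, i < j → g.1 i j = 0}
  one_mem' := by
    refine ⟨fun i => by simp, fun i j h => ?_⟩
    simp [h.ne]
  mul_mem' := by
    rintro a b ⟨ha1, ha2⟩ ⟨hb1, hb2⟩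
    refine ⟨fun i => ?_, fun i j h => ?_⟩
    · show (a.1 * b.1) i i = 1
      rw [Matrix.mul_apply, Finset.sum_eq_single i]
      · rw [ha1, hb1, one_mul]
      · intro k _ hk
        rcases lt_or_gt_of_ne hk with h | h
        · rw [hb2 k i h, mul_zero]
        · rw [ha2 i k h, zero_mul]
      · simp
    · show (a.1 * b.1) i j = 0
      rw [Matrix.mul_apply]
      apply Finset.sum_eq_zero
      intro k _
      rcases lt_or_ge i k with h' | h'
      · rw [ha2 i k h', zero_mul]
      · rw [hb2 k j (lt_of_le_of_lt h' h), mul_zero]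
  inv_mem' := by
    rintro g ⟨h1, h2⟩
    have hb : BlockTriangular g.1 (OrderDual.toDual : Fin n → (Fin n)ᵒᵈ) := by
      intro i j h
      exact h2 i j (OrderDual.toDual_lt_toDual.mp h)
    have hb' := blockTriangular_inv_SL _ g hb
    have h3 : ∀ i j, i < j → (g⁻¹).1 i j = 0 := fun i j h => hb' (OrderDual.toDual_lt_toDual.mpr h)
    refine ⟨fun i => ?_, h3⟩
    have h4 : (g.1 * (g⁻¹).1) i i = 1 := by
      rw [← Matrix.SpecialLinearGroup.coe_mul]; simp
    rw [Matrix.mul_apply, Finset.sum_eq_single i] at h4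
    · rwa [h1, one_mul] at h4
    · intro k _ hk
      rcases lt_or_gt_of_ne hk with h | h
      · rw [h3 k i h, mul_zero]
      · rw [h2 i k h, zero_mul]
    · simp

/-- The finite unitriangular group of the local model. -/
abbrev U (n p : ℕ) : Type := ↥(lowerU n (ZMod p))

/-- The block-diagonal subgroup with a cut in front of position `c` (everything for `c = 0`). -/
def Bsub (n p : ℕ) (c : Fin n) : Subgroup (U n p) where
  carrier := {g | ∀ a b : Fin n, b < c → c ≤ a → g.1.1 a b = 0}
  one_mem' := by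
    intro a b hb ha
    have : a ≠ b := fun h => absurd (h ▸ ha) (not_le.mpr hb)
    show (1 : Matrix (Fin n) (Fin n) (ZMod p)) a b = 0
    simp [this]
  mul_mem' := by
    intro x y hx hy a b hb ha
    show (x.1.1 * y.1.1) a b = 0
    rw [Matrix.mul_apply]
    apply Finset.sum_eq_zero
    intro k _
    rcases lt_or_ge k c with h | h
    · rw [hx a k h ha, zero_mul]
    · rw [hy k b hb h, mul_zero]
  inv_mem' := by
    intro g hg a b hb ha
    have hbt : BlockTriangular g.1.1 (fun i : Fin n => if i < c then (0 : ℕ) else 1) := by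
      intro i j h
      by_cases hj : j < c <;> by_cases hi : i < c <;> simp [hi, hj] at h
      exact hg i j hj (not_lt.mp hi)
    have h2 := blockTriangular_inv_SL _ g.1 hbt
    have : (g.1⁻¹).1 a b = 0 := h2 (by simp [hb, not_lt.mpr ha])
    exact this

/-- The system `(G, P)` with cyclically ordered types `Fin n` is locally the unitriangular one. -/
def LocallyU {n : ℕ} [NeZero n] (p : ℕ) {G : Type*} [Group G] (P : Fin n → Subgroup G) : Prop :=
  ∀ j : Fin n, ∃ φ : U n p →* G, Function.Injective φ ∧ φ.range = P j ∧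
    ∀ c : Fin n, (Bsub n p c).map φ = P j ⊓ P (j + c)

end LocalModel

/-! ### Global model: subgroups of `SL n (ZMod p)[X]` -/
section GlobalModel

open Polynomial

/-- `SL_n(F_p[X])`. -/
abbrev SLX (n p : ℕ) : Type := Matrix.SpecialLinearGroup (Fin n) (ZMod p)[X]

/-- Matrices that are lower unitriangular modulo `X`. -/
noncomputable def Uplus (n p : ℕ) : Subgroup (SLX n p) :=
  (lowerU n (ZMod p)).comap (Matrix.SpecialLinearGroup.map (Polynomial.constantCoeff))

/-- The principal congruence subgroup of level `X ^ k`. -/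
noncomputable def Gam (n p k : ℕ) : Subgroup (SLX n p) :=
  (Matrix.SpecialLinearGroup.map (Ideal.Quotient.mk (Ideal.span {(X : (ZMod p)[X]) ^ k}))).ker

instance Gam_normal (n p k : ℕ) : (Gam n p k).Normal := by
  unfold Gam; infer_instance

instance Gam_subgroupOf_normal (n p k : ℕ) : ((Gam n p k).subgroupOf (Uplus n p)).Normal := by
  infer_instance

/-- The matrix `φ_j(u)`: entry `(a, a')` is `u (a-j) (a'-j) * X ^ (e a - e a')` with
`e a = 1` if `a < j` and `0` otherwise. -/
noncomputable def phiMat {n : ℕ} [NeZero n] {p : ℕ} (j : Fin n) (u : Matrix (Fin n) (Fin n) (ZMod p)) :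
    Matrix (Fin n) (Fin n) (ZMod p)[X] :=
  fun a a' => C (u (a - j) (a' - j)) * X ^ ((if a < j then 1 else 0) - (if a' < j then 1 else 0) : ℕ)

/-- The finite subgroups `H_j` of `Uplus`. -/
def Hset (n p : ℕ) [NeZero n] (j : Fin n) : Set (SLX n p) :=
  {g | ∃ u : U n p, g.1 = phiMat j u.1.1}

/-- `H_j` as a subgroup of `SLX` (see `Model.lean`: it equals `Hset`). -/
noncomputable def Hsub (n p : ℕ) [NeZero n] (j : Fin n) : Subgroup (SLX n p) :=
  Subgroup.closure (Hset n p j)

/-- `H_j` as a subgroup of `Uplus`. -/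
noncomputable def HsubU (n p : ℕ) [NeZero n] (j : Fin n) : Subgroup ↥(Uplus n p) :=
  (Hsub n p j).subgroupOf (Uplus n p)

/-- The finite group `G_k`, the image of `Uplus` in `SL_n(F_p[X]/X^k)`, realised as a quotient. -/
abbrev Gk (n p k : ℕ) : Type := ↥(Uplus n p) ⧸ ((Gam n p k).subgroupOf (Uplus n p))

/-- The image of `H_j` in `G_k`. -/
noncomputable def Pk (n p k : ℕ) [NeZero n] (j : Fin n) : Subgroup (Gk n p k) :=
  (HsubU n p j).map (QuotientGroup.mk' ((Gam n p k).subgroupOf (Uplus n p)))

end GlobalModel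

/-! ### Subspaces generic with respect to a filtration, and walls -/
section Flags

variable {F : Type*} {Q : Type*} [Field F] [AddCommGroup Q] [Module F Q]

/-- `W` lies between `A` and `B` and is in general position with respect to the filtration `Fl`
(finite-dimensional ambient space). -/
def Gen (Fl : ℕ → Submodule F Q) (A B W : Submodule F Q) : Prop :=
  A ≤ W ∧ W ≤ B ∧ ∀ u : ℕ, finrank F ↥(Fl u ⊓ W) =
    max (finrank F ↥(Fl u ⊓ A)) (finrank F ↥(Fl u ⊓ B) - (finrank F B - finrank F W))

/-- Chains of subspaces not in the chain of walls `Wl`, each one strictly inside a gap of `Wl` and generic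
with respect to that gap. -/
def GenCx (Fl : ℕ → Submodule F Q) (Wl : Finset (Submodule F Q)) : Set (Finset (Submodule F Q)) :=
  {s | (∀ W ∈ s, ∃ A ∈ Wl, ∃ B ∈ Wl, A < W ∧ W < B ∧ (∀ X ∈ Wl, X ≤ A ∨ B ≤ X) ∧ Gen Fl A B W) ∧
    ∀ W ∈ s, ∀ W' ∈ s, W ≤ W' ∨ W' ≤ W}

end Flags

/-! ### Lattices in `F[t, t⁻¹]^n`, with basis indexed by `ℤ` (`t` = shift by `n`) -/
namespace Lat

variable (F : Type) [Field F]

/-- Finitely supported functions on `ℤ`. -/
abbrev V : Type := ℤ →₀ F

/-- The shift by `k`. -/
noncomputable def shift (k : ℤ) : V F ≃ₗ[F] V F := Finsupp.domLCongr (Equiv.addRight k)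

/-- Vectors supported in `[i, ∞)`. -/
noncomputable def M (i : ℤ) : Submodule F (V F) := Finsupp.supported F F (Set.Ici i)

/-- Vectors supported in `(-∞, i)`. -/
noncomputable def L0 (i : ℤ) : Submodule F (V F) := Finsupp.supported F F (Set.Iio i)

variable {F}

/-- The translate `t^m L`. -/
noncomputable def tr (n : ℕ) (m : ℤ) (L : Submodule F (V F)) : Submodule F (V F) :=
  L.map (shift F (m * n)).toLinearMap

/-- Lattices at infinity. -/
def IsLat (n : ℕ) (L : Submodule F (V F)) : Prop :=
  tr n (-1) L ≤ L ∧ ∃ N : ℕ, L0 F (-(N : ℤ)) ≤ L ∧ L ≤ L0 F N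

/-- `D L i = dim (L ∩ M_i)`. -/
noncomputable def D (L : Submodule F (V F)) (i : ℤ) : ℕ := finrank F ↥(L ⊓ M F i)

/-- The charge (index) of a lattice: `dim (L ∩ M_i) = c - i` for all sufficiently negative `i`. -/
def HasCharge (L : Submodule F (V F)) (c : ℤ) : Prop := ∃ N : ℤ, ∀ i : ℤ, i ≤ N → (D L i : ℤ) = c - i

/-- Adjacency (or equality) of lattice classes with representatives of charges in `[0, n)`. -/
def Adj (n : ℕ) (L L' : Submodule F (V F)) : Prop :=
  (L ≤ L' ∧ L' ≤ tr n 1 L) ∨ (L' ≤ L ∧ L ≤ tr n 1 L')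

/-- The affine building of `SL_n(F((1/t)))`: vertices are the lattices with charge in `[0, n)`. -/
def BCx (F : Type) [Field F] (n : ℕ) : Set (Finset (Submodule F (V F))) :=
  {s | (∀ L ∈ s, IsLat n L ∧ ∃ c : ℤ, 0 ≤ c ∧ c < n ∧ HasCharge L c) ∧ ∀ L ∈ s, ∀ L' ∈ s, Adj n L L'}

/-- The opposite complex: those simplices all of whose vertices are complementary to some `M_c`. -/
def XCx (F : Type) [Field F] (n : ℕ) : Set (Finset (Submodule F (V F))) :=
  {s | s ∈ BCx F n ∧ ∀ L ∈ s, ∃ c : ℤ, 0 ≤ c ∧ c < n ∧ IsCompl L (M F c)}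

end Lat

end Crest.Agent.R066
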