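import Mathlib

/-!
# Row 66, part (E), item (j): bounded cone recursion for ordered clique complexes

`V` is a type with a relation `r`; ordered `b`-simplices are tuples `y : Fin b → V` that are
pairwise related.  If every finite set of fewer than `coneBound B` vertices has a common neighbour
then the (augmented) cochain complex with `ZMod 2` coefficients is exact in degrees `< B`.
-/

set_option autoImplicit false

namespace Crest.Agent.R066

namespace CliqueCone

variable {V : Type*}

/-- Ordered chains. -/
abbrev OCh (V : Type*) (b : ℕ) := (Fin b → V) →₀ ZMod 2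

/-- The ordered boundary. -/
noncomputable def obd (V : Type*) (b : ℕ) : OCh V (b + 1) →ₗ[ZMod 2] OCh V b :=
  Finsupp.lsum (ZMod 2) (fun y => ∑ i : Fin (b + 1), Finsupp.lsingle (fun k => y (i.succAbove k)))

theorem obd_single (b : ℕ) (y : Fin (b + 1) → V) (c : ZMod 2) :
    obd V b (Finsupp.single y c) =
      ∑ i : Fin (b + 1), Finsupp.single (fun k => y (i.succAbove k)) c := by
  simp [obd, Finsupp.lsum_single]

theorem obd_obd (b : ℕ) (c : OCh V (b + 2)) : obd V b (obd V (b + 1) c) = 0 := by
  have h : (obd V b) ∘ₗ (obd V (b + 1)) = 0 := by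
    apply Finsupp.lhom_ext
    intro y a
    rw [LinearMap.comp_apply, obd_single, map_sum]
    simp_rw [obd_single]
    rw [← Finset.sum_product', LinearMap.zero_apply]
    refine Finset.sum_involution (fun p _ => (p.1.succAbove p.2, p.2.predAbove p.1)) ?_ ?_ ?_ ?_
    · rintro ⟨i, j⟩ _
      have : (fun k => y ((i.succAbove j).succAbove ((j.predAbove i).succAbove k)))
          = fun k => y (i.succAbove (j.succAbove k)) := by
        funext k
        rw [Fin.succAbove_succAbove_succAbove_predAbove]
      simp only
      rw [this, ← Finsupp.single_add, CharTwo.add_self_eq_zero, Finsupp.single_zero]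
    · rintro ⟨i, j⟩ _ _ h
      have := congrArg Prod.fst h
      exact Fin.succAbove_ne i j this
    · intro _ _; exact Finset.mem_univ _
    · rintro ⟨i, j⟩ _
      simp only
      apply Prod.ext
      · exact Fin.succAbove_succAbove_predAbove i j
      · simp only
        exact Fin.predAbove_predAbove_succAbove i j
  exact LinearMap.congr_fun h c

/-- The cone with apex `w`. -/
noncomputable def ocone (w : V) (b : ℕ) : OCh V b →ₗ[ZMod 2] OCh V (b + 1) :=
  Finsupp.lmapDomain (ZMod 2) (ZMod 2) (fun y : Fin b → V => (Fin.cons w y : Fin (b + 1) → V))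

theorem ocone_single (w : V) (b : ℕ) (y : Fin b → V) (c : ZMod 2) :
    ocone w b (Finsupp.single y c) = Finsupp.single (Fin.cons w y : Fin (b + 1) → V) c := by
  simp [ocone]

theorem obd_ocone_zero (w : V) (c : OCh V 0) : obd V 0 (ocone w 0 c) = c := by
  have h : (obd V 0) ∘ₗ (ocone w 0) = LinearMap.id := by
    apply Finsupp.lhom_ext
    intro y a
    rw [LinearMap.comp_apply, ocone_single, obd_single, LinearMap.id_apply]
    rw [Fin.sum_univ_one]
    congr 1
  exact LinearMap.congr_fun h c

theorem obd_ocone_succ (w : V) (b : ℕ) (c : OCh V (b + 1)) :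
    obd V (b + 1) (ocone w (b + 1) c) = c + ocone w b (obd V b c) := by
  have h : (obd V (b + 1)) ∘ₗ (ocone w (b + 1)) = LinearMap.id + (ocone w b) ∘ₗ (obd V b) := by
    apply Finsupp.lhom_ext
    intro y a
    rw [LinearMap.comp_apply, LinearMap.add_apply, LinearMap.comp_apply, ocone_single, obd_single,
      obd_single, LinearMap.id_apply, Fin.sum_univ_succ, map_sum]
    congr 1
    refine Finset.sum_congr rfl fun i _ => ?_
    rw [ocone_single]
    congr 1
    funext k
    refine Fin.cases ?_ (fun k => ?_) k
    · simp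
    · simp
  exact LinearMap.congr_fun h c

/-- Pairwise related tuples. -/
def Clq (r : V → V → Prop) {b : ℕ} (y : Fin b → V) : Prop := ∀ i j, i ≠ j → r (y i) (y j)

theorem Clq.comp {r : V → V → Prop} {b : ℕ} {y : Fin (b + 1) → V} (h : Clq r y)
    (i : Fin (b + 1)) : Clq r (fun k => y (i.succAbove k)) := by
  intro j k hjk
  exact h _ _ fun e => hjk (Fin.succAbove_right_injective e)

/-- Chains of cliques with vertices in `T`. -/
def cl (r : V → V → Prop) (b : ℕ) (T : Set V) : Submodule (ZMod 2) (OCh V b) :=
  Finsupp.supported (ZMod 2) (ZMod 2) {y | Clq r y ∧ ∀ i, y i ∈ T}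

theorem cl_mono {r : V → V → Prop} {b : ℕ} {T T' : Set V} (h : T ⊆ T') : cl r b T ≤ cl r b T' :=
  Finsupp.supported_mono fun _ hy => ⟨hy.1, fun i => h (hy.2 i)⟩

theorem single_mem_cl {r : V → V → Prop} {b : ℕ} {T : Set V} {y : Fin b → V} (h : Clq r y)
    (hT : ∀ i, y i ∈ T) (c : ZMod 2) : Finsupp.single y c ∈ cl r b T :=
  Finsupp.single_mem_supported _ _ ⟨h, hT⟩

theorem ocone_mem_cl {r : V → V → Prop} (hr : ∀ x y, r x y → r y x) {b : ℕ} {T : Set V} {w : V}
    (hw : ∀ t ∈ T, r w t) {c : OCh V b} (hc : c ∈ cl r b T) :
    ocone w b c ∈ cl r (b + 1) (insert w T) := by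
  classical
  rw [cl, Finsupp.mem_supported] at hc ⊢
  intro y hy
  have h1 : y ∈ (ocone w b c).support := hy
  obtain ⟨x, hx, rfl⟩ : ∃ x ∈ c.support, (Fin.cons w x : Fin (b + 1) → V) = y := by
    have h2 := Finsupp.mapDomain_support (f := fun y : Fin b → V => (Fin.cons w y : Fin (b + 1) → V))
      (s := c) h1
    simpa using h2
  obtain ⟨h3, h4⟩ := hc hx
  constructor
  · intro i j
    refine Fin.cases ?_ (fun i => ?_) i <;> refine Fin.cases ?_ (fun j => ?_) j
    · intro h; exact absurd rfl h
    · intro _
      simpa using hw _ (h4 j)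
    · intro _
      simpa using hr _ _ (hw _ (h4 i))
    · intro h
      simpa using h3 i j (fun e => h (by rw [e]))
  · intro i
    refine Fin.cases ?_ (fun i => ?_) i
    · simp
    · simpa using Or.inr (h4 i)

/-- The bound of the cone recursion. -/
def coneBound : ℕ → ℕ
  | 0 => 1
  | b + 1 => (b + 1) * (coneBound b + 1) + 1

theorem coneBound_pos (b : ℕ) : 0 < coneBound b := by
  cases b <;> simp [coneBound]

theorem coneBound_le_succ (b : ℕ) : coneBound b ≤ coneBound (b + 1) := by
  rw [coneBound]
  nlinarith [Nat.zero_le (b * (coneBound b + 1))]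

theorem coneBound_mono {a b : ℕ} (h : a ≤ b) : coneBound a ≤ coneBound b :=
  monotone_nat_of_le_succ coneBound_le_succ h

theorem exists_coneOp {r : V → V → Prop} (hr : ∀ x y, r x y → r y x) (B : ℕ)
    (hK : ∀ T : Finset V, T.card < coneBound B → ∃ w, ∀ t ∈ T, r w t) :
    ∀ b, b ≤ B → ∃ K : ∀ b', b' ≤ b → (Fin b' → V) → OCh V (b' + 1),
      (∀ b' (hb' : b' ≤ b) (y : Fin b' → V), Clq r y →
        ∃ T : Finset V, T.card ≤ coneBound b' ∧ K b' hb' y ∈ cl r (b' + 1) T) ∧
      (∀ (h0 : 0 ≤ b) (y : Fin 0 → V), obd V 0 (K 0 h0 y) = Finsupp.single y 1) ∧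
      (∀ b' (hb' : b' + 1 ≤ b) (y : Fin (b' + 1) → V), Clq r y →
        obd V (b' + 1) (K (b' + 1) hb' y) = Finsupp.single y 1 +
          ∑ i : Fin (b' + 1), K b' (Nat.le_of_succ_le hb') (fun k => y (i.succAbove k))) := by
  classical
  intro b
  induction b with
  | zero =>
    intro _
    obtain ⟨w, -⟩ := hK ∅ (by simpa using coneBound_pos B)
    refine ⟨fun b' _ y => ocone w b' (Finsupp.single y 1), ?_, ?_, ?_⟩
    · intro b' hb' y hy
      obtain rfl : b' = 0 := by omega
      refine ⟨{w}, by simp [coneBound], ?_⟩
      have := ocone_mem_cl (r := r) hr (T := ∅) (w := w) (by simp)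
        (single_mem_cl hy (fun i => i.elim0) (1 : ZMod 2))
      simpa using this
    · intro _ y
      exact obd_ocone_zero w _
    · intro b' hb'
      omega
  | succ b ih =>
    intro hB
    obtain ⟨K, hK1, hK2, hK3⟩ := ih (by omega)
    -- the new operator
    have hnew : ∀ y : Fin (b + 1) → V, ∃ k : OCh V (b + 2), Clq r y →
        (∃ T : Finset V, T.card ≤ coneBound (b + 1) ∧ k ∈ cl r (b + 2) T) ∧
        obd V (b + 1) k = Finsupp.single y 1 +
          ∑ i : Fin (b + 1), K b le_rfl (fun k => y (i.succAbove k)) := by
      intro y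
      by_cases hy : Clq r y
      swap
      · exact ⟨0, fun h => absurd h hy⟩
      have hT : ∀ i : Fin (b + 1), ∃ T : Finset V, T.card ≤ coneBound b ∧
          K b le_rfl (fun k => y (i.succAbove k)) ∈ cl r (b + 1) T :=
        fun i => hK1 b le_rfl _ (hy.comp i)
      choose T hT1 hT2 using hT
      let T0 : Finset V := Finset.univ.image y ∪ Finset.univ.biUnion T
      have hT0 : T0.card ≤ (b + 1) * (coneBound b + 1) := by
        calc T0.card ≤ (Finset.univ.image y).card + (Finset.univ.biUnion T).card :=
              Finset.card_union_le _ _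
          _ ≤ (b + 1) + (b + 1) * coneBound b := by
              refine Nat.add_le_add ?_ ?_
              · exact Finset.card_image_le.trans (by simp)
              · refine Finset.card_biUnion_le.trans ?_
                calc ∑ i, (T i).card ≤ ∑ _i : Fin (b + 1), coneBound b :=
                      Finset.sum_le_sum fun i _ => hT1 i
                  _ = (b + 1) * coneBound b := by simp
          _ = _ := by ring
      obtain ⟨w, hw⟩ := hK T0 (lt_of_lt_of_le (by
        have : coneBound (b + 1) = (b + 1) * (coneBound b + 1) + 1 := rfl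
        omega) (coneBound_mono hB))
      let z : OCh V (b + 1) := Finsupp.single y 1 +
        ∑ i : Fin (b + 1), K b le_rfl (fun k => y (i.succAbove k))
      have hz : z ∈ cl r (b + 1) T0 := by
        refine add_mem (single_mem_cl hy (fun i => ?_) _) (sum_mem fun i _ => ?_)
        · simp [T0]
        · refine cl_mono ?_ (hT2 i)
          intro t ht
          simp only [T0, Finset.coe_union, Finset.coe_biUnion]
          refine Or.inr ?_
          simp only [Finset.coe_univ, Set.mem_univ, Set.iUnion_true, Set.mem_iUnion]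
          exact ⟨i, ht⟩
      have hbz : obd V b z = 0 := by
        rw [map_add, map_sum, obd_single]
        cases b with
        | zero =>
          rw [Fin.sum_univ_one, Fin.sum_univ_one, hK2 le_rfl, ← Finsupp.single_add,
            CharTwo.add_self_eq_zero, Finsupp.single_zero]
        | succ b =>
          have h1 : ∀ i : Fin (b + 2), obd V (b + 1) (K (b + 1) le_rfl
              (fun k => y (i.succAbove k))) = Finsupp.single (fun k => y (i.succAbove k)) 1 +
              ∑ j : Fin (b + 1), K b (Nat.le_of_succ_le le_rfl)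
                (fun k => y (i.succAbove (j.succAbove k))) := by
            intro i
            rw [hK3 b le_rfl _ (hy.comp i)]
          simp_rw [h1]
          rw [Finset.sum_add_distrib, ← add_assoc]
          have h2 : ∀ x : OCh V (b + 1), x + x = 0 := by
            intro x
            ext t
            simp only [Finsupp.add_apply, Finsupp.zero_apply]
            exact CharTwo.add_self_eq_zero _
          rw [h2, zero_add, ← Finset.sum_product']
          refine Finset.sum_involution (fun p _ => (p.1.succAbove p.2, p.2.predAbove p.1))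
            ?_ ?_ ?_ ?_
          · rintro ⟨i, j⟩ _
            have : (fun k => y ((i.succAbove j).succAbove ((j.predAbove i).succAbove k)))
                = fun k => y (i.succAbove (j.succAbove k)) := by
              funext k
              rw [Fin.succAbove_succAbove_succAbove_predAbove]
            simp only
            rw [this, h2]
          · rintro ⟨i, j⟩ _ _ h
            have := congrArg Prod.fst h
            exact Fin.succAbove_ne i j this
          · intro _ _; exact Finset.mem_univ _
          · rintro ⟨i, j⟩ _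
            simp only
            apply Prod.ext
            · exact Fin.succAbove_succAbove_predAbove i j
            · simp only
              exact Fin.predAbove_predAbove_succAbove i j
      refine ⟨ocone w (b + 1) z, fun _ => ⟨⟨insert w T0, ?_, ?_⟩, ?_⟩⟩
      · refine (Finset.card_insert_le _ _).trans ?_
        have : coneBound (b + 1) = (b + 1) * (coneBound b + 1) + 1 := rfl
        omega
      · have := ocone_mem_cl hr (T := (T0 : Set V)) (w := w) (fun t ht => hw t ht) hz
        simpa using this
      · rw [obd_ocone_succ, hbz, map_zero, add_zero]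
    choose k hk using hnew
    refine ⟨fun b' hb' y => if h : b' ≤ b then K b' h y else
      (if h' : b' = b + 1 then h' ▸ k (h' ▸ y) else 0), ?_, ?_, ?_⟩
    · intro b' hb' y hy
      by_cases h : b' ≤ b
      · simp only [h, dite_true]
        exact hK1 b' h y hy
      · obtain rfl : b' = b + 1 := by omega
        simp only [h, dite_false, dite_true]
        exact (hk y hy).1
    · intro h0 y
      simp only [Nat.zero_le, dite_true]
      exact hK2 _ y
    · intro b' hb' y hy
      by_cases h : b' + 1 ≤ b
      · simp only [h, Nat.le_of_succ_le h, dite_true]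
        exact hK3 b' h y hy
      · obtain rfl : b' = b := by omega
        simp only [h, dite_false, dite_true, le_refl]
        exact (hk y hy).2

/-- Evaluate a function on a chain. -/
noncomputable def ev {b : ℕ} (f : (Fin b → V) → ZMod 2) : OCh V b →ₗ[ZMod 2] ZMod 2 :=
  Finsupp.lsum (ZMod 2) (fun y => LinearMap.toSpanSingleton (ZMod 2) (ZMod 2) (f y))

theorem ev_single {b : ℕ} (f : (Fin b → V) → ZMod 2) (y : Fin b → V) :
    ev f (Finsupp.single y 1) = f y := by
  simp [ev]

/-- The coboundary of ordered cochains. -/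
def ocob {b : ℕ} (f : (Fin b → V) → ZMod 2) : (Fin (b + 1) → V) → ZMod 2 :=
  fun y => ∑ i : Fin (b + 1), f (fun k => y (i.succAbove k))

theorem ev_obd {b : ℕ} (f : (Fin b → V) → ZMod 2) (c : OCh V (b + 1)) :
    ev f (obd V b c) = ev (ocob f) c := by
  have h : (ev f) ∘ₗ (obd V b) = ev (ocob f) := by
    apply Finsupp.lhom_ext'
    intro y
    ext
    simp only [LinearMap.comp_apply, Finsupp.lsingle_apply]
    rw [obd_single, map_sum, ev_single]
    simp_rw [ev_single]
    rfl
  exact LinearMap.congr_fun h c

theorem ev_eq_zero {r : V → V → Prop} {b : ℕ} {T : Set V} (f : (Fin b → V) → ZMod 2)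
    (hf : ∀ y, Clq r y → f y = 0) {c : OCh V b} (hc : c ∈ cl r b T) : ev f c = 0 := by
  rw [ev, Finsupp.lsum_apply, Finsupp.sum]
  refine Finset.sum_eq_zero fun y hy => ?_
  have := hc hy
  simp [hf y this.1]

/-- Exactness in positive degrees. -/
theorem exact_of_common {r : V → V → Prop} (hr : ∀ x y, r x y → r y x) (b : ℕ)
    (hK : ∀ T : Finset V, T.card < coneBound (b + 1) → ∃ w, ∀ t ∈ T, r w t)
    (f : (Fin (b + 1) → V) → ZMod 2) (hf : ∀ y : Fin (b + 2) → V, Clq r y → ocob f y = 0) :
    ∃ h : (Fin b → V) → ZMod 2, ∀ y : Fin (b + 1) → V, Clq r y → f y = ocob h y := by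
  obtain ⟨K, hK1, -, hK3⟩ := exists_coneOp hr (b + 1) hK (b + 1) le_rfl
  refine ⟨fun x => ev f (K b (Nat.le_succ b) x), fun y hy => ?_⟩
  have h1 := congrArg (ev f) (hK3 b le_rfl y hy)
  rw [ev_obd, map_add, map_sum, ev_single] at h1
  obtain ⟨T, -, hT⟩ := hK1 (b + 1) le_rfl y hy
  rw [ev_eq_zero (r := r) (ocob f) hf hT] at h1
  have h2 := CharTwo.add_eq_zero.1 h1.symm
  rw [h2]
  rfl

/-- Exactness in degree zero. -/
theorem exact_zero_of_common {r : V → V → Prop}
    (hK : Nonempty V)
    (f : (Fin 0 → V) → ZMod 2) (hf : ∀ y : Fin 1 → V, Clq r y → ocob f y = 0) (x : Fin 0 → V) :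
    f x = 0 := by
  obtain ⟨w⟩ := hK
  have h := hf (fun _ => w) (fun i j hij => absurd (Subsingleton.elim i j) hij)
  rw [ocob, Fin.sum_univ_one] at h
  rw [← h]
  congr 1
  funext k
  exact k.elim0

end CliqueCone

end Crest.Agent.R066
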