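import Crest.Agent.R066.ECore
import Crest.Agent.R066.CliqueCone

/-!
# Row 66, part (E): ordered clique complexes as `Cx`, exactness of all functions and of the
functions invariant under a group (quotient lemma).
-/

set_option autoImplicit false

open Finset

namespace Crest.Agent.R066.E

open CliqueCone

variable {V : Type*}

/-- Ordered cliques. -/
def Clq (r : V → V → Prop) : ℕ → Type _ := fun b => {y : Fin b → V // CliqueCone.Clq r y}

namespace Clq

variable {r : V → V → Prop}

@[ext] theorem ext {b : ℕ} {x y : Clq r b} (h : ∀ i, x.1 i = y.1 i) : x = y :=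
  Subtype.ext (funext h)

/-- Forget a vertex. -/
def face {b : ℕ} (y : Clq r (b + 1)) (i : Fin (b + 1)) : Clq r b :=
  ⟨fun k => y.1 (i.succAbove k), CliqueCone.Clq.comp y.2 i⟩

/-- Add a vertex. -/
def cons (hr : ∀ x y, r x y → r y x) {b : ℕ} (c : V) (y : Clq r b) (h : ∀ i, r c (y.1 i)) :
    Clq r (b + 1) :=
  ⟨(Fin.cons c y.1 : Fin (b + 1) → V), by
    intro i j
    refine Fin.cases ?_ (fun i => ?_) i <;> refine Fin.cases ?_ (fun j => ?_) j
    · intro h; exact absurd rfl h
    · intro _
      simpa using h j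
    · intro _
      simpa using hr _ _ (h i)
    · intro h'
      simpa using y.2 i j (fun e => h' (by rw [e]))⟩

/-- Forget the first vertex. -/
def tail {b : ℕ} (y : Clq r (b + 1)) : Clq r b :=
  ⟨fun k => y.1 k.succ, fun _ _ h => y.2 _ _ fun e => h (Fin.succ_injective _ e)⟩

instance : Cx (Clq r) where
  fc n y := Finset.univ.val.map (fun i => y.face i)
  fcfc n f y := by
    simp only [Multiset.map_map, Function.comp_def]
    change ∑ i : Fin (n + 2), ∑ j : Fin (n + 1), f ((y.face i).face j) = 0
    rw [← Finset.sum_product']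
    refine Finset.sum_involution (fun p _ => (p.1.succAbove p.2, p.2.predAbove p.1)) ?_ ?_ ?_ ?_
    · rintro ⟨i, j⟩ _
      have : (y.face (i.succAbove j)).face (j.predAbove i) = (y.face i).face j := by
        ext k
        change y.1 ((i.succAbove j).succAbove ((j.predAbove i).succAbove k))
            = y.1 (i.succAbove (j.succAbove k))
        rw [Fin.succAbove_succAbove_succAbove_predAbove]
      simp only
      rw [this, CharTwo.add_self_eq_zero]
    · rintro ⟨i, j⟩ _ _ h
      have := congrArg Prod.fst h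
      exact Fin.succAbove_ne i j this
    · intro _ _; exact Finset.mem_univ _
    · rintro ⟨i, j⟩ _
      simp only
      apply Prod.ext
      · exact Fin.succAbove_succAbove_predAbove i j
      · simp only
        exact Fin.predAbove_predAbove_succAbove i j

theorem cd_eq {b : ℕ} (f : Clq r b → F2) (y : Clq r (b + 1)) :
    cd f y = ∑ i : Fin (b + 1), f (y.face i) := by
  simp only [cd, Cx.fc, Multiset.map_map, Function.comp_def]
  rfl

end Clq

/-- A group acting on `V` preserves the relation `r`. -/
class RelAct (G : Type*) [Group G] {V : Type*} [MulAction G V] (r : V → V → Prop) : Prop where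
  smul_rel : ∀ (g : G) (x y : V), r x y → r (g • x) (g • y)

section Action

variable {G : Type*} [Group G] [MulAction G V] {r : V → V → Prop} [RelAct G r]

instance (b : ℕ) : MulAction G (Clq r b) where
  smul g y := ⟨fun i => g • y.1 i, fun i j h => RelAct.smul_rel g _ _ (y.2 i j h)⟩
  one_smul y := by
    ext i
    exact one_smul G (y.1 i)
  mul_smul g h y := by
    ext i
    exact mul_smul g h (y.1 i)

@[simp] theorem clq_smul_apply {b : ℕ} (g : G) (y : Clq r b) (i : Fin b) :
    (g • y).1 i = g • y.1 i := rfl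

theorem clq_smul_eq_iff {b : ℕ} {g : G} {y z : Clq r b} :
    g • y = z ↔ ∀ i, g • y.1 i = z.1 i := by
  constructor
  · rintro rfl i; rfl
  · intro h; ext i; exact h i

instance : CxAct G (Clq r) where
  fc_smul n g y := by
    simp only [Cx.fc, Multiset.map_map]
    rfl

end Action

/-- Exactness of all functions on ordered cliques. -/
theorem fex_clq {r : V → V → Prop} (hr : ∀ x y, r x y → r y x) (B : ℕ)
    (hK : ∀ T : Finset V, T.card < coneBound B → ∃ w, ∀ t ∈ T, r w t) (b : ℕ) (hb : b ≤ B) :
    FEx (Clq r) b := by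
  classical
  cases b with
  | zero =>
    intro f hf
    obtain ⟨w, -⟩ := hK ∅ (by simpa using coneBound_pos B)
    funext y
    have h1 : Clq r 1 := ⟨fun _ => w, fun i j hij => absurd (Subsingleton.elim i j) hij⟩
    have h := (Clq.cd_eq f h1).symm.trans (congrFun hf h1)
    rw [Fin.sum_univ_one] at h
    have e : y = h1.face 0 := by
      ext i
      exact i.elim0
    rw [e]
    exact h
  | succ b =>
    intro f hf
    obtain ⟨h, hh⟩ := exact_of_common hr b (fun T hT => hK T (hT.trans_le (coneBound_mono hb)))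
      (fun y => if hy : CliqueCone.Clq r y then f ⟨y, hy⟩ else 0) (by
        intro y hy
        have h1 := (Clq.cd_eq f ⟨y, hy⟩).symm.trans (congrFun hf _)
        rw [ocob]
        refine Eq.trans (Finset.sum_congr rfl fun i _ => ?_) h1
        rw [dif_pos (hy.comp i)]
        rfl)
    refine ⟨fun y => h y.1, ?_⟩
    funext y
    have h1 := hh y.1 y.2
    rw [dif_pos y.2] at h1
    rw [Clq.cd_eq]
    exact h1.symm

/-- Quotient lemma: exactness of the functions invariant under a subgroup `N` whose orbits are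
controlled by an equivalence relation `s` and a relation `rb` on the quotient. -/
theorem ex_clq {G : Type*} [Group G] [MulAction G V] {r : V → V → Prop} [RelAct G r]
    (N : Subgroup G) (hr : ∀ x y, r x y → r y x) (B : ℕ)
    (hK : ∀ T : Finset V, T.card < coneBound B → ∃ w, ∀ t ∈ T, r w t)
    (s : Setoid V) (rb : Quotient s → Quotient s → Prop) (hrb : ∀ x y, rb x y → rb y x)
    (h0 : ∀ x y, r x y → rb (Quotient.mk s x) (Quotient.mk s y))
    (hN : ∀ n ∈ N, ∀ v : V, Quotient.mk s (n • v) = Quotient.mk s v)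
    (hq2 : ∀ b ≤ B, ∀ σ : Clq r b, ∀ c : V, (∀ i, rb (Quotient.mk s c) (Quotient.mk s (σ.1 i))) →
      ∃ c', Quotient.mk s c' = Quotient.mk s c ∧ ∀ i, r c' (σ.1 i))
    (hq3 : ∀ b ≤ B, ∀ σ : Clq r b, ∀ c c' : V, Quotient.mk s c = Quotient.mk s c' →
      (∀ i, r c (σ.1 i)) → (∀ i, r c' (σ.1 i)) → ∃ n ∈ N, (∀ i, n • σ.1 i = σ.1 i) ∧ n • c = c')
    (b : ℕ) (hb : b ≤ B) : Ex N (Clq r) b := by
  classical
  -- the projection
  let π : ∀ b, Clq r b → Clq rb b := fun b y =>
    ⟨fun i => Quotient.mk s (y.1 i), fun i j h => h0 _ _ (y.2 i j h)⟩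
  have hface : ∀ b (y : Clq r (b + 1)) i, π b (y.face i) = (π (b + 1) y).face i := fun _ _ _ => rfl
  have hsurj : ∀ b, b ≤ B + 1 → ∀ z : Clq rb b, ∃ y : Clq r b, π b y = z := by
    intro b
    induction b with
    | zero =>
      intro _ z
      refine ⟨⟨fun i => i.elim0, fun i => i.elim0⟩, ?_⟩
      ext i
      exact i.elim0
    | succ b ih =>
      intro hb z
      obtain ⟨y, hy⟩ := ih (by omega) z.tail
      obtain ⟨c, hc⟩ := Quotient.exists_rep (z.1 0)
      have hyi : ∀ i, Quotient.mk s (y.1 i) = z.1 i.succ := fun i => congrFun (congrArg Subtype.val hy) i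
      obtain ⟨c', hc'1, hc'2⟩ := hq2 b (by omega) y c (fun i => by
        rw [hyi, hc]
        exact z.2 0 i.succ (Fin.succ_ne_zero i).symm)
      refine ⟨Clq.cons hr c' y hc'2, ?_⟩
      ext i
      refine Fin.cases ?_ (fun i => ?_) i
      · change Quotient.mk s c' = _
        rw [hc'1, hc]
      · change Quotient.mk s (y.1 i) = _
        exact hyi i
  have hinj : ∀ b, b ≤ B + 1 → ∀ y z : Clq r b, π b y = π b z → ∃ n ∈ N, n • y = z := by
    intro b
    induction b with
    | zero =>
      intro _ y z _
      refine ⟨1, N.one_mem, ?_⟩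
      ext i
      exact i.elim0
    | succ b ih =>
      intro hb y z h
      have hi : ∀ i, Quotient.mk s (y.1 i) = Quotient.mk s (z.1 i) :=
        fun i => congrFun (congrArg Subtype.val h) i
      obtain ⟨n1, hn1, h1⟩ := ih (by omega) y.tail z.tail (by
        ext i
        exact hi i.succ)
      have h1' : ∀ i : Fin b, n1 • y.1 i.succ = z.1 i.succ := clq_smul_eq_iff.1 h1
      obtain ⟨n2, hn2, h2, h3⟩ := hq3 b (by omega) z.tail (n1 • y.1 0) (z.1 0) (by
          rw [hN n1 hn1, hi])
        (fun i => by
          change r _ (z.1 i.succ)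
          rw [← h1' i]
          exact RelAct.smul_rel _ _ _ (y.2 0 i.succ (Fin.succ_ne_zero i).symm))
        (fun i => z.2 0 i.succ (Fin.succ_ne_zero i).symm)
      refine ⟨n2 * n1, N.mul_mem hn2 hn1, ?_⟩
      rw [clq_smul_eq_iff]
      intro i
      refine Fin.cases ?_ (fun i => ?_) i
      · rw [mul_smul, h3]
      · rw [mul_smul, h1' i]
        exact h2 i
  -- cone property downstairs
  have hKb : ∀ T : Finset (Quotient s), T.card < coneBound B → ∃ w, ∀ t ∈ T, rb w t := by
    intro T hT
    obtain ⟨w, hw⟩ := hK (T.image Quotient.out) (lt_of_le_of_lt Finset.card_image_le hT)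
    refine ⟨Quotient.mk s w, fun t ht => ?_⟩
    have := h0 _ _ (hw _ (Finset.mem_image_of_mem _ ht))
    rwa [Quotient.out_eq] at this
  have hfex := fex_clq hrb B hKb b hb
  -- descend a function
  have hdesc : ∀ b, b ≤ B → ∀ f : Clq r b → F2, Inv N f → cd f = 0 →
      ∃ fb : Clq rb b → F2, (∀ y, fb (π b y) = f y) ∧ cd fb = 0 := by
    intro b hb f hf h0'
    refine ⟨fun z => f (hsurj b (by omega) z).choose, ?_, ?_⟩
    · intro y
      obtain ⟨n, hn, h⟩ := hinj b (by omega) _ _ (hsurj b (by omega) (π b y)).choose_spec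
      have := hf ⟨n, hn⟩ (hsurj b (by omega) (π b y)).choose
      exact this.symm.trans (congrArg f h)
    · funext z
      obtain ⟨y, rfl⟩ := hsurj (b + 1) (by omega) z
      have h1 := (Clq.cd_eq f y).symm.trans (congrFun h0' y)
      rw [Clq.cd_eq]
      refine Eq.trans (Finset.sum_congr rfl fun i _ => ?_) h1
      rw [← hface]
      obtain ⟨n, hn, h⟩ := hinj b (by omega) _ _
        (hsurj b (by omega) (π b (y.face i))).choose_spec
      have := hf ⟨n, hn⟩ (hsurj b (by omega) (π b (y.face i))).choose
      exact this.symm.trans (congrArg f h)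
  cases b with
  | zero =>
    intro f hf h0'
    obtain ⟨fb, hfb, hfb0⟩ := hdesc 0 hb f hf h0'
    have := hfex fb hfb0
    funext y
    rw [← hfb, this]
    rfl
  | succ b =>
    intro f hf h0'
    obtain ⟨fb, hfb, hfb0⟩ := hdesc (b + 1) hb f hf h0'
    obtain ⟨g, hg⟩ := hfex fb hfb0
    refine ⟨fun y => g (π b y), ?_, ?_⟩
    · rintro ⟨n, hn⟩ y
      refine congrArg g ?_
      ext i
      exact hN n hn (y.1 i)
    · funext y
      rw [← hfb, ← hg, Clq.cd_eq, Clq.cd_eq]
      rfl

end Crest.Agent.R066.E
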