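import Crest.Agent.R066.Chain

/-! From cone operators + transitivity to coboundary expansion (task M3, averaging argument). -/

set_option autoImplicit false
set_option linter.unusedSectionVars false
open scoped BigOperators

namespace Crest.Agent.R066

namespace ConeExp

theorem mem_PJ' {I G : Type*} [Group G] {P : I → Subgroup G} {J : Finset I} {g : G} :
    g ∈ PJ P J ↔ ∀ i ∈ J, g ∈ P i := by
  simp [PJ, Subgroup.mem_iInf]

section

variable {I : Type} [DecidableEq I] {G : Type} [Group G] {P : I → Subgroup G} {J₀ : Finset I}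
  {V : Type} [DecidableEq V] {act : G → V → V} {v₀ : I → V}

/-- hypotheses on the action -/
structure Hyp (P : I → Subgroup G) (J₀ : Finset I) (act : G → V → V) (v₀ : I → V) : Prop where
  one : ∀ v, act 1 v = v
  mul : ∀ g h v, act (g * h) v = act g (act h v)
  stab : ∀ i ∉ J₀, ∀ g ∈ PJ P J₀, act g (v₀ i) = v₀ i ↔ g ∈ P i
  inj : ∀ i ∉ J₀, ∀ j ∉ J₀, ∀ g ∈ PJ P J₀, act g (v₀ i) = v₀ j → i = j

/-- the face `g • v₀(J)` -/
def face (act : G → V → V) (v₀ : I → V) (J : Finset I) (g : G) : Finset V :=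
  (J.image v₀).image (act g)

theorem Hyp.act_inj (H : Hyp P J₀ act v₀) (g : G) : Function.Injective (act g) := by
  intro x y hxy
  have := congrArg (act g⁻¹) hxy
  rwa [← H.mul, ← H.mul, inv_mul_cancel, H.one, H.one] at this

theorem Hyp.v0_inj (H : Hyp P J₀ act v₀) {i j : I} (hi : i ∉ J₀) (hj : j ∉ J₀)
    (h : v₀ i = v₀ j) : i = j :=
  H.inj i hi j hj 1 (one_mem _) (by rw [H.one, h])

theorem Hyp.face_mul (H : Hyp P J₀ act v₀) (J : Finset I) (h k : G) :
    (face act v₀ J k).image (act h) = face act v₀ J (h * k) := by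
  unfold face
  rw [Finset.image_image]
  congr 1
  funext v
  exact (H.mul h k v).symm

theorem face_eq_image (J : Finset I) (g : G) :
    face act v₀ J g = J.image (fun i => act g (v₀ i)) := by
  unfold face
  rw [Finset.image_image]; rfl

theorem notMem_of_disjoint {J J₀ : Finset I} (hJ : Disjoint J J₀) {i : I} (hi : i ∈ J) : i ∉ J₀ :=
  Finset.disjoint_left.1 hJ hi

theorem Hyp.injOn (H : Hyp P J₀ act v₀) {J : Finset I} (hJ : Disjoint J J₀) (g : G) :
    Set.InjOn (fun i => act g (v₀ i)) (J : Set I) := by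
  intro i hi j hj hij
  exact H.v0_inj (notMem_of_disjoint hJ hi) (notMem_of_disjoint hJ hj) (H.act_inj g hij)

theorem Hyp.card_face (H : Hyp P J₀ act v₀) {J : Finset I} (hJ : Disjoint J J₀) (g : G) :
    (face act v₀ J g).card = J.card := by
  rw [face_eq_image, Finset.card_image_of_injOn (H.injOn hJ g)]

theorem Hyp.face_erase (H : Hyp P J₀ act v₀) {J : Finset I} (hJ : Disjoint J J₀) (g : G)
    {i : I} (hi : i ∈ J) :
    (face act v₀ J g).erase (act g (v₀ i)) = face act v₀ (J.erase i) g := by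
  rw [face_eq_image, face_eq_image]
  ext v
  simp only [Finset.mem_erase, Finset.mem_image]
  constructor
  · rintro ⟨hne, j, hj, rfl⟩
    exact ⟨j, ⟨fun h => hne (by rw [h]), hj⟩, rfl⟩
  · rintro ⟨j, ⟨hne, hj⟩, rfl⟩
    exact ⟨fun h => hne (H.injOn hJ g hj hi h), j, hj, rfl⟩

theorem Hyp.sum_face (H : Hyp P J₀ act v₀) {J : Finset I} (hJ : Disjoint J J₀) (g : G)
    (φ : V → ZMod 2) : ∑ v ∈ face act v₀ J g, φ v = ∑ i ∈ J, φ (act g (v₀ i)) := by
  rw [face_eq_image, Finset.sum_image (H.injOn hJ g)]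

theorem Hyp.face_sub (H : Hyp P J₀ act v₀) {J J' : Finset I} (hJ : Disjoint J J₀)
    (hJ' : Disjoint J' J₀) {g g' : G} (hg : g ∈ PJ P J₀) (hg' : g' ∈ PJ P J₀)
    (h : face act v₀ J g = face act v₀ J' g') {i : I} (hi : i ∈ J) :
    i ∈ J' ∧ g'⁻¹ * g ∈ P i := by
  have h1 : act g (v₀ i) ∈ face act v₀ J' g' := by
    rw [← h, face_eq_image]; exact Finset.mem_image_of_mem _ hi
  rw [face_eq_image, Finset.mem_image] at h1
  obtain ⟨j, hj, hji⟩ := h1
  have hk : g'⁻¹ * g ∈ PJ P J₀ := mul_mem (inv_mem hg') hg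
  have h2 : act (g'⁻¹ * g) (v₀ i) = v₀ j := by
    rw [H.mul, ← hji, ← H.mul, inv_mul_cancel, H.one]
  have hiJ := notMem_of_disjoint hJ hi
  have hjJ := notMem_of_disjoint hJ' hj
  have hij := H.inj i hiJ j hjJ _ hk h2
  subst hij
  exact ⟨hj, (H.stab i hiJ _ hk).1 h2⟩

theorem Hyp.face_eq (H : Hyp P J₀ act v₀) {J J' : Finset I} (hJ : Disjoint J J₀)
    (hJ' : Disjoint J' J₀) {g g' : G} (hg : g ∈ PJ P J₀) (hg' : g' ∈ PJ P J₀)
    (h : face act v₀ J g = face act v₀ J' g') : J = J' ∧ g'⁻¹ * g ∈ PJ P (J ∪ J₀) := by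
  refine ⟨?_, ?_⟩
  · apply Finset.Subset.antisymm
    · exact fun i hi => (H.face_sub hJ hJ' hg hg' h hi).1
    · exact fun i hi => (H.face_sub hJ' hJ hg' hg h.symm hi).1
  · rw [mem_PJ']
    intro i hi
    rcases Finset.mem_union.1 hi with hi | hi
    · exact (H.face_sub hJ hJ' hg hg' h hi).2
    · exact mem_PJ'.1 (mul_mem (inv_mem hg') hg) i hi

theorem Hyp.face_mul_right (H : Hyp P J₀ act v₀) {J : Finset I} (hJ : Disjoint J J₀)
    (g : G) {h : G} (hh : h ∈ PJ P (J ∪ J₀)) :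
    face act v₀ J (g * h) = face act v₀ J g := by
  rw [face_eq_image, face_eq_image]
  apply Finset.image_congr
  intro i hi
  have hi' : i ∈ J := hi
  have h0 : h ∈ PJ P J₀ := mem_PJ'.2 fun j hj => mem_PJ'.1 hh j (Finset.mem_union_right _ hj)
  have h1 : h ∈ P i := mem_PJ'.1 hh i (Finset.mem_union_left _ hi')
  show act (g * h) (v₀ i) = act g (v₀ i)
  rw [H.mul, (H.stab i (notMem_of_disjoint hJ hi') h h0).2 h1]

open Classical in
/-- the untyped function attached to a typed cochain -/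
noncomputable def unt (P : I → Subgroup G) (J₀ : Finset I) (act : G → V → V) (v₀ : I → V)
    (f : Finset I → G → ZMod 2) (s : Finset V) : ZMod 2 :=
  if h : ∃ p : Finset I × G, p.2 ∈ PJ P J₀ ∧ Disjoint p.1 J₀ ∧ s = face act v₀ p.1 p.2 then
    f h.choose.1 h.choose.2 else 0

theorem Hyp.unt_face (H : Hyp P J₀ act v₀) {f : Finset I → G → ZMod 2} {J : Finset I}
    (hf : IsCoch P J₀ J.card f) (hJ : Disjoint J J₀) {g : G} (hg : g ∈ PJ P J₀) :
    unt P J₀ act v₀ f (face act v₀ J g) = f J g := by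
  have h : ∃ p : Finset I × G, p.2 ∈ PJ P J₀ ∧ Disjoint p.1 J₀ ∧
      face act v₀ J g = face act v₀ p.1 p.2 := ⟨(J, g), hg, hJ, rfl⟩
  unfold unt
  rw [dif_pos h]
  obtain ⟨h1, h2, h3⟩ := h.choose_spec
  set p := h.choose
  obtain ⟨e, h4⟩ := H.face_eq hJ h2 hg h1 h3
  rw [← e]
  have h5 := hf J rfl hJ p.2 h1 _ h4
  rw [← h5, mul_inv_cancel_left]

/-- pairing of a function on finite sets with a chain -/
noncomputable def pr (F : Finset V → ZMod 2) : Ch V →ₗ[ZMod 2] ZMod 2 :=
  Finsupp.linearCombination (ZMod 2) F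

theorem pr_single (F : Finset V → ZMod 2) (s : Finset V) (c : ZMod 2) :
    pr F (Finsupp.single s c) = c * F s := by
  simp [pr]

/-- coboundary of an untyped function -/
def dl (F : Finset V → ZMod 2) (s : Finset V) : ZMod 2 := ∑ v ∈ s, F (s.erase v)

theorem bd_single' (s : Finset V) (c : ZMod 2) :
    bd (Finsupp.single s c) = ∑ v ∈ s, Finsupp.single (s.erase v) c := by
  simp [bd]

theorem pr_bd (F : Finset V → ZMod 2) (z : Ch V) : pr F (bd z) = pr (dl F) z := by
  have : (pr F).comp bd = pr (dl F) := by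
    apply Finsupp.lhom_ext
    intro s c
    rw [LinearMap.comp_apply, bd_single', map_sum, pr_single, dl, Finset.mul_sum]
    exact Finset.sum_congr rfl fun v _ => pr_single _ _ _
  exact LinearMap.congr_fun this z

theorem exists_of_pr_ne {F : Finset V → ZMod 2} {z : Ch V} (h : pr F z ≠ 0) :
    ∃ t ∈ z.support, F t ≠ 0 := by
  by_contra hc
  push Not at hc
  apply h
  unfold pr
  rw [Finsupp.linearCombination_apply, Finsupp.sum]
  apply Finset.sum_eq_zero
  intro t ht
  rw [hc t ht, smul_zero]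

/-- push forward of chains -/
noncomputable def push (act : G → V → V) (h : G) : Ch V →ₗ[ZMod 2] Ch V :=
  Finsupp.lmapDomain (ZMod 2) (ZMod 2) (fun s => s.image (act h))

theorem push_single (h : G) (s : Finset V) (c : ZMod 2) :
    push act h (Finsupp.single s c) = Finsupp.single (s.image (act h)) c := by
  simp [push, Finsupp.mapDomain_single]

theorem pr_push (F : Finset V → ZMod 2) (h : G) (z : Ch V) :
    pr F (push act h z) = pr (fun s => F (s.image (act h))) z := by
  have : (pr F).comp (push act h) = pr (fun s => F (s.image (act h))) := by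
    apply Finsupp.lhom_ext
    intro s c
    rw [LinearMap.comp_apply, push_single, pr_single, pr_single]
  exact LinearMap.congr_fun this z

theorem image_erase' {g : G} (hg : Function.Injective (act g)) (s : Finset V) (v : V) :
    (s.image (act g)).erase (act g v) = (s.erase v).image (act g) := by
  ext w
  simp only [Finset.mem_erase, Finset.mem_image]
  constructor
  · rintro ⟨hne, x, hx, rfl⟩
    exact ⟨x, ⟨fun h => hne (by rw [h]), hx⟩, rfl⟩
  · rintro ⟨x, ⟨hne, hx⟩, rfl⟩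
    exact ⟨fun h => hne (hg h), x, hx, rfl⟩

theorem push_bd {g : G} (hg : Function.Injective (act g)) (z : Ch V) :
    push act g (bd z) = bd (push act g z) := by
  have : (push act g).comp bd = bd.comp (push act g) := by
    apply Finsupp.lhom_ext
    intro s c
    rw [LinearMap.comp_apply, LinearMap.comp_apply, bd_single', push_single, bd_single', map_sum,
      Finset.sum_image (hg.injOn)]
    apply Finset.sum_congr rfl
    intro v _
    rw [push_single, image_erase' hg]
  exact LinearMap.congr_fun this z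

/-- `cob` preserves the cochain condition. -/
theorem isCoch_cob {m : ℕ} {f : Finset I → G → ZMod 2} (hf : IsCoch P J₀ m f) :
    IsCoch P J₀ (m + 1) (cob f) := by
  intro J hJc hJ g hg h hh
  unfold cob
  apply Finset.sum_congr rfl
  intro i hi
  refine hf _ ?_ (hJ.mono_left (Finset.erase_subset _ _)) g hg h ?_
  · rw [Finset.card_erase_of_mem hi, hJc]; rfl
  · rw [mem_PJ'] at hh ⊢
    intro j hj
    apply hh
    rcases Finset.mem_union.1 hj with hj | hj
    · exact Finset.mem_union_left _ (Finset.mem_of_mem_erase hj)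
    · exact Finset.mem_union_right _ hj

theorem Hyp.dl_unt (H : Hyp P J₀ act v₀) {m : ℕ} {f : Finset I → G → ZMod 2}
    (hf : IsCoch P J₀ m f) {J : Finset I} (hJc : J.card = m + 1) (hJ : Disjoint J J₀) {g : G}
    (hg : g ∈ PJ P J₀) :
    dl (unt P J₀ act v₀ f) (face act v₀ J g) = cob f J g := by
  unfold dl cob
  rw [H.sum_face hJ g (fun v => unt P J₀ act v₀ f ((face act v₀ J g).erase v))]
  apply Finset.sum_congr rfl
  intro i hi
  have hc : (J.erase i).card = m := by rw [Finset.card_erase_of_mem hi, hJc]; rfl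
  rw [H.face_erase hJ g hi]
  exact H.unt_face (by rw [hc]; exact hf) (hJ.mono_left (Finset.erase_subset _ _)) hg

/-- the correcting cochain -/
noncomputable def bh (P : I → Subgroup G) (J₀ : Finset I) (act : G → V → V) (v₀ : I → V)
    (κ : Finset V → Ch V) (f : Finset I → G → ZMod 2) (h : G) : Finset I → G → ZMod 2 :=
  fun J g => pr (unt P J₀ act v₀ f) (push act h (κ ((face act v₀ J g).image (act h⁻¹))))

theorem Hyp.isCoch_bh (H : Hyp P J₀ act v₀) (κ : Finset V → Ch V) (f : Finset I → G → ZMod 2)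
    (h : G) (m : ℕ) : IsCoch P J₀ m (bh P J₀ act v₀ κ f h) := by
  intro J _ hJ g _ k hk
  unfold bh
  rw [H.face_mul_right hJ g hk]

theorem Hyp.face_mem (H : Hyp P J₀ act v₀) {K : Set (Finset V)}
    (hK : ∀ g ∈ PJ P J₀, ∀ s ∈ K, s.image (act g) ∈ K)
    (hv : ∀ J : Finset I, Disjoint J J₀ → J.image v₀ ∈ K) {J : Finset I} (hJ : Disjoint J J₀)
    {g : G} (hg : g ∈ PJ P J₀) : face act v₀ J g ∈ K := hK g hg _ (hv J hJ)

theorem Hyp.main_eq (H : Hyp P J₀ act v₀) {K : Set (Finset V)}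
    (hK : ∀ g ∈ PJ P J₀, ∀ s ∈ K, s.image (act g) ∈ K)
    (hv : ∀ J : Finset I, Disjoint J J₀ → J.image v₀ ∈ K) {m R : ℕ} {κ : Finset V → Ch V}
    (hκ : ∀ s ∈ K, s.card ≤ m → κ s ∈ chains K (s.card + 1) ∧
        bd (κ s) + ∑ v ∈ s, κ (s.erase v) = Finsupp.single s 1 ∧ (κ s).support.card ≤ R)
    {f : Finset I → G → ZMod 2} (hf : IsCoch P J₀ m f) {h : G} (hh : h ∈ PJ P J₀)
    {J : Finset I} (hJc : J.card = m) (hJ : Disjoint J J₀) {g : G} (hg : g ∈ PJ P J₀) :
    (f + cob (bh P J₀ act v₀ κ f h)) J g =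
      pr (dl (unt P J₀ act v₀ f)) (push act h (κ (face act v₀ J (h⁻¹ * g)))) := by
  set F := unt P J₀ act v₀ f with hF
  have hg' : h⁻¹ * g ∈ PJ P J₀ := mul_mem (inv_mem hh) hg
  have hs' := H.face_mem hK hv hJ hg'
  have hcard : (face act v₀ J (h⁻¹ * g)).card = m := by rw [H.card_face hJ, hJc]
  have h1 := (hκ _ hs' hcard.le).2.1
  have h2 := congrArg (push act h) h1
  rw [map_add, push_bd (H.act_inj h), push_single, H.face_mul, mul_inv_cancel_left, map_sum] at h2
  have h3 := congrArg (pr F) h2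
  rw [map_add, pr_bd, pr_single, one_mul, map_sum] at h3
  have h4 : F (face act v₀ J g) = f J g := H.unt_face (by rw [hJc]; exact hf) hJ hg
  rw [h4] at h3
  have h5 : ∑ v ∈ face act v₀ J (h⁻¹ * g),
      pr F (push act h (κ ((face act v₀ J (h⁻¹ * g)).erase v)))
      = cob (bh P J₀ act v₀ κ f h) J g := by
    rw [H.sum_face hJ (h⁻¹ * g)
      (fun v => pr F (push act h (κ ((face act v₀ J (h⁻¹ * g)).erase v))))]
    unfold cob bh
    apply Finset.sum_congr rfl
    intro i hi
    rw [H.face_erase hJ _ hi, H.face_mul]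
  rw [h5] at h3
  show f J g + cob (bh P J₀ act v₀ κ f h) J g = _
  rw [← h3, add_assoc, CharTwo.add_self_eq_zero, add_zero]

open Classical in
/-- number of translates on which the coboundary does not vanish -/
theorem Hyp.count_le [Fintype I] [Fintype G] (H : Hyp P J₀ act v₀) {K : Set (Finset V)}
    (htr : ∀ s ∈ K, ∃ g ∈ PJ P J₀, ∃ J : Finset I, Disjoint J J₀ ∧
      s = (J.image v₀).image (act g)) {m : ℕ}
    {f : Finset I → G → ZMod 2} (hf : IsCoch P J₀ m f) {t : Finset V} (ht : t ∈ K)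
    (htc : t.card = m + 1) :
    (∑ h ∈ Finset.univ.filter (fun h : G => h ∈ PJ P J₀),
      if dl (unt P J₀ act v₀ f) (t.image (act h)) ≠ 0 then 1 else 0) ≤
      wt P J₀ (m + 1) (cob f) := by
  obtain ⟨g₀, hg₀, J, hJ, rfl⟩ := htr t ht
  change (face act v₀ J g₀).card = m + 1 at htc
  rw [H.card_face hJ] at htc
  have hle : ((Finset.univ : Finset G).filter (fun g => g ∈ PJ P J₀ ∧ cob f J g ≠ 0)).card ≤
      wt P J₀ (m + 1) (cob f) := by
    unfold wt
    apply Finset.single_le_sum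
      (f := fun J => ((Finset.univ : Finset G).filter (fun g => g ∈ PJ P J₀ ∧ cob f J g ≠ 0)).card)
      (fun _ _ => Nat.zero_le _)
    simp [htc, hJ]
  refine le_trans (le_of_eq ?_) hle
  rw [← Finset.sum_filter, Finset.filter_filter, Finset.sum_const, smul_eq_mul, mul_one]
  apply Finset.card_bij (fun h _ => h * g₀)
  · intro h hh
    simp only [Finset.mem_filter, Finset.mem_univ, true_and] at hh ⊢
    refine ⟨mul_mem hh.1 hg₀, ?_⟩
    have h1 := hh.2
    change dl (unt P J₀ act v₀ f) ((face act v₀ J g₀).image (act h)) ≠ 0 at h1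
    rw [H.face_mul, H.dl_unt hf htc hJ (mul_mem hh.1 hg₀)] at h1
    exact h1
  · intro a _ b _ hab
    exact mul_right_cancel hab
  · intro b hb
    simp only [Finset.mem_filter, Finset.mem_univ, true_and] at hb
    refine ⟨b * g₀⁻¹, ?_, by group⟩
    simp only [Finset.mem_filter, Finset.mem_univ, true_and]
    have h0 : b * g₀⁻¹ ∈ PJ P J₀ := mul_mem hb.1 (inv_mem hg₀)
    refine ⟨h0, ?_⟩
    show dl (unt P J₀ act v₀ f) ((face act v₀ J g₀).image (act (b * g₀⁻¹))) ≠ 0
    have h1 : b * g₀⁻¹ * g₀ = b := by group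
    rw [H.face_mul, h1, H.dl_unt hf htc hJ hb.1]
    exact hb.2

open Classical in
theorem wt_eq [Fintype I] [Fintype G] (P : I → Subgroup G) (J₀ : Finset I) (n : ℕ)
    (f : Finset I → G → ZMod 2) :
    wt P J₀ n f = ∑ J ∈ (Finset.univ : Finset (Finset I)).filter
      (fun J => J.card = n ∧ Disjoint J J₀),
      ∑ g ∈ (Finset.univ : Finset G).filter (fun g => g ∈ PJ P J₀),
        if f J g ≠ 0 then 1 else 0 := by
  unfold wt
  refine Finset.sum_congr (by ext J; simp) fun J _ => ?_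
  rw [← Finset.sum_filter, Finset.filter_filter, Finset.sum_const, smul_eq_mul, mul_one]

open Classical in
theorem Hyp.exists_good [Fintype I] [Fintype G] (H : Hyp P J₀ act v₀) {K : Set (Finset V)}
    (hK : ∀ g ∈ PJ P J₀, ∀ s ∈ K, s.image (act g) ∈ K)
    (hv : ∀ J : Finset I, Disjoint J J₀ → J.image v₀ ∈ K)
    (htr : ∀ s ∈ K, ∃ g ∈ PJ P J₀, ∃ J : Finset I, Disjoint J J₀ ∧
      s = (J.image v₀).image (act g)) {m R : ℕ} {κ : Finset V → Ch V}
    (hκ : ∀ s ∈ K, s.card ≤ m → κ s ∈ chains K (s.card + 1) ∧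
        bd (κ s) + ∑ v ∈ s, κ (s.erase v) = Finsupp.single s 1 ∧ (κ s).support.card ≤ R)
    {f : Finset I → G → ZMod 2} (hf : IsCoch P J₀ m f) :
    ∃ h ∈ PJ P J₀, wt P J₀ m (f + cob (bh P J₀ act v₀ κ f h)) ≤
      2 ^ (Fintype.card I) * R * wt P J₀ (m + 1) (cob f) := by
  set Hs : Finset G := Finset.univ.filter (fun h : G => h ∈ PJ P J₀) with hHs
  set JJ : Finset (Finset I) :=
    (Finset.univ : Finset (Finset I)).filter (fun J => J.card = m ∧ Disjoint J J₀) with hJJ
  set F := unt P J₀ act v₀ f with hF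
  set W := wt P J₀ (m + 1) (cob f) with hW
  have hmem : ∀ {h : G}, h ∈ Hs ↔ h ∈ PJ P J₀ := by intro h; simp [hHs]
  have hne : Hs.Nonempty := ⟨1, hmem.2 (one_mem _)⟩
  -- indicator
  let χ : G → Finset V → ℕ := fun h t => if dl F (t.image (act h)) ≠ 0 then 1 else 0
  have hB : ∀ h ∈ Hs, wt P J₀ m (f + cob (bh P J₀ act v₀ κ f h)) ≤
      ∑ J ∈ JJ, ∑ k ∈ Hs, ∑ t ∈ (κ (face act v₀ J k)).support, χ h t := by
    intro h hh
    have hh' := hmem.1 hh
    rw [wt_eq, ← hJJ, ← hHs]
    apply Finset.sum_le_sum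
    intro J hJ
    rw [hJJ, Finset.mem_filter] at hJ
    replace hJ := hJ.2
    have e2 : ∑ k ∈ Hs, ∑ t ∈ (κ (face act v₀ J k)).support, χ h t
        = ∑ g ∈ Hs, ∑ t ∈ (κ (face act v₀ J (h⁻¹ * g))).support, χ h t := by
      symm
      apply Finset.sum_bij (fun g _ => h⁻¹ * g)
      · intro g hg
        exact hmem.2 (mul_mem (inv_mem hh') (hmem.1 hg))
      · intro a _ b _ hab
        exact mul_left_cancel hab
      · intro b hb
        exact ⟨h * b, hmem.2 (mul_mem hh' (hmem.1 hb)), by group⟩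
      · intro g _
        rfl
    rw [e2]
    apply Finset.sum_le_sum
    intro g hg
    split_ifs with hne0
    · rw [H.main_eq hK hv hκ hf hh' hJ.1 hJ.2 (hmem.1 hg), pr_push] at hne0
      obtain ⟨t, ht, ht0⟩ := exists_of_pr_ne hne0
      calc 1 = χ h t := by simp only [χ]; rw [if_pos ht0]
        _ ≤ _ := Finset.single_le_sum (f := fun t => χ h t) (fun _ _ => Nat.zero_le _) ht
    · exact Nat.zero_le _
  have hsum : ∑ h ∈ Hs, wt P J₀ m (f + cob (bh P J₀ act v₀ κ f h)) ≤
      ∑ _h ∈ Hs, 2 ^ (Fintype.card I) * R * W := by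
    calc ∑ h ∈ Hs, wt P J₀ m (f + cob (bh P J₀ act v₀ κ f h))
        ≤ ∑ h ∈ Hs, ∑ J ∈ JJ, ∑ k ∈ Hs, ∑ t ∈ (κ (face act v₀ J k)).support, χ h t :=
          Finset.sum_le_sum hB
      _ = ∑ J ∈ JJ, ∑ k ∈ Hs, ∑ t ∈ (κ (face act v₀ J k)).support, ∑ h ∈ Hs, χ h t := by
          rw [Finset.sum_comm]
          apply Finset.sum_congr rfl
          intro J _
          rw [Finset.sum_comm]
          apply Finset.sum_congr rfl
          intro k _
          rw [Finset.sum_comm]
      _ ≤ ∑ J ∈ JJ, ∑ k ∈ Hs, ∑ t ∈ (κ (face act v₀ J k)).support, W := by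
          apply Finset.sum_le_sum
          intro J hJ
          rw [hJJ, Finset.mem_filter] at hJ
          apply Finset.sum_le_sum
          intro k hk
          apply Finset.sum_le_sum
          intro t ht
          have hfk := H.face_mem hK hv hJ.2.2 (hmem.1 hk)
          have hc : (face act v₀ J k).card = m := by rw [H.card_face hJ.2.2, hJ.2.1]
          have h1 := (hκ _ hfk hc.le).1
          unfold chains at h1
          rw [Finsupp.mem_supported] at h1
          have h2 := h1 (Finset.mem_coe.2 ht)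
          have h3 : t ∈ K ∧ t.card = (face act v₀ J k).card + 1 := h2
          rw [hc] at h3
          exact H.count_le htr hf h3.1 h3.2
      _ ≤ ∑ J ∈ JJ, ∑ k ∈ Hs, R * W := by
          apply Finset.sum_le_sum
          intro J hJ
          rw [hJJ, Finset.mem_filter] at hJ
          apply Finset.sum_le_sum
          intro k hk
          have hfk := H.face_mem hK hv hJ.2.2 (hmem.1 hk)
          have hc : (face act v₀ J k).card = m := by rw [H.card_face hJ.2.2, hJ.2.1]
          rw [Finset.sum_const, smul_eq_mul]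
          exact Nat.mul_le_mul_right _ (hκ _ hfk hc.le).2.2
      _ = JJ.card * (Hs.card * (R * W)) := by
          rw [Finset.sum_const, Finset.sum_const, smul_eq_mul, smul_eq_mul]
      _ ≤ 2 ^ (Fintype.card I) * (Hs.card * (R * W)) := by
          apply Nat.mul_le_mul_right
          calc JJ.card ≤ (Finset.univ : Finset (Finset I)).card := Finset.card_filter_le _ _
            _ = 2 ^ Fintype.card I := by simp
      _ = ∑ _h ∈ Hs, 2 ^ (Fintype.card I) * R * W := by
          rw [Finset.sum_const, smul_eq_mul]; ring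
  obtain ⟨h, hh, hle⟩ := Finset.exists_le_of_sum_le hne hsum
  exact ⟨h, hmem.1 hh, hle⟩

end

end ConeExp

open ConeExp

theorem linkExp_of_cone (nI m R : ℕ) (hm : 1 ≤ m) : ∃ β : ℝ, 0 < β ∧
    ∀ (I : Type) [DecidableEq I] [Fintype I], Fintype.card I ≤ nI →
    ∀ (G : Type) [Group G] [Fintype G] (P : I → Subgroup G) (J₀ : Finset I)
      (V : Type) [DecidableEq V] (K : Set (Finset V)) (act : G → V → V) (v₀ : I → V),
      (∀ v, act 1 v = v) → (∀ g h v, act (g * h) v = act g (act h v)) →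
      (∀ g ∈ PJ P J₀, ∀ s ∈ K, s.image (act g) ∈ K) →
      (∀ J : Finset I, Disjoint J J₀ → J.image v₀ ∈ K) →
      (∀ i ∉ J₀, ∀ g ∈ PJ P J₀, act g (v₀ i) = v₀ i ↔ g ∈ P i) →
      (∀ i ∉ J₀, ∀ j ∉ J₀, ∀ g ∈ PJ P J₀, act g (v₀ i) = v₀ j → i = j) →
      (∀ s ∈ K, ∃ g ∈ PJ P J₀, ∃ J : Finset I, Disjoint J J₀ ∧ s = (J.image v₀).image (act g)) →
      (∃ κ : Finset V → Ch V, ∀ s ∈ K, s.card ≤ m → κ s ∈ chains K (s.card + 1) ∧
        bd (κ s) + ∑ v ∈ s, κ (s.erase v) = Finsupp.single s 1 ∧ (κ s).support.card ≤ R) →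
      LinkExp P J₀ m β := by
  refine ⟨1 / ((2 : ℝ) ^ nI * R + 1), by positivity, ?_⟩
  intro I _ _ hI G _ _ P J₀ V _ K act v₀ h1 hmul hK hv hstab hinj htr hκ f hf
  obtain ⟨κ, hκ⟩ := hκ
  have H : Hyp P J₀ act v₀ := ⟨h1, hmul, hstab, hinj⟩
  obtain ⟨h, hh, hle⟩ := H.exists_good hK hv htr hκ hf
  refine ⟨bh P J₀ act v₀ κ f h, H.isCoch_bh κ f h _, ?_⟩
  have hpow : (2 : ℝ) ^ Fintype.card I ≤ 2 ^ nI := pow_le_pow_right₀ (by norm_num) hI
  have hle' : (wt P J₀ m (f + cob (bh P J₀ act v₀ κ f h)) : ℝ) ≤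
      2 ^ (Fintype.card I) * R * (wt P J₀ (m + 1) (cob f) : ℝ) := by exact_mod_cast hle
  have hW : (0 : ℝ) ≤ (wt P J₀ (m + 1) (cob f) : ℝ) := Nat.cast_nonneg _
  have hR : (0 : ℝ) ≤ R := Nat.cast_nonneg _
  have h3 : (2 : ℝ) ^ (Fintype.card I) * R * (wt P J₀ (m + 1) (cob f) : ℝ) ≤
      (2 ^ nI * R + 1) * (wt P J₀ (m + 1) (cob f) : ℝ) := by
    apply mul_le_mul_of_nonneg_right _ hW
    have := mul_le_mul_of_nonneg_right hpow hR
    linarith
  rw [div_mul_eq_mul_div, one_mul, div_le_iff₀ (by positivity)]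
  linarith [hle'.trans h3]

end Crest.Agent.R066
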