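import Mathlib

/-!
Row 66 (S0088), part (C): chains with coefficients in `ZMod 2` on finite sets, bounded fillings.
A simplex is a `Finset V`; a chain is `Finset V →₀ ZMod 2`; degrees are counted by cardinality
(augmented: the empty simplex has cardinality `0`).
-/

set_option autoImplicit false
set_option linter.unusedSectionVars false

namespace Crest.Agent.R066.Fill

variable {V : Type*} [DecidableEq V]

/-- chains -/
abbrev Ch (V : Type*) := Finset V →₀ ZMod 2

/-- boundary -/
noncomputable def bd : Ch V →ₗ[ZMod 2] Ch V :=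
  Finsupp.linearCombination (ZMod 2) (fun σ : Finset V =>
    ∑ v ∈ σ, (Finsupp.single (σ.erase v) 1 : Ch V))

/-- cone with apex `v` -/
noncomputable def cone (v : V) : Ch V →ₗ[ZMod 2] Ch V :=
  Finsupp.linearCombination (ZMod 2) (fun σ : Finset V =>
    if v ∈ σ then (0 : Ch V) else Finsupp.single (insert v σ) 1)

/-- link part at `v` -/
noncomputable def lnk (v : V) : Ch V →ₗ[ZMod 2] Ch V :=
  Finsupp.linearCombination (ZMod 2) (fun σ : Finset V =>
    if v ∈ σ then (Finsupp.single (σ.erase v) 1 : Ch V) else 0)

/-- part avoiding `v` -/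
noncomputable def del (v : V) : Ch V →ₗ[ZMod 2] Ch V :=
  Finsupp.linearCombination (ZMod 2) (fun σ : Finset V =>
    if v ∈ σ then (0 : Ch V) else Finsupp.single σ 1)

theorem bd_single (σ : Finset V) :
    bd (Finsupp.single σ 1 : Ch V) = ∑ v ∈ σ, (Finsupp.single (σ.erase v) 1 : Ch V) := by
  unfold bd
  rw [Finsupp.linearCombination_single, one_smul]

theorem cone_single (v : V) (σ : Finset V) : cone v (Finsupp.single σ 1 : Ch V) =
    if v ∈ σ then (0 : Ch V) else Finsupp.single (insert v σ) 1 := by
  unfold cone
  rw [Finsupp.linearCombination_single, one_smul]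

theorem lnk_single (v : V) (σ : Finset V) : lnk v (Finsupp.single σ 1 : Ch V) =
    if v ∈ σ then (Finsupp.single (σ.erase v) 1 : Ch V) else 0 := by
  unfold lnk
  rw [Finsupp.linearCombination_single, one_smul]

theorem del_single (v : V) (σ : Finset V) : del v (Finsupp.single σ 1 : Ch V) =
    if v ∈ σ then (0 : Ch V) else Finsupp.single σ 1 := by
  unfold del
  rw [Finsupp.linearCombination_single, one_smul]

/-- linear maps on chains agree if they agree on simplices -/
theorem lin_ext {M : Type*} [AddCommMonoid M] [Module (ZMod 2) M] {f g : Ch V →ₗ[ZMod 2] M}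
    (h : ∀ σ, f (Finsupp.single σ 1) = g (Finsupp.single σ 1)) : f = g := by
  apply Finsupp.lhom_ext'
  intro σ
  apply LinearMap.ext_ring
  exact h σ

theorem add_self (c : Ch V) : c + c = 0 := by
  ext σ
  exact CharTwo.add_self_eq_zero _

theorem bd_bd (c : Ch V) : bd (bd c) = 0 := by
  have h : (bd.comp bd : Ch V →ₗ[ZMod 2] Ch V) = 0 := by
    apply lin_ext
    intro σ
    rw [LinearMap.comp_apply, bd_single, map_sum, LinearMap.zero_apply]
    have h1 : ∀ v ∈ σ, bd (Finsupp.single (σ.erase v) 1 : Ch V) =
        ∑ w ∈ σ.erase v, (Finsupp.single ((σ.erase v).erase w) 1 : Ch V) := fun v _ => bd_single _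
    rw [Finset.sum_congr rfl h1, Finset.sum_sigma']
    refine Finset.sum_involution (fun p _ => ⟨p.2, p.1⟩) ?_ ?_ ?_ ?_
    · rintro ⟨v, w⟩ h
      simp only
      rw [Finset.erase_right_comm]
      exact add_self _
    · rintro ⟨v, w⟩ h _ heq
      simp only [Finset.mem_sigma, Finset.mem_erase] at h
      simp only [Sigma.mk.injEq] at heq
      exact h.2.1 heq.1
    · rintro ⟨v, w⟩ h
      simp only [Finset.mem_sigma, Finset.mem_erase] at h ⊢
      exact ⟨h.2.2, fun e => h.2.1 e.symm, h.1⟩
    · rintro ⟨v, w⟩ h
      rfl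
  exact LinearMap.congr_fun h c

/-- the cone is a contracting homotopy of the full simplex -/
theorem bd_cone (v : V) (c : Ch V) : bd (cone v c) + cone v (bd c) = c := by
  have h : (bd.comp (cone v) + (cone v).comp bd : Ch V →ₗ[ZMod 2] Ch V) = LinearMap.id := by
    apply lin_ext
    intro σ
    rw [LinearMap.add_apply, LinearMap.comp_apply, LinearMap.comp_apply, cone_single, bd_single,
      map_sum, LinearMap.id_apply]
    simp only [cone_single]
    by_cases hv : v ∈ σ
    · rw [if_pos hv, map_zero, zero_add, Finset.sum_eq_single v]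
      · rw [if_neg (Finset.notMem_erase v σ), Finset.insert_erase hv]
      · intro w hw hwv
        rw [if_pos (Finset.mem_erase.2 ⟨fun e => hwv e.symm, hv⟩)]
      · intro h; exact absurd hv h
    · rw [if_neg hv, bd_single, Finset.sum_insert hv, Finset.erase_insert hv]
      have h1 : ∀ w ∈ σ, (if v ∈ σ.erase w then (0 : Ch V) else
          Finsupp.single (insert v (σ.erase w)) 1) = Finsupp.single ((insert v σ).erase w) 1 := by
        intro w hw
        have hwv : v ≠ w := fun e => hv (e ▸ hw)
        rw [if_neg (fun h => hv (Finset.mem_of_mem_erase h)), Finset.erase_insert_of_ne hwv]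
      rw [Finset.sum_congr rfl h1, add_assoc, add_self, add_zero]
  exact LinearMap.congr_fun h c

theorem bd_lnk (v : V) (c : Ch V) : bd (lnk v c) = lnk v (bd c) := by
  have h : (bd.comp (lnk v) : Ch V →ₗ[ZMod 2] Ch V) = (lnk v).comp bd := by
    apply lin_ext
    intro σ
    rw [LinearMap.comp_apply, LinearMap.comp_apply, lnk_single, bd_single, map_sum]
    simp only [lnk_single]
    by_cases hv : v ∈ σ
    · rw [if_pos hv, bd_single]
      rw [← Finset.add_sum_erase σ _ hv, if_neg (Finset.notMem_erase v σ), zero_add]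
      refine Finset.sum_congr rfl fun w hw => ?_
      rw [if_pos (Finset.mem_erase.2 ⟨fun e => (Finset.mem_erase.1 hw).1 e.symm, hv⟩),
        Finset.erase_right_comm]
    · rw [if_neg hv, map_zero]
      symm
      refine Finset.sum_eq_zero fun w _ => if_neg fun h => hv (Finset.mem_of_mem_erase h)
  exact LinearMap.congr_fun h c

theorem del_add_cone_lnk (v : V) (c : Ch V) : del v c + cone v (lnk v c) = c := by
  have h : (del v + (cone v).comp (lnk v) : Ch V →ₗ[ZMod 2] Ch V) = LinearMap.id := by
    apply lin_ext
    intro σ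
    rw [LinearMap.add_apply, LinearMap.comp_apply, del_single, lnk_single, LinearMap.id_apply]
    by_cases hv : v ∈ σ
    · rw [if_pos hv, if_pos hv, cone_single, if_neg (Finset.notMem_erase v σ),
        Finset.insert_erase hv, zero_add]
    · rw [if_neg hv, if_neg hv, map_zero, add_zero]
  exact LinearMap.congr_fun h c

/-! ### supports -/

/-- `c` is a chain of simplices of `K` with `m` vertices -/
def IsCh (K : Set (Finset V)) (m : ℕ) (c : Ch V) : Prop :=
  ∀ σ ∈ c.support, σ ∈ K ∧ σ.card = m

theorem IsCh.add {K : Set (Finset V)} {m : ℕ} {c d : Ch V} (hc : IsCh K m c) (hd : IsCh K m d) :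
    IsCh K m (c + d) := by
  intro σ hσ
  rcases Finset.mem_union.1 (Finsupp.support_add hσ) with h | h
  · exact hc σ h
  · exact hd σ h

theorem IsCh.zero {K : Set (Finset V)} {m : ℕ} : IsCh K m (0 : Ch V) := by
  intro σ hσ; simp at hσ

theorem support_lc {f : Finset V → Ch V} (c : Ch V) {σ : Finset V}
    (h : σ ∈ (Finsupp.linearCombination (ZMod 2) f c).support) :
    ∃ τ ∈ c.support, σ ∈ (f τ).support := by
  rw [Finsupp.linearCombination_apply, Finsupp.sum] at h
  obtain ⟨τ, hτ, h2⟩ := Finset.mem_biUnion.1 (Finsupp.support_finsetSum h)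
  exact ⟨τ, hτ, Finsupp.support_smul h2⟩

theorem mem_support_cone {v : V} {c : Ch V} {σ : Finset V} (h : σ ∈ (cone v c).support) :
    ∃ τ ∈ c.support, v ∉ τ ∧ σ = insert v τ := by
  obtain ⟨τ, hτ, h2⟩ := support_lc c h
  refine ⟨τ, hτ, ?_⟩
  by_cases hv : v ∈ τ
  · rw [if_pos hv] at h2; simp at h2
  · rw [if_neg hv] at h2
    exact ⟨hv, Finset.mem_singleton.1 (Finsupp.support_single_subset h2)⟩

theorem mem_support_lnk {v : V} {c : Ch V} {σ : Finset V} (h : σ ∈ (lnk v c).support) :
    ∃ τ ∈ c.support, v ∈ τ ∧ σ = τ.erase v := by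
  obtain ⟨τ, hτ, h2⟩ := support_lc c h
  refine ⟨τ, hτ, ?_⟩
  by_cases hv : v ∈ τ
  · rw [if_pos hv] at h2
    exact ⟨hv, Finset.mem_singleton.1 (Finsupp.support_single_subset h2)⟩
  · rw [if_neg hv] at h2; simp at h2

theorem mem_support_del {v : V} {c : Ch V} {σ : Finset V} (h : σ ∈ (del v c).support) :
    σ ∈ c.support ∧ v ∉ σ := by
  obtain ⟨τ, hτ, h2⟩ := support_lc c h
  by_cases hv : v ∈ τ
  · rw [if_pos hv] at h2; simp at h2
  · rw [if_neg hv] at h2
    obtain rfl := Finset.mem_singleton.1 (Finsupp.support_single_subset h2)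
    exact ⟨hτ, hv⟩

theorem card_cone_le (v : V) (c : Ch V) : (cone v c).support.card ≤ c.support.card := by
  classical
  calc (cone v c).support.card ≤ (c.support.image (insert v)).card := by
        apply Finset.card_le_card
        intro σ hσ
        obtain ⟨τ, hτ, _, rfl⟩ := mem_support_cone hσ
        exact Finset.mem_image_of_mem _ hτ
    _ ≤ _ := Finset.card_image_le

theorem card_lnk_le (v : V) (c : Ch V) : (lnk v c).support.card ≤ c.support.card := by
  classical
  calc (lnk v c).support.card ≤ (c.support.image (fun τ => τ.erase v)).card := by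
        apply Finset.card_le_card
        intro σ hσ
        obtain ⟨τ, hτ, _, rfl⟩ := mem_support_lnk hσ
        exact Finset.mem_image_of_mem _ hτ
    _ ≤ _ := Finset.card_image_le

theorem card_del_le (v : V) (c : Ch V) : (del v c).support.card ≤ c.support.card :=
  Finset.card_le_card fun _ hσ => (mem_support_del hσ).1

theorem card_add_le (c d : Ch V) : (c + d).support.card ≤ c.support.card + d.support.card := by
  classical
  exact (Finset.card_le_card Finsupp.support_add).trans (Finset.card_union_le _ _)

/-- Elimination of the vertex `v`: if the link part of the cycle `z` is filled by `c`, then `z` is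
homologous to `del v z + c`. -/
theorem elim {v : V} {z c : Ch V} (hc : bd c = lnk v z) :
    z = (del v z + c) + bd (cone v c) := by
  have h1 := bd_cone v c
  have h2 := del_add_cone_lnk v z
  rw [hc] at h1
  have h3 : bd (cone v c) = c + cone v (lnk v z) := by
    calc bd (cone v c) = bd (cone v c) + (cone v (lnk v z) + cone v (lnk v z)) := by
          rw [add_self, add_zero]
      _ = c + cone v (lnk v z) := by rw [← add_assoc, h1]
  rw [h3]
  calc z = del v z + cone v (lnk v z) := h2.symm
    _ = del v z + cone v (lnk v z) + (c + c) := by rw [add_self, add_zero]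
    _ = _ := by abel

theorem bd_elim {v : V} {z c : Ch V} (hz : bd z = 0) (hc : bd c = lnk v z) :
    bd (del v z + c) = 0 := by
  have h1 := elim hc
  have h2 := congrArg bd h1
  rw [map_add, bd_bd, add_zero, hz] at h2
  exact h2.symm

/-- bounded filling: every cycle of `m`-element simplices of size at most `s` has a filling of
size at most `t` -/
def BF (K : Set (Finset V)) (m s t : ℕ) : Prop :=
  ∀ z : Ch V, IsCh K m z → bd z = 0 → z.support.card ≤ s →
    ∃ c : Ch V, IsCh K (m + 1) c ∧ bd c = z ∧ c.support.card ≤ t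

end Crest.Agent.R066.Fill
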