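import Mathlib
import Crest.Agent.R066.FillChain

/-!
Row 66 (S0088), part (C): contraction operators with bounded supports from bounded fillings.
-/

set_option autoImplicit false
set_option linter.unusedSectionVars false

namespace Crest.Agent.R066.Fill

open Finset

variable {V : Type*} [DecidableEq V]

/-- a contraction of `K` through cardinality `m`, with supports bounded by `κ` -/
structure IsContr (K : Set (Finset V)) (m κ : ℕ) (h : Finset V → Ch V) : Prop where
  ch : ∀ σ ∈ K, σ.card ≤ m → IsCh K (σ.card + 1) (h σ)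
  bd_eq : ∀ σ ∈ K, σ.card ≤ m →
    bd (h σ) = (Finsupp.single σ 1 : Ch V) + ∑ v ∈ σ, h (σ.erase v)
  card_le : ∀ σ ∈ K, σ.card ≤ m → (h σ).support.card ≤ κ

/-- the linear extension -/
noncomputable def ext (h : Finset V → Ch V) : Ch V →ₗ[ZMod 2] Ch V :=
  Finsupp.linearCombination (ZMod 2) h

theorem ext_single (h : Finset V → Ch V) (σ : Finset V) :
    ext h (Finsupp.single σ 1 : Ch V) = h σ := by
  unfold ext
  rw [Finsupp.linearCombination_single, one_smul]

theorem ext_bd_single (h : Finset V → Ch V) (σ : Finset V) :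
    ext h (bd (Finsupp.single σ 1 : Ch V)) = ∑ v ∈ σ, h (σ.erase v) := by
  rw [bd_single, map_sum]
  exact Finset.sum_congr rfl fun v _ => ext_single h _

theorem sum_sum_erase (h : Finset V → Ch V) (σ : Finset V) :
    ∑ v ∈ σ, ∑ w ∈ σ.erase v, h ((σ.erase v).erase w) = 0 := by
  have h1 : ext h (bd (bd (Finsupp.single σ 1 : Ch V))) = 0 := by rw [bd_bd, map_zero]
  rw [bd_single, map_sum, map_sum] at h1
  rw [← h1]
  exact Finset.sum_congr rfl fun v _ => (ext_bd_single h _).symm

theorem chain_eq_sum (z : Ch V) : z = ∑ σ ∈ z.support, (Finsupp.single σ 1 : Ch V) := by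
  conv_lhs => rw [← Finsupp.sum_single z]
  unfold Finsupp.sum
  refine Finset.sum_congr rfl fun σ hσ => ?_
  congr 1
  have h1 := Finsupp.mem_support_iff.1 hσ
  generalize z σ = a at h1 ⊢
  revert a; decide

theorem ext_apply (h : Finset V → Ch V) (z : Ch V) : ext h z = ∑ σ ∈ z.support, h σ := by
  conv_lhs => rw [chain_eq_sum z]
  rw [map_sum]
  exact Finset.sum_congr rfl fun σ _ => ext_single h σ

theorem card_sum_le {ι : Type*} (s : Finset ι) (f : ι → Ch V) (κ : ℕ)
    (h : ∀ i ∈ s, (f i).support.card ≤ κ) : (∑ i ∈ s, f i).support.card ≤ s.card * κ := by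
  classical
  induction s using Finset.induction_on with
  | empty => simp
  | insert i s hi ih =>
    rw [Finset.sum_insert hi, Finset.card_insert_of_notMem hi]
    have h1 := card_add_le (f i) (∑ j ∈ s, f j)
    have h2 := h i (Finset.mem_insert_self _ _)
    have h3 := ih fun j hj => h j (Finset.mem_insert_of_mem hj)
    calc _ ≤ κ + s.card * κ := by omega
      _ = _ := by ring

theorem IsCh.sum {ι : Type*} {K : Set (Finset V)} {m : ℕ} (s : Finset ι) (f : ι → Ch V)
    (h : ∀ i ∈ s, IsCh K m (f i)) : IsCh K m (∑ i ∈ s, f i) := by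
  classical
  induction s using Finset.induction_on with
  | empty => simpa using IsCh.zero
  | insert i s hi ih =>
    rw [Finset.sum_insert hi]
    exact (h i (Finset.mem_insert_self _ _)).add
      (ih fun j hj => h j (Finset.mem_insert_of_mem hj))

namespace IsContr

variable {K : Set (Finset V)} {m κ : ℕ} {h : Finset V → Ch V}

theorem bd_ext (H : IsContr K m κ h) {m' : ℕ} (hm : m' ≤ m) {z : Ch V} (hz : IsCh K m' z) :
    bd (ext h z) + ext h (bd z) = z := by
  conv_lhs => rw [chain_eq_sum z]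
  conv_rhs => rw [chain_eq_sum z]
  rw [map_sum, map_sum, map_sum, map_sum, ← Finset.sum_add_distrib]
  refine Finset.sum_congr rfl fun σ hσ => ?_
  obtain ⟨h1, h2⟩ := hz σ hσ
  rw [ext_single, ext_bd_single, H.bd_eq σ h1 (by omega), add_assoc, add_self, add_zero]

theorem ext_ch (H : IsContr K m κ h) {m' : ℕ} (hm : m' ≤ m) {z : Ch V} (hz : IsCh K m' z) :
    IsCh K (m' + 1) (ext h z) := by
  rw [ext_apply]
  refine IsCh.sum _ _ fun σ hσ => ?_
  obtain ⟨h1, h2⟩ := hz σ hσ
  have := H.ch σ h1 (by omega)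
  rwa [h2] at this

theorem ext_card (H : IsContr K m κ h) {m' : ℕ} (hm : m' ≤ m) {z : Ch V} (hz : IsCh K m' z) :
    (ext h z).support.card ≤ z.support.card * κ := by
  rw [ext_apply]
  refine card_sum_le _ _ _ fun σ hσ => ?_
  obtain ⟨h1, h2⟩ := hz σ hσ
  exact H.card_le σ h1 (by omega)

/-- fillings from a contraction -/
theorem bf (H : IsContr K m κ h) {m' : ℕ} (hm : m' ≤ m) (s : ℕ) : BF K m' s (s * κ) := by
  intro z hz hbz hs
  refine ⟨ext h z, H.ext_ch hm hz, ?_, (H.ext_card hm hz).trans (Nat.mul_le_mul_right _ hs)⟩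
  have := H.bd_ext hm hz
  rwa [hbz, map_zero, add_zero] at this

end IsContr

theorem contr_zero {K : Set (Finset V)} {t : ℕ} (h0 : ∅ ∈ K) (hB : BF K 0 1 t) :
    ∃ h : Finset V → Ch V, IsContr K 0 t h := by
  obtain ⟨c, hc1, hc2, hc3⟩ := hB (Finsupp.single ∅ 1) (by
    intro σ hσ
    obtain rfl := Finset.mem_singleton.1 (Finsupp.support_single_subset hσ)
    exact ⟨h0, rfl⟩) (by rw [bd_single]; simp) (
    (Finset.card_le_card Finsupp.support_single_subset).trans (by simp))
  refine ⟨fun _ => c, ⟨?_, ?_, ?_⟩⟩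
  · intro σ _ hσ
    rw [Nat.le_zero.1 hσ]; exact hc1
  · intro σ _ hσ
    obtain rfl := Finset.card_eq_zero.1 (Nat.le_zero.1 hσ)
    simpa using hc2
  · intro σ _ _; exact hc3

theorem contr_succ {K : Set (Finset V)} (hK : ∀ σ ∈ K, ∀ v ∈ σ, σ.erase v ∈ K) {m κ t : ℕ}
    {h : Finset V → Ch V} (H : IsContr K m κ h) (hB : BF K (m + 1) (1 + (m + 1) * κ) t) :
    ∃ h' : Finset V → Ch V, IsContr K (m + 1) (max κ t) h' := by
  classical
  have key : ∀ σ : Finset V, ∃ c : Ch V, σ ∈ K → σ.card = m + 1 →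
      IsCh K (m + 1 + 1) c ∧ bd c = (Finsupp.single σ 1 : Ch V) + ∑ v ∈ σ, h (σ.erase v) ∧
      c.support.card ≤ t := by
    intro σ
    by_cases hσ : σ ∈ K ∧ σ.card = m + 1
    · obtain ⟨hσ1, hσ2⟩ := hσ
      have hcard : ∀ v ∈ σ, (σ.erase v).card = m := fun v hv => by
        rw [Finset.card_erase_of_mem hv, hσ2]; rfl
      have e1 : IsCh K (m + 1) ((Finsupp.single σ 1 : Ch V) + ∑ v ∈ σ, h (σ.erase v)) := by
        refine IsCh.add ?_ (IsCh.sum _ _ fun v hv => ?_)
        · intro τ hτ
          obtain rfl := Finset.mem_singleton.1 (Finsupp.support_single_subset hτ)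
          exact ⟨hσ1, hσ2⟩
        · have := H.ch (σ.erase v) (hK σ hσ1 v hv) (by rw [hcard v hv])
          rwa [hcard v hv] at this
      have e2 : bd ((Finsupp.single σ 1 : Ch V) + ∑ v ∈ σ, h (σ.erase v)) = 0 := by
        rw [map_add, map_sum, bd_single]
        have h1 : ∀ v ∈ σ, bd (h (σ.erase v)) = (Finsupp.single (σ.erase v) 1 : Ch V) +
            ∑ w ∈ σ.erase v, h ((σ.erase v).erase w) := fun v hv =>
          H.bd_eq _ (hK σ hσ1 v hv) (by rw [hcard v hv])
        rw [Finset.sum_congr rfl h1, Finset.sum_add_distrib, sum_sum_erase, add_zero, add_self]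
      have e3 : ((Finsupp.single σ 1 : Ch V) + ∑ v ∈ σ, h (σ.erase v)).support.card ≤
          1 + (m + 1) * κ := by
        refine (card_add_le _ _).trans ?_
        have h1 : (Finsupp.single σ 1 : Ch V).support.card ≤ 1 :=
          (Finset.card_le_card Finsupp.support_single_subset).trans (by simp)
        have h2 := card_sum_le σ (fun v => h (σ.erase v)) κ fun v hv =>
          H.card_le _ (hK σ hσ1 v hv) (by rw [hcard v hv])
        rw [hσ2] at h2
        omega
      obtain ⟨c, hc⟩ := hB _ e1 e2 e3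
      exact ⟨c, fun _ _ => hc⟩
    · exact ⟨0, fun h1 h2 => absurd ⟨h1, h2⟩ hσ⟩
  choose g hg using key
  refine ⟨fun σ => if σ.card = m + 1 then g σ else h σ, ⟨?_, ?_, ?_⟩⟩
  · intro σ hσ hc
    by_cases h1 : σ.card = m + 1
    · simp only [h1, if_true]
      exact (hg σ hσ h1).1
    · simp only [h1, if_false]
      exact H.ch σ hσ (by omega)
  · intro σ hσ hc
    have h2 : ∀ v ∈ σ, (if (σ.erase v).card = m + 1 then g (σ.erase v) else h (σ.erase v)) =
        h (σ.erase v) := by
      intro v hv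
      have h3 : (σ.erase v).card = σ.card - 1 := Finset.card_erase_of_mem hv
      have h4 : 0 < σ.card := Finset.card_pos.2 ⟨v, hv⟩
      rw [if_neg (by omega)]
    rw [Finset.sum_congr rfl h2]
    by_cases h1 : σ.card = m + 1
    · simp only [h1, if_true]
      exact (hg σ hσ h1).2.1
    · simp only [h1, if_false]
      exact H.bd_eq σ hσ (by omega)
  · intro σ hσ hc
    by_cases h1 : σ.card = m + 1
    · simp only [h1, if_true]
      exact (hg σ hσ h1).2.2.trans (le_max_right _ _)
    · simp only [h1, if_false]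
      exact (H.card_le σ hσ (by omega)).trans (le_max_left _ _)

end Crest.Agent.R066.Fill
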