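import Mathlib
import Crest.Agent.R066.FillChain

/-!
Row 66 (S0088), part (C): uniform bounded fillings in the complexes of subspaces opposite to a flag.

Abstract setting: `E` a vector space over `F`, `Λ : ℤ → Submodule F E` decreasing with
one-dimensional quotients, `W` opposite of index `j` when `W ⊕ Λ j = E`.
-/

set_option autoImplicit false
set_option linter.unusedSectionVars false

namespace Crest.Agent.R066.Fill

open Finset

section defs

variable {F : Type} [Field F] {E : Type} [AddCommGroup E] [Module F E]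

/-- decreasing flag with one-dimensional quotients -/
def IsFlag (Λ : ℤ → Submodule F E) : Prop :=
  ∀ j, ∃ x, x ∉ Λ (j + 1) ∧ Λ j = Λ (j + 1) ⊔ Submodule.span F {x}

/-- opposite of index `j` -/
def Opp (Λ : ℤ → Submodule F E) (j : ℤ) (W : Submodule F E) : Prop := IsCompl W (Λ j)

/-- chains of opposite subspaces strictly between `U0` and `U1` -/
def Iv (Λ : ℤ → Submodule F E) (U0 U1 : Submodule F E) : Set (Finset (Submodule F E)) :=
  {σ | (∀ W ∈ σ, U0 < W ∧ W < U1 ∧ ∃ j, Opp Λ j W) ∧ ∀ W ∈ σ, ∀ W' ∈ σ, W ≤ W' ∨ W' ≤ W}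

variable {Λ : ℤ → Submodule F E}

theorem IsFlag.succ_le (h : IsFlag Λ) (j : ℤ) : Λ (j + 1) ≤ Λ j := by
  obtain ⟨x, _, hx⟩ := h j
  rw [hx]; exact le_sup_left

theorem IsFlag.anti (h : IsFlag Λ) : Antitone Λ := antitone_int_of_succ_le h.succ_le

theorem IsFlag.succ_lt (h : IsFlag Λ) (j : ℤ) : Λ (j + 1) < Λ j := by
  obtain ⟨x, hx1, hx⟩ := h j
  refine lt_of_le_of_ne (h.succ_le j) fun e => hx1 ?_
  rw [e, hx]
  exact Submodule.mem_sup_right (Submodule.mem_span_singleton_self x)

theorem IsFlag.strictAnti (h : IsFlag Λ) : StrictAnti Λ := strictAnti_int_of_succ_lt h.succ_lt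

/-- comparison of opposite subspaces -/
theorem Opp.eq_of_le {i : ℤ} {W W' : Submodule F E} (h1 : Opp Λ i W) (h2 : Opp Λ i W')
    (h : W ≤ W') : W = W' := by
  apply le_antisymm h
  intro x hx
  have hx2 : x ∈ W ⊔ Λ i := by rw [h1.sup_eq_top]; trivial
  obtain ⟨y, hy, z, hz, rfl⟩ := Submodule.mem_sup.1 hx2
  have hz2 : z ∈ W' := by
    have := W'.sub_mem hx (h hy)
    simpa using this
  have hz3 : z ∈ W' ⊓ Λ i := ⟨hz2, hz⟩
  rw [h2.inf_eq_bot] at hz3
  rw [(Submodule.mem_bot F).1 hz3, add_zero]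
  exact hy

theorem Opp.index_le (hΛ : IsFlag Λ) {i j : ℤ} {W W' : Submodule F E} (h1 : Opp Λ i W)
    (h2 : Opp Λ j W') (h : W ≤ W') : i ≤ j := by
  by_contra hc
  push Not at hc
  -- `Λ i < Λ j`, `W ⊕ Λ i = E`, `W ⊓ Λ j ≤ W' ⊓ Λ j = ⊥`
  have h3 : Λ i < Λ j := hΛ.strictAnti hc
  obtain ⟨x, hx, hxi⟩ := SetLike.exists_of_lt h3
  have hx2 : x ∈ W ⊔ Λ i := by rw [h1.sup_eq_top]; trivial
  obtain ⟨y, hy, z, hz, rfl⟩ := Submodule.mem_sup.1 hx2
  have hy2 : y ∈ Λ j := by
    have := (Λ j).sub_mem hx (h3.le hz)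
    simpa using this
  have hy3 : y ∈ W' ⊓ Λ j := ⟨h hy, hy2⟩
  rw [h2.inf_eq_bot] at hy3
  rw [(Submodule.mem_bot F).1 hy3, zero_add] at hxi
  exact hxi hz

theorem Opp.index_lt (hΛ : IsFlag Λ) {i j : ℤ} {W W' : Submodule F E} (h1 : Opp Λ i W)
    (h2 : Opp Λ j W') (h : W < W') : i < j := by
  refine lt_of_le_of_ne (h1.index_le hΛ h2 h.le) ?_
  rintro rfl
  exact h.ne (h1.eq_of_le h2 h.le)

theorem Opp.index_eq (hΛ : IsFlag Λ) {i j : ℤ} {W : Submodule F E} (h1 : Opp Λ i W)
    (h2 : Opp Λ j W) : i = j :=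
  le_antisymm (h1.index_le hΛ h2 le_rfl) (h2.index_le hΛ h1 le_rfl)

/-- `W + Λ_{j+1}` is a proper subspace -/
theorem Opp.not_sup (hΛ : IsFlag Λ) {j : ℤ} {W : Submodule F E} (h : Opp Λ j W) :
    W ⊔ Λ (j + 1) ≠ ⊤ := by
  intro e
  have h2 : Opp Λ (j + 1) W :=
    ⟨h.disjoint.mono_right (hΛ.succ_le j), codisjoint_iff.2 e⟩
  have := h.index_eq hΛ h2
  omega

/-- adding a generic vector -/
theorem Opp.add_vec (hΛ : IsFlag Λ) {j : ℤ} {W : Submodule F E} (h : Opp Λ j W) {v : E}
    (hv : v ∉ W ⊔ Λ (j + 1)) : Opp Λ (j + 1) (W ⊔ Submodule.span F {v}) := by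
  obtain ⟨x, hx1, hx⟩ := hΛ j
  constructor
  · rw [disjoint_iff, eq_bot_iff]
    rintro y ⟨hy1, hy2⟩
    obtain ⟨w, hw, z, hz, rfl⟩ := Submodule.mem_sup.1 hy1
    obtain ⟨c, rfl⟩ := Submodule.mem_span_singleton.1 hz
    by_cases hc : c = 0
    · subst hc
      rw [zero_smul, add_zero] at hy2 ⊢
      have : w ∈ W ⊓ Λ j := ⟨hw, hΛ.succ_le j hy2⟩
      rwa [h.inf_eq_bot] at this
    · exfalso
      apply hv
      have h1 : c • v ∈ W ⊔ Λ (j + 1) := by
        have : c • v = -w + (w + c • v) := by abel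
        rw [this]
        exact Submodule.add_mem_sup (W.neg_mem hw) hy2
      have h2 := (W ⊔ Λ (j + 1)).smul_mem c⁻¹ h1
      rwa [smul_smul, inv_mul_cancel₀ hc, one_smul] at h2
  · rw [codisjoint_iff, eq_top_iff]
    -- write `v = w + l + c x` with `c ≠ 0`
    have hv2 : v ∈ W ⊔ Λ j := by rw [h.sup_eq_top]; trivial
    obtain ⟨w, hw, l, hl, hwl⟩ := Submodule.mem_sup.1 hv2
    rw [hx] at hl
    obtain ⟨l', hl', z, hz, rfl⟩ := Submodule.mem_sup.1 hl
    obtain ⟨c, rfl⟩ := Submodule.mem_span_singleton.1 hz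
    have hc : c ≠ 0 := by
      rintro rfl
      apply hv
      rw [← hwl, zero_smul, add_zero]
      exact Submodule.add_mem_sup hw hl'
    set S : Submodule F E := W ⊔ Submodule.span F {v} ⊔ Λ (j + 1) with hS
    have hWS : W ≤ S := le_sup_left.trans le_sup_left
    have hvS : v ∈ S :=
      (le_sup_left : W ⊔ Submodule.span F {v} ≤ S)
        (Submodule.mem_sup_right (Submodule.mem_span_singleton_self v))
    have hLS : Λ (j + 1) ≤ S := le_sup_right
    have hxS : x ∈ S := by
      have h1 : c • x ∈ S := by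
        have : c • x = v - w - l' := by rw [← hwl]; abel
        rw [this]
        exact S.sub_mem (S.sub_mem hvS (hWS hw)) (hLS hl')
      have h2 := S.smul_mem c⁻¹ h1
      rwa [smul_smul, inv_mul_cancel₀ hc, one_smul] at h2
    rw [← h.sup_eq_top, hx]
    refine sup_le hWS (sup_le hLS ?_)
    rw [Submodule.span_singleton_le_iff_mem]
    exact hxS

/-- avoiding few proper subspaces -/
theorem avoid [Fintype F] (U : Submodule F E) (𝓗 : Finset (Submodule F E))
    (h : ∀ H ∈ 𝓗, ¬ U ≤ H) (hc : 𝓗.card ≤ Fintype.card F) : ∃ x ∈ U, ∀ H ∈ 𝓗, x ∉ H := by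
  classical
  induction 𝓗 using Finset.induction_on with
  | empty => exact ⟨0, U.zero_mem, by simp⟩
  | insert H 𝓗 hH ih =>
    rw [Finset.card_insert_of_notMem hH] at hc
    obtain ⟨x, hxU, hx⟩ := ih (fun H' h' => h H' (Finset.mem_insert_of_mem h')) (by omega)
    by_cases hxH : x ∈ H
    · obtain ⟨y, hyU, hyH⟩ := SetLike.not_le_iff_exists.1 (h H (Finset.mem_insert_self _ _))
      -- the vectors `y + a x`
      by_contra hcon
      push Not at hcon
      have h1 : ∀ a : F, ∃ H' ∈ 𝓗, y + a • x ∈ H' := by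
        intro a
        obtain ⟨H', hH', h2⟩ := hcon (y + a • x) (U.add_mem hyU (U.smul_mem a hxU))
        rcases Finset.mem_insert.1 hH' with rfl | h3
        · exfalso
          apply hyH
          have := H'.sub_mem h2 (H'.smul_mem a hxH)
          simpa using this
        · exact ⟨H', h3, h2⟩
      choose f hf1 hf2 using h1
      have hinj : Function.Injective f := by
        intro a b hab
        by_contra hne
        have h2 := hf2 a
        have h3 := hf2 b
        rw [← hab] at h3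
        have h4 : (a - b) • x ∈ f a := by
          have := (f a).sub_mem h2 h3
          rw [sub_smul]
          have e : y + a • x - (y + b • x) = a • x - b • x := by abel
          rwa [e] at this
        have h5 := (f a).smul_mem (a - b)⁻¹ h4
        rw [smul_smul, inv_mul_cancel₀ (sub_ne_zero.2 hne), one_smul] at h5
        exact hx (f a) (hf1 a) h5
      have h6 : Fintype.card F ≤ 𝓗.card := by
        rw [← Finset.card_univ]
        exact Finset.card_le_card_of_injOn f (fun a _ => hf1 a) (hinj.injOn)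
      omega
    · refine ⟨x, hxU, fun H' hH' => ?_⟩
      rcases Finset.mem_insert.1 hH' with rfl | h3
      · exact hxH
      · exact hx H' h3

end defs

/-! ### Fillings -/

section fill

noncomputable local instance {F : Type} [Field F] {E : Type} [AddCommGroup E] [Module F E] :
    DecidableEq (Submodule F E) := Classical.decEq _

/-- vertices of a chain -/
def verts {V : Type*} [DecidableEq V] (z : Ch V) : Finset V := z.support.biUnion id

theorem mem_verts {V : Type*} [DecidableEq V] {z : Ch V} {v : V} :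
    v ∈ verts z ↔ ∃ σ ∈ z.support, v ∈ σ := by
  unfold verts; simp

theorem card_verts_le {V : Type*} [DecidableEq V] {K : Set (Finset V)} {m s : ℕ} {z : Ch V}
    (hz : IsCh K m z) (hs : z.support.card ≤ s) : (verts z).card ≤ m * s := by
  unfold verts
  calc (z.support.biUnion id).card ≤ ∑ σ ∈ z.support, σ.card := Finset.card_biUnion_le
    _ = ∑ σ ∈ z.support, m := Finset.sum_congr rfl fun σ hσ => (hz σ hσ).2
    _ = z.support.card * m := by simp
    _ ≤ m * s := by rw [Nat.mul_comm]; exact Nat.mul_le_mul_left _ hs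

variable {F : Type} [Field F] {E : Type} [AddCommGroup E] [Module F E]
variable {Λ : ℤ → Submodule F E}

theorem Iv_erase {U0 U1 : Submodule F E} {σ : Finset (Submodule F E)} (h : σ ∈ Iv Λ U0 U1)
    (W : Submodule F E) : σ.erase W ∈ Iv Λ U0 U1 :=
  ⟨fun X hX => h.1 X (Finset.mem_of_mem_erase hX), fun X hX Y hY =>
    h.2 X (Finset.mem_of_mem_erase hX) Y (Finset.mem_of_mem_erase hY)⟩

theorem Iv_insert {U0 U1 : Submodule F E} {σ : Finset (Submodule F E)} (h : σ ∈ Iv Λ U0 U1)
    {W : Submodule F E} (h0 : U0 < W) (h1 : W < U1) (hj : ∃ j, Opp Λ j W)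
    (hc : ∀ X ∈ σ, X ≤ W ∨ W ≤ X) : insert W σ ∈ Iv Λ U0 U1 := by
  constructor
  · intro X hX
    rcases Finset.mem_insert.1 hX with rfl | hX
    · exact ⟨h0, h1, hj⟩
    · exact h.1 X hX
  · intro X hX Y hY
    rcases Finset.mem_insert.1 hX with hX | hX <;> rcases Finset.mem_insert.1 hY with hY | hY
    · rw [hX, hY]; exact Or.inl le_rfl
    · rw [hX]; exact (hc Y hY).symm
    · rw [hY]; exact hc X hX
    · exact h.2 X hX Y hY

/-- bound for the generic step -/
def tf : ℕ → ℕ → ℕ
  | 0, s => s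
  | l + 1, s => s + tf l (2 * s)

theorem tf_mono (l : ℕ) : Monotone (tf l) := by
  induction l with
  | zero => exact fun a b h => h
  | succ l ih =>
    intro a b h
    exact Nat.add_le_add h (ih (Nat.mul_le_mul_left 2 h))

open Classical in
/-- The generic step: a generic vector `v` lets us push the cycle into the star of `U0 + v`. -/
theorem generic_step (hΛ : IsFlag Λ) {a b : ℤ} {U0 U1 : Submodule F E} (h0 : Opp Λ a U0)
    (h1 : Opp Λ b U1) (h01 : U0 ≤ U1) (hab : a + 1 < b) {v : E} (hv1 : v ∈ U1)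
    (hv0 : v ∉ U0 ⊔ Λ (a + 1)) (m : ℕ) : ∀ (l s : ℕ) (z : Ch (Submodule F E)),
    IsCh (Iv Λ U0 U1) m z → bd z = 0 → z.support.card ≤ s →
    (∀ W ∈ verts z, ∀ j, Opp Λ j W → (v ∈ W ∨ (v ∉ W ⊔ Λ (j + 1) ∧ j + 1 < b))) →
    ((verts z).filter (fun W => v ∉ W)).card ≤ l →
    ∃ c : Ch (Submodule F E), IsCh (Iv Λ U0 U1) (m + 1) c ∧ bd c = z ∧
      c.support.card ≤ tf l s := by
  intro l
  induction l with
  | zero =>
    intro s z hz hbz hs hgen hbad
    -- all vertices contain `v`
    have hall : ∀ W ∈ verts z, v ∈ W := by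
      intro W hW
      by_contra hvW
      have : W ∈ (verts z).filter (fun W => v ∉ W) := Finset.mem_filter.2 ⟨hW, hvW⟩
      rw [Finset.card_eq_zero.1 (Nat.le_zero.1 hbad)] at this
      simp at this
    set L : Submodule F E := U0 ⊔ Submodule.span F {v} with hL
    have hLo : Opp Λ (a + 1) L := h0.add_vec hΛ hv0
    have hvU0 : v ∉ U0 := fun h => hv0 (Submodule.mem_sup_left h)
    have hvL : v ∈ L := Submodule.mem_sup_right (Submodule.mem_span_singleton_self v)
    have h0L : U0 < L := lt_of_le_of_ne le_sup_left fun e => hvU0 (by rw [e]; exact hvL)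
    have hLU : L ≤ U1 := sup_le h01 (by rwa [Submodule.span_singleton_le_iff_mem])
    have hLU1 : L < U1 := lt_of_le_of_ne hLU fun e => by
      rw [e] at hLo
      have := hLo.index_eq hΛ h1
      omega
    refine ⟨cone L z, ?_, ?_, ?_⟩
    · intro σ hσ
      obtain ⟨τ, hτ, hLτ, rfl⟩ := mem_support_cone hσ
      obtain ⟨hτ1, hτ2⟩ := hz τ hτ
      refine ⟨Iv_insert hτ1 h0L hLU1 ⟨_, hLo⟩ fun X hX => Or.inr ?_, ?_⟩
      · refine sup_le (hτ1.1 X hX).1.le ?_
        rw [Submodule.span_singleton_le_iff_mem]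
        exact hall X (mem_verts.2 ⟨τ, hτ, hX⟩)
      · rw [Finset.card_insert_of_notMem hLτ, hτ2]
    · have := bd_cone L z
      rwa [hbz, map_zero, add_zero] at this
    · exact (card_cone_le _ _).trans hs
  | succ l ih =>
    intro s z hz hbz hs hgen hbad
    by_cases hne : ((verts z).filter (fun W => v ∉ W)).Nonempty
    · -- a maximal bad vertex
      obtain ⟨W, hWmax⟩ := Finset.exists_maximal hne
      have hWmem := Finset.mem_filter.1 hWmax.prop
      obtain ⟨hWv, hvW⟩ := hWmem
      obtain ⟨σ0, hσ0, hWσ0⟩ := mem_verts.1 hWv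
      obtain ⟨hU0W, hWU1, j, hj⟩ := (hz σ0 hσ0).1.1 W hWσ0
      obtain ⟨hvWL, hjb⟩ := (hgen W hWv j hj).resolve_left hvW
      set W' : Submodule F E := W ⊔ Submodule.span F {v} with hW'
      have hW'o : Opp Λ (j + 1) W' := hj.add_vec hΛ hvWL
      have hvW' : v ∈ W' := Submodule.mem_sup_right (Submodule.mem_span_singleton_self v)
      have hWW' : W < W' := lt_of_le_of_ne le_sup_left fun e => hvW (by rw [e]; exact hvW')
      have hW'U : W' ≤ U1 := sup_le hWU1.le (by rwa [Submodule.span_singleton_le_iff_mem])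
      have hW'U1 : W' < U1 := lt_of_le_of_ne hW'U fun e => by
        rw [e] at hW'o
        have := hW'o.index_eq hΛ h1
        omega
      -- vertices comparable with `W` are comparable with `W'`
      have hcomp : ∀ σ ∈ z.support, W ∈ σ → ∀ X ∈ σ, X ≤ W' ∨ W' ≤ X := by
        intro σ hσ hWσ X hX
        rcases (hz σ hσ).1.2 X hX W hWσ with h | h
        · exact Or.inl (h.trans hWW'.le)
        · by_cases hvX : v ∈ X
          · right
            exact sup_le h (by rwa [Submodule.span_singleton_le_iff_mem])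
          · left
            have hXbad : X ∈ (verts z).filter (fun W => v ∉ W) :=
              Finset.mem_filter.2 ⟨mem_verts.2 ⟨σ, hσ, hX⟩, hvX⟩
            exact (hWmax.le_of_ge hXbad h).trans hWW'.le
      set x := lnk W z with hx
      have hbx : bd x = 0 := by rw [hx, bd_lnk, hbz, map_zero]
      set c := cone W' x with hc
      have hbc : bd c = lnk W z := by
        have := bd_cone W' x
        rwa [hbx, map_zero, add_zero] at this
      -- simplices of `c`
      have hcs : ∀ σ ∈ c.support, ∃ τ ∈ z.support, W ∈ τ ∧ W' ∉ τ.erase W ∧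
          σ = insert W' (τ.erase W) := by
        intro σ hσ
        obtain ⟨ρ, hρ, h2, rfl⟩ := mem_support_cone hσ
        obtain ⟨τ, hτ, hWτ, rfl⟩ := mem_support_lnk hρ
        exact ⟨τ, hτ, hWτ, h2, rfl⟩
      have hcCh : IsCh (Iv Λ U0 U1) m c := by
        intro σ hσ
        obtain ⟨τ, hτ, hWτ, h2, rfl⟩ := hcs σ hσ
        obtain ⟨hτ1, hτ2⟩ := hz τ hτ
        refine ⟨Iv_insert (Iv_erase hτ1 W) (hU0W.trans hWW') hW'U1 ⟨_, hW'o⟩ fun X hX =>
          hcomp τ hτ hWτ X (Finset.mem_of_mem_erase hX), ?_⟩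
        rw [Finset.card_insert_of_notMem h2, Finset.card_erase_of_mem hWτ, hτ2]
        have : 0 < τ.card := Finset.card_pos.2 ⟨W, hWτ⟩
        omega
      have hcCh2 : IsCh (Iv Λ U0 U1) (m + 1) (cone W c) := by
        intro σ hσ
        obtain ⟨ρ, hρ, hWρ, rfl⟩ := mem_support_cone hσ
        obtain ⟨hρ1, hρ2⟩ := hcCh ρ hρ
        refine ⟨Iv_insert hρ1 hU0W hWU1 ⟨_, hj⟩ fun X hX => ?_, ?_⟩
        · obtain ⟨τ, hτ, hWτ, h2, rfl⟩ := hcs ρ hρ
          rcases Finset.mem_insert.1 hX with rfl | hX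
          · exact Or.inr hWW'.le
          · exact (hz τ hτ).1.2 X (Finset.mem_of_mem_erase hX) W hWτ
        · rw [Finset.card_insert_of_notMem hWρ, hρ2]
      set z' := del W z + c with hz'
      have hz'Ch : IsCh (Iv Λ U0 U1) m z' :=
        IsCh.add (fun σ hσ => hz σ (mem_support_del hσ).1) hcCh
      have hz's : z'.support.card ≤ 2 * s := by
        have h1 := card_add_le (del W z) c
        have h2 := card_del_le W z
        have h3 : c.support.card ≤ x.support.card := card_cone_le W' x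
        have h4 : x.support.card ≤ z.support.card := card_lnk_le W z
        have h5 : z'.support.card ≤ (del W z).support.card + c.support.card := h1
        omega
      have hverts : ∀ X ∈ verts z', X = W' ∨ (X ∈ verts z ∧ X ≠ W) := by
        intro X hX
        obtain ⟨σ, hσ, hXσ⟩ := mem_verts.1 hX
        rcases Finset.mem_union.1 (Finsupp.support_add hσ) with h | h
        · obtain ⟨h3, h4⟩ := mem_support_del h
          exact Or.inr ⟨mem_verts.2 ⟨σ, h3, hXσ⟩, fun e => h4 (e ▸ hXσ)⟩
        · obtain ⟨τ, hτ, hWτ, h2, rfl⟩ := hcs σ h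
          rcases Finset.mem_insert.1 hXσ with rfl | hX2
          · exact Or.inl rfl
          · exact Or.inr ⟨mem_verts.2 ⟨τ, hτ, Finset.mem_of_mem_erase hX2⟩,
              (Finset.mem_erase.1 hX2).1⟩
      have hgen' : ∀ X ∈ verts z', ∀ j, Opp Λ j X →
          (v ∈ X ∨ (v ∉ X ⊔ Λ (j + 1) ∧ j + 1 < b)) := by
        intro X hX i hi
        rcases hverts X hX with rfl | ⟨h3, _⟩
        · exact Or.inl hvW'
        · exact hgen X h3 i hi
      have hbad' : ((verts z').filter (fun W => v ∉ W)).card ≤ l := by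
        have hsub : (verts z').filter (fun W => v ∉ W) ⊆
            ((verts z).filter (fun W => v ∉ W)).erase W := by
          intro X hX
          obtain ⟨hX1, hX2⟩ := Finset.mem_filter.1 hX
          rcases hverts X hX1 with rfl | ⟨h3, h4⟩
          · exact absurd hvW' hX2
          · exact Finset.mem_erase.2 ⟨h4, Finset.mem_filter.2 ⟨h3, hX2⟩⟩
        have h3 := Finset.card_le_card hsub
        rw [Finset.card_erase_of_mem hWmax.prop] at h3
        omega
      obtain ⟨c', hc'1, hc'2, hc'3⟩ := ih (2 * s) z' hz'Ch (bd_elim hbz hbc) hz's hgen' hbad'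
      refine ⟨c' + cone W c, hc'1.add hcCh2, ?_, ?_⟩
      · rw [map_add, hc'2]
        exact (elim hbc).symm
      · have h3 := card_add_le c' (cone W c)
        have h4 := card_cone_le W c
        have h5 : c.support.card ≤ x.support.card := card_cone_le W' x
        have h6 : x.support.card ≤ z.support.card := card_lnk_le W z
        show _ ≤ s + tf l (2 * s)
        omega
    · rw [Finset.not_nonempty_iff_eq_empty] at hne
      obtain ⟨c, hc1, hc2, hc3⟩ := ih s z hz hbz hs hgen (by rw [hne]; simp)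
      refine ⟨c, hc1, hc2, hc3.trans ?_⟩
      show tf l s ≤ s + tf l (2 * s)
      have := tf_mono l (show s ≤ 2 * s by omega)
      omega

end fill

end Crest.Agent.R066.Fill
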