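import Mathlib
import Crest.Agent.R066.FillPoset

/-!
Row 66 (S0088), part (C): the uniform bounded filling theorem for intervals of opposite subspaces.
-/

set_option autoImplicit false
set_option linter.unusedSectionVars false

namespace Crest.Agent.R066.Fill

open Finset

noncomputable local instance {F : Type} [Field F] {E : Type} [AddCommGroup E] [Module F E] :
    DecidableEq (Submodule F E) := Classical.decEq _

theorem verts_del_add {V : Type*} [DecidableEq V] {v : V} {z c : Ch V} {X : V}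
    (hX : X ∈ verts (del v z + c)) : (X ∈ verts z ∧ X ≠ v) ∨ X ∈ verts c := by
  obtain ⟨σ, hσ, hXσ⟩ := mem_verts.1 hX
  rcases Finset.mem_union.1 (Finsupp.support_add hσ) with h | h
  · obtain ⟨h3, h4⟩ := mem_support_del h
    exact Or.inl ⟨mem_verts.2 ⟨σ, h3, hXσ⟩, fun e => h4 (e ▸ hXσ)⟩
  · exact Or.inr (mem_verts.2 ⟨σ, h, hXσ⟩)

/-- uniform bounded filling of intervals of height `u` -/
def IvFill (u m : ℕ) : Prop :=
  ∀ s : ℕ, ∃ t q0 : ℕ, ∀ (F : Type) [Field F] [Fintype F] (E : Type) [AddCommGroup E]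
    [Module F E] (Λ : ℤ → Submodule F E) (U0 U1 : Submodule F E) (a : ℤ), q0 ≤ Fintype.card F →
    IsFlag Λ → Opp Λ a U0 → Opp Λ (a + u) U1 → U0 ≤ U1 → BF (Iv Λ U0 U1) m s t

/-- the statement after elimination of the coatoms -/
theorem no_coatom_fill (u m : ℕ) (hu : m + 2 ≤ u) (s : ℕ) : ∃ t q0 : ℕ,
    ∀ (F : Type) [Field F] [Fintype F] (E : Type) [AddCommGroup E] [Module F E]
    (Λ : ℤ → Submodule F E) (U0 U1 : Submodule F E) (a : ℤ), q0 ≤ Fintype.card F →
    IsFlag Λ → Opp Λ a U0 → Opp Λ (a + u) U1 → U0 ≤ U1 →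
    ∀ z : Ch (Submodule F E), IsCh (Iv Λ U0 U1) m z → bd z = 0 → z.support.card ≤ s →
      (∀ W ∈ verts z, ¬ Opp Λ (a + u - 1) W) →
      ∃ c : Ch (Submodule F E), IsCh (Iv Λ U0 U1) (m + 1) c ∧ bd c = z ∧ c.support.card ≤ t := by
  classical
  refine ⟨tf (m * s) s, m * s + 1, ?_⟩
  intro F _ _ E _ _ Λ U0 U1 a hq hΛ h0 h1 h01 z hz hbz hs hco
  -- indices of the vertices
  have hidx : ∀ W ∈ verts z, ∃ j, Opp Λ j W ∧ U0 < W ∧ W < U1 ∧ a < j ∧ j + 1 < a + u := by
    intro W hW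
    obtain ⟨σ, hσ, hWσ⟩ := mem_verts.1 hW
    obtain ⟨h2, h3, j, hj⟩ := (hz σ hσ).1.1 W hWσ
    have h4 := h0.index_lt hΛ hj h2
    have h5 := hj.index_lt hΛ h1 h3
    have h6 : j ≠ a + u - 1 := fun e => hco W hW (e ▸ hj)
    exact ⟨j, hj, h2, h3, h4, by omega⟩
  choose! J hJ using hidx
  -- generic vector
  set 𝓗 : Finset (Submodule F E) :=
    insert (U0 ⊔ Λ (a + 1)) ((verts z).image (fun W => W ⊔ Λ (J W + 1))) with h𝓗
  have hcard : 𝓗.card ≤ Fintype.card F := by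
    have h2 : 𝓗.card ≤ ((verts z).image (fun W => W ⊔ Λ (J W + 1))).card + 1 :=
      Finset.card_insert_le _ _
    have h3 : ((verts z).image (fun W => W ⊔ Λ (J W + 1))).card ≤ (verts z).card :=
      Finset.card_image_le
    have h4 := card_verts_le hz hs
    omega
  have hproper : ∀ H ∈ 𝓗, ¬ U1 ≤ H := by
    intro H hH hle
    have key : ∀ (j : ℤ) (W : Submodule F E), Opp Λ j W → j + 1 ≤ a + u → ¬ U1 ≤ W ⊔ Λ (j + 1) := by
      intro j W hj hju hle
      apply hj.not_sup hΛ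
      rw [eq_top_iff, ← h1.sup_eq_top]
      exact sup_le hle ((hΛ.anti hju).trans le_sup_right)
    rcases Finset.mem_insert.1 hH with rfl | hH
    · exact key a U0 h0 (by omega) hle
    · obtain ⟨W, hW, rfl⟩ := Finset.mem_image.1 hH
      obtain ⟨hj, _, _, _, hju⟩ := hJ W hW
      exact key (J W) W hj (by omega) hle
  obtain ⟨v, hvU1, hv⟩ := avoid U1 𝓗 hproper hcard
  have hv0 : v ∉ U0 ⊔ Λ (a + 1) := hv _ (Finset.mem_insert_self _ _)
  refine generic_step hΛ h0 h1 h01 (by omega) hvU1 hv0 m (m * s) s z hz hbz hs ?_ ?_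
  · intro W hW j hj
    right
    obtain ⟨hj', _, _, _, hju⟩ := hJ W hW
    have e : j = J W := hj.index_eq hΛ hj'
    subst e
    exact ⟨hv _ (Finset.mem_insert_of_mem (Finset.mem_image_of_mem _ hW)), hju⟩
  · exact (Finset.card_filter_le _ _).trans (card_verts_le hz hs)

theorem elim_coatoms (u m : ℕ) (hu : m + 2 ≤ u)
    (ih : ∀ m', m' + 1 = m → IvFill (u - 1) m') (l : ℕ) : ∀ s : ℕ, ∃ t q0 : ℕ,
    ∀ (F : Type) [Field F] [Fintype F] (E : Type) [AddCommGroup E] [Module F E]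
    (Λ : ℤ → Submodule F E) (U0 U1 : Submodule F E) (a : ℤ), q0 ≤ Fintype.card F →
    IsFlag Λ → Opp Λ a U0 → Opp Λ (a + u) U1 → U0 ≤ U1 →
    ∀ z : Ch (Submodule F E), IsCh (Iv Λ U0 U1) m z → bd z = 0 → z.support.card ≤ s →
      (∃ C : Finset (Submodule F E), C.card ≤ l ∧ ∀ W ∈ verts z, Opp Λ (a + u - 1) W → W ∈ C) →
      ∃ c : Ch (Submodule F E), IsCh (Iv Λ U0 U1) (m + 1) c ∧ bd c = z ∧ c.support.card ≤ t := by
  classical
  induction l with
  | zero =>
    intro s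
    obtain ⟨t, q0, h⟩ := no_coatom_fill u m hu s
    refine ⟨t, q0, ?_⟩
    intro F _ _ E _ _ Λ U0 U1 a hq hΛ h0 h1 h01 z hz hbz hs hC
    obtain ⟨C, hC1, hC2⟩ := hC
    refine h F E Λ U0 U1 a hq hΛ h0 h1 h01 z hz hbz hs fun W hW hj => ?_
    have := hC2 W hW hj
    rw [Finset.card_eq_zero.1 (Nat.le_zero.1 hC1)] at this
    simp at this
  | succ l ihl =>
    intro s
    -- bound for the filling of the link of one coatom
    obtain ⟨t1, q1, h1'⟩ : ∃ t1 q1 : ℕ, ∀ m', m' + 1 = m → ∀ (F : Type) [Field F] [Fintype F]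
        (E : Type) [AddCommGroup E] [Module F E] (Λ : ℤ → Submodule F E)
        (U0 U1 : Submodule F E) (a : ℤ), q1 ≤ Fintype.card F →
        IsFlag Λ → Opp Λ a U0 → Opp Λ (a + (u - 1 : ℕ)) U1 → U0 ≤ U1 →
        BF (Iv Λ U0 U1) m' s t1 := by
      rcases Nat.eq_zero_or_pos m with h | h
      · exact ⟨0, 0, fun m' hm' => by omega⟩
      · obtain ⟨m', rfl⟩ : ∃ m', m = m' + 1 := ⟨m - 1, by omega⟩
        obtain ⟨t1, q1, h2⟩ := ih m' rfl s
        refine ⟨t1, q1, fun m'' hm'' => ?_⟩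
        obtain rfl : m'' = m' := by omega
        exact h2
    obtain ⟨t2, q2, h2'⟩ := ihl (s + t1)
    refine ⟨t2 + t1, max q1 q2, ?_⟩
    intro F _ _ E _ _ Λ U0 U1 a hq hΛ h0 h1 h01 z hz hbz hs hC
    have hq1 : q1 ≤ Fintype.card F := (le_max_left _ _).trans hq
    have hq2 : q2 ≤ Fintype.card F := (le_max_right _ _).trans hq
    obtain ⟨C, hC1, hC2⟩ := hC
    by_cases hex : ∃ W ∈ verts z, Opp Λ (a + u - 1) W
    · obtain ⟨W, hWz, hWo⟩ := hex
      obtain ⟨σ0, hσ0, hWσ0⟩ := mem_verts.1 hWz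
      obtain ⟨hU0W, hWU1, _⟩ := (hz σ0 hσ0).1.1 W hWσ0
      obtain ⟨m', rfl⟩ : ∃ m', m = m' + 1 := ⟨m - 1, by
        have h3 := (hz σ0 hσ0).2
        have h4 : 0 < σ0.card := Finset.card_pos.2 ⟨W, hWσ0⟩
        omega⟩
      -- elements of a simplex containing `W` are below `W`
      have hbelow : ∀ σ ∈ z.support, W ∈ σ → ∀ X ∈ σ.erase W, X < W := by
        intro σ hσ hWσ X hX
        obtain ⟨hXW, hXσ⟩ := Finset.mem_erase.1 hX
        rcases (hz σ hσ).1.2 X hXσ W hWσ with h | h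
        · exact lt_of_le_of_ne h hXW
        · exfalso
          obtain ⟨_, hXU1, j, hj⟩ := (hz σ hσ).1.1 X hXσ
          have h3 := hWo.index_lt hΛ hj (lt_of_le_of_ne h fun e => hXW e.symm)
          have h4 := hj.index_lt hΛ h1 hXU1
          omega
      have hWo' : Opp Λ (a + (u - 1 : ℕ)) W := by
        have : a + ((u - 1 : ℕ) : ℤ) = a + u - 1 := by
          rw [Nat.cast_sub (by omega)]; push_cast; ring
        rw [this]; exact hWo
      have hlz : IsCh (Iv Λ U0 W) m' (lnk W z) := by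
        intro σ hσ
        obtain ⟨τ, hτ, hWτ, rfl⟩ := mem_support_lnk hσ
        refine ⟨⟨fun X hX => ⟨((hz τ hτ).1.1 X (Finset.mem_of_mem_erase hX)).1,
          hbelow τ hτ hWτ X hX, ((hz τ hτ).1.1 X (Finset.mem_of_mem_erase hX)).2.2⟩,
          fun X hX Y hY => (hz τ hτ).1.2 X (Finset.mem_of_mem_erase hX) Y
            (Finset.mem_of_mem_erase hY)⟩, ?_⟩
        rw [Finset.card_erase_of_mem hWτ, (hz τ hτ).2]; rfl
      obtain ⟨c, hc1, hc2, hc3⟩ := h1' m' rfl F E Λ U0 W a hq1 hΛ h0 hWo' hU0W.le (lnk W z) hlz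
        (by rw [bd_lnk, hbz, map_zero]) ((card_lnk_le _ _).trans hs)
      have hcCh : IsCh (Iv Λ U0 U1) (m' + 1) c := by
        intro σ hσ
        obtain ⟨h3, h4⟩ := hc1 σ hσ
        exact ⟨⟨fun X hX => ⟨(h3.1 X hX).1, (h3.1 X hX).2.1.trans hWU1, (h3.1 X hX).2.2⟩, h3.2⟩, h4⟩
      have hcCh2 : IsCh (Iv Λ U0 U1) (m' + 1 + 1) (cone W c) := by
        intro σ hσ
        obtain ⟨ρ, hρ, hWρ, rfl⟩ := mem_support_cone hσ
        refine ⟨Iv_insert (hcCh ρ hρ).1 hU0W hWU1 ⟨_, hWo⟩ fun X hX =>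
          Or.inl ((hc1 ρ hρ).1.1 X hX).2.1.le, ?_⟩
        rw [Finset.card_insert_of_notMem hWρ, (hcCh ρ hρ).2]
      set z' := del W z + c with hz'
      have hz'Ch : IsCh (Iv Λ U0 U1) (m' + 1) z' :=
        IsCh.add (fun σ hσ => hz σ (mem_support_del hσ).1) hcCh
      have hz's : z'.support.card ≤ s + t1 := by
        have h3 : z'.support.card ≤ (del W z).support.card + c.support.card := card_add_le _ _
        have h4 := card_del_le W z
        omega
      obtain ⟨c', hc'1, hc'2, hc'3⟩ := h2' F E Λ U0 U1 a hq2 hΛ h0 h1 h01 z' hz'Ch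
        (bd_elim hbz hc2) hz's (by
          refine ⟨C.erase W, ?_, ?_⟩
          · rw [Finset.card_erase_of_mem (hC2 W hWz hWo)]; omega
          · intro X hX hXo
            rcases verts_del_add hX with ⟨h3, h4⟩ | h3
            · exact Finset.mem_erase.2 ⟨h4, hC2 X h3 hXo⟩
            · exfalso
              obtain ⟨σ, hσ, hXσ⟩ := mem_verts.1 h3
              have h4 := ((hc1 σ hσ).1.1 X hXσ).2.1
              exact h4.ne (hXo.eq_of_le hWo h4.le))
      refine ⟨c' + cone W c, hc'1.add hcCh2, ?_, ?_⟩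
      · rw [map_add, hc'2]
        exact (elim hc2).symm
      · have h3 := card_add_le c' (cone W c)
        have h4 := card_cone_le W c
        omega
    · obtain ⟨c, hc1, hc2, hc3⟩ := h2' F E Λ U0 U1 a hq2 hΛ h0 h1 h01 z hz hbz (by omega)
        ⟨∅, by simp, fun W hW hWo => absurd ⟨W, hW, hWo⟩ hex⟩
      exact ⟨c, hc1, hc2, by omega⟩

/-- **Uniform bounded filling for opposite complexes.** -/
theorem interval_fill (u : ℕ) : ∀ m : ℕ, m + 2 ≤ u → IvFill u m := by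
  induction u with
  | zero => intro m hm; omega
  | succ u ih =>
    intro m hm s
    obtain ⟨t, q0, h⟩ := elim_coatoms (u + 1) m hm (fun m' hm' => ih m' (by omega)) (m * s) s
    refine ⟨t, q0, ?_⟩
    intro F _ _ E _ _ Λ U0 U1 a hq hΛ h0 h1 h01 z hz hbz hs
    exact h F E Λ U0 U1 a hq hΛ h0 h1 h01 z hz hbz hs
      ⟨verts z, card_verts_le hz hs, fun W hW _ => hW⟩

end Crest.Agent.R066.Fill
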