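import Mathlib
import Crest.Agent.R066.FillInterval
import Crest.Agent.R066.FillContr

/-!
Row 66 (S0088), M2: uniform bounded fillings in one gap `A ≤ B` (relative version, finite range).
-/

set_option autoImplicit false
set_option linter.unusedSectionVars false

namespace Crest.Agent.R066.Fill

open Finset

noncomputable local instance {F : Type} [Field F] {E : Type} [AddCommGroup E] [Module F E] :
    DecidableEq (Submodule F E) := Classical.decEq _

section defs

variable {F : Type} [Field F] {E : Type} [AddCommGroup E] [Module F E]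

/-- a full flag between `A` and `B` (height `h`), decreasing, indexed by `0, …, h` -/
structure IsGap (A B : Submodule F E) (h : ℕ) (Λ : ℕ → Submodule F E) : Prop where
  leA : ∀ j, A ≤ Λ j
  leB : ∀ j, Λ j ≤ B
  step : ∀ j, j < h → ∃ x, x ∉ Λ (j + 1) ∧ Λ j = Λ (j + 1) ⊔ Submodule.span F {x}

/-- opposite of index `j`, relative to the gap -/
def GOpp (A B : Submodule F E) (h : ℕ) (Λ : ℕ → Submodule F E) (j : ℕ) (W : Submodule F E) :
    Prop := j ≤ h ∧ W ⊓ Λ j = A ∧ W ⊔ Λ j = B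

/-- chains of opposite subspaces strictly between `U0` and `U1` -/
def GIv (A B : Submodule F E) (h : ℕ) (Λ : ℕ → Submodule F E) (U0 U1 : Submodule F E) :
    Set (Finset (Submodule F E)) :=
  {σ | (∀ W ∈ σ, U0 < W ∧ W < U1 ∧ ∃ j, GOpp A B h Λ j W) ∧ ∀ W ∈ σ, ∀ W' ∈ σ, W ≤ W' ∨ W' ≤ W}

variable {A B : Submodule F E} {h : ℕ} {Λ : ℕ → Submodule F E}

theorem GOpp.leA {j : ℕ} {W : Submodule F E} (hW : GOpp A B h Λ j W) : A ≤ W := by
  rw [← hW.2.1]; exact inf_le_left

theorem GOpp.leB {j : ℕ} {W : Submodule F E} (hW : GOpp A B h Λ j W) : W ≤ B := by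
  rw [← hW.2.2]; exact le_sup_left

theorem IsGap.succ_le (hG : IsGap A B h Λ) {j : ℕ} (hj : j < h) : Λ (j + 1) ≤ Λ j := by
  obtain ⟨x, _, hx⟩ := hG.step j hj
  rw [hx]; exact le_sup_left

theorem IsGap.anti (hG : IsGap A B h Λ) {i j : ℕ} (hij : i ≤ j) (hj : j ≤ h) : Λ j ≤ Λ i := by
  induction j, hij using Nat.le_induction with
  | base => exact le_rfl
  | succ j hij ih => exact (hG.succ_le (by omega)).trans (ih (by omega))

theorem IsGap.lt (hG : IsGap A B h Λ) {i j : ℕ} (hij : i < j) (hj : j ≤ h) : Λ j < Λ i := by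
  refine lt_of_le_of_lt (hG.anti (show i + 1 ≤ j from hij) hj) ?_
  obtain ⟨x, hx1, hx⟩ := hG.step i (by omega)
  refine lt_of_le_of_ne (hG.succ_le (by omega)) fun e => hx1 ?_
  rw [e, hx]
  exact Submodule.mem_sup_right (Submodule.mem_span_singleton_self x)

theorem GOpp.eq_of_le {i : ℕ} {W W' : Submodule F E} (h1 : GOpp A B h Λ i W)
    (h2 : GOpp A B h Λ i W') (hle : W ≤ W') : W = W' := by
  apply le_antisymm hle
  intro x hx
  have hx2 : x ∈ W ⊔ Λ i := by rw [h1.2.2]; exact h2.leB hx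
  obtain ⟨y, hy, z, hz, rfl⟩ := Submodule.mem_sup.1 hx2
  have hz2 : z ∈ W' := by
    have := W'.sub_mem hx (hle hy)
    simpa using this
  have hz3 : z ∈ W' ⊓ Λ i := ⟨hz2, hz⟩
  rw [h2.2.1] at hz3
  exact W.add_mem hy (h1.leA hz3)

theorem GOpp.index_le (hG : IsGap A B h Λ) {i j : ℕ} {W W' : Submodule F E}
    (h1 : GOpp A B h Λ i W) (h2 : GOpp A B h Λ j W') (hle : W ≤ W') : i ≤ j := by
  by_contra hc
  push Not at hc
  have h3 : Λ i < Λ j := hG.lt hc h1.1
  obtain ⟨x, hx, hxi⟩ := SetLike.exists_of_lt h3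
  have hx2 : x ∈ W ⊔ Λ i := by rw [h1.2.2]; exact hG.leB j hx
  obtain ⟨y, hy, z, hz, rfl⟩ := Submodule.mem_sup.1 hx2
  have hy2 : y ∈ Λ j := by
    have := (Λ j).sub_mem hx (h3.le hz)
    simpa using this
  have hy3 : y ∈ W' ⊓ Λ j := ⟨hle hy, hy2⟩
  rw [h2.2.1] at hy3
  exact hxi ((Λ i).add_mem (hG.leA i hy3) hz)

theorem GOpp.index_lt (hG : IsGap A B h Λ) {i j : ℕ} {W W' : Submodule F E}
    (h1 : GOpp A B h Λ i W) (h2 : GOpp A B h Λ j W') (hlt : W < W') : i < j := by
  refine lt_of_le_of_ne (h1.index_le hG h2 hlt.le) ?_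
  rintro rfl
  exact hlt.ne (h1.eq_of_le h2 hlt.le)

theorem GOpp.index_eq (hG : IsGap A B h Λ) {i j : ℕ} {W : Submodule F E}
    (h1 : GOpp A B h Λ i W) (h2 : GOpp A B h Λ j W) : i = j :=
  le_antisymm (h1.index_le hG h2 le_rfl) (h2.index_le hG h1 le_rfl)

theorem GOpp.not_sup (hG : IsGap A B h Λ) {j : ℕ} {W : Submodule F E} (h1 : GOpp A B h Λ j W)
    (hj : j < h) : W ⊔ Λ (j + 1) ≠ B := by
  intro e
  have h2 : GOpp A B h Λ (j + 1) W := by
    refine ⟨hj, le_antisymm ?_ (le_inf h1.leA (hG.leA _)), e⟩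
    rw [← h1.2.1]
    exact inf_le_inf_left _ (hG.succ_le hj)
  have := h1.index_eq hG h2
  omega

theorem GOpp.add_vec (hG : IsGap A B h Λ) {j : ℕ} {W : Submodule F E} (h1 : GOpp A B h Λ j W)
    (hj : j < h) {v : E} (hvB : v ∈ B) (hv : v ∉ W ⊔ Λ (j + 1)) :
    GOpp A B h Λ (j + 1) (W ⊔ Submodule.span F {v}) := by
  obtain ⟨x, hx1, hx⟩ := hG.step j hj
  refine ⟨hj, le_antisymm ?_ (le_inf (h1.leA.trans le_sup_left) (hG.leA _)), ?_⟩
  · rintro y ⟨hy1, hy2⟩
    obtain ⟨w, hw, z, hz, rfl⟩ := Submodule.mem_sup.1 hy1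
    obtain ⟨c, rfl⟩ := Submodule.mem_span_singleton.1 hz
    by_cases hc : c = 0
    · subst hc
      rw [zero_smul, add_zero] at hy2 ⊢
      have : w ∈ W ⊓ Λ j := ⟨hw, hG.succ_le hj hy2⟩
      rwa [h1.2.1] at this
    · exfalso
      apply hv
      have h2 : c • v ∈ W ⊔ Λ (j + 1) := by
        have : c • v = -w + (w + c • v) := by abel
        rw [this]
        exact Submodule.add_mem_sup (W.neg_mem hw) hy2
      have h3 := (W ⊔ Λ (j + 1)).smul_mem c⁻¹ h2
      rwa [smul_smul, inv_mul_cancel₀ hc, one_smul] at h3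
  · apply le_antisymm
    · refine sup_le (sup_le h1.leB ?_) (hG.leB _)
      rwa [Submodule.span_singleton_le_iff_mem]
    · have hv2 : v ∈ W ⊔ Λ j := by rw [h1.2.2]; exact hvB
      obtain ⟨w, hw, l, hl, hwl⟩ := Submodule.mem_sup.1 hv2
      rw [hx] at hl
      obtain ⟨l', hl', z, hz, rfl⟩ := Submodule.mem_sup.1 hl
      obtain ⟨c, rfl⟩ := Submodule.mem_span_singleton.1 hz
      have hc : c ≠ 0 := by
        rintro rfl
        apply hv
        rw [← hwl, zero_smul, add_zero]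
        exact Submodule.add_mem_sup hw hl'
      set S : Submodule F E := W ⊔ Submodule.span F {v} ⊔ Λ (j + 1) with hS
      have hWS : W ≤ S := le_sup_left.trans le_sup_left
      have hvS : v ∈ S :=
        (le_sup_left : W ⊔ Submodule.span F {v} ≤ S)
          (Submodule.mem_sup_right (Submodule.mem_span_singleton_self v))
      have hLS : Λ (j + 1) ≤ S := le_sup_right
      have hxS : x ∈ S := by
        have h2 : c • x ∈ S := by
          have : c • x = v - w - l' := by rw [← hwl]; abel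
          rw [this]
          exact S.sub_mem (S.sub_mem hvS (hWS hw)) (hLS hl')
        have h3 := S.smul_mem c⁻¹ h2
        rwa [smul_smul, inv_mul_cancel₀ hc, one_smul] at h3
      have key : W ⊔ Λ j ≤ S := by
        rw [hx]
        refine sup_le hWS (sup_le hLS ?_)
        rw [Submodule.span_singleton_le_iff_mem]
        exact hxS
      rw [← h1.2.2]
      exact key

theorem GIv_erase {U0 U1 : Submodule F E} {σ : Finset (Submodule F E)}
    (hσ : σ ∈ GIv A B h Λ U0 U1) (W : Submodule F E) : σ.erase W ∈ GIv A B h Λ U0 U1 :=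
  ⟨fun X hX => hσ.1 X (Finset.mem_of_mem_erase hX), fun X hX Y hY =>
    hσ.2 X (Finset.mem_of_mem_erase hX) Y (Finset.mem_of_mem_erase hY)⟩

theorem GIv_insert {U0 U1 : Submodule F E} {σ : Finset (Submodule F E)}
    (hσ : σ ∈ GIv A B h Λ U0 U1)
    {W : Submodule F E} (h0 : U0 < W) (h1 : W < U1) (hj : ∃ j, GOpp A B h Λ j W)
    (hc : ∀ X ∈ σ, X ≤ W ∨ W ≤ X) : insert W σ ∈ GIv A B h Λ U0 U1 := by
  constructor
  · intro X hX
    rcases Finset.mem_insert.1 hX with rfl | hX
    · exact ⟨h0, h1, hj⟩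
    · exact hσ.1 X hX
  · intro X hX Y hY
    rcases Finset.mem_insert.1 hX with hX | hX <;> rcases Finset.mem_insert.1 hY with hY | hY
    · rw [hX, hY]; exact Or.inl le_rfl
    · rw [hX]; exact (hc Y hY).symm
    · rw [hY]; exact hc X hX
    · exact hσ.2 X hX Y hY

open Classical in
/-- The generic step: a generic vector `v` lets us push the cycle into the star of `U0 + v`. -/
theorem ggeneric_step (hG : IsGap A B h Λ) {a b : ℕ} {U0 U1 : Submodule F E}
    (h0 : GOpp A B h Λ a U0) (h1 : GOpp A B h Λ b U1) (h01 : U0 ≤ U1) (hab : a + 1 < b) {v : E}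
    (hv1 : v ∈ U1) (hv0 : v ∉ U0 ⊔ Λ (a + 1)) (m : ℕ) :
    ∀ (l s : ℕ) (z : Ch (Submodule F E)),
    IsCh (GIv A B h Λ U0 U1) m z → bd z = 0 → z.support.card ≤ s →
    (∀ W ∈ verts z, ∀ j, GOpp A B h Λ j W → (v ∈ W ∨ (v ∉ W ⊔ Λ (j + 1) ∧ j + 1 < b))) →
    ((verts z).filter (fun W => v ∉ W)).card ≤ l →
    ∃ c : Ch (Submodule F E), IsCh (GIv A B h Λ U0 U1) (m + 1) c ∧ bd c = z ∧
      c.support.card ≤ tf l s := by
  have hbh : b ≤ h := h1.1
  have hvB : v ∈ B := h1.leB hv1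
  intro l
  induction l with
  | zero =>
    intro s z hz hbz hs hgen hbad
    have hall : ∀ W ∈ verts z, v ∈ W := by
      intro W hW
      by_contra hvW
      have : W ∈ (verts z).filter (fun W => v ∉ W) := Finset.mem_filter.2 ⟨hW, hvW⟩
      rw [Finset.card_eq_zero.1 (Nat.le_zero.1 hbad)] at this
      simp at this
    set L : Submodule F E := U0 ⊔ Submodule.span F {v} with hL
    have hLo : GOpp A B h Λ (a + 1) L := h0.add_vec hG (by omega) hvB hv0
    have hvU0 : v ∉ U0 := fun h => hv0 (Submodule.mem_sup_left h)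
    have hvL : v ∈ L := Submodule.mem_sup_right (Submodule.mem_span_singleton_self v)
    have h0L : U0 < L := lt_of_le_of_ne le_sup_left fun e => hvU0 (by rw [e]; exact hvL)
    have hLU : L ≤ U1 := sup_le h01 (by rwa [Submodule.span_singleton_le_iff_mem])
    have hLU1 : L < U1 := lt_of_le_of_ne hLU fun e => by
      rw [e] at hLo
      have := hLo.index_eq hG h1
      omega
    refine ⟨cone L z, ?_, ?_, ?_⟩
    · intro σ hσ
      obtain ⟨τ, hτ, hLτ, rfl⟩ := mem_support_cone hσ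
      obtain ⟨hτ1, hτ2⟩ := hz τ hτ
      refine ⟨GIv_insert hτ1 h0L hLU1 ⟨_, hLo⟩ fun X hX => Or.inr ?_, ?_⟩
      · refine sup_le (hτ1.1 X hX).1.le ?_
        rw [Submodule.span_singleton_le_iff_mem]
        exact hall X (mem_verts.2 ⟨τ, hτ, hX⟩)
      · rw [Finset.card_insert_of_notMem hLτ, hτ2]
    · have := bd_cone L z
      rwa [hbz, map_zero, add_zero] at this
    · exact (card_cone_le _ _).trans hs
  | succ l ih =>
    intro s z hz hbz hs hgen hbad
    by_cases hne : ((verts z).filter (fun W => v ∉ W)).Nonempty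
    · obtain ⟨W, hWmax⟩ := Finset.exists_maximal hne
      have hWmem := Finset.mem_filter.1 hWmax.prop
      obtain ⟨hWv, hvW⟩ := hWmem
      obtain ⟨σ0, hσ0, hWσ0⟩ := mem_verts.1 hWv
      obtain ⟨hU0W, hWU1, j, hj⟩ := (hz σ0 hσ0).1.1 W hWσ0
      obtain ⟨hvWL, hjb⟩ := (hgen W hWv j hj).resolve_left hvW
      set W' : Submodule F E := W ⊔ Submodule.span F {v} with hW'
      have hW'o : GOpp A B h Λ (j + 1) W' := hj.add_vec hG (by omega) hvB hvWL
      have hvW' : v ∈ W' := Submodule.mem_sup_right (Submodule.mem_span_singleton_self v)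
      have hWW' : W < W' := lt_of_le_of_ne le_sup_left fun e => hvW (by rw [e]; exact hvW')
      have hW'U : W' ≤ U1 := sup_le hWU1.le (by rwa [Submodule.span_singleton_le_iff_mem])
      have hW'U1 : W' < U1 := lt_of_le_of_ne hW'U fun e => by
        rw [e] at hW'o
        have := hW'o.index_eq hG h1
        omega
      have hcomp : ∀ σ ∈ z.support, W ∈ σ → ∀ X ∈ σ, X ≤ W' ∨ W' ≤ X := by
        intro σ hσ hWσ X hX
        rcases (hz σ hσ).1.2 X hX W hWσ with h | h
        · exact Or.inl (h.trans hWW'.le)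
        · by_cases hvX : v ∈ X
          · right
            exact sup_le h (by rwa [Submodule.span_singleton_le_iff_mem])
          · left
            have hXbad : X ∈ (verts z).filter (fun W => v ∉ W) :=
              Finset.mem_filter.2 ⟨mem_verts.2 ⟨σ, hσ, hX⟩, hvX⟩
            exact (hWmax.le_of_ge hXbad h).trans hWW'.le
      set x := lnk W z with hx
      have hbx : bd x = 0 := by rw [hx, bd_lnk, hbz, map_zero]
      set c := cone W' x with hc
      have hbc : bd c = lnk W z := by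
        have := bd_cone W' x
        rwa [hbx, map_zero, add_zero] at this
      have hcs : ∀ σ ∈ c.support, ∃ τ ∈ z.support, W ∈ τ ∧ W' ∉ τ.erase W ∧
          σ = insert W' (τ.erase W) := by
        intro σ hσ
        obtain ⟨ρ, hρ, h2, rfl⟩ := mem_support_cone hσ
        obtain ⟨τ, hτ, hWτ, rfl⟩ := mem_support_lnk hρ
        exact ⟨τ, hτ, hWτ, h2, rfl⟩
      have hcCh : IsCh (GIv A B h Λ U0 U1) m c := by
        intro σ hσ
        obtain ⟨τ, hτ, hWτ, h2, rfl⟩ := hcs σ hσ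
        obtain ⟨hτ1, hτ2⟩ := hz τ hτ
        refine ⟨GIv_insert (GIv_erase hτ1 W) (hU0W.trans hWW') hW'U1 ⟨_, hW'o⟩ fun X hX =>
          hcomp τ hτ hWτ X (Finset.mem_of_mem_erase hX), ?_⟩
        rw [Finset.card_insert_of_notMem h2, Finset.card_erase_of_mem hWτ, hτ2]
        have : 0 < τ.card := Finset.card_pos.2 ⟨W, hWτ⟩
        omega
      have hcCh2 : IsCh (GIv A B h Λ U0 U1) (m + 1) (cone W c) := by
        intro σ hσ
        obtain ⟨ρ, hρ, hWρ, rfl⟩ := mem_support_cone hσ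
        obtain ⟨hρ1, hρ2⟩ := hcCh ρ hρ
        refine ⟨GIv_insert hρ1 hU0W hWU1 ⟨_, hj⟩ fun X hX => ?_, ?_⟩
        · obtain ⟨τ, hτ, hWτ, h2, rfl⟩ := hcs ρ hρ
          rcases Finset.mem_insert.1 hX with rfl | hX
          · exact Or.inr hWW'.le
          · exact (hz τ hτ).1.2 X (Finset.mem_of_mem_erase hX) W hWτ
        · rw [Finset.card_insert_of_notMem hWρ, hρ2]
      set z' := del W z + c with hz'
      have hz'Ch : IsCh (GIv A B h Λ U0 U1) m z' :=
        IsCh.add (fun σ hσ => hz σ (mem_support_del hσ).1) hcCh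
      have hz's : z'.support.card ≤ 2 * s := by
        have h1 := card_add_le (del W z) c
        have h2 := card_del_le W z
        have h3 : c.support.card ≤ x.support.card := card_cone_le W' x
        have h4 : x.support.card ≤ z.support.card := card_lnk_le W z
        have h5 : z'.support.card ≤ (del W z).support.card + c.support.card := h1
        omega
      have hverts : ∀ X ∈ verts z', X = W' ∨ (X ∈ verts z ∧ X ≠ W) := by
        intro X hX
        obtain ⟨σ, hσ, hXσ⟩ := mem_verts.1 hX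
        rcases Finset.mem_union.1 (Finsupp.support_add hσ) with h | h
        · obtain ⟨h3, h4⟩ := mem_support_del h
          exact Or.inr ⟨mem_verts.2 ⟨σ, h3, hXσ⟩, fun e => h4 (e ▸ hXσ)⟩
        · obtain ⟨τ, hτ, hWτ, h2, rfl⟩ := hcs σ h
          rcases Finset.mem_insert.1 hXσ with rfl | hX2
          · exact Or.inl rfl
          · exact Or.inr ⟨mem_verts.2 ⟨τ, hτ, Finset.mem_of_mem_erase hX2⟩,
              (Finset.mem_erase.1 hX2).1⟩
      have hgen' : ∀ X ∈ verts z', ∀ j, GOpp A B h Λ j X →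
          (v ∈ X ∨ (v ∉ X ⊔ Λ (j + 1) ∧ j + 1 < b)) := by
        intro X hX i hi
        rcases hverts X hX with rfl | ⟨h3, _⟩
        · exact Or.inl hvW'
        · exact hgen X h3 i hi
      have hbad' : ((verts z').filter (fun W => v ∉ W)).card ≤ l := by
        have hsub : (verts z').filter (fun W => v ∉ W) ⊆
            ((verts z).filter (fun W => v ∉ W)).erase W := by
          intro X hX
          obtain ⟨hX1, hX2⟩ := Finset.mem_filter.1 hX
          rcases hverts X hX1 with rfl | ⟨h3, h4⟩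
          · exact absurd hvW' hX2
          · exact Finset.mem_erase.2 ⟨h4, Finset.mem_filter.2 ⟨h3, hX2⟩⟩
        have h3 := Finset.card_le_card hsub
        rw [Finset.card_erase_of_mem hWmax.prop] at h3
        omega
      obtain ⟨c', hc'1, hc'2, hc'3⟩ := ih (2 * s) z' hz'Ch (bd_elim hbz hbc) hz's hgen' hbad'
      refine ⟨c' + cone W c, hc'1.add hcCh2, ?_, ?_⟩
      · rw [map_add, hc'2]
        exact (elim hbc).symm
      · have h3 := card_add_le c' (cone W c)
        have h4 := card_cone_le W c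
        have h5 : c.support.card ≤ x.support.card := card_cone_le W' x
        have h6 : x.support.card ≤ z.support.card := card_lnk_le W z
        show _ ≤ s + tf l (2 * s)
        omega
    · rw [Finset.not_nonempty_iff_eq_empty] at hne
      obtain ⟨c, hc1, hc2, hc3⟩ := ih s z hz hbz hs hgen (by rw [hne]; simp)
      refine ⟨c, hc1, hc2, hc3.trans ?_⟩
      show tf l s ≤ s + tf l (2 * s)
      have := tf_mono l (show s ≤ 2 * s by omega)
      omega

end defs

/-- uniform bounded filling of intervals of height `u` in gaps of height `h` -/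
def GFill (u m : ℕ) : Prop :=
  ∀ s : ℕ, ∃ t q0 : ℕ, ∀ (F : Type) [Field F] [Fintype F] (E : Type) [AddCommGroup E]
    [Module F E] (A B : Submodule F E) (h : ℕ) (Λ : ℕ → Submodule F E)
    (U0 U1 : Submodule F E) (a : ℕ), q0 ≤ Fintype.card F →
    IsGap A B h Λ → GOpp A B h Λ a U0 → GOpp A B h Λ (a + u) U1 → U0 ≤ U1 →
    BF (GIv A B h Λ U0 U1) m s t

/-- the statement after elimination of the coatoms -/
theorem gno_coatom_fill (u m : ℕ) (hu : m + 2 ≤ u) (s : ℕ) : ∃ t q0 : ℕ,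
    ∀ (F : Type) [Field F] [Fintype F] (E : Type) [AddCommGroup E] [Module F E]
    (A B : Submodule F E) (h : ℕ) (Λ : ℕ → Submodule F E)
    (U0 U1 : Submodule F E) (a : ℕ), q0 ≤ Fintype.card F →
    IsGap A B h Λ → GOpp A B h Λ a U0 → GOpp A B h Λ (a + u) U1 → U0 ≤ U1 →
    ∀ z : Ch (Submodule F E), IsCh (GIv A B h Λ U0 U1) m z → bd z = 0 → z.support.card ≤ s →
      (∀ W ∈ verts z, ¬ GOpp A B h Λ (a + u - 1) W) →
      ∃ c : Ch (Submodule F E), IsCh (GIv A B h Λ U0 U1) (m + 1) c ∧ bd c = z ∧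
        c.support.card ≤ t := by
  classical
  refine ⟨tf (m * s) s, m * s + 1, ?_⟩
  intro F _ _ E _ _ A B h Λ U0 U1 a hq hΛ h0 h1 h01 z hz hbz hs hco
  have hh : a + u ≤ h := h1.1
  have hidx : ∀ W ∈ verts z, ∃ j, GOpp A B h Λ j W ∧ U0 < W ∧ W < U1 ∧ a < j ∧ j + 1 < a + u := by
    intro W hW
    obtain ⟨σ, hσ, hWσ⟩ := mem_verts.1 hW
    obtain ⟨h2, h3, j, hj⟩ := (hz σ hσ).1.1 W hWσ
    have h4 := h0.index_lt hΛ hj h2
    have h5 := hj.index_lt hΛ h1 h3
    have h6 : j ≠ a + u - 1 := fun e => hco W hW (e ▸ hj)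
    exact ⟨j, hj, h2, h3, h4, by omega⟩
  choose! J hJ using hidx
  set 𝓗 : Finset (Submodule F E) :=
    insert (U0 ⊔ Λ (a + 1)) ((verts z).image (fun W => W ⊔ Λ (J W + 1))) with h𝓗
  have hcard : 𝓗.card ≤ Fintype.card F := by
    have h2 : 𝓗.card ≤ ((verts z).image (fun W => W ⊔ Λ (J W + 1))).card + 1 :=
      Finset.card_insert_le _ _
    have h3 : ((verts z).image (fun W => W ⊔ Λ (J W + 1))).card ≤ (verts z).card :=
      Finset.card_image_le
    have h4 := card_verts_le hz hs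
    omega
  have hproper : ∀ H ∈ 𝓗, ¬ U1 ≤ H := by
    intro H hH hle
    have key : ∀ (j : ℕ) (W : Submodule F E), GOpp A B h Λ j W → j + 1 ≤ a + u →
        ¬ U1 ≤ W ⊔ Λ (j + 1) := by
      intro j W hj hju hle
      apply hj.not_sup hΛ (by omega)
      apply le_antisymm (sup_le hj.leB (hΛ.leB _))
      conv_lhs => rw [← h1.2.2]
      exact sup_le hle ((hΛ.anti hju h1.1).trans le_sup_right)
    rcases Finset.mem_insert.1 hH with rfl | hH
    · exact key a U0 h0 (by omega) hle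
    · obtain ⟨W, hW, rfl⟩ := Finset.mem_image.1 hH
      obtain ⟨hj, _, _, _, hju⟩ := hJ W hW
      exact key (J W) W hj (by omega) hle
  obtain ⟨v, hvU1, hv⟩ := avoid U1 𝓗 hproper hcard
  have hv0 : v ∉ U0 ⊔ Λ (a + 1) := hv _ (Finset.mem_insert_self _ _)
  refine ggeneric_step hΛ h0 h1 h01 (by omega) hvU1 hv0 m (m * s) s z hz hbz hs ?_ ?_
  · intro W hW j hj
    right
    obtain ⟨hj', _, _, _, hju⟩ := hJ W hW
    have e : j = J W := hj.index_eq hΛ hj'
    subst e
    exact ⟨hv _ (Finset.mem_insert_of_mem (Finset.mem_image_of_mem _ hW)), hju⟩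
  · exact (Finset.card_filter_le _ _).trans (card_verts_le hz hs)

theorem gelim_coatoms (u m : ℕ) (hu : m + 2 ≤ u)
    (ih : ∀ m', m' + 1 = m → GFill (u - 1) m') (l : ℕ) : ∀ s : ℕ, ∃ t q0 : ℕ,
    ∀ (F : Type) [Field F] [Fintype F] (E : Type) [AddCommGroup E] [Module F E]
    (A B : Submodule F E) (h : ℕ) (Λ : ℕ → Submodule F E)
    (U0 U1 : Submodule F E) (a : ℕ), q0 ≤ Fintype.card F →
    IsGap A B h Λ → GOpp A B h Λ a U0 → GOpp A B h Λ (a + u) U1 → U0 ≤ U1 →
    ∀ z : Ch (Submodule F E), IsCh (GIv A B h Λ U0 U1) m z → bd z = 0 → z.support.card ≤ s →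
      (∃ C : Finset (Submodule F E), C.card ≤ l ∧
        ∀ W ∈ verts z, GOpp A B h Λ (a + u - 1) W → W ∈ C) →
      ∃ c : Ch (Submodule F E), IsCh (GIv A B h Λ U0 U1) (m + 1) c ∧ bd c = z ∧
        c.support.card ≤ t := by
  classical
  induction l with
  | zero =>
    intro s
    obtain ⟨t, q0, h⟩ := gno_coatom_fill u m hu s
    refine ⟨t, q0, ?_⟩
    intro F _ _ E _ _ A B h' Λ U0 U1 a hq hΛ h0 h1 h01 z hz hbz hs hC
    obtain ⟨C, hC1, hC2⟩ := hC
    refine h F E A B h' Λ U0 U1 a hq hΛ h0 h1 h01 z hz hbz hs fun W hW hj => ?_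
    have := hC2 W hW hj
    rw [Finset.card_eq_zero.1 (Nat.le_zero.1 hC1)] at this
    simp at this
  | succ l ihl =>
    intro s
    obtain ⟨t1, q1, h1'⟩ : ∃ t1 q1 : ℕ, ∀ m', m' + 1 = m → ∀ (F : Type) [Field F] [Fintype F]
        (E : Type) [AddCommGroup E] [Module F E] (A B : Submodule F E) (h : ℕ)
        (Λ : ℕ → Submodule F E)
        (U0 U1 : Submodule F E) (a : ℕ), q1 ≤ Fintype.card F →
        IsGap A B h Λ → GOpp A B h Λ a U0 → GOpp A B h Λ (a + (u - 1)) U1 → U0 ≤ U1 →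
        BF (GIv A B h Λ U0 U1) m' s t1 := by
      rcases Nat.eq_zero_or_pos m with h | h
      · exact ⟨0, 0, fun m' hm' => by omega⟩
      · obtain ⟨m', rfl⟩ : ∃ m', m = m' + 1 := ⟨m - 1, by omega⟩
        obtain ⟨t1, q1, h2⟩ := ih m' rfl s
        refine ⟨t1, q1, fun m'' hm'' => ?_⟩
        obtain rfl : m'' = m' := by omega
        exact h2
    obtain ⟨t2, q2, h2'⟩ := ihl (s + t1)
    refine ⟨t2 + t1, max q1 q2, ?_⟩
    intro F _ _ E _ _ A B h Λ U0 U1 a hq hΛ h0 h1 h01 z hz hbz hs hC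
    have hq1 : q1 ≤ Fintype.card F := (le_max_left _ _).trans hq
    have hq2 : q2 ≤ Fintype.card F := (le_max_right _ _).trans hq
    obtain ⟨C, hC1, hC2⟩ := hC
    by_cases hex : ∃ W ∈ verts z, GOpp A B h Λ (a + u - 1) W
    · obtain ⟨W, hWz, hWo⟩ := hex
      obtain ⟨σ0, hσ0, hWσ0⟩ := mem_verts.1 hWz
      obtain ⟨hU0W, hWU1, _⟩ := (hz σ0 hσ0).1.1 W hWσ0
      obtain ⟨m', rfl⟩ : ∃ m', m = m' + 1 := ⟨m - 1, by
        have h3 := (hz σ0 hσ0).2
        have h4 : 0 < σ0.card := Finset.card_pos.2 ⟨W, hWσ0⟩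
        omega⟩
      have hbelow : ∀ σ ∈ z.support, W ∈ σ → ∀ X ∈ σ.erase W, X < W := by
        intro σ hσ hWσ X hX
        obtain ⟨hXW, hXσ⟩ := Finset.mem_erase.1 hX
        rcases (hz σ hσ).1.2 X hXσ W hWσ with h | h
        · exact lt_of_le_of_ne h hXW
        · exfalso
          obtain ⟨_, hXU1, j, hj⟩ := (hz σ hσ).1.1 X hXσ
          have h3 := hWo.index_lt hΛ hj (lt_of_le_of_ne h fun e => hXW e.symm)
          have h4 := hj.index_lt hΛ h1 hXU1
          omega
      have hWo' : GOpp A B h Λ (a + (u - 1)) W := by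
        have : a + (u - 1) = a + u - 1 := by omega
        rw [this]; exact hWo
      have hlz : IsCh (GIv A B h Λ U0 W) m' (lnk W z) := by
        intro σ hσ
        obtain ⟨τ, hτ, hWτ, rfl⟩ := mem_support_lnk hσ
        refine ⟨⟨fun X hX => ⟨((hz τ hτ).1.1 X (Finset.mem_of_mem_erase hX)).1,
          hbelow τ hτ hWτ X hX, ((hz τ hτ).1.1 X (Finset.mem_of_mem_erase hX)).2.2⟩,
          fun X hX Y hY => (hz τ hτ).1.2 X (Finset.mem_of_mem_erase hX) Y
            (Finset.mem_of_mem_erase hY)⟩, ?_⟩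
        rw [Finset.card_erase_of_mem hWτ, (hz τ hτ).2]; rfl
      obtain ⟨c, hc1, hc2, hc3⟩ := h1' m' rfl F E A B h Λ U0 W a hq1 hΛ h0 hWo' hU0W.le (lnk W z)
        hlz (by rw [bd_lnk, hbz, map_zero]) ((card_lnk_le _ _).trans hs)
      have hcCh : IsCh (GIv A B h Λ U0 U1) (m' + 1) c := by
        intro σ hσ
        obtain ⟨h3, h4⟩ := hc1 σ hσ
        exact ⟨⟨fun X hX => ⟨(h3.1 X hX).1, (h3.1 X hX).2.1.trans hWU1, (h3.1 X hX).2.2⟩, h3.2⟩, h4⟩
      have hcCh2 : IsCh (GIv A B h Λ U0 U1) (m' + 1 + 1) (cone W c) := by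
        intro σ hσ
        obtain ⟨ρ, hρ, hWρ, rfl⟩ := mem_support_cone hσ
        refine ⟨GIv_insert (hcCh ρ hρ).1 hU0W hWU1 ⟨_, hWo⟩ fun X hX =>
          Or.inl ((hc1 ρ hρ).1.1 X hX).2.1.le, ?_⟩
        rw [Finset.card_insert_of_notMem hWρ, (hcCh ρ hρ).2]
      set z' := del W z + c with hz'
      have hz'Ch : IsCh (GIv A B h Λ U0 U1) (m' + 1) z' :=
        IsCh.add (fun σ hσ => hz σ (mem_support_del hσ).1) hcCh
      have hz's : z'.support.card ≤ s + t1 := by
        have h3 : z'.support.card ≤ (del W z).support.card + c.support.card := card_add_le _ _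
        have h4 := card_del_le W z
        omega
      obtain ⟨c', hc'1, hc'2, hc'3⟩ := h2' F E A B h Λ U0 U1 a hq2 hΛ h0 h1 h01 z' hz'Ch
        (bd_elim hbz hc2) hz's (by
          refine ⟨C.erase W, ?_, ?_⟩
          · rw [Finset.card_erase_of_mem (hC2 W hWz hWo)]; omega
          · intro X hX hXo
            rcases verts_del_add hX with ⟨h3, h4⟩ | h3
            · exact Finset.mem_erase.2 ⟨h4, hC2 X h3 hXo⟩
            · exfalso
              obtain ⟨σ, hσ, hXσ⟩ := mem_verts.1 h3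
              have h4 := ((hc1 σ hσ).1.1 X hXσ).2.1
              exact h4.ne (hXo.eq_of_le hWo h4.le))
      refine ⟨c' + cone W c, hc'1.add hcCh2, ?_, ?_⟩
      · rw [map_add, hc'2]
        exact (elim hc2).symm
      · have h3 := card_add_le c' (cone W c)
        have h4 := card_cone_le W c
        omega
    · obtain ⟨c, hc1, hc2, hc3⟩ := h2' F E A B h Λ U0 U1 a hq2 hΛ h0 h1 h01 z hz hbz (by omega)
        ⟨∅, by simp, fun W hW hWo => absurd ⟨W, hW, hWo⟩ hex⟩
      exact ⟨c, hc1, hc2, by omega⟩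

/-- **Uniform bounded filling for one gap.** -/
theorem gap_fill (u : ℕ) : ∀ m : ℕ, m + 2 ≤ u → GFill u m := by
  induction u with
  | zero => intro m hm; omega
  | succ u ih =>
    intro m hm s
    obtain ⟨t, q0, h⟩ := gelim_coatoms (u + 1) m hm (fun m' hm' => ih m' (by omega)) (m * s) s
    refine ⟨t, q0, ?_⟩
    intro F _ _ E _ _ A B h' Λ U0 U1 a hq hΛ h0 h1 h01 z hz hbz hs
    exact h F E A B h' Λ U0 U1 a hq hΛ h0 h1 h01 z hz hbz hs
      ⟨verts z, card_verts_le hz hs, fun W hW _ => hW⟩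

end Crest.Agent.R066.Fill
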