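import Crest.Agent.R066.Basic
import Crest.Agent.R066.GapFill

/-!
Row 66 (S0088), M2: the relation `Gen` of `Basic.lean` in one gap `A ≤ B` is the relation `GOpp`
for the induced flag.
-/

set_option autoImplicit false
set_option linter.unusedSectionVars false
open Module (finrank)

namespace Crest.Agent.R066.Fill

section

variable {F Q : Type} [Field F] [AddCommGroup Q] [Module F Q] [FiniteDimensional F Q]

/-- induced filtration -/
def indM (Fl : ℕ → Submodule F Q) (A B : Submodule F Q) (u : ℕ) : Submodule F Q :=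
  A ⊔ (Fl u ⊓ B)

variable {Fl : ℕ → Submodule F Q} {A B : Submodule F Q}

theorem le_indM (u : ℕ) : A ≤ indM Fl A B u := le_sup_left

theorem indM_le (hAB : A ≤ B) (u : ℕ) : indM Fl A B u ≤ B := sup_le hAB inf_le_right

theorem indM_mono (hmono : Monotone Fl) : Monotone (indM Fl A B) := fun _ _ h =>
  sup_le_sup_left (inf_le_inf_right _ (hmono h)) _

theorem indM_inf {W : Submodule F Q} (hAW : A ≤ W) (hWB : W ≤ B) (u : ℕ) :
    indM Fl A B u ⊓ W = A ⊔ (Fl u ⊓ W) := by
  unfold indM
  rw [sup_inf_assoc_of_le _ hAW, inf_assoc, inf_eq_right.2 hWB]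

theorem finrank_indM_inf {W : Submodule F Q} (hAW : A ≤ W) (hWB : W ≤ B) (u : ℕ) :
    finrank F ↥(indM Fl A B u ⊓ W) + finrank F ↥(Fl u ⊓ A) =
      finrank F A + finrank F ↥(Fl u ⊓ W) := by
  rw [indM_inf hAW hWB]
  have h1 := Submodule.finrank_sup_add_finrank_inf_eq A (Fl u ⊓ W)
  have h2 : A ⊓ (Fl u ⊓ W) = Fl u ⊓ A := by
    rw [inf_left_comm, inf_eq_left.2 hAW]
  rwa [h2] at h1

theorem finrank_indM (hAB : A ≤ B) (u : ℕ) :
    finrank F ↥(indM Fl A B u) + finrank F ↥(Fl u ⊓ A) =
      finrank F A + finrank F ↥(Fl u ⊓ B) := by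
  have h1 := finrank_indM_inf (Fl := Fl) hAB le_rfl u
  rwa [inf_eq_left.2 (indM_le hAB u)] at h1

/-- `Gen` in terms of the induced filtration -/
theorem gen_iff (hAB : A ≤ B) {W : Submodule F Q} (hAW : A ≤ W) (hWB : W ≤ B) :
    Gen Fl A B W ↔ ∀ u, finrank F ↥(indM Fl A B u ⊓ W) =
      max (finrank F A) (finrank F ↥(indM Fl A B u) - (finrank F B - finrank F W)) := by
  have hW : finrank F W ≤ finrank F B := Submodule.finrank_mono hWB
  constructor
  · rintro ⟨_, _, h⟩ u
    have h1 := finrank_indM_inf (Fl := Fl) hAW hWB u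
    have h2 := finrank_indM (Fl := Fl) hAB u
    have h3 := h u
    omega
  · intro h
    refine ⟨hAW, hWB, fun u => ?_⟩
    have h1 := finrank_indM_inf (Fl := Fl) hAW hWB u
    have h2 := finrank_indM (Fl := Fl) hAB u
    have h3 := h u
    have h4 : finrank F ↥(Fl u ⊓ A) ≤ finrank F A := Submodule.finrank_mono inf_le_right
    omega

/-- steps of the induced filtration -/
theorem indM_step {n : ℕ} (hmono : Monotone Fl) (hfl : ∀ u ≤ n, finrank F ↥(Fl u) = u)
    (hAB : A ≤ B) {u : ℕ} (hu : u < n) :
    finrank F ↥(indM Fl A B (u + 1)) ≤ finrank F ↥(indM Fl A B u) + 1 := by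
  have h1 := finrank_indM (Fl := Fl) hAB u
  have h2 := finrank_indM (Fl := Fl) hAB (u + 1)
  have h3 : finrank F ↥(Fl (u + 1) ⊓ B) ≤ finrank F ↥(Fl u ⊓ B) + 1 := by
    have e1 := Submodule.finrank_sup_add_finrank_inf_eq (Fl u) (Fl (u + 1) ⊓ B)
    have e2 : Fl u ⊓ (Fl (u + 1) ⊓ B) = Fl u ⊓ B := by
      rw [← inf_assoc, inf_eq_left.2 (hmono (Nat.le_succ u))]
    rw [e2, hfl u (by omega)] at e1
    have e3 : finrank F ↥(Fl u ⊔ Fl (u + 1) ⊓ B) ≤ finrank F ↥(Fl (u + 1)) :=
      Submodule.finrank_mono (sup_le (hmono (Nat.le_succ u)) inf_le_left)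
    rw [hfl (u + 1) (by omega)] at e3
    omega
  have h4 : finrank F ↥(Fl u ⊓ A) ≤ finrank F ↥(Fl (u + 1) ⊓ A) :=
    Submodule.finrank_mono (inf_le_inf_right _ (hmono (Nat.le_succ u)))
  omega

/-- discrete intermediate values -/
theorem exists_index {n : ℕ} (hn : finrank F Q = n) (hmono : Monotone Fl)
    (hfl : ∀ u ≤ n, finrank F ↥(Fl u) = u) (hAB : A ≤ B) {r : ℕ} (h1 : finrank F A ≤ r)
    (h2 : r ≤ finrank F B) : ∃ u ≤ n, finrank F ↥(indM Fl A B u) = r := by
  have h0 : finrank F ↥(indM Fl A B 0) = finrank F A := by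
    have : Fl 0 = ⊥ := by
      apply Submodule.finrank_eq_zero.1
      exact hfl 0 (Nat.zero_le _)
    unfold indM
    rw [this, bot_inf_eq, sup_bot_eq]
  have hn' : finrank F ↥(indM Fl A B n) = finrank F B := by
    have : Fl n = ⊤ := by
      apply Submodule.eq_top_of_finrank_eq
      rw [hfl n le_rfl, hn]
    unfold indM
    rw [this, top_inf_eq, sup_eq_right.2 hAB]
  -- largest `u ≤ n` with value `≤ r`
  have key : ∀ v ≤ n, (∃ u ≤ v, finrank F ↥(indM Fl A B u) = r) ∨
      finrank F ↥(indM Fl A B v) < r ∨ False := by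
    intro v
    induction v with
    | zero =>
      intro _
      rcases h1.lt_or_eq with h | h
      · right; left; rw [h0]; exact h
      · left; exact ⟨0, le_rfl, h0.trans h⟩
    | succ v ih =>
      intro hv
      rcases ih (by omega) with ⟨u, hu, h⟩ | h | h
      · left; exact ⟨u, by omega, h⟩
      · have h3 := indM_step hmono hfl hAB (show v < n by omega)
        rcases Nat.lt_or_ge (finrank F ↥(indM Fl A B (v + 1))) r with h4 | h4
        · right; left; exact h4
        · left; exact ⟨v + 1, le_rfl, by omega⟩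
      · exact absurd h id
  rcases key n le_rfl with ⟨u, hu, h⟩ | h | h
  · exact ⟨u, hu, h⟩
  · rw [hn'] at h; omega
  · exact absurd h id

theorem eq_of_le_finrank {X Y : Submodule F Q} (h : X ≤ Y) (hf : finrank F Y ≤ finrank F X) :
    X = Y := Submodule.eq_of_le_of_finrank_le h hf

end

theorem gap_bridge {F Q : Type} [Field F] [AddCommGroup Q] [Module F Q] [FiniteDimensional F Q]
    {n : ℕ} (hn : finrank F Q = n) (Fl : ℕ → Submodule F Q) (hmono : Monotone Fl)
    (hfl : ∀ u ≤ n, finrank F ↥(Fl u) = u) (A B : Submodule F Q) (hAB : A ≤ B) :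
    ∃ Λ : ℕ → Submodule F Q, IsGap A B (finrank F B - finrank F A) Λ ∧ Λ 0 = B ∧
      Λ (finrank F B - finrank F A) = A ∧
      ∀ W, A ≤ W → W ≤ B →
        (Gen Fl A B W ↔ ∃ j, GOpp A B (finrank F B - finrank F A) Λ j W) := by
  classical
  have hab : finrank F A ≤ finrank F B := Submodule.finrank_mono hAB
  have hex : ∀ j, ∃ u, j ≤ finrank F B - finrank F A →
      finrank F ↥(indM Fl A B u) = finrank F B - j := by
    intro j
    by_cases hj : j ≤ finrank F B - finrank F A
    · obtain ⟨u, _, hu⟩ := exists_index hn hmono hfl hAB (r := finrank F B - j) (by omega)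
        (by omega)
      exact ⟨u, fun _ => hu⟩
    · exact ⟨0, fun h => absurd h hj⟩
  choose u hu using hex
  -- comparison
  have hcmp : ∀ v w, finrank F ↥(indM Fl A B v) ≤ finrank F ↥(indM Fl A B w) →
      indM Fl A B v ≤ indM Fl A B w := by
    intro v w h
    rcases le_total v w with h1 | h1
    · exact indM_mono hmono h1
    · exact (eq_of_le_finrank (indM_mono hmono h1) h).ge
  refine ⟨fun j => if j ≤ finrank F B - finrank F A then indM Fl A B (u j) else A,
    ⟨?_, ?_, ?_⟩, ?_, ?_, ?_⟩
  · intro j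
    split_ifs
    · exact le_indM _
    · exact le_rfl
  · intro j
    split_ifs
    · exact indM_le hAB _
    · exact hAB
  · intro j hj
    have e1 := hu j hj.le
    have e2 := hu (j + 1) hj
    rw [if_pos hj.le, if_pos (show j + 1 ≤ finrank F B - finrank F A from hj)]
    have hlt : indM Fl A B (u (j + 1)) < indM Fl A B (u j) := by
      refine lt_of_le_of_ne (hcmp _ _ (by omega)) fun e => ?_
      have : finrank F ↥(indM Fl A B (u (j + 1))) = finrank F ↥(indM Fl A B (u j)) := by rw [e]
      omega
    obtain ⟨x, hx1, hx2⟩ := SetLike.exists_of_lt hlt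
    refine ⟨x, hx2, ?_⟩
    symm
    apply eq_of_le_finrank
    · refine sup_le hlt.le ?_
      rwa [Submodule.span_singleton_le_iff_mem]
    · have h3 : indM Fl A B (u (j + 1)) < indM Fl A B (u (j + 1)) ⊔ Submodule.span F {x} := by
        refine lt_of_le_of_ne le_sup_left fun e => hx2 ?_
        rw [e]
        exact Submodule.mem_sup_right (Submodule.mem_span_singleton_self x)
      have h4 := Submodule.finrank_lt_finrank_of_lt h3
      omega
  · dsimp only
    rw [if_pos (Nat.zero_le _)]
    apply eq_of_le_finrank (indM_le hAB _)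
    rw [hu 0 (Nat.zero_le _)]; omega
  · dsimp only
    rw [if_pos le_rfl]
    symm
    apply eq_of_le_finrank (le_indM _)
    rw [hu _ le_rfl]; omega
  · intro W hAW hWB
    have hAW' : finrank F A ≤ finrank F W := Submodule.finrank_mono hAW
    have hWB' : finrank F W ≤ finrank F B := Submodule.finrank_mono hWB
    rw [gen_iff hAB hAW hWB]
    constructor
    · intro h
      have hj : finrank F W - finrank F A ≤ finrank F B - finrank F A := by omega
      refine ⟨finrank F W - finrank F A, hj, ?_, ?_⟩
      · dsimp only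
        rw [if_pos hj, inf_comm]
        symm
        apply eq_of_le_finrank (le_inf (le_indM _) hAW)
        rw [h, hu _ hj]
        omega
      · dsimp only
        rw [if_pos hj]
        apply eq_of_le_finrank (sup_le hWB (indM_le hAB _))
        have h1 := Submodule.finrank_sup_add_finrank_inf_eq W
          (indM Fl A B (u (finrank F W - finrank F A)))
        rw [inf_comm, h, hu _ hj] at h1
        omega
    · rintro ⟨j, hj, h1, h2⟩ v
      dsimp only at h1 h2
      rw [if_pos hj] at h1 h2
      have h3 := Submodule.finrank_sup_add_finrank_inf_eq W (indM Fl A B (u j))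
      rw [h1, h2] at h3
      have h4 := hu j hj
      rcases Nat.lt_or_ge (finrank F ↥(indM Fl A B (u j))) (finrank F ↥(indM Fl A B v)) with h5 | h5
      · -- large
        have h6 : W ⊔ indM Fl A B v = B := by
          apply le_antisymm (sup_le hWB (indM_le hAB _))
          exact h2.ge.trans (sup_le_sup_left (hcmp _ _ h5.le) _)
        have h7 := Submodule.finrank_sup_add_finrank_inf_eq W (indM Fl A B v)
        rw [h6, inf_comm] at h7
        omega
      · -- small
        have h6 : indM Fl A B v ⊓ W = A := by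
          apply le_antisymm
          · exact (le_of_eq (inf_comm _ _)).trans ((inf_le_inf_left _ (hcmp _ _ h5)).trans h1.le)
          · exact le_inf (le_indM _) hAW
        rw [h6]
        omega

end Crest.Agent.R066.Fill
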