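import Mathlib
import Crest.Agent.R066.FillContr

/-!
Row 66 (S0088), M2: join of contractions.
-/

set_option autoImplicit false
set_option linter.unusedSectionVars false

namespace Crest.Agent.R066.Fill

open Finset

variable {V : Type*} [DecidableEq V]

/-- a contraction of `K` below cardinality `a`, with supports bounded by `κ` -/
structure CLt (K : Set (Finset V)) (a κ : ℕ) (h : Finset V → Ch V) : Prop where
  ch : ∀ σ ∈ K, σ.card < a → IsCh K (σ.card + 1) (h σ)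
  bd_eq : ∀ σ ∈ K, σ.card < a →
    bd (h σ) = (Finsupp.single σ 1 : Ch V) + ∑ v ∈ σ, h (σ.erase v)
  card_le : ∀ σ ∈ K, σ.card < a → (h σ).support.card ≤ κ

theorem IsContr.toCLt {K : Set (Finset V)} {m κ : ℕ} {h : Finset V → Ch V}
    (H : IsContr K m κ h) : CLt K (m + 1) κ h :=
  ⟨fun σ hσ hc => H.ch σ hσ (by omega), fun σ hσ hc => H.bd_eq σ hσ (by omega),
    fun σ hσ hc => H.card_le σ hσ (by omega)⟩

theorem CLt.mono {K : Set (Finset V)} {a a' κ κ' : ℕ} {h : Finset V → Ch V} (H : CLt K a κ h)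
    (ha : a' ≤ a) (hκ : κ ≤ κ') : CLt K a' κ' h :=
  ⟨fun σ hσ hc => H.ch σ hσ (by omega), fun σ hσ hc => H.bd_eq σ hσ (by omega),
    fun σ hσ hc => (H.card_le σ hσ (by omega)).trans hκ⟩

theorem CLt.zero {K : Set (Finset V)} (κ : ℕ) : CLt K 0 κ (fun _ => 0) :=
  ⟨fun σ _ hc => by omega, fun σ _ hc => by omega, fun σ _ hc => by omega⟩

/-- join of chains -/
noncomputable def jn : Ch V →ₗ[ZMod 2] Ch V →ₗ[ZMod 2] Ch V :=
  Finsupp.linearCombination (ZMod 2) (fun σ : Finset V =>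
    Finsupp.linearCombination (ZMod 2) (fun τ : Finset V => (Finsupp.single (σ ∪ τ) 1 : Ch V)))

theorem jn_single (σ τ : Finset V) :
    jn (Finsupp.single σ 1 : Ch V) (Finsupp.single τ 1 : Ch V) = Finsupp.single (σ ∪ τ) 1 := by
  unfold jn
  rw [Finsupp.linearCombination_single, one_smul, Finsupp.linearCombination_single, one_smul]

theorem jn_sums {ι ι' : Type*} (s : Finset ι) (t : Finset ι') (f : ι → Ch V) (g : ι' → Ch V) :
    jn (∑ i ∈ s, f i) (∑ j ∈ t, g j) = ∑ i ∈ s, ∑ j ∈ t, jn (f i) (g j) := by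
  have h1 : jn (∑ i ∈ s, f i) = ∑ i ∈ s, jn (f i) := map_sum _ _ _
  rw [h1, LinearMap.sum_apply]
  exact Finset.sum_congr rfl fun i _ => map_sum _ _ _

theorem jn_eq_sum (x y : Ch V) :
    jn x y = ∑ σ ∈ x.support, ∑ τ ∈ y.support, (Finsupp.single (σ ∪ τ) 1 : Ch V) := by
  conv_lhs => rw [chain_eq_sum x, chain_eq_sum y]
  rw [jn_sums]
  exact Finset.sum_congr rfl fun σ _ => Finset.sum_congr rfl fun τ _ => jn_single σ τ

theorem card_jn_le (x y : Ch V) : (jn x y).support.card ≤ x.support.card * y.support.card := by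
  rw [jn_eq_sum]
  refine card_sum_le _ _ _ fun σ _ => ?_
  refine (card_sum_le _ _ 1 fun τ _ => ?_).trans (by rw [mul_one])
  exact (Finset.card_le_card Finsupp.support_single_subset).trans (by simp)

/-- Leibniz rule -/
theorem bd_jn {x y : Ch V} (hd : ∀ σ ∈ x.support, ∀ τ ∈ y.support, Disjoint σ τ) :
    bd (jn x y) = jn (bd x) y + jn x (bd y) := by
  have key : ∀ σ τ : Finset V, Disjoint σ τ →
      bd (Finsupp.single (σ ∪ τ) 1 : Ch V) = jn (bd (Finsupp.single σ 1)) (Finsupp.single τ 1) +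
        jn (Finsupp.single σ 1) (bd (Finsupp.single τ 1)) := by
    intro σ τ h
    rw [bd_single, bd_single, bd_single, map_sum, map_sum, LinearMap.sum_apply,
      Finset.sum_union h]
    congr 1
    · refine Finset.sum_congr rfl fun v hv => ?_
      rw [jn_single]
      congr 1
      rw [Finset.erase_union_distrib, Finset.erase_eq_of_notMem (Finset.disjoint_left.1 h hv)]
    · refine Finset.sum_congr rfl fun v hv => ?_
      rw [jn_single]
      congr 1
      rw [Finset.erase_union_distrib, Finset.erase_eq_of_notMem (Finset.disjoint_right.1 h hv)]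
  have h1 : jn (bd x) y = ∑ σ ∈ x.support, ∑ τ ∈ y.support,
      jn (bd (Finsupp.single σ 1)) (Finsupp.single τ 1) := by
    conv_lhs => rw [chain_eq_sum x, chain_eq_sum y]
    have : bd (∑ σ ∈ x.support, (Finsupp.single σ 1 : Ch V)) =
        ∑ σ ∈ x.support, bd (Finsupp.single σ 1 : Ch V) := map_sum _ _ _
    rw [this, jn_sums]
  have h2 : jn x (bd y) = ∑ σ ∈ x.support, ∑ τ ∈ y.support,
      jn (Finsupp.single σ 1) (bd (Finsupp.single τ 1)) := by
    conv_lhs => rw [chain_eq_sum x, chain_eq_sum y]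
    have : bd (∑ τ ∈ y.support, (Finsupp.single τ 1 : Ch V)) =
        ∑ τ ∈ y.support, bd (Finsupp.single τ 1 : Ch V) := map_sum _ _ _
    rw [this, jn_sums]
  rw [h1, h2, jn_eq_sum, map_sum, ← Finset.sum_add_distrib]
  refine Finset.sum_congr rfl fun σ hσ => ?_
  rw [map_sum, ← Finset.sum_add_distrib]
  exact Finset.sum_congr rfl fun τ hτ => key σ τ (hd σ hσ τ hτ)

section join

variable (p : V → Prop) [DecidablePred p]

/-- join of complexes with vertices separated by `p` -/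
def JCx (KA KB : Set (Finset V)) : Set (Finset V) :=
  {σ | σ.filter p ∈ KA ∧ σ.filter (fun v => ¬ p v) ∈ KB}

variable {p} {KA KB : Set (Finset V)}

theorem union_mem_JCx (hA : ∀ σ ∈ KA, ∀ v ∈ σ, p v) (hB : ∀ σ ∈ KB, ∀ v ∈ σ, ¬ p v)
    {σ τ : Finset V} (hσ : σ ∈ KA) (hτ : τ ∈ KB) : σ ∪ τ ∈ JCx p KA KB := by
  constructor
  · rw [Finset.filter_union, Finset.filter_true_of_mem (hA σ hσ),
      Finset.filter_false_of_mem (hB τ hτ), Finset.union_empty]
    exact hσ
  · rw [Finset.filter_union, Finset.filter_false_of_mem (fun v hv => not_not.2 (hA σ hσ v hv)),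
      Finset.filter_true_of_mem (hB τ hτ), Finset.empty_union]
    exact hτ

theorem disj_AB (hA : ∀ σ ∈ KA, ∀ v ∈ σ, p v) (hB : ∀ σ ∈ KB, ∀ v ∈ σ, ¬ p v)
    {σ τ : Finset V} (hσ : σ ∈ KA) (hτ : τ ∈ KB) : Disjoint σ τ :=
  Finset.disjoint_left.2 fun v h1 h2 => hB τ hτ v h2 (hA σ hσ v h1)

theorem IsCh.jn (hA : ∀ σ ∈ KA, ∀ v ∈ σ, p v) (hB : ∀ σ ∈ KB, ∀ v ∈ σ, ¬ p v) {m k : ℕ}
    {x y : Ch V} (hx : IsCh KA m x) (hy : IsCh KB k y) :
    IsCh (JCx p KA KB) (m + k) (Fill.jn x y) := by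
  rw [jn_eq_sum]
  refine IsCh.sum _ _ fun σ hσ => IsCh.sum _ _ fun τ hτ => ?_
  intro ρ hρ
  obtain rfl := Finset.mem_singleton.1 (Finsupp.support_single_subset hρ)
  obtain ⟨h1, h2⟩ := hx σ hσ
  obtain ⟨h3, h4⟩ := hy τ hτ
  exact ⟨union_mem_JCx hA hB h1 h3, by
    rw [Finset.card_union_of_disjoint (disj_AB hA hB h1 h3), h2, h4]⟩

theorem bd_jn' (hA : ∀ σ ∈ KA, ∀ v ∈ σ, p v) (hB : ∀ σ ∈ KB, ∀ v ∈ σ, ¬ p v) {m k : ℕ}
    {x y : Ch V} (hx : IsCh KA m x) (hy : IsCh KB k y) :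
    bd (jn x y) = jn (bd x) y + jn x (bd y) :=
  bd_jn fun σ hσ τ hτ => disj_AB hA hB (hx σ hσ).1 (hy τ hτ).1

/-- truncated operator -/
noncomputable def tr (a : ℕ) (h : Finset V → Ch V) : Finset V → Ch V :=
  fun σ => if σ.card < a then h σ else 0

/-- the complementary projection -/
noncomputable def pr (a : ℕ) (h : Finset V → Ch V) : Finset V → Ch V :=
  fun σ => (Finsupp.single σ 1 : Ch V) + bd (tr a h σ) + ∑ v ∈ σ, tr a h (σ.erase v)

theorem add_aux (x y z : Ch V) : y = x + (x + y + z) + z := by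
  have hx := add_self x
  have hz := add_self z
  calc y = y + (x + x) + (z + z) := by rw [hx, hz]; simp
    _ = x + (x + y + z) + z := by abel

theorem bd_tr (a : ℕ) (h : Finset V → Ch V) (σ : Finset V) :
    bd (tr a h σ) = (Finsupp.single σ 1 : Ch V) + pr a h σ + ∑ v ∈ σ, tr a h (σ.erase v) :=
  add_aux _ _ _

theorem comb_aux (r x1 x2 x3 x4 x5 : Ch V) :
    (r + x1 + x2 + x3) + (x4 + (x1 + 0 + x5)) = r + ((x2 + x4) + (x3 + x5)) := by
  have hx := add_self x1
  calc _ = r + ((x2 + x4) + (x3 + x5)) + (x1 + x1) := by abel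
    _ = _ := by rw [hx, add_zero]

theorem bd_pr (a : ℕ) (h : Finset V → Ch V) (σ : Finset V) :
    bd (pr a h σ) = ∑ v ∈ σ, pr a h (σ.erase v) := by
  unfold pr
  rw [map_add, map_add, bd_bd, add_zero, Finset.sum_add_distrib, Finset.sum_add_distrib,
    sum_sum_erase, add_zero, bd_single, map_sum]

variable {a κ : ℕ} {h : Finset V → Ch V}

theorem IsCh.single {K : Set (Finset V)} {σ : Finset V} (h1 : σ ∈ K) :
    IsCh K σ.card (Finsupp.single σ 1 : Ch V) := by
  intro τ hτ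
  obtain rfl := Finset.mem_singleton.1 (Finsupp.support_single_subset hτ)
  exact ⟨h1, rfl⟩

theorem card_single_le (σ : Finset V) : (Finsupp.single σ 1 : Ch V).support.card ≤ 1 :=
  (Finset.card_le_card Finsupp.support_single_subset).trans (by simp)

theorem CLt.tr_ch {K : Set (Finset V)} (H : CLt K a κ h) {σ : Finset V} (hσ : σ ∈ K) :
    IsCh K (σ.card + 1) (tr a h σ) := by
  unfold tr
  split_ifs with h1
  · exact H.ch σ hσ h1
  · exact IsCh.zero

theorem CLt.tr_card {K : Set (Finset V)} (H : CLt K a κ h) {σ : Finset V} (hσ : σ ∈ K) :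
    (tr a h σ).support.card ≤ κ := by
  unfold tr
  split_ifs with h1
  · exact H.card_le σ hσ h1
  · simp

theorem CLt.pr_zero {K : Set (Finset V)} (H : CLt K a κ h) {σ : Finset V} (hσ : σ ∈ K)
    (hc : σ.card < a) : pr a h σ = 0 := by
  unfold pr
  have h1 : tr a h σ = h σ := if_pos hc
  have h2 : ∀ v ∈ σ, tr a h (σ.erase v) = h (σ.erase v) := fun v hv => if_pos (by
    have := Finset.card_erase_of_mem hv
    omega)
  rw [h1, H.bd_eq σ hσ hc, Finset.sum_congr rfl h2, ← add_assoc, add_self, zero_add, add_self]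

theorem CLt.pr_ch {K : Set (Finset V)} (hK : ∀ σ ∈ K, ∀ v ∈ σ, σ.erase v ∈ K)
    (H : CLt K a κ h) {σ : Finset V} (hσ : σ ∈ K) :
    IsCh K σ.card (pr a h σ) := by
  by_cases hc : σ.card < a
  · rw [H.pr_zero hσ hc]; exact IsCh.zero
  · unfold pr
    have h1 : tr a h σ = 0 := if_neg hc
    rw [h1, map_zero, add_zero]
    refine (IsCh.single hσ).add (IsCh.sum _ _ fun v hv => ?_)
    have := H.tr_ch (hK σ hσ v hv)
    have h2 : (σ.erase v).card + 1 = σ.card := Finset.card_erase_add_one hv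
    rwa [h2] at this

theorem CLt.pr_card {K : Set (Finset V)} (hK : ∀ σ ∈ K, ∀ v ∈ σ, σ.erase v ∈ K)
    (H : CLt K a κ h) {σ : Finset V} (hσ : σ ∈ K) :
    (pr a h σ).support.card ≤ 1 + a * κ := by
  by_cases hc : σ.card < a
  · rw [H.pr_zero hσ hc]; simp
  · unfold pr
    have h1 : tr a h σ = 0 := if_neg hc
    rw [h1, map_zero, add_zero]
    refine (card_add_le _ _).trans (Nat.add_le_add (card_single_le σ) ?_)
    by_cases hc2 : σ.card = a
    · have := card_sum_le σ (fun v => tr a h (σ.erase v)) κ fun v hv => H.tr_card (hK σ hσ v hv)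
      rwa [hc2] at this
    · have h2 : ∀ v ∈ σ, tr a h (σ.erase v) = 0 := fun v hv => if_neg (by
        have := Finset.card_erase_of_mem hv
        omega)
      rw [Finset.sum_congr rfl h2]; simp

theorem join_core (hA : ∀ σ ∈ KA, ∀ v ∈ σ, p v) (hB : ∀ σ ∈ KB, ∀ v ∈ σ, ¬ p v)
    (hKA : ∀ σ ∈ KA, ∀ v ∈ σ, σ.erase v ∈ KA)
    {a b κA κB : ℕ} {f g : Finset V → Ch V} (HA : CLt KA a κA f) (HB : CLt KB b κB g)
    {σ τ : Finset V} (h1 : σ ∈ KA) (h2 : τ ∈ KB) (hc : σ.card + τ.card < a + b) :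
    bd (jn (tr a f σ) (Finsupp.single τ 1) + jn (pr a f σ) (tr b g τ)) =
      (Finsupp.single (σ ∪ τ) 1 : Ch V) +
      (∑ v ∈ σ, (jn (tr a f (σ.erase v)) (Finsupp.single τ 1) +
        jn (pr a f (σ.erase v)) (tr b g τ)) +
      ∑ v ∈ τ, (jn (tr a f σ) (Finsupp.single (τ.erase v) 1) +
        jn (pr a f σ) (tr b g (τ.erase v)))) := by
  rw [Finset.sum_add_distrib, Finset.sum_add_distrib, map_add,
      bd_jn' hA hB (HA.tr_ch h1) (IsCh.single h2), bd_jn' hA hB (HA.pr_ch hKA h1) (HB.tr_ch h2),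
      bd_pr, bd_single]
  have s1 : ∑ v ∈ σ, jn (tr a f (σ.erase v)) (Finsupp.single τ 1 : Ch V) =
      jn (∑ v ∈ σ, tr a f (σ.erase v)) (Finsupp.single τ 1 : Ch V) := by
    rw [map_sum, LinearMap.sum_apply]
  have s2 : ∑ v ∈ σ, jn (pr a f (σ.erase v)) (tr b g τ) =
      jn (∑ v ∈ σ, pr a f (σ.erase v)) (tr b g τ) := by
    rw [map_sum, LinearMap.sum_apply]
  have s3 : ∑ v ∈ τ, jn (tr a f σ) (Finsupp.single (τ.erase v) 1 : Ch V) =
      jn (tr a f σ) (∑ v ∈ τ, (Finsupp.single (τ.erase v) 1 : Ch V)) := by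
    rw [map_sum]
  have s4 : ∑ v ∈ τ, jn (pr a f σ) (tr b g (τ.erase v)) =
      jn (pr a f σ) (∑ v ∈ τ, tr b g (τ.erase v)) := by
    rw [map_sum]
  rw [s1, s2, s3, s4]
  have hPP : jn (pr a f σ) (pr b g τ) = 0 := by
    by_cases hca : σ.card < a
    · rw [HA.pr_zero h1 hca, map_zero, LinearMap.zero_apply]
    · rw [HB.pr_zero h2 (by omega), map_zero]
  have e1 : jn (bd (tr a f σ)) (Finsupp.single τ 1 : Ch V) = (Finsupp.single (σ ∪ τ) 1 : Ch V) +
      jn (pr a f σ) (Finsupp.single τ 1 : Ch V) +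
      jn (∑ v ∈ σ, tr a f (σ.erase v)) (Finsupp.single τ 1 : Ch V) := by
    rw [bd_tr, map_add, map_add, LinearMap.add_apply, LinearMap.add_apply, jn_single]
  have e2 : jn (pr a f σ) (bd (tr b g τ)) = jn (pr a f σ) (Finsupp.single τ 1 : Ch V) + 0 +
      jn (pr a f σ) (∑ v ∈ τ, tr b g (τ.erase v)) := by
    rw [bd_tr, map_add, map_add, hPP]
  rw [e1, e2]
  exact comb_aux _ _ _ _ _ _

/-- **Join of contractions.** -/
theorem join_contr (hA : ∀ σ ∈ KA, ∀ v ∈ σ, p v) (hB : ∀ σ ∈ KB, ∀ v ∈ σ, ¬ p v)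
    (hKA : ∀ σ ∈ KA, ∀ v ∈ σ, σ.erase v ∈ KA)
    {a b κA κB : ℕ} {f g : Finset V → Ch V} (HA : CLt KA a κA f) (HB : CLt KB b κB g) :
    ∃ h : Finset V → Ch V, CLt (JCx p KA KB) (a + b) (κA + (1 + a * κA) * κB) h := by
  have hcard : ∀ ρ : Finset V, (ρ.filter p).card + (ρ.filter (fun v => ¬ p v)).card = ρ.card :=
    fun ρ => Finset.card_filter_add_card_filter_not p
  refine ⟨fun ρ => jn (tr a f (ρ.filter p)) (Finsupp.single (ρ.filter (fun v => ¬ p v)) 1) +
    jn (pr a f (ρ.filter p)) (tr b g (ρ.filter (fun v => ¬ p v))), ⟨?_, ?_, ?_⟩⟩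
  · rintro ρ ⟨h1, h2⟩ _
    have e1 := IsCh.jn hA hB (HA.tr_ch h1) (IsCh.single h2)
    have e2 := IsCh.jn hA hB (HA.pr_ch hKA h1) (HB.tr_ch h2)
    have e3 : (ρ.filter p).card + 1 + (ρ.filter (fun v => ¬ p v)).card = ρ.card + 1 := by
      rw [← hcard ρ]; ring
    have e4 : (ρ.filter p).card + ((ρ.filter (fun v => ¬ p v)).card + 1) = ρ.card + 1 := by
      rw [← hcard ρ]; ring
    rw [e3] at e1
    rw [e4] at e2
    exact e1.add e2
  · rintro ρ ⟨h1, h2⟩ hc
    have hρ : ρ = ρ.filter p ∪ ρ.filter (fun v => ¬ p v) :=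
      (Finset.filter_union_filter_not_eq p ρ).symm
    have hdisj : Disjoint (ρ.filter p) (ρ.filter (fun v => ¬ p v)) := disj_AB hA hB h1 h2
    have hcore := join_core hA hB hKA HA HB h1 h2 (by rw [hcard]; exact hc)
    have hA' : ∀ v ∈ ρ.filter p, (ρ.erase v).filter p = (ρ.filter p).erase v ∧
        (ρ.erase v).filter (fun v => ¬ p v) = ρ.filter (fun v => ¬ p v) := by
      intro v hv
      refine ⟨by rw [Finset.filter_erase], ?_⟩
      rw [Finset.filter_erase, Finset.erase_eq_of_notMem]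
      exact Finset.disjoint_left.1 hdisj hv
    have hB' : ∀ v ∈ ρ.filter (fun v => ¬ p v), (ρ.erase v).filter p = ρ.filter p ∧
        (ρ.erase v).filter (fun v => ¬ p v) = (ρ.filter (fun v => ¬ p v)).erase v := by
      intro v hv
      refine ⟨?_, by rw [Finset.filter_erase]⟩
      rw [Finset.filter_erase, Finset.erase_eq_of_notMem]
      exact Finset.disjoint_right.1 hdisj hv
    refine hcore.trans ?_
    rw [← hρ]
    refine congrArg (fun x => (Finsupp.single ρ 1 : Ch V) + x) ?_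
    rw [← Finset.sum_filter_add_sum_filter_not ρ p]
    refine congrArg₂ (fun x y => x + y) ?_ ?_
    · refine Finset.sum_congr rfl fun v hv => ?_
      rw [(hA' v hv).1, (hA' v hv).2]
    · refine Finset.sum_congr rfl fun v hv => ?_
      rw [(hB' v hv).1, (hB' v hv).2]
  · rintro ρ ⟨h1, h2⟩ _
    refine (card_add_le _ _).trans (Nat.add_le_add ?_ ?_)
    · refine (card_jn_le _ _).trans ?_
      calc _ ≤ κA * 1 := Nat.mul_le_mul (HA.tr_card h1) (card_single_le _)
        _ = κA := mul_one _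
    · exact (card_jn_le _ _).trans (Nat.mul_le_mul (HA.pr_card hKA h1) (HB.tr_card h2))

end join

end Crest.Agent.R066.Fill
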