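import Mathlib
import Crest.Agent.R066.GapFill
import Crest.Agent.R066.FillProd

/-!
Row 66 (S0088), M2: uniform contraction operators for one gap.
-/

set_option autoImplicit false
set_option linter.unusedSectionVars false

namespace Crest.Agent.R066.Fill

open Finset

noncomputable local instance {F : Type} [Field F] {E : Type} [AddCommGroup E] [Module F E] :
    DecidableEq (Submodule F E) := Classical.decEq _

theorem gap_isContr (u : ℕ) : ∀ m : ℕ, m + 2 ≤ u → ∃ κ q0 : ℕ,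
    ∀ (F : Type) [Field F] [Fintype F] (E : Type) [AddCommGroup E]
    [Module F E] (A B : Submodule F E) (h : ℕ) (Λ : ℕ → Submodule F E)
    (U0 U1 : Submodule F E) (a : ℕ), q0 ≤ Fintype.card F →
    IsGap A B h Λ → GOpp A B h Λ a U0 → GOpp A B h Λ (a + u) U1 → U0 ≤ U1 →
    ∃ c : Finset (Submodule F E) → Ch (Submodule F E), IsContr (GIv A B h Λ U0 U1) m κ c := by
  intro m
  induction m with
  | zero =>
    intro hm
    obtain ⟨t, q0, h⟩ := gap_fill u 0 hm 1
    refine ⟨t, q0, ?_⟩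
    intro F _ _ E _ _ A B h' Λ U0 U1 a hq hΛ h0 h1 h01
    exact contr_zero ⟨by simp, by simp⟩ (h F E A B h' Λ U0 U1 a hq hΛ h0 h1 h01)
  | succ m ih =>
    intro hm
    obtain ⟨κ, q1, hκ⟩ := ih (by omega)
    obtain ⟨t, q2, ht⟩ := gap_fill u (m + 1) hm (1 + (m + 1) * κ)
    refine ⟨max κ t, max q1 q2, ?_⟩
    intro F _ _ E _ _ A B h' Λ U0 U1 a hq hΛ h0 h1 h01
    obtain ⟨c, hc⟩ := hκ F E A B h' Λ U0 U1 a ((le_max_left _ _).trans hq) hΛ h0 h1 h01
    exact contr_succ (fun σ hσ v _ => GIv_erase hσ v) hc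
      (ht F E A B h' Λ U0 U1 a ((le_max_right _ _).trans hq) hΛ h0 h1 h01)

theorem gap_contr (u : ℕ) : ∃ κ q0 : ℕ,
    ∀ (F : Type) [Field F] [Fintype F] (E : Type) [AddCommGroup E]
    [Module F E] (A B : Submodule F E) (Λ : ℕ → Submodule F E), q0 ≤ Fintype.card F →
    IsGap A B u Λ → Λ 0 = B → Λ u = A →
    ∃ c : Finset (Submodule F E) → Ch (Submodule F E), CLt (GIv A B u Λ A B) (u - 1) κ c := by
  rcases Nat.lt_or_ge u 2 with hu | hu
  · refine ⟨0, 0, ?_⟩
    intro F _ _ E _ _ A B Λ _ _ _ _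
    have : u - 1 = 0 := by omega
    rw [this]
    exact ⟨_, CLt.zero 0⟩
  · obtain ⟨κ, q0, h⟩ := gap_isContr u (u - 2) (by omega)
    refine ⟨κ, q0, ?_⟩
    intro F _ _ E _ _ A B Λ hq hG h0 hu'
    have hAB : A ≤ B := (hG.leA 0).trans (hG.leB 0)
    obtain ⟨c, hc⟩ := h F E A B u Λ A B 0 hq hG
      ⟨Nat.zero_le _, by rw [h0]; exact inf_eq_left.2 hAB, by rw [h0]; exact sup_eq_right.2 hAB⟩
      (by
        rw [Nat.zero_add]
        exact ⟨le_rfl, by rw [hu']; exact inf_eq_right.2 hAB, by rw [hu']; exact sup_eq_left.2 hAB⟩)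
      hAB
    refine ⟨c, ?_⟩
    have := hc.toCLt
    have e : u - 2 + 1 = u - 1 := by omega
    rwa [e] at this

/-- the same with uniform constants for all heights `u ≤ n` -/
theorem gap_contr_le (n : ℕ) : ∃ κ q0 : ℕ, ∀ u ≤ n,
    ∀ (F : Type) [Field F] [Fintype F] (E : Type) [AddCommGroup E]
    [Module F E] (A B : Submodule F E) (Λ : ℕ → Submodule F E), q0 ≤ Fintype.card F →
    IsGap A B u Λ → Λ 0 = B → Λ u = A →
    ∃ c : Finset (Submodule F E) → Ch (Submodule F E), CLt (GIv A B u Λ A B) (u - 1) κ c := by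
  choose κ q h using gap_contr
  refine ⟨∑ u ∈ range (n + 1), κ u, ∑ u ∈ range (n + 1), q u, ?_⟩
  intro u hu F _ _ E _ _ A B Λ hq hG h0 hu'
  have hmem : u ∈ range (n + 1) := mem_range.2 (by omega)
  have h1 : q u ≤ ∑ u ∈ range (n + 1), q u :=
    Finset.single_le_sum (f := q) (fun _ _ => Nat.zero_le _) hmem
  have h2 : κ u ≤ ∑ u ∈ range (n + 1), κ u :=
    Finset.single_le_sum (f := κ) (fun _ _ => Nat.zero_le _) hmem
  obtain ⟨c, hc⟩ := h u F E A B Λ (h1.trans hq) hG h0 hu'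
  exact ⟨c, hc.mono le_rfl h2⟩

end Crest.Agent.R066.Fill
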