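import Mathlib
import Crest.Agent.R066.GapContr
import Crest.Agent.R066.GapBridge

/-!
Row 66 (S0088), M2: contraction operators for all gaps of a chain of walls.
-/

set_option autoImplicit false
set_option linter.unusedSectionVars false

namespace Crest.Agent.R066.Fill

open Finset
open Module (finrank)

noncomputable local instance {F : Type} [Field F] {E : Type} [AddCommGroup E] [Module F E] :
    DecidableEq (Submodule F E) := Classical.decEq _

section

variable {F Q : Type} [Field F] [AddCommGroup Q] [Module F Q]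

theorem GenCx_erase {Fl : ℕ → Submodule F Q} {Wl : Finset (Submodule F Q)}
    {σ : Finset (Submodule F Q)} (hσ : σ ∈ GenCx Fl Wl) (W : Submodule F Q) :
    σ.erase W ∈ GenCx Fl Wl :=
  ⟨fun X hX => hσ.1 X (Finset.mem_of_mem_erase hX), fun X hX Y hY =>
    hσ.2 X (Finset.mem_of_mem_erase hX) Y (Finset.mem_of_mem_erase hY)⟩

open Classical in
/-- decomposition of `GenCx` along the top gap -/
theorem GenCx_decomp {Fl : ℕ → Submodule F Q} {Wl : Finset (Submodule F Q)}
    {A B : Submodule F Q} (hB : B ∈ Wl) (hA : A ∈ Wl) (hAB : A < B)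
    (hmax : ∀ X ∈ Wl, X = B ∨ X ≤ A) (KA : Set (Finset (Submodule F Q)))
    (hKA : ∀ s, s ∈ KA ↔ (∀ W ∈ s, A < W ∧ W < B ∧ Gen Fl A B W) ∧
      ∀ W ∈ s, ∀ W' ∈ s, W ≤ W' ∨ W' ≤ W) :
    GenCx Fl Wl = JCx (fun W => A < W) KA (GenCx Fl (Wl.erase B)) := by
  ext s
  constructor
  · rintro ⟨h1, h2⟩
    refine ⟨(hKA _).2 ⟨?_, ?_⟩, ?_, ?_⟩
    · intro W hW
      obtain ⟨hWs, hAW⟩ := Finset.mem_filter.1 hW
      obtain ⟨A', hA', B', hB', hA'W, hWB', hcons, hgen⟩ := h1 W hWs
      have hB'B : B' = B := by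
        rcases hmax B' hB' with h | h
        · exact h
        · exact absurd (hAW.trans (hWB'.trans_le h)) (lt_irrefl _)
      have hA'A : A' = A := by
        apply le_antisymm
        · rcases hmax A' hA' with h | h
          · exfalso
            have : A' < B := hB'B ▸ hA'W.trans hWB'
            exact this.ne h
          · exact h
        · rcases hcons A hA with h | h
          · exact h
          · exfalso
            exact absurd (hAW.trans (hWB'.trans_le h)) (lt_irrefl _)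
      subst hB'B hA'A
      exact ⟨hAW, hWB', hgen⟩
    · intro W hW W' hW'
      exact h2 W (Finset.mem_filter.1 hW).1 W' (Finset.mem_filter.1 hW').1
    · intro W hW
      obtain ⟨hWs, hAW⟩ := Finset.mem_filter.1 hW
      obtain ⟨A', hA', B', hB', hA'W, hWB', hcons, hgen⟩ := h1 W hWs
      have hB'A : B' ≤ A := by
        rcases hcons A hA with h | h
        · exact absurd (h.trans_lt hA'W) hAW
        · exact h
      have hB'B : B' ≠ B := fun e => absurd (e ▸ hB'A) (not_le_of_gt hAB)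
      have hA'B : A' ≠ B := fun e => absurd ((e ▸ hA'W.trans hWB').trans_le hB'A)
        (not_lt_of_gt hAB)
      exact ⟨A', Finset.mem_erase.2 ⟨hA'B, hA'⟩, B', Finset.mem_erase.2 ⟨hB'B, hB'⟩, hA'W, hWB',
        fun X hX => hcons X (Finset.mem_of_mem_erase hX), hgen⟩
    · intro W hW W' hW'
      exact h2 W (Finset.mem_filter.1 hW).1 W' (Finset.mem_filter.1 hW').1
  · rintro ⟨h1, h2, h3⟩
    obtain ⟨h4, h5⟩ := (hKA _).1 h1
    -- elements not above `A` are below `A`
    have hlow : ∀ W ∈ s, ¬ A < W → W ≤ A := by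
      intro W hW hAW
      obtain ⟨A', hA', B', hB', hA'W, hWB', hcons, hgen⟩ := h2 W (Finset.mem_filter.2 ⟨hW, hAW⟩)
      obtain ⟨hB'B, hB'm⟩ := Finset.mem_erase.1 hB'
      rcases hmax B' hB'm with h | h
      · exact absurd h hB'B
      · exact hWB'.le.trans h
    refine ⟨?_, ?_⟩
    · intro W hW
      by_cases hAW : A < W
      · obtain ⟨_, hWB, hgen⟩ := h4 W (Finset.mem_filter.2 ⟨hW, hAW⟩)
        refine ⟨A, hA, B, hB, hAW, hWB, fun X hX => ?_, hgen⟩
        rcases hmax X hX with h | h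
        · exact Or.inr h.ge
        · exact Or.inl h
      · obtain ⟨A', hA', B', hB', hA'W, hWB', hcons, hgen⟩ := h2 W (Finset.mem_filter.2 ⟨hW, hAW⟩)
        obtain ⟨hB'B, hB'm⟩ := Finset.mem_erase.1 hB'
        refine ⟨A', Finset.mem_of_mem_erase hA', B', hB'm, hA'W, hWB', fun X hX => ?_, hgen⟩
        by_cases hXB : X = B
        · right
          rcases hmax B' hB'm with h | h
          · exact absurd h hB'B
          · exact h.trans (hXB ▸ hAB.le)
        · exact hcons X (Finset.mem_erase.2 ⟨hXB, hX⟩)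
    · intro W hW W' hW'
      by_cases hAW : A < W <;> by_cases hAW' : A < W'
      · exact h5 W (Finset.mem_filter.2 ⟨hW, hAW⟩) W' (Finset.mem_filter.2 ⟨hW', hAW'⟩)
      · exact Or.inr ((hlow W' hW' hAW').trans hAW.le)
      · exact Or.inl ((hlow W hW hAW).trans hAW'.le)
      · exact h3 W (Finset.mem_filter.2 ⟨hW, hAW⟩) W' (Finset.mem_filter.2 ⟨hW', hAW'⟩)

end

/-- contraction operators for `GenCx Fl Wl` -/
theorem walls_contr (n : ℕ) : ∃ q0 : ℕ, ∀ k : ℕ, ∃ κ : ℕ, ∀ (F : Type) [Field F] [Fintype F],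
    q0 ≤ Fintype.card F →
    ∀ (Q : Type) [AddCommGroup Q] [Module F Q] [FiniteDimensional F Q], finrank F Q = n →
    ∀ Fl : ℕ → Submodule F Q, Monotone Fl → (∀ u ≤ n, finrank F ↥(Fl u) = u) →
    ∀ (Wl : Finset (Submodule F Q)) (T : Submodule F Q), Wl.card = k + 1 → ⊥ ∈ Wl → T ∈ Wl →
    (∀ X ∈ Wl, X ≤ T) → (∀ A ∈ Wl, ∀ B ∈ Wl, A ≤ B ∨ B ≤ A) →
    ∀ a, a ≤ finrank F T - k →
    ∃ c : Finset (Submodule F Q) → Ch (Submodule F Q), CLt (GenCx Fl Wl) a κ c := by
  classical
  obtain ⟨κ1, q1, hgap⟩ := gap_contr_le n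
  refine ⟨q1, ?_⟩
  intro k
  induction k with
  | zero =>
    refine ⟨0, ?_⟩
    intro F _ _ hq Q _ _ _ hn Fl hmono hfl Wl T hcard hbot hT hmax hch a ha
    have hT0 : T = ⊥ := by
      obtain ⟨x, hx⟩ := Finset.card_eq_one.1 hcard
      rw [hx, Finset.mem_singleton] at hT hbot
      rw [hT, hbot]
    rw [hT0, finrank_bot] at ha
    obtain rfl : a = 0 := by omega
    exact ⟨_, CLt.zero 0⟩
  | succ k ih =>
    obtain ⟨κ2, hκ2⟩ := ih
    refine ⟨κ1 + (1 + n * κ1) * κ2, ?_⟩
    intro F _ _ hq Q _ _ _ hn Fl hmono hfl Wl T hcard hbot hT hmax hch a ha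
    have hT0 : T ≠ ⊥ := by
      rintro rfl
      have : Wl ⊆ {⊥} := fun X hX => Finset.mem_singleton.2 (le_bot_iff.1 (hmax X hX))
      have := Finset.card_le_card this
      rw [hcard] at this
      simp at this
    have hne : (Wl.erase T).Nonempty := ⟨⊥, Finset.mem_erase.2 ⟨fun e => hT0 e.symm, hbot⟩⟩
    -- the second largest wall
    obtain ⟨A, hAmax⟩ := Finset.exists_maximal hne
    have hAm := hAmax.prop
    obtain ⟨hAT, hAWl⟩ := Finset.mem_erase.1 hAm
    have hA_lt : A < T := lt_of_le_of_ne (hmax A hAWl) hAT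
    have hA_le : ∀ X ∈ Wl.erase T, X ≤ A := by
      intro X hX
      rcases hch X (Finset.mem_of_mem_erase hX) A hAWl with h | h
      · exact h
      · exact hAmax.le_of_ge hX h
    have hmaxA : ∀ X ∈ Wl, X = T ∨ X ≤ A := by
      intro X hX
      by_cases h : X = T
      · exact Or.inl h
      · exact Or.inr (hA_le X (Finset.mem_erase.2 ⟨h, hX⟩))
    obtain ⟨Λ, hG, hΛ0, hΛh, hgen⟩ := gap_bridge hn Fl hmono hfl A T hA_lt.le
    have hfr : finrank F A < finrank F T := Submodule.finrank_lt_finrank_of_lt hA_lt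
    have hTn : finrank F T ≤ n := by rw [← hn]; exact Submodule.finrank_le T
    set u := finrank F T - finrank F A with hu
    obtain ⟨c1, hc1⟩ := hgap u (by omega) F Q A T Λ hq hG hΛ0 hΛh
    obtain ⟨c2, hc2⟩ := hκ2 F hq Q hn Fl hmono hfl (Wl.erase T) A
      (by rw [Finset.card_erase_of_mem hT, hcard]; rfl)
      (Finset.mem_erase.2 ⟨fun e => hT0 e.symm, hbot⟩) hAm hA_le
      (fun X hX Y hY => hch X (Finset.mem_of_mem_erase hX) Y (Finset.mem_of_mem_erase hY))
      (finrank F A - k) le_rfl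
    have hdec := GenCx_decomp (Fl := Fl) hT hAWl hA_lt hmaxA (GIv A T u Λ A T) (fun s => by
      constructor
      · rintro ⟨h1, h2⟩
        exact ⟨fun W hW => ⟨(h1 W hW).1, (h1 W hW).2.1,
          (hgen W (h1 W hW).1.le (h1 W hW).2.1.le).2 (h1 W hW).2.2⟩, h2⟩
      · rintro ⟨h1, h2⟩
        exact ⟨fun W hW => ⟨(h1 W hW).1, (h1 W hW).2.1,
          (hgen W (h1 W hW).1.le (h1 W hW).2.1.le).1 (h1 W hW).2.2⟩, h2⟩)
    rw [hdec]
    obtain ⟨c, hc⟩ := join_contr (p := fun W => A < W) (KA := GIv A T u Λ A T)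
      (KB := GenCx Fl (Wl.erase T)) (fun σ hσ v hv => (hσ.1 v hv).1)
      (fun σ hσ v hv hAv => by
        obtain ⟨A', hA', B', hB', hA'W, hWB', _⟩ := hσ.1 v hv
        exact absurd (hAv.trans (hWB'.trans_le (hA_le B' hB'))) (lt_irrefl _))
      (fun σ hσ v _ => GIv_erase hσ v) hc1 hc2
    refine ⟨c, hc.mono (by omega) ?_⟩
    have h5 : u - 1 ≤ n := by omega
    have h6 : 1 + (u - 1) * κ1 ≤ 1 + n * κ1 := Nat.add_le_add_left (Nat.mul_le_mul_right _ h5) 1
    exact Nat.add_le_add_left (Nat.mul_le_mul_right _ h6) _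

end Crest.Agent.R066.Fill
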