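import Crest.Agent.R066.Morse
import Crest.Agent.R066.WallsContr

/-! Uniform cone operators for complexes of generic subspaces (task M2). -/

set_option autoImplicit false
open scoped BigOperators
open Module (finrank)

namespace Crest.Agent.R066

theorem fill_bd_eq {V : Type*} [DecidableEq V] (c : Ch V) : Fill.bd c = bd c := by
  have h : (Fill.bd : Ch V →ₗ[ZMod 2] Ch V) = bd := by
    apply Fill.lin_ext
    intro σ
    rw [Fill.bd_single]
    unfold bd
    rw [Finsupp.lsum_single, LinearMap.sum_apply]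
    rfl
  exact LinearMap.congr_fun h c

theorem fill_mem_chains {V : Type*} {K : Set (Finset V)} {m : ℕ} {c : Ch V}
    (h : Fill.IsCh K m c) : c ∈ chains K m := by
  intro σ hσ
  exact h σ hσ

/-- from a contraction in the sense of `Fill` to a cone operator -/
theorem cone_of_CLt {V : Type*} [DecidableEq V] {K : Set (Finset V)} {a κ : ℕ}
    {c : Finset V → Ch V} (H : Fill.CLt K a κ c) {s : Finset V} (hs : s ∈ K) (hc : s.card < a) :
    c s ∈ chains K (s.card + 1) ∧
      bd (c s) + ∑ v ∈ s, c (s.erase v) = Finsupp.single s 1 ∧ (c s).support.card ≤ κ := by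
  refine ⟨fill_mem_chains (H.ch s hs hc), ?_, H.card_le s hs hc⟩
  rw [← fill_bd_eq, H.bd_eq s hs hc, add_assoc, Fill.add_self, add_zero]

open Classical in
/-- Uniformly bounded cone operators on the complexes `GenCx Fl Wl`. -/
theorem cone_exists (n : ℕ) : ∃ R q₀ : ℕ, ∀ (F : Type) [Field F] [Fintype F], q₀ ≤ Fintype.card F →
    ∀ (Q : Type) [AddCommGroup Q] [Module F Q] [FiniteDimensional F Q], finrank F Q = n →
    ∀ Fl : ℕ → Submodule F Q, Monotone Fl → (∀ u ≤ n, finrank F ↥(Fl u) = u) →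
    ∀ Wl : Finset (Submodule F Q), ⊥ ∈ Wl → ⊤ ∈ Wl → (∀ A ∈ Wl, ∀ B ∈ Wl, A ≤ B ∨ B ≤ A) →
    ∃ κ : Finset (Submodule F Q) → Ch (Submodule F Q), ∀ s ∈ GenCx Fl Wl, s.card + Wl.card ≤ n →
      κ s ∈ chains (GenCx Fl Wl) (s.card + 1) ∧
      bd (κ s) + ∑ v ∈ s, κ (s.erase v) = Finsupp.single s 1 ∧
      (κ s).support.card ≤ R := by
  obtain ⟨q0, hq0⟩ := Fill.walls_contr n
  choose κ hκ using hq0
  refine ⟨∑ k ∈ Finset.range (n + 1), κ k, q0, ?_⟩
  intro F _ _ hq Q _ _ _ hn Fl hmono hfl Wl hbot htop hch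
  have hpos : 0 < Wl.card := Finset.card_pos.2 ⟨_, hbot⟩
  by_cases hW : Wl.card ≤ n
  · have htopn : finrank F (⊤ : Submodule F Q) = n := by rw [finrank_top, hn]
    obtain ⟨c, hc⟩ := hκ (Wl.card - 1) F hq Q hn Fl hmono hfl Wl ⊤ (by omega) hbot htop
      (fun _ _ => le_top) hch (n - (Wl.card - 1)) (by rw [htopn])
    refine ⟨c, fun s hs hsc => ?_⟩
    have h1 := cone_of_CLt hc hs (by omega)
    have h2 : κ (Wl.card - 1) ≤ ∑ k ∈ Finset.range (n + 1), κ k :=
      Finset.single_le_sum (f := κ) (fun _ _ => Nat.zero_le _) (Finset.mem_range.2 (by omega))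
    refine ⟨h1.1, ?_, h1.2.2.trans h2⟩
    convert h1.2.1
  · exact ⟨fun _ => 0, fun s _ hsc => by omega⟩

end Crest.Agent.R066
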