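import Mathlib
import Crest.Agent.R066.SmallSet

/-!
# Row 66: cosystolic expansion by local correction
-/

set_option autoImplicit false
set_option linter.unusedSectionVars false

open Finset

namespace Crest.Agent.R066

variable {G : Type*} [Group G] [Fintype G] {I : Type*} [Fintype I] [DecidableEq I]

open Classical in
/-- Lift of a cochain of the link of `(g₀,T)` to a global cochain. -/
noncomputable def lift (X : CosetSystem G I) (T : Finset I) (g₀ : G)
    (ψ : Finset I → G → ZMod 2) : Finset I → G → ZMod 2 :=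
  fun S x => if T ⊆ S ∧ g₀⁻¹ * x ∈ X.K T then ψ (S \ T) (g₀⁻¹ * x) else 0

theorem lift_isCochain (X : CosetSystem G I) (T : Finset I) (g₀ : G) (n : ℕ)
    (ψ : Finset I → G → ZMod 2) (hψ : IsCochain X T (n - T.card) ψ) :
    IsCochain X ∅ n (lift X T g₀ ψ) := by
  intro S hS _ g _ k hk
  rw [Finset.empty_union] at hk
  unfold lift
  by_cases hTS : T ⊆ S
  · have hkT : k ∈ X.K T := X.K_mono hTS hk
    have hiff : g₀⁻¹ * (g * k) ∈ X.K T ↔ g₀⁻¹ * g ∈ X.K T := by
      rw [← mul_assoc]; exact Subgroup.mul_mem_cancel_right _ hkT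
    by_cases hm : g₀⁻¹ * g ∈ X.K T
    · rw [if_pos ⟨hTS, hiff.mpr hm⟩, if_pos ⟨hTS, hm⟩, ← mul_assoc]
      refine hψ (S \ T) ?_ Finset.disjoint_sdiff _ hm k ?_
      · rw [Finset.card_sdiff_of_subset hTS, hS]
      · rw [Finset.union_sdiff_of_subset hTS]; exact hk
    · rw [if_neg (fun h => hm (hiff.mp h.2)), if_neg (fun h => hm h.2)]
  · rw [if_neg (fun h => hTS h.1), if_neg (fun h => hTS h.1)]

theorem cob_lift (X : CosetSystem G I) (T : Finset I) (g₀ : G) (ψ : Finset I → G → ZMod 2) :
    cob (lift X T g₀ ψ) = lift X T g₀ (cob ψ) := by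
  classical
  funext S x
  by_cases hx : g₀⁻¹ * x ∈ X.K T
  · by_cases hTS : T ⊆ S
    · have h1 : lift X T g₀ (cob ψ) S x = ∑ s ∈ S \ T, ψ ((S \ T).erase s) (g₀⁻¹ * x) := by
        unfold lift cob; rw [if_pos ⟨hTS, hx⟩]
      rw [h1]
      unfold cob
      rw [← Finset.sum_subset (Finset.sdiff_subset (s := S) (t := T))]
      · refine Finset.sum_congr rfl fun s hs => ?_
        rw [Finset.mem_sdiff] at hs
        unfold lift
        rw [if_pos ⟨Finset.subset_erase.mpr ⟨hTS, hs.2⟩, hx⟩]
        congr 1
        ext y; simp only [Finset.mem_sdiff, Finset.mem_erase]; tauto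
      · intro s hs hs'
        have hsT : s ∈ T := by
          by_contra hcon
          exact hs' (Finset.mem_sdiff.mpr ⟨hs, hcon⟩)
        unfold lift
        rw [if_neg]
        rintro ⟨h, -⟩
        exact (Finset.mem_erase.mp (h hsT)).1 rfl
    · unfold lift cob
      rw [if_neg (fun h => hTS h.1)]
      refine Finset.sum_eq_zero fun s _ => ?_
      exact if_neg (fun h => hTS (h.1.trans (Finset.erase_subset _ _)))
  · unfold lift cob
    rw [if_neg (fun h => hx h.2)]
    refine Finset.sum_eq_zero fun s _ => ?_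
    exact if_neg (fun h => hx h.2)

open Classical in
/-- effect of a lifted correction on the counting norm -/
theorem cnt_add_lift (X : CosetSystem G I) (T : Finset I) (g₀ : G) (m : ℕ) (hT : T.card ≤ m)
    (g φ : Finset I → G → ZMod 2) :
    cnt X ∅ m (g + lift X T g₀ φ) + cnt X T (m - T.card) (loc g T g₀) =
      cnt X ∅ m g + cnt X T (m - T.card) (loc g T g₀ + φ) := by
  have hinj : ∀ a ∈ faces T (m - T.card), ∀ b ∈ faces T (m - T.card),
      T ∪ a = T ∪ b → a = b := by
    intro a ha b hb hab
    simp only [faces, mem_filter, mem_univ, true_and] at ha hb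
    have : (T ∪ a) \ T = (T ∪ b) \ T := by rw [hab]
    rwa [Finset.union_sdiff_cancel_left ha.2, Finset.union_sdiff_cancel_left hb.2] at this
  have himg : (faces T (m - T.card)).image (fun S => T ∪ S) =
      (faces (∅ : Finset I) m).filter (fun R => T ⊆ R) := by
    ext R
    simp only [mem_image, faces, mem_filter, mem_univ, true_and]
    constructor
    · rintro ⟨a, ha, rfl⟩
      refine ⟨⟨?_, Finset.disjoint_empty_left _⟩, Finset.subset_union_left⟩
      rw [Finset.card_union_of_disjoint ha.2, ha.1]; omega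
    · rintro ⟨⟨h1, -⟩, h2⟩
      refine ⟨R \ T, ⟨?_, Finset.disjoint_sdiff⟩, Finset.union_sdiff_of_subset h2⟩
      rw [Finset.card_sdiff_of_subset h2, h1]
  have split : ∀ F : Finset I → G → ZMod 2, cnt X ∅ m F =
      ∑ S ∈ faces T (m - T.card), supp (X.K ∅) (F (T ∪ S)) +
        ∑ R ∈ (faces (∅ : Finset I) m).filter (fun R => ¬ T ⊆ R), supp (X.K ∅) (F R) := by
    intro F
    unfold cnt
    rw [← Finset.sum_filter_add_sum_filter_not (faces (∅ : Finset I) m) (fun R => T ⊆ R), ← himg,
      Finset.sum_image hinj]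
  have hout : ∑ R ∈ (faces (∅ : Finset I) m).filter (fun R => ¬ T ⊆ R),
        supp (X.K ∅) ((g + lift X T g₀ φ) R) =
      ∑ R ∈ (faces (∅ : Finset I) m).filter (fun R => ¬ T ⊆ R), supp (X.K ∅) (g R) := by
    refine Finset.sum_congr rfl fun R hR => ?_
    rw [Finset.mem_filter] at hR
    congr 1
    funext x
    simp only [Pi.add_apply]
    unfold lift
    rw [if_neg (fun h => hR.2 h.1), add_zero]
  have hin : ∀ S ∈ faces T (m - T.card),
      supp (X.K ∅) ((g + lift X T g₀ φ) (T ∪ S)) + supp (X.K T) (loc g T g₀ S) =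
      supp (X.K ∅) (g (T ∪ S)) + supp (X.K T) ((loc g T g₀ + φ) S) := by
    intro S hS
    simp only [faces, mem_filter, mem_univ, true_and] at hS
    rw [X.K_empty, supp_top, supp_top]
    have key : ∀ F : G → ZMod 2, (univ.filter (fun x => F x ≠ 0)).card =
        (univ.filter (fun x => g₀⁻¹ * x ∉ X.K T ∧ F x ≠ 0)).card +
          supp (X.K T) (fun k => F (g₀ * k)) := by
      intro F
      rw [← Finset.card_filter_add_card_filter_not (s := univ.filter (fun x => F x ≠ 0))
        (fun x => g₀⁻¹ * x ∉ X.K T)]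
      congr 1
      · congr 1
        ext x; simp only [mem_filter, mem_univ, true_and]; tauto
      · unfold supp
        refine Finset.card_bij (fun x _ => g₀⁻¹ * x) ?_ ?_ ?_
        · intro x hx
          simp only [mem_filter, mem_univ, true_and, not_not, mul_inv_cancel_left] at hx ⊢
          exact ⟨hx.2, hx.1⟩
        · intro a _ b _ h; exact mul_left_cancel h
        · intro b hb
          simp only [mem_filter, mem_univ, true_and] at hb
          refine ⟨g₀ * b, ?_, by simp⟩
          simp only [mem_filter, mem_univ, true_and, not_not, inv_mul_cancel_left]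
          exact ⟨hb.2, hb.1⟩
    rw [key ((g + lift X T g₀ φ) (T ∪ S)), key (g (T ∪ S))]
    have e1 : (univ.filter (fun x => g₀⁻¹ * x ∉ X.K T ∧ (g + lift X T g₀ φ) (T ∪ S) x ≠ 0)) =
        (univ.filter (fun x => g₀⁻¹ * x ∉ X.K T ∧ g (T ∪ S) x ≠ 0)) := by
      ext x
      simp only [mem_filter, mem_univ, true_and, Pi.add_apply]
      refine and_congr_right fun hx => ?_
      unfold lift
      rw [if_neg (fun h => hx h.2), add_zero]
    have e2 : supp (X.K T) (fun k => (g + lift X T g₀ φ) (T ∪ S) (g₀ * k)) =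
        supp (X.K T) ((loc g T g₀ + φ) S) := by
      unfold supp
      congr 1
      ext k
      simp only [mem_filter, mem_univ, true_and, Pi.add_apply]
      refine and_congr_right fun hk => ?_
      unfold lift loc
      rw [if_pos ⟨Finset.subset_union_left, by simpa using hk⟩, inv_mul_cancel_left,
        Finset.union_sdiff_cancel_left hS.2]
    rw [e1, e2]
    have e3 : supp (X.K T) (fun k => g (T ∪ S) (g₀ * k)) = supp (X.K T) (loc g T g₀ S) := rfl
    rw [e3]; omega
  have hsum : ∑ S ∈ faces T (m - T.card), supp (X.K ∅) ((g + lift X T g₀ φ) (T ∪ S)) +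
      cnt X T (m - T.card) (loc g T g₀) =
      ∑ S ∈ faces T (m - T.card), supp (X.K ∅) (g (T ∪ S)) +
        cnt X T (m - T.card) (loc g T g₀ + φ) := by
    unfold cnt
    rw [← Finset.sum_add_distrib, ← Finset.sum_add_distrib]
    exact Finset.sum_congr rfl hin
  rw [split, split g, hout]
  omega

open Classical in
theorem cnt_lift_le (X : CosetSystem G I) (T : Finset I) (g₀ : G) (n : ℕ)
    (ψ : Finset I → G → ZMod 2) :
    cnt X ∅ n (lift X T g₀ ψ) ≤ 2 ^ Fintype.card I * Fintype.card (X.K T) := by
  rw [cnt_eq]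
  calc ∑ S ∈ faces (∅ : Finset I) n, (univ.filter (fun g => lift X T g₀ ψ S g ≠ 0)).card
      ≤ ∑ S ∈ faces (∅ : Finset I) n, Fintype.card (X.K T) := by
        refine Finset.sum_le_sum fun S _ => ?_
        have : (univ.filter (fun g => lift X T g₀ ψ S g ≠ 0)) ⊆
            (univ : Finset (X.K T)).image (fun k : X.K T => g₀ * (k : G)) := by
          intro x hx
          simp only [mem_filter, mem_univ, true_and] at hx
          rw [Finset.mem_image]
          unfold lift at hx
          split_ifs at hx with h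
          · exact ⟨(⟨g₀⁻¹ * x, h.2⟩ : X.K T), mem_univ _, by simp⟩
          · exact absurd rfl hx
        refine (Finset.card_le_card this).trans (Finset.card_image_le.trans ?_)
        rw [Finset.card_univ]
    _ = (faces (∅ : Finset I) n).card * Fintype.card (X.K T) := by simp
    _ ≤ _ := by
        refine Nat.mul_le_mul_right _ ?_
        calc (faces (∅ : Finset I) n).card ≤ (univ : Finset (Finset I)).card :=
              Finset.card_le_card (Finset.subset_univ _)
          _ = _ := by simp

theorem cnt_add_le (X : CosetSystem G I) (T : Finset I) (n : ℕ)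
    (f g : Finset I → G → ZMod 2) : cnt X T n (f + g) ≤ cnt X T n f + cnt X T n g := by
  classical
  unfold cnt
  rw [← Finset.sum_add_distrib]
  refine Finset.sum_le_sum fun S _ => ?_
  unfold supp
  refine (Finset.card_le_card ?_).trans (Finset.card_union_le _ _)
  intro x hx
  simp only [mem_filter, mem_univ, true_and, mem_union, Pi.add_apply] at hx ⊢
  by_contra hcon
  push Not at hcon
  exact hx.2 (by rw [hcon.1 hx.1, hcon.2 hx.1, add_zero])

theorem cnt_zero (X : CosetSystem G I) (T : Finset I) (n : ℕ) : cnt X T n 0 = 0 := by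
  classical
  unfold cnt supp; simp

open Classical in
/-- Local correction: every cochain can be modified so that its coboundary is locally minimal. -/
theorem exists_locMin (X : CosetSystem G I) (n kmax : ℕ)
    (hk : ∀ T : Finset I, T.Nonempty → Fintype.card (X.K T) ≤ kmax) :
    ∀ N : ℕ, ∀ f : Finset I → G → ZMod 2, IsCochain X ∅ n f → cnt X ∅ (n + 1) (cob f) = N →
      ∃ f' : Finset I → G → ZMod 2, IsCochain X ∅ n f' ∧ LocMin X (n + 1) (cob f') ∧
        cnt X ∅ (n + 1) (cob f') ≤ N ∧
        cnt X ∅ n (f + f') + 2 ^ Fintype.card I * kmax * cnt X ∅ (n + 1) (cob f') ≤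
          2 ^ Fintype.card I * kmax * N := by
  intro N
  induction N using Nat.strong_induction_on with
  | _ N ih =>
    intro f hf hN
    by_cases hmin : LocMin X (n + 1) (cob f)
    · refine ⟨f, hf, hmin, hN.le, ?_⟩
      have : f + f = 0 := by funext S x; exact CharTwo.add_self_eq_zero _
      rw [this, cnt_zero, hN, zero_add]
    · unfold LocMin at hmin
      push Not at hmin
      obtain ⟨T, hT, hTn, g, ψ, hψ, hlt⟩ := hmin
      have hTn' : T.card ≤ n := by
        by_contra hcon
        have h0 : n + 1 - T.card = 0 := by omega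
        rw [h0] at hlt
        unfold cnt at hlt
        rw [faces_zero, Finset.sum_singleton, Finset.sum_singleton] at hlt
        have : (loc (cob f) T g + cob ψ) ∅ = loc (cob f) T g ∅ := by
          funext x; simp [cob]
        rw [this] at hlt
        exact lt_irrefl _ hlt
      have hψ' : IsCochain X T (n - T.card) ψ := by
        have : n + 1 - T.card - 1 = n - T.card := by omega
        rwa [this] at hψ
      set f₁ := f + lift X T g ψ with hf₁
      have hf₁c : IsCochain X ∅ n f₁ := hf.add (lift_isCochain X T g n ψ hψ')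
      have hcob : cob f₁ = cob f + lift X T g (cob ψ) := by rw [hf₁, cob_add, cob_lift]
      have hcnt := cnt_add_lift X T g (n + 1) hTn (cob f) (cob ψ)
      rw [← hcob] at hcnt
      have hlt' : cnt X ∅ (n + 1) (cob f₁) < N := by omega
      obtain ⟨f', h1, h2, h3, h4⟩ := ih _ hlt' f₁ hf₁c rfl
      refine ⟨f', h1, h2, h3.trans hlt'.le, ?_⟩
      have hff : f + f' = (f₁ + f') + lift X T g ψ := by
        rw [hf₁]
        funext S x
        simp only [Pi.add_apply]
        have := CharTwo.add_self_eq_zero (lift X T g ψ S x)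
        linear_combination (-1 : ZMod 2) * this
      have hle1 : cnt X ∅ n (f + f') ≤ cnt X ∅ n (f₁ + f') + 2 ^ Fintype.card I * kmax := by
        rw [hff]
        refine (cnt_add_le _ _ _ _ _).trans (Nat.add_le_add_left ?_ _)
        exact (cnt_lift_le X T g n ψ).trans (Nat.mul_le_mul_left _ (hk T hT))
      have hle2 : 2 ^ Fintype.card I * kmax * (cnt X ∅ (n + 1) (cob f₁) + 1) ≤
          2 ^ Fintype.card I * kmax * N := Nat.mul_le_mul_left _ hlt'
      rw [Nat.mul_add, Nat.mul_one] at hle2
      omega

open Classical in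
/-- **Cosystolic expansion.** -/
theorem cosystolic (X : CosetSystem G I) (n kmax : ℕ) (β lam ε : ℝ) (η : ℕ → ℝ)
    (hk : ∀ T : Finset I, T.Nonempty → Fintype.card (X.K T) ≤ kmax)
    (hβ : 0 < β) (hlam : 0 ≤ lam) (hη : ∀ r, 0 < η r) (hηn : η (n + 1) ≤ 1) (hε0 : 0 ≤ ε)
    (hLE : ∀ T : Finset I, T.Nonempty → T.card ≤ n + 1 → LinkExp X T (n + 1 - T.card) β)
    (hMix : Mix X lam)
    (hε : ∀ r, r < n + 1 → η r / η (r + 1) + lam / Real.sqrt (η (r + 1)) ≤ ε)
    (hβε : (Fintype.card I * 4 ^ Fintype.card I) * ε ≤ β / 2)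
    (f : Finset I → G → ZMod 2) (hf : IsCochain X ∅ n f) :
    ∃ z : Finset I → G → ZMod 2, IsCochain X ∅ n z ∧
      (∀ S : Finset I, S.card = n + 1 → ∀ g, cob z S g = 0) ∧
      (cnt X ∅ n (f + z) : ℝ) ≤
        (2 ^ Fintype.card I * kmax + 2 ^ Fintype.card I / η 0) * cnt X ∅ (n + 1) (cob f) := by
  by_cases hsmall : (cnt X ∅ (n + 1) (cob f) : ℝ) < η 0 * Fintype.card G
  · obtain ⟨z, hz1, hz2, hz3, hz4⟩ := exists_locMin X n kmax hk _ f hf rfl
    have hz3' : (cnt X ∅ (n + 1) (cob z) : ℝ) < η 0 * Fintype.card G :=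
      lt_of_le_of_lt (by exact_mod_cast hz3) hsmall
    have hss := small_set X (n + 1) β lam ε η hβ.le hlam hη hηn hε0 hLE hMix hε (cob z)
      hz1.cob hz2 hz3'
    rw [cob_cob, cnt_zero] at hss
    have hN : (0 : ℝ) ≤ cnt X ∅ (n + 1) (cob z) := by positivity
    have h0 : (cnt X ∅ (n + 1) (cob z) : ℝ) = 0 := by
      simp only [Nat.cast_zero, mul_zero, zero_add] at hss
      nlinarith [mul_le_mul_of_nonneg_right hβε hN]
    have h0' : cnt X ∅ (n + 1) (cob z) = 0 := by exact_mod_cast h0
    refine ⟨z, hz1, ?_, ?_⟩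
    · intro S hS g
      rw [cnt_eq, Finset.sum_eq_zero_iff] at h0'
      have := h0' S (by simp [faces, hS])
      rw [Finset.card_eq_zero, Finset.filter_eq_empty_iff] at this
      simpa using this (mem_univ g)
    · rw [h0', Nat.mul_zero, Nat.add_zero] at hz4
      have h5 : (cnt X ∅ n (f + z) : ℝ) ≤
          2 ^ Fintype.card I * kmax * cnt X ∅ (n + 1) (cob f) := by exact_mod_cast hz4
      refine h5.trans ?_
      have : (0 : ℝ) ≤ 2 ^ Fintype.card I / η 0 * cnt X ∅ (n + 1) (cob f) := by
        have := hη 0; positivity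
      linarith
  · refine ⟨0, ?_, ?_, ?_⟩
    · intro S _ _ g _ k _; rfl
    · intro S _ g; rw [cob_zero]; rfl
    · rw [add_zero]
      push Not at hsmall
      have h1 : (cnt X ∅ n f : ℝ) ≤ 2 ^ Fintype.card I * Fintype.card G := by
        have : cnt X ∅ n f ≤ 2 ^ Fintype.card I * Fintype.card G := by
          rw [cnt_eq]
          calc ∑ S ∈ faces (∅ : Finset I) n, (univ.filter (fun g => f S g ≠ 0)).card
              ≤ ∑ S ∈ faces (∅ : Finset I) n, Fintype.card G :=
                Finset.sum_le_sum fun S _ => Finset.card_le_univ _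
            _ = (faces (∅ : Finset I) n).card * Fintype.card G := by simp
            _ ≤ _ := by
                refine Nat.mul_le_mul_right _ ?_
                calc (faces (∅ : Finset I) n).card ≤ (univ : Finset (Finset I)).card :=
                      Finset.card_le_card (Finset.subset_univ _)
                  _ = _ := by simp
        exact_mod_cast this
      have hη0 := hη 0
      have h2 : (2 : ℝ) ^ Fintype.card I * Fintype.card G ≤
          2 ^ Fintype.card I / η 0 * cnt X ∅ (n + 1) (cob f) := by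
        rw [div_mul_eq_mul_div, le_div_iff₀ hη0]
        calc (2 : ℝ) ^ Fintype.card I * Fintype.card G * η 0
            = 2 ^ Fintype.card I * (η 0 * Fintype.card G) := by ring
          _ ≤ _ := by gcongr
      have h3 : (0 : ℝ) ≤ 2 ^ Fintype.card I * kmax * cnt X ∅ (n + 1) (cob f) := by positivity
      linarith

end Crest.Agent.R066
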