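import Crest.Agent.R066.EPrism

/-!
# Row 66, part (E): acyclic groups
-/

set_option autoImplicit false
set_option linter.unusedSectionVars false

open Finset

namespace Crest.Agent.R066.E

section Unique

variable {H : Type*} [Group H] {X Y : ℕ → Type*} [Cx X] [Cx Y]
  [∀ n, MulAction H (X n)] [∀ n, MulAction H (Y n)] [CxAct H X] [CxAct H Y]

theorem exY_zero_of_fex (a : ℕ) (h0 : FEx Y 0) : ExY H X Y a 0 := by
  intro f _ hf
  funext x
  exact h0 (f x) (by
    funext y
    exact congrFun (congrFun hf x) y)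

theorem exY_aux [Unique (X 0)] (n : ℕ)
    (hC1 : ∀ a b, 1 ≤ a → 1 ≤ b → a + b = n + 1 → ∀ x : X a, Ex (MulAction.stabilizer H x) Y b)
    (hC0 : Ex H Y (n + 1)) : ∀ a b, 1 ≤ b → a + b = n + 1 → ExY H X Y a b := by
  intro a b hb e
  rcases Nat.eq_zero_or_pos a with h0 | h0
  · subst h0
    obtain rfl : b = n + 1 := by omega
    intro f hf hfY
    obtain ⟨g, hg, hgf⟩ := hC0 (f default) (fun k y => by
      have := hf k default y
      rw [← this]
      exact congrArg (fun x => f x (k • y)) (Subsingleton.elim _ _)) (by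
        funext y
        exact congrFun (congrFun hfY default) y)
    refine ⟨fun _ y => g y, fun k _ y => hg k y, ?_⟩
    funext x y
    change cd g y = _
    rw [hgf]
    exact congrArg (fun x => f x y) (Subsingleton.elim _ _)
  · exact exY_of_stab a b (hC1 a b h0 hb e)

theorem compare_ex [Unique (X 0)] [Unique (Y 0)] (n : ℕ)
    (hR : ∀ a b, 1 ≤ b → a + b = n + 2 → ∀ y : Y b, Ex (MulAction.stabilizer H y) X a)
    (hC1 : ∀ a b, 1 ≤ a → 1 ≤ b → a + b = n + 1 → ∀ x : X a, Ex (MulAction.stabilizer H x) Y b)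
    (hC0 : Ex H Y (n + 1)) (h0 : FEx Y 0) : Ex H X (n + 1) := by
  intro f hf hfX
  have key := compare (H := H) (X := X) (Y := Y) n
    (fun a b hb e => exX_of_stab a b (hR a b hb e))
    (exY_aux n hC1 hC0) (exY_zero_of_fex _ h0)
  obtain ⟨g, hg, hgf⟩ := key (fun x _ => f x) (fun k x _ => hf k x) (by
    funext x _
    exact congrFun hfX x)
  refine ⟨fun x => g x default, ?_, ?_⟩
  · intro k x
    have := hg k x default
    change g (k • x) default = g x default
    rw [← this]
    exact congrArg (fun y => g (k • x) y) (Subsingleton.elim _ _)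
  · funext x
    exact congrFun (congrFun hgf x) default

theorem restr_inj' [Unique (X 0)] [Unique (Y 0)] (n : ℕ)
    (hR : ∀ a b, 2 ≤ b → a + b = n + 2 → ∀ y : Y b, Ex (MulAction.stabilizer H y) X a)
    (hC1 : ∀ a b, 1 ≤ a → 1 ≤ b → a + b = n + 1 → ∀ x : X a, Ex (MulAction.stabilizer H x) Y b)
    (hC0 : Ex H Y (n + 1)) (h0 : FEx Y 0)
    (f : X (n + 1) → F2) (hf : Inv H f) (hfX : cd f = 0)
    (hres : ∀ y : Y 1, ∃ g : X n → F2, Inv (MulAction.stabilizer H y) g ∧ cd g = f) :
    ∃ g : X n → F2, Inv H g ∧ cd g = f := by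
  have hF : BInv H (fun (x : X (n + 1)) (_ : Y 0) => f x) := fun k x _ => hf k x
  have hFX : dX (fun (x : X (n + 1)) (_ : Y 0) => f x) = 0 := by
    funext x _
    exact congrFun hfX x
  obtain ⟨z, hz, hzf⟩ := orbit_single (H := H) (X := X)
    (dY (fun (x : X (n + 1)) (_ : Y 0) => f x)) hF.dY (by
      intro y
      obtain ⟨g, hg, hgf⟩ := hres y
      refine ⟨fun x => (Multiset.card (Cx.fc 0 y) : F2) * g x, ?_, ?_⟩
      · intro k x
        simp only [hg k x]
      · funext x
        have e1 : cd (fun x => (Multiset.card (Cx.fc 0 y) : F2) * g x) x =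
            (Multiset.card (Cx.fc 0 y) : F2) * cd g x := by
          simp only [cd, Multiset.sum_map_mul_left]
        rw [e1, hgf]
        simp [dY, cd])
  obtain ⟨u, hu, huf⟩ := restr_inj (H := H) (X := X) (Y := Y) n
    (fun a b hb e => exX_of_stab a b (hR a b hb e))
    (exY_aux n hC1 hC0) (exY_zero_of_fex _ h0) _ hF hFX z hz hzf
  refine ⟨fun x => u x default, ?_, ?_⟩
  · intro k x
    have := hu k x default
    change u (k • x) default = u x default
    rw [← this]
    exact congrArg (fun y => u (k • x) y) (Subsingleton.elim _ _)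
  · funext x
    exact congrFun (congrFun huf x) default

end Unique

section Transport

theorem Ex.of_equiv {H H' : Type*} [Group H] [Group H'] (e : H ≃* H') {X : ℕ → Type*} [Cx X]
    [∀ n, MulAction H (X n)] [∀ n, MulAction H' (X n)]
    (hc : ∀ n (h : H) (x : X n), h • x = e h • x) (n : ℕ) (h : Ex H' X n) : Ex H X n := by
  have h1 : ∀ {n : ℕ} {f : X n → F2}, Inv H f → Inv H' f := by
    intro n f hf k x
    have := hf (e.symm k) x
    rwa [hc, MulEquiv.apply_symm_apply] at this
  have h2 : ∀ {n : ℕ} {f : X n → F2}, Inv H' f → Inv H f := by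
    intro n f hf k x
    rw [hc]
    exact hf _ x
  cases n with
  | zero => exact fun f hf h0 => h f (h1 hf) h0
  | succ n =>
    intro f hf h0
    obtain ⟨g, hg, hgf⟩ := h f (h1 hf) h0
    exact ⟨g, h2 hg, hgf⟩

theorem Ex.of_eq {H : Type*} [Group H] {X : ℕ → Type*} [Cx X] [∀ n, MulAction H (X n)]
    {K K' : Subgroup H} (h : K = K') {n : ℕ} (hE : Ex K X n) : Ex K' X n := by
  subst h; exact hE

/-- The cohomology of `H` vanishes in positive degrees below `L` (tuples of length `≤ L`). -/
def Acy (H : Type*) [Group H] (L : ℕ) : Prop := ∀ a ≤ L, Ex H (Tup H) a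

theorem free_left {H : Type*} [Group H] : ∀ (h v : H), h • v = v → h = 1 := by
  intro h v e
  rwa [smul_eq_mul, mul_eq_right] at e

theorem Acy.ex {H : Type*} [Group H] {L : ℕ} (h : Acy H L) {V : Type*} [MulAction H V] [Nonempty V]
    (hV : ∀ (h : H) (v : V), h • v = v → h = 1) {a : ℕ} (ha : a ≤ L) : Ex H (Tup V) a :=
  Ex.ambient hV free_left a (h a ha)

theorem acy_of_ex {H : Type*} [Group H] {L : ℕ} {V : Type*} [MulAction H V] [Nonempty V]
    (hV : ∀ (h : H) (v : V), h • v = v → h = 1) (h : ∀ a ≤ L, Ex H (Tup V) a) : Acy H L :=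
  fun a ha => Ex.ambient free_left hV a (h a ha)

theorem Acy.mono {H : Type*} [Group H] {L L' : ℕ} (h : Acy H L) (hL : L' ≤ L) : Acy H L' :=
  fun a ha => h a (ha.trans hL)

theorem acy_one {H : Type*} [Group H] : Acy H 1 := by
  intro a ha
  interval_cases a
  · exact tup_ex_zero
  · exact tup_ex_one

theorem Acy.of_equiv {H H' : Type*} [Group H] [Group H'] (e : H ≃* H') {L : ℕ} (h : Acy H' L) :
    Acy H L := by
  let _ : MulAction H H' := MulAction.compHom H' e.toMonoidHom
  have hc : ∀ (k : H) (v : H'), k • v = e k • v := fun k v => rfl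
  refine acy_of_ex (V := H') ?_ fun a ha => ?_
  · intro k v hk
    rw [hc, smul_eq_mul, mul_eq_right] at hk
    exact (MulEquiv.map_eq_one_iff e).mp hk
  · exact Ex.of_equiv e (X := Tup H') (fun n k x => rfl) a (h a ha)

end Transport

/-! ### Unipotent elements act trivially -/

section Unip

variable {Γ : Type*} [Group Γ] (K Wt : Subgroup Γ)

/-- Right cosets `Wt \ Γ`. -/
abbrev RC := Quotient (QuotientGroup.rightRel Wt)

/-- The action of a group normalising `Wt` on the right cosets. -/
@[instance_reducible] def rcAct (hn : ∀ k ∈ K, ∀ w ∈ Wt, k * w * k⁻¹ ∈ Wt) : MulAction K (RC Wt) where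
  smul k := Quotient.map' (fun g => (k : Γ) * g) (by
    intro a b hab
    rw [QuotientGroup.rightRel_apply] at hab ⊢
    have := hn k k.2 _ hab
    simpa [mul_assoc] using this)
  one_smul c := by
    induction c using Quotient.inductionOn' with
    | h g =>
      change Quotient.mk'' (((1 : K) : Γ) * g) = Quotient.mk'' g
      simp
  mul_smul k l c := by
    induction c using Quotient.inductionOn' with
    | h g =>
      change Quotient.mk'' (((k * l : K) : Γ) * g) = Quotient.mk'' ((k : Γ) * ((l : Γ) * g))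
      rw [Subgroup.coe_mul, mul_assoc]

/-- `x ∈ Wt` acts trivially on the cohomology of `K`. -/
theorem unip_trivial (hn : ∀ k ∈ K, ∀ w ∈ Wt, k * w * k⁻¹ ∈ Wt)
    (hex : ∀ a, Ex (Wt.subgroupOf K) (Tup Γ) a)
    (x : Γ) (hxW : x ∈ Wt) (hx : ∀ k ∈ K, x * k * x⁻¹ ∈ K) (N : ℕ)
    (f : Tup Γ (N + 1) → F2) (hf : Inv K f) (hf0 : cd (X := Tup Γ) f = 0) :
    ∃ γ : Tup Γ N → F2, Inv K γ ∧ cd (X := Tup Γ) γ = fun v => f (x • v) + f v := by
  let _ := rcAct K Wt hn
  let π : Γ → RC Wt := fun g => Quotient.mk'' g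
  have hπ : ∀ (k : K) (g : Γ), π (k • g) = k • π g := fun k g => rfl
  have hst : ∀ {b : ℕ} (_ : 1 ≤ b) (y : Tup (RC Wt) b),
      Wt.subgroupOf K = MulAction.stabilizer K y := by
    intro b hb y
    ext k
    rw [Subgroup.mem_subgroupOf, MulAction.mem_stabilizer_iff]
    constructor
    · intro hk
      funext i
      rw [Pi.smul_apply]
      generalize y i = c
      induction c using Quotient.inductionOn' with
      | h g =>
        change Quotient.mk'' ((k : Γ) * g) = Quotient.mk'' g
        apply Quotient.sound'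
        rw [QuotientGroup.rightRel_apply]
        simpa using hk
    · intro hk
      have := congrFun hk ⟨0, hb⟩
      rw [Pi.smul_apply] at this
      generalize y ⟨0, hb⟩ = c at this
      induction c using Quotient.inductionOn' with
      | h g =>
        change Quotient.mk'' ((k : Γ) * g) = Quotient.mk'' g at this
        have := Quotient.exact' this
        rw [QuotientGroup.rightRel_apply] at this
        simpa using this
  obtain ⟨γ, β, hγ, -, e⟩ := comparison (H := K) π hπ N (fun a b hb _ =>
    exX_of_stab a b fun y => Ex.of_eq (hst hb y) (hex a)) f hf hf0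
  have hπx : ∀ g : Γ, π (x • g) = π g := by
    intro g
    apply Quotient.sound'
    rw [QuotientGroup.rightRel_apply]
    simpa using hxW
  refine ⟨fun v => γ (x • v) + γ v, ?_, ?_⟩
  · intro k v
    have h1 : x • k • v = (⟨x * k * x⁻¹, hx k k.2⟩ : K) • (x • v) := by
      funext i
      change x * ((k : Γ) * v i) = (x * k * x⁻¹) * (x * v i)
      group
    change γ (x • k • v) + γ (k • v) = γ (x • v) + γ v
    rw [h1, hγ, hγ]
  · have h2 : cd (X := Tup Γ) (fun v => γ (x • v) + γ v) =
        fun v => cd (X := Tup Γ) γ (x • v) + cd (X := Tup Γ) γ v := by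
      have h3 := cd_smul (H := Γ) (X := Tup Γ) γ x
      have h4 := cd_add (X := Tup Γ) (fun v => γ (x • v)) γ
      rw [h3] at h4
      exact h4
    rw [h2, e]
    funext v
    simp only [Pi.add_apply]
    have h5 : (π ∘ (x • v) : Fin (N + 1) → RC Wt) = π ∘ v := by
      funext i
      exact hπx (v i)
    rw [h5]
    have := CharTwo.add_self_eq_zero (β (π ∘ v))
    linear_combination -this

end Unip

end Crest.Agent.R066.E
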