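import Crest.Agent.R066.Basic

/-! The matrix model (task T5a). -/

set_option autoImplicit false
set_option linter.unusedSectionVars false
open scoped BigOperators
open Polynomial

namespace Crest.Agent.R066

section FinSub
variable {n : ℕ}

theorem fin_sub_val (x c : Fin n) :
    (x - c).val = if c ≤ x then x.val - c.val else n + x.val - c.val := by
  rw [Fin.sub_def]
  simp only [Fin.le_def]
  have hx := x.2
  have hc := c.2
  split_ifs with h
  · have : n - c.val + x.val = (x.val - c.val) + n := by omega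
    rw [this, Nat.add_mod_right, Nat.mod_eq_of_lt (by omega)]
  · have : n - c.val + x.val = n + x.val - c.val := by omega
    rw [this, Nat.mod_eq_of_lt (by omega)]

theorem fin_sub_lt (x y c : Fin n) :
    x - c < y - c ↔ (y < c ∧ c ≤ x) ∨ (x < y ∧ (c ≤ x ∨ y < c)) := by
  rw [Fin.lt_def, fin_sub_val, fin_sub_val]
  simp only [Fin.le_def, Fin.lt_def]
  have hx := x.2
  have hy := y.2
  have hc := c.2
  split_ifs <;> omega

end FinSub

variable {n p : ℕ} [NeZero n]

/-! ### the conjugation trick -/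

/-- the diagonal matrix `X ^ [a < j]` -/
noncomputable def Dg (p : ℕ) (j : Fin n) : Matrix (Fin n) (Fin n) (ZMod p)[X] :=
  Matrix.diagonal (fun a => X ^ (if a < j then 1 else 0))

/-- the cyclic reindexing of a constant matrix -/
noncomputable def cyc (j : Fin n) (u : Matrix (Fin n) (Fin n) (ZMod p)) :
    Matrix (Fin n) (Fin n) (ZMod p)[X] :=
  (u.submatrix (Equiv.subRight j) (Equiv.subRight j)).map C

theorem phiMat_mul_Dg (j : Fin n) (u : Matrix (Fin n) (Fin n) (ZMod p))
    (hu : ∀ x y, x < y → u x y = 0) : phiMat j u * Dg p j = Dg p j * cyc j u := by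
  ext1 a b
  unfold Dg
  rw [Matrix.mul_diagonal, Matrix.diagonal_mul]
  simp only [phiMat, cyc, Matrix.map_apply, Matrix.submatrix_apply, Equiv.subRight_apply]
  by_cases h : a - j < b - j
  · rw [hu _ _ h]; simp
  · rw [fin_sub_lt] at h
    push Not at h
    have h2 : ((if a < j then 1 else 0) - (if b < j then 1 else 0) : ℕ) +
        (if b < j then 1 else 0) = (if a < j then 1 else 0) := by
      by_cases h3 : b < j
      · have := h.1 h3
        simp [h3, this]
      · simp [h3]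
    rw [mul_assoc, ← pow_add, h2, mul_comm]

theorem Dg_cancel (hp : p.Prime) (j : Fin n) {A B : Matrix (Fin n) (Fin n) (ZMod p)[X]}
    (h : A * Dg p j = B * Dg p j) : A = B := by
  have := Fact.mk hp
  ext1 a b
  have := congrFun (congrFun h a) b
  unfold Dg at this
  rw [Matrix.mul_diagonal, Matrix.mul_diagonal] at this
  exact mul_right_cancel₀ (pow_ne_zero _ X_ne_zero) this

theorem det_Dg_ne_zero (hp : p.Prime) (j : Fin n) : (Dg p j).det ≠ 0 := by
  have := Fact.mk hp
  unfold Dg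
  rw [Matrix.det_diagonal]
  exact Finset.prod_ne_zero_iff.2 fun a _ => pow_ne_zero _ X_ne_zero

theorem cyc_mul (j : Fin n) (u v : Matrix (Fin n) (Fin n) (ZMod p)) :
    cyc j (u * v) = cyc j u * cyc j v := by
  unfold cyc
  rw [← Matrix.map_mul, Matrix.submatrix_mul_equiv]

theorem det_cyc (j : Fin n) (u : Matrix (Fin n) (Fin n) (ZMod p)) :
    (cyc j u).det = C u.det := by
  unfold cyc
  rw [← RingHom.mapMatrix_apply, ← RingHom.map_det, Matrix.det_submatrix_equiv_self]

theorem det_phiMat (hp : p.Prime) (j : Fin n) (u : U n p) : (phiMat j u.1.1).det = 1 := by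
  have := Fact.mk hp
  have h := congrArg Matrix.det (phiMat_mul_Dg j u.1.1 u.2.2)
  rw [Matrix.det_mul, Matrix.det_mul, det_cyc, u.1.2, map_one, mul_one] at h
  exact mul_right_cancel₀ (det_Dg_ne_zero hp j) (h.trans (one_mul _).symm)

theorem phiMat_mul (hp : p.Prime) (j : Fin n) (u v : U n p) :
    phiMat j (u * v).1.1 = phiMat j u.1.1 * phiMat j v.1.1 := by
  apply Dg_cancel hp j
  rw [phiMat_mul_Dg j _ (u * v).2.2, Matrix.mul_assoc, phiMat_mul_Dg j _ v.2.2, ← Matrix.mul_assoc,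
    phiMat_mul_Dg j _ u.2.2, Matrix.mul_assoc, ← cyc_mul]
  rfl

/-- `phiMat` is multiplicative on unitriangular matrices and has determinant one: the
embedding `φ_j : U n p → SL_n(F_p[X])`. -/
theorem exists_phi (hp : p.Prime) (j : Fin n) :
    ∃ φ : U n p →* SLX n p, ∀ u : U n p, (φ u).1 = phiMat j u.1.1 := by
  refine ⟨MonoidHom.mk' (fun u => ⟨phiMat j u.1.1, det_phiMat hp j u⟩) ?_, fun u => rfl⟩
  intro u v
  apply Subtype.ext
  exact phiMat_mul hp j u v

/-- A chosen `φ_j`. -/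
noncomputable def phi (hp : p.Prime) (j : Fin n) : U n p →* SLX n p := (exists_phi hp j).choose

theorem phi_coe (hp : p.Prime) (j : Fin n) (u : U n p) : (phi hp j u).1 = phiMat j u.1.1 :=
  (exists_phi hp j).choose_spec u

theorem phi_injective (hp : p.Prime) (j : Fin n) : Function.Injective (phi hp j) := by
  intro u v h
  have h1 : phiMat j u.1.1 = phiMat j v.1.1 := by rw [← phi_coe hp, ← phi_coe hp, h]
  apply Subtype.ext
  apply Subtype.ext
  ext1 x y
  have h2 := congrFun (congrFun h1 (x + j)) (y + j)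
  simp only [phiMat, add_sub_cancel_right] at h2
  have h3 := congrArg (fun q => q.coeff (((if x + j < j then 1 else 0) -
    (if y + j < j then 1 else 0) : ℕ))) h2
  simpa [Polynomial.coeff_C_mul, Polynomial.coeff_X_pow] using h3

theorem phi_range (hp : p.Prime) (j : Fin n) : (phi hp j).range = Hsub n p j := by
  unfold Hsub
  have h : Hset n p j = ((phi hp j).range : Set (SLX n p)) := by
    ext g
    rw [SetLike.mem_coe, MonoidHom.mem_range]
    constructor
    · rintro ⟨u, hu⟩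
      exact ⟨u, Subtype.ext (by rw [phi_coe, hu])⟩
    · rintro ⟨u, rfl⟩
      exact ⟨u, phi_coe hp j u⟩
  rw [h, Subgroup.closure_eq]

/-! ### normal form -/

/-- normal form: entries `C (r a b) * X ^ [a < b]`. -/
noncomputable def nf (r : Matrix (Fin n) (Fin n) (ZMod p)) : Matrix (Fin n) (Fin n) (ZMod p)[X] :=
  fun a b => C (r a b) * X ^ (if a < b then 1 else 0)

theorem nf_coeff (r : Matrix (Fin n) (Fin n) (ZMod p)) (a b : Fin n) :
    (nf r a b).coeff (if a < b then 1 else 0) = r a b := by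
  unfold nf
  rw [Polynomial.coeff_C_mul, Polynomial.coeff_X_pow]
  simp

theorem nf_injective {r r' : Matrix (Fin n) (Fin n) (ZMod p)} (h : nf r = nf r') : r = r' := by
  ext1 a b
  rw [← nf_coeff r a b, ← nf_coeff r' a b, h]

theorem nf_natDegree (r : Matrix (Fin n) (Fin n) (ZMod p)) (a b : Fin n) :
    (nf r a b).natDegree ≤ 1 := by
  unfold nf
  refine (Polynomial.natDegree_C_mul_X_pow_le _ _).trans ?_
  split_ifs <;> simp

theorem phiMat_eq_nf (j : Fin n) (u : Matrix (Fin n) (Fin n) (ZMod p))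
    (hu : ∀ x y, x < y → u x y = 0) : phiMat j u = nf (fun a b => u (a - j) (b - j)) := by
  ext1 a b
  simp only [phiMat, nf]
  by_cases h : a - j < b - j
  · rw [hu _ _ h]; simp
  · have h' := h
    rw [fin_sub_lt] at h
    push Not at h
    congr 2
    by_cases h1 : a < j <;> by_cases h2 : b < j <;> by_cases h3 : a < b <;> simp [h1, h2, h3]
    · exact absurd h2 (not_lt.2 (h.2 h3).2)
    · exact absurd (lt_of_lt_of_le h1 (not_lt.1 h2)) h3
    · exact absurd (h.1 h2) h1
    · exact absurd (h.2 h3).1 (not_lt.2 (not_lt.1 h1))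

/-- lower unitriangular matrices as elements of `U` -/
def mkU (u : Matrix (Fin n) (Fin n) (ZMod p)) (h1 : ∀ a, u a a = 1) (h2 : ∀ a b, a < b → u a b = 0) :
    U n p :=
  ⟨⟨u, by
    rw [Matrix.det_of_isLowerTriangular u (fun i j h => h2 i j h)]
    simp [h1]⟩, h1, h2⟩

theorem mem_Hsub (hp : p.Prime) (j : Fin n) (g : SLX n p) :
    g ∈ Hsub n p j ↔ ∃ r : Matrix (Fin n) (Fin n) (ZMod p), g.1 = nf r ∧ (∀ a, r a a = 1) ∧
      ∀ a b, a - j < b - j → r a b = 0 := by
  rw [← phi_range hp, MonoidHom.mem_range]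
  constructor
  · rintro ⟨u, rfl⟩
    refine ⟨fun a b => u.1.1 (a - j) (b - j), ?_, fun a => u.2.1 _, fun a b h => u.2.2 _ _ h⟩
    rw [phi_coe, phiMat_eq_nf j _ u.2.2]
  · rintro ⟨r, hr, h1, h2⟩
    have h3 : ∀ x y : Fin n, x < y → r (x + j) (y + j) = 0 := by
      intro a b h
      apply h2
      rwa [add_sub_cancel_right, add_sub_cancel_right]
    refine ⟨mkU (Matrix.of fun x y => r (x + j) (y + j)) (fun a => h1 _) h3, ?_⟩
    apply Subtype.ext
    rw [phi_coe, hr]
    refine (phiMat_eq_nf j (Matrix.of fun x y => r (x + j) (y + j)) h3).trans ?_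
    congr 1
    ext1 a b
    show r (a - j + j) (b - j + j) = r a b
    rw [sub_add_cancel, sub_add_cancel]

/-- elements of a nonempty intersection of the `H_j` -/
theorem mem_PJ_Hsub (hp : p.Prime) (J : Finset (Fin n)) (hJ : J.Nonempty) (g : SLX n p) :
    (∀ j ∈ J, g ∈ Hsub n p j) ↔ ∃ r : Matrix (Fin n) (Fin n) (ZMod p), g.1 = nf r ∧
      (∀ a, r a a = 1) ∧ ∀ j ∈ J, ∀ a b, a - j < b - j → r a b = 0 := by
  constructor
  · intro h
    obtain ⟨j₀, hj₀⟩ := hJ
    obtain ⟨r, hr, h1, _⟩ := (mem_Hsub hp j₀ g).1 (h j₀ hj₀)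
    refine ⟨r, hr, h1, fun j hj => ?_⟩
    obtain ⟨r', hr', _, h2'⟩ := (mem_Hsub hp j g).1 (h j hj)
    have : r = r' := nf_injective (hr.symm.trans hr')
    rw [this]; exact h2'
  · rintro ⟨r, hr, h1, h2⟩ j hj
    exact (mem_Hsub hp j g).2 ⟨r, hr, h1, h2 j hj⟩

theorem mem_Uplus (g : SLX n p) : g ∈ Uplus n p ↔
    (∀ i, (g.1 i i).coeff 0 = 1) ∧ ∀ i j, i < j → (g.1 i j).coeff 0 = 0 := by
  unfold Uplus
  rw [Subgroup.mem_comap]
  rfl

theorem Hsub_le_Uplus (hp : p.Prime) (j : Fin n) : Hsub n p j ≤ Uplus n p := by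
  intro g hg
  obtain ⟨r, hr, h1, h2⟩ := (mem_Hsub hp j g).1 hg
  rw [mem_Uplus, hr]
  constructor
  · intro i
    have := nf_coeff r i i
    rw [if_neg (lt_irrefl i), h1] at this
    exact this
  · intro a b hab
    unfold nf
    rw [if_pos hab, pow_one, Polynomial.coeff_C_mul, Polynomial.coeff_X_zero, mul_zero]

theorem phi_map_Bsub (hp : p.Prime) (j c : Fin n) :
    (Bsub n p c).map (phi hp j) = Hsub n p j ⊓ Hsub n p (j + c) := by
  ext g
  rw [Subgroup.mem_map, Subgroup.mem_inf, mem_Hsub hp, mem_Hsub hp]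
  constructor
  · rintro ⟨u, hu, rfl⟩
    have h0 : (phi hp j u).1 = nf (fun a b => u.1.1 (a - j) (b - j)) := by
      rw [phi_coe, phiMat_eq_nf j _ u.2.2]
    refine ⟨⟨_, h0, fun a => u.2.1 _, fun a b h => u.2.2 _ _ h⟩,
      ⟨_, h0, fun a => u.2.1 _, fun a b h => ?_⟩⟩
    rw [sub_add_eq_sub_sub, sub_add_eq_sub_sub, fin_sub_lt] at h
    rcases h with h | h
    · exact hu _ _ h.1 h.2
    · exact u.2.2 _ _ h.1
  · rintro ⟨⟨r, hr, h1, h2⟩, ⟨r', hr', h1', h2'⟩⟩
    have hrr : r = r' := nf_injective (hr.symm.trans hr')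
    subst hrr
    have h3 : ∀ x y : Fin n, x < y → r (x + j) (y + j) = 0 := by
      intro a b h
      apply h2
      rwa [add_sub_cancel_right, add_sub_cancel_right]
    refine ⟨mkU (Matrix.of fun x y => r (x + j) (y + j)) (fun a => h1 _) h3, ?_, ?_⟩
    · intro a b hb ha
      show r (a + j) (b + j) = 0
      apply h2'
      rw [sub_add_eq_sub_sub, sub_add_eq_sub_sub, add_sub_cancel_right, add_sub_cancel_right,
        fin_sub_lt]
      exact Or.inl ⟨hb, ha⟩
    · apply Subtype.ext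
      rw [phi_coe, hr]
      refine (phiMat_eq_nf j (Matrix.of fun x y => r (x + j) (y + j)) h3).trans ?_
      congr 1
      ext1 a b
      show r (a - j + j) (b - j + j) = r a b
      rw [sub_add_cancel, sub_add_cancel]

theorem Hsub_natDegree (hp : p.Prime) (j : Fin n) (h : SLX n p) (hh : h ∈ Hsub n p j) (a b : Fin n) :
    (h.1 a b).natDegree ≤ 1 := by
  obtain ⟨r, hr, _⟩ := (mem_Hsub hp j h).1 hh
  rw [hr]
  exact nf_natDegree r a b

/-! ### congruence subgroups -/

theorem mem_Gam_iff (k : ℕ) (g : SLX n p) :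
    g ∈ Gam n p k ↔ ∀ a b, (X : (ZMod p)[X]) ^ k ∣ (g.1 a b - (1 : Matrix (Fin n) (Fin n) (ZMod p)[X]) a b) := by
  unfold Gam
  rw [MonoidHom.mem_ker]
  constructor
  · intro h a b
    have h1 := congrFun (congrFun (congrArg Subtype.val h) a) b
    rw [← Ideal.mem_span_singleton, ← Ideal.Quotient.mk_eq_mk_iff_sub_mem]
    have h2 : (Ideal.Quotient.mk (Ideal.span {(X : (ZMod p)[X]) ^ k})) (g.1 a b) =
      (1 : Matrix (Fin n) (Fin n) _) a b := h1
    rw [h2]
    by_cases hab : a = b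
    · subst hab; simp
    · simp [hab]
  · intro h
    apply Subtype.ext
    ext1 a b
    have h1 := h a b
    rw [← Ideal.mem_span_singleton, ← Ideal.Quotient.mk_eq_mk_iff_sub_mem] at h1
    show (Ideal.Quotient.mk (Ideal.span {(X : (ZMod p)[X]) ^ k})) (g.1 a b) =
      (1 : Matrix (Fin n) (Fin n) _) a b
    rw [h1]
    by_cases hab : a = b
    · subst hab; simp
    · simp [hab]

theorem mem_Gam_diff (k : ℕ) (h h' : SLX n p) (hc : h⁻¹ * h' ∈ Gam n p k) (a b : Fin n) :
    (X : (ZMod p)[X]) ^ k ∣ (h'.1 a b - h.1 a b) := by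
  rw [mem_Gam_iff] at hc
  have h1 : h'.1 = h.1 * (h⁻¹ * h').1 := by
    rw [← Matrix.SpecialLinearGroup.coe_mul, mul_inv_cancel_left]
  have h2 : h'.1 a b - h.1 a b =
      ∑ c, h.1 a c * ((h⁻¹ * h').1 c b - (1 : Matrix (Fin n) (Fin n) (ZMod p)[X]) c b) := by
    simp only [mul_sub, Finset.sum_sub_distrib]
    rw [← Matrix.mul_apply, ← Matrix.mul_apply, ← h1, mul_one]
  rw [h2]
  exact Finset.dvd_sum fun c _ => Dvd.dvd.mul_left (hc c b) _

theorem Gam_of_diff (k : ℕ) (h h' : SLX n p)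
    (hc : ∀ a b : Fin n, (X : (ZMod p)[X]) ^ k ∣ (h'.1 a b - h.1 a b)) : h⁻¹ * h' ∈ Gam n p k := by
  rw [mem_Gam_iff]
  intro a b
  have h1 : (1 : Matrix (Fin n) (Fin n) (ZMod p)[X]) = (h⁻¹).1 * h.1 := by
    rw [← Matrix.SpecialLinearGroup.coe_mul]; simp
  have h2 : (h⁻¹ * h').1 a b - (1 : Matrix (Fin n) (Fin n) (ZMod p)[X]) a b =
      ∑ c, (h⁻¹).1 a c * (h'.1 c b - h.1 c b) := by
    simp only [mul_sub, Finset.sum_sub_distrib]
    rw [← Matrix.mul_apply, ← Matrix.mul_apply, ← h1]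
    rfl
  rw [h2]
  exact Finset.dvd_sum fun c _ => Dvd.dvd.mul_left (hc c b) _

/-- Two elements of the `H`'s that are congruent modulo `X^k`, `k ≥ 2`, are equal. -/
theorem Hsub_eq_of_congr (hp : p.Prime) (k : ℕ) (hk : 2 ≤ k) (i j : Fin n) (h h' : SLX n p)
    (hh : h ∈ Hsub n p i) (hh' : h' ∈ Hsub n p j) (hc : h⁻¹ * h' ∈ Gam n p k) : h = h' := by
  have := Fact.mk hp
  apply Subtype.ext
  ext1 a b
  have h1 := mem_Gam_diff k h h' hc a b
  have h2 : (h'.1 a b - h.1 a b).natDegree ≤ 1 :=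
    (Polynomial.natDegree_sub_le _ _).trans
      (max_le (Hsub_natDegree hp j h' hh' a b) (Hsub_natDegree hp i h hh a b))
  by_contra hne
  have h3 : h'.1 a b - h.1 a b ≠ 0 := fun h0 => hne (sub_eq_zero.1 h0).symm
  have h4 := Polynomial.natDegree_le_of_dvd h1 h3
  rw [Polynomial.natDegree_X_pow] at h4
  omega

theorem Gam_le_Uplus (k : ℕ) (hk : 1 ≤ k) : Gam n p k ≤ Uplus n p := by
  intro g hg
  rw [mem_Gam_iff] at hg
  rw [mem_Uplus]
  have h1 : ∀ a b, (g.1 a b).coeff 0 = ((1 : Matrix (Fin n) (Fin n) (ZMod p)[X]) a b).coeff 0 := by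
    intro a b
    have h2 : (X : (ZMod p)[X]) ∣ (g.1 a b - (1 : Matrix (Fin n) (Fin n) (ZMod p)[X]) a b) :=
      (dvd_pow_self X (by omega)).trans (hg a b)
    rw [Polynomial.X_dvd_iff, Polynomial.coeff_sub, sub_eq_zero] at h2
    exact h2
  constructor
  · intro i
    rw [h1]; simp
  · intro i j hij
    rw [h1]; simp [hij.ne]

/-- the constant reduction `h₀` of `h ∈ Uplus` -/
noncomputable def redC (g : SLX n p) : SLX n p :=
  Matrix.SpecialLinearGroup.map (C : ZMod p →+* (ZMod p)[X])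
    (Matrix.SpecialLinearGroup.map (Polynomial.constantCoeff) g)

theorem redC_apply (g : SLX n p) (a b : Fin n) : (redC g).1 a b = C ((g.1 a b).coeff 0) := rfl

theorem redC_mem_H0 (hp : p.Prime) (g : SLX n p) (hg : g ∈ Uplus n p) : redC g ∈ Hsub n p 0 := by
  rw [mem_Uplus] at hg
  rw [mem_Hsub hp]
  refine ⟨fun a b => (g.1 a b).coeff 0, ?_, fun a => hg.1 a, fun a b h => hg.2 a b ?_⟩
  · ext1 a b
    rw [redC_apply]
    unfold nf
    by_cases h : a < b
    · simp [h, hg.2 a b h]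
    · simp [h]
  · simpa using h

theorem redC_mem_H (hp : p.Prime) (j : Fin n) (g : SLX n p) (hg : g ∈ Hsub n p j) :
    redC g ∈ Hsub n p j := by
  obtain ⟨r, hr, h1, h2⟩ := (mem_Hsub hp j g).1 hg
  rw [mem_Hsub hp]
  refine ⟨fun a b => if a < b then 0 else r a b, ?_, fun a => by simp [h1], fun a b h => ?_⟩
  · ext1 a b
    rw [redC_apply, hr]
    unfold nf
    by_cases h : a < b
    · simp [h]
    · simp [h]
  · show (if a < b then 0 else r a b) = 0
    rw [h2 a b h]
    simp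

theorem redC_Gam (g : SLX n p) : g * (redC g)⁻¹ ∈ Gam n p 1 := by
  have h1 : (redC g)⁻¹ * g ∈ Gam n p 1 := by
    apply Gam_of_diff
    intro a b
    rw [redC_apply, pow_one, Polynomial.X_dvd_iff]
    simp
  have h2 := (Gam_normal n p 1).conj_mem _ h1 (redC g)
  rwa [mul_inv_cancel_left] at h2

theorem mem_PJ {I : Type*} {G : Type*} [Group G] (P : I → Subgroup G) (J : Finset I) (g : G) :
    g ∈ PJ P J ↔ ∀ i ∈ J, g ∈ P i := by
  simp [PJ, Subgroup.mem_iInf]

/-- Face stabilisers factor modulo level one: for `0 ∉ J` every element of `H_J` is a product of an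
element of `Gam 1` and an element of `H_{J ∪ 0}`. (For `J = ∅`, `PJ = ⊤`.) -/
theorem HsubU_factor (hp : p.Prime) (J : Finset (Fin n)) (h : ↥(Uplus n p)) (hh : h ∈ PJ (HsubU n p) J) :
    ∃ h₀ ∈ PJ (HsubU n p) (insert 0 J), (h * h₀⁻¹ : ↥(Uplus n p)).1 ∈ Gam n p 1 := by
  refine ⟨⟨redC h.1, Hsub_le_Uplus hp 0 (redC_mem_H0 hp h.1 h.2)⟩, ?_, ?_⟩
  · rw [mem_PJ] at hh ⊢
    intro i hi
    rw [Finset.mem_insert] at hi
    unfold HsubU
    rw [Subgroup.mem_subgroupOf]
    rcases hi with rfl | hi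
    · exact redC_mem_H0 hp h.1 h.2
    · refine redC_mem_H hp i h.1 ?_
      have := hh i hi
      unfold HsubU at this
      rwa [Subgroup.mem_subgroupOf] at this
  · exact redC_Gam h.1

/-- Face stabilisers in `G_k` are the images of the face stabilisers in `Uplus`. -/
theorem PJ_Pk (hp : p.Prime) (k : ℕ) (hk : 2 ≤ k) (J : Finset (Fin n)) :
    PJ (Pk n p k) J = (PJ (HsubU n p) J).map (QuotientGroup.mk' ((Gam n p k).subgroupOf (Uplus n p))) := by
  ext x
  rw [mem_PJ, Subgroup.mem_map]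
  constructor
  · intro hx
    rcases J.eq_empty_or_nonempty with rfl | ⟨j₀, hj₀⟩
    · obtain ⟨g, rfl⟩ := QuotientGroup.mk'_surjective _ x
      exact ⟨g, by simp [PJ], rfl⟩
    · have h1 : ∀ i ∈ J, ∃ g ∈ HsubU n p i,
          QuotientGroup.mk' ((Gam n p k).subgroupOf (Uplus n p)) g = x := by
        intro i hi
        have := hx i hi
        unfold Pk at this
        rwa [Subgroup.mem_map] at this
      obtain ⟨g, hg, hgx⟩ := h1 j₀ hj₀
      refine ⟨g, ?_, hgx⟩
      rw [mem_PJ]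
      intro i hi
      obtain ⟨g', hg', hgx'⟩ := h1 i hi
      have h2 : g = g' := by
        have h3 : (QuotientGroup.mk g : Gk n p k) = QuotientGroup.mk g' := hgx.trans hgx'.symm
        rw [QuotientGroup.eq, Subgroup.mem_subgroupOf] at h3
        apply Subtype.ext
        exact Hsub_eq_of_congr hp k hk j₀ i g.1 g'.1 (Subgroup.mem_subgroupOf.1 hg)
          (Subgroup.mem_subgroupOf.1 hg') h3
      rw [h2]
      exact hg'
  · rintro ⟨g, hg, rfl⟩ i hi
    unfold Pk
    exact Subgroup.mem_map_of_mem _ ((mem_PJ _ _ _).1 hg i hi)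

theorem locallyU_Pk (hp : p.Prime) (k : ℕ) (hk : 2 ≤ k) : LocallyU p (Pk n p k) := by
  intro j
  -- `φ_j` with values in `Uplus`
  have hmem : ∀ u : U n p, phi hp j u ∈ Uplus n p := by
    intro u
    apply Hsub_le_Uplus hp j
    rw [← phi_range hp]
    exact ⟨u, rfl⟩
  let φ₀ : U n p →* ↥(Uplus n p) := (phi hp j).codRestrict (Uplus n p) hmem
  have hφ₀ : ∀ K : Subgroup (U n p), (K.map φ₀) = (K.map (phi hp j)).subgroupOf (Uplus n p) := by
    intro K
    ext x
    rw [Subgroup.mem_map, Subgroup.mem_subgroupOf, Subgroup.mem_map]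
    constructor
    · rintro ⟨u, hu, rfl⟩
      exact ⟨u, hu, rfl⟩
    · rintro ⟨u, hu, h⟩
      exact ⟨u, hu, Subtype.ext h⟩
  have hrange : φ₀.range = HsubU n p j := by
    rw [MonoidHom.range_eq_map, hφ₀, ← MonoidHom.range_eq_map, phi_range]
    rfl
  refine ⟨(QuotientGroup.mk' ((Gam n p k).subgroupOf (Uplus n p))).comp φ₀, ?_, ?_, ?_⟩
  · intro u v huv
    have h3 : (QuotientGroup.mk (φ₀ u) : Gk n p k) = QuotientGroup.mk (φ₀ v) := huv
    rw [QuotientGroup.eq, Subgroup.mem_subgroupOf] at h3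
    have hm : ∀ u : U n p, phi hp j u ∈ Hsub n p j := fun u => by
      rw [← phi_range hp]; exact ⟨u, rfl⟩
    have h4 := Hsub_eq_of_congr hp k hk j j (phi hp j u) (phi hp j v) (hm u) (hm v) h3
    exact phi_injective hp j h4
  · rw [MonoidHom.range_comp, hrange]
    rfl
  · intro c
    have h5 : Pk n p k j ⊓ Pk n p k (j + c) = PJ (Pk n p k) {j, j + c} := by
      ext x
      rw [Subgroup.mem_inf, mem_PJ]
      simp
    have h6 : PJ (HsubU n p) {j, j + c} = HsubU n p j ⊓ HsubU n p (j + c) := by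
      ext x
      rw [Subgroup.mem_inf, mem_PJ]
      simp
    rw [h5, PJ_Pk hp k hk, h6, ← Subgroup.map_map, hφ₀, phi_map_Bsub]
    congr 1

theorem finite_Gk (hp : p.Prime) (k : ℕ) : Finite (Gk n p k) := by
  have := Fact.mk hp
  -- the quotient ring is finite
  let Q := (ZMod p)[X] ⧸ Ideal.span {(X : (ZMod p)[X]) ^ k}
  have hfin : Module.Finite (ZMod p) Q := (Polynomial.monic_X_pow k).finite_quotient
  have hQ : Finite Q := Module.finite_of_finite (ZMod p)
  have hSL : Finite (Matrix.SpecialLinearGroup (Fin n) Q) := Subtype.finite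
  let f : ↥(Uplus n p) →* Matrix.SpecialLinearGroup (Fin n) Q :=
    (Matrix.SpecialLinearGroup.map (Ideal.Quotient.mk (Ideal.span {(X : (ZMod p)[X]) ^ k}))).comp
      (Uplus n p).subtype
  have hker : f.ker = (Gam n p k).subgroupOf (Uplus n p) := by
    ext x
    rw [MonoidHom.mem_ker, Subgroup.mem_subgroupOf]
    rfl
  have e : Gk n p k ≃ f.range :=
    ((QuotientGroup.quotientMulEquivOfEq hker.symm).trans
      (QuotientGroup.quotientKerEquivRange f)).toEquiv
  exact Finite.of_equiv _ e.symm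

/-- the transvection `1 + X q e_{01}` -/
noncomputable def tv (hn : 2 ≤ n) (q : (ZMod p)[X]) : SLX n p :=
  ⟨Matrix.transvection (⟨0, by omega⟩ : Fin n) (⟨1, by omega⟩ : Fin n) (X * q), by
    rw [Matrix.det_transvection_of_ne]
    intro h
    have := congrArg Fin.val h
    simp at this⟩

theorem card_Gk (hp : p.Prime) (hn : 2 ≤ n) (k : ℕ) (hk : 1 ≤ k) : p ^ (k - 1) ≤ Nat.card (Gk n p k) := by
  have := Fact.mk hp
  have := finite_Gk (n := n) hp k
  let i0 : Fin n := ⟨0, by omega⟩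
  let i1 : Fin n := ⟨1, by omega⟩
  have hne : i0 ≠ i1 := by
    intro h
    have := congrArg Fin.val h
    simp [i0, i1] at this
  have hval : ∀ q : (ZMod p)[X], ∀ a b, (tv hn q).1 a b =
      (1 : Matrix (Fin n) (Fin n) (ZMod p)[X]) a b + if (i0 = a ∧ i1 = b) then X * q else 0 := by
    intro q a b
    show Matrix.transvection i0 i1 (X * q) a b = _
    unfold Matrix.transvection
    rw [Matrix.add_apply, Matrix.single_apply]
  have hU : ∀ q : (ZMod p)[X], tv hn q ∈ Uplus n p := by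
    intro q
    rw [mem_Uplus]
    constructor
    · intro i
      rw [hval, if_neg (fun h => hne (h.1.trans h.2.symm))]
      simp
    · intro i j hij
      rw [hval]
      split_ifs
      · simp [hij.ne]
      · simp [hij.ne]
  -- polynomials of degree `< k - 1`
  let F : (Fin (k - 1) → ZMod p) → Gk n p k := fun c =>
    QuotientGroup.mk ⟨tv hn (∑ i : Fin (k - 1), C (c i) * X ^ (i : ℕ)), hU _⟩
  have hF : Function.Injective F := by
    intro c c' h
    have h3 : (QuotientGroup.mk (⟨tv hn (∑ i : Fin (k - 1), C (c i) * X ^ (i : ℕ)), hU _⟩ :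
      ↥(Uplus n p)) : Gk n p k) = QuotientGroup.mk ⟨tv hn (∑ i : Fin (k - 1), C (c' i) * X ^ (i : ℕ)),
        hU _⟩ := h
    rw [QuotientGroup.eq, Subgroup.mem_subgroupOf] at h3
    have h4 := mem_Gam_diff k _ _ h3 i0 i1
    rw [hval, hval, if_pos ⟨rfl, rfl⟩, if_pos ⟨rfl, rfl⟩, add_sub_add_left_eq_sub, ← mul_sub] at h4
    funext i
    rw [Polynomial.X_pow_dvd_iff] at h4
    have h5 := h4 (i + 1) (by omega)
    rw [Polynomial.coeff_X_mul, Polynomial.coeff_sub, sub_eq_zero] at h5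
    have h6 : ∀ c : Fin (k - 1) → ZMod p,
        (∑ i : Fin (k - 1), C (c i) * X ^ (i : ℕ)).coeff (i : ℕ) = c i := by
      intro c
      rw [Polynomial.finsetSum_coeff, Finset.sum_eq_single i]
      · simp
      · intro b _ hb
        rw [Polynomial.coeff_C_mul, Polynomial.coeff_X_pow, if_neg, mul_zero]
        exact fun h => hb (Fin.ext h.symm)
      · simp
    rw [h6, h6] at h5
    exact h5.symm
  have h7 := Nat.card_le_card_of_injective F hF
  rw [Nat.card_fun, Nat.card_eq_fintype_card (α := Fin (k - 1)), Fintype.card_fin,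
    Nat.card_zmod] at h7
  exact h7

end Crest.Agent.R066
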