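import Crest.Agent.R066.TransvPack
import Crest.Agent.R066.Model

/-!
# Row 66, part (E): linear automorphisms congruent to one have determinant one
-/

set_option autoImplicit false

namespace Crest.Agent.R066.E

open Polynomial Module

theorem exists_of_mem_NP {n p : ℕ} (hp : p.Prime) (k : ℕ) (hk : 1 ≤ k)
    (g : (Fin n → (ZMod p)[X]) ≃ₗ[(ZMod p)[X]] (Fin n → (ZMod p)[X]))
    (hg : g ∈ NP (Fin n → (ZMod p)[X]) (Ideal.span {(X : (ZMod p)[X])^k})) :
    ∃ A ∈ Gam n p k, Matrix.SpecialLinearGroup.toLin' A = g := by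
  have := Fact.mk hp
  let A : Matrix (Fin n) (Fin n) (ZMod p)[X] :=
    LinearMap.toMatrix' (g : (Fin n → (ZMod p)[X]) →ₗ[(ZMod p)[X]] (Fin n → (ZMod p)[X]))
  have hA : ∀ i j, A i j = g (Pi.single j 1) i := by
    intro i j
    simp only [A, LinearMap.toMatrix'_apply]
    congr 2
  have hcc : ∀ i j, Polynomial.constantCoeff (A i j) = (1 : Matrix (Fin n) (Fin n) (ZMod p)) i j := by
    intro i j
    rw [mem_NP] at hg
    have h1 := mem_smul_top_pi.1 (hg (Pi.single j 1)) i
    rw [Pi.sub_apply, Ideal.mem_span_singleton] at h1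
    have h2 : (X : (ZMod p)[X]) ∣ g (Pi.single j 1) i - (Pi.single j 1 : Fin n → (ZMod p)[X]) i :=
      (dvd_pow_self X (by omega)).trans h1
    rw [Polynomial.X_dvd_iff, Polynomial.coeff_sub, sub_eq_zero] at h2
    rw [Polynomial.constantCoeff_apply, hA, h2, Pi.single_apply, Matrix.one_apply]
    split_ifs <;> simp
  have hdet : A.det = 1 := by
    have h1 : IsUnit A.det := by
      have h2 := LinearEquiv.isUnit_det' g
      rw [← LinearMap.det_toMatrix'] at h2
      exact h2
    obtain ⟨c, hc, hcA⟩ := Polynomial.isUnit_iff.mp h1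
    have h3 : Polynomial.constantCoeff A.det = 1 := by
      rw [RingHom.map_det]
      have : Polynomial.constantCoeff.mapMatrix A = (1 : Matrix (Fin n) (Fin n) (ZMod p)) := by
        ext i j
        rw [RingHom.mapMatrix_apply, Matrix.map_apply, hcc]
      rw [this, Matrix.det_one]
    rw [← hcA] at h3 ⊢
    rw [Polynomial.constantCoeff_apply, Polynomial.coeff_C_zero] at h3
    rw [h3, map_one]
  obtain ⟨B, hB⟩ : ∃ B : SLX n p, B.1 = A := ⟨⟨A, hdet⟩, rfl⟩
  have hgA : Matrix.SpecialLinearGroup.toLin' B = g := by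
    apply LinearEquiv.toLinearMap_injective
    rw [Matrix.SpecialLinearGroup.toLin'_to_linearMap, hB]
    exact Matrix.toLin'_toMatrix' _
  refine ⟨B, ?_, hgA⟩
  rw [mem_Gam_iff_NP, hgA]
  exact hg

end Crest.Agent.R066.E
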