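import Crest.Agent.R066.Model

set_option autoImplicit false

namespace Crest.Agent.R066.E

open Polynomial

theorem lowtri_pow {n : ℕ} {R : Type*} [CommRing R] (N : Matrix (Fin n) (Fin n) R)
    (hN : ∀ i j : Fin n, i ≤ j → N i j = 0) (m : ℕ) :
    ∀ i j : Fin n, (i : ℕ) < (j : ℕ) + m → (N ^ m) i j = 0 := by
  induction m with
  | zero =>
    intro i j h
    rw [pow_zero, Matrix.one_apply, if_neg]
    intro e
    subst e
    omega
  | succ m ih =>
    intro i j h
    rw [pow_succ, Matrix.mul_apply]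
    refine Finset.sum_eq_zero fun l _ => ?_
    rcases Nat.lt_or_ge (i : ℕ) ((l : ℕ) + m) with h1 | h1
    · rw [ih i l h1, zero_mul]
    · rw [hN l j (by rw [Fin.le_def]; omega), mul_zero]

theorem pow_mem_Gam {n p : ℕ} [NeZero n] (hp : p.Prime) (k : ℕ) (g : SLX n p) (hg : g ∈ Uplus n p) :
    ∃ a : ℕ, g ^ (p ^ a) ∈ Gam n p k := by
  have := Fact.mk hp
  let M : Matrix (Fin n) (Fin n) (ZMod p)[X] := g.1
  let N := M - 1
  have h1 : ∀ i j : Fin n, i ≤ j → (N.map Polynomial.constantCoeff) i j = 0 := by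
    intro i j hij
    have h2 := hg
    change (∀ i, _) ∧ _ at h2
    obtain ⟨h3, h4⟩ := h2
    rw [Matrix.map_apply]
    simp only [N, Matrix.sub_apply, map_sub]
    rcases eq_or_lt_of_le hij with rfl | hlt
    · have h5 := h3 i
      change Polynomial.constantCoeff (M i i) = 1 at h5
      rw [h5, Matrix.one_apply_eq, map_one, sub_self]
    · have h5 := h4 i j hlt
      change Polynomial.constantCoeff (M i j) = 0 at h5
      rw [h5, Matrix.one_apply_ne hlt.ne, map_zero, sub_self]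
  have h2 : ∀ i j : Fin n, (X : (ZMod p)[X]) ∣ (N ^ n) i j := by
    intro i j
    rw [Polynomial.X_dvd_iff]
    have h3 := lowtri_pow _ h1 n i j (by have := i.2; omega)
    rw [← Matrix.map_pow, Matrix.map_apply] at h3
    exact h3
  have h3 : ∀ m : ℕ, ∀ i j : Fin n, (X : (ZMod p)[X]) ^ m ∣ ((N ^ n) ^ m) i j := by
    intro m
    induction m with
    | zero => intro i j; simp
    | succ m ih =>
      intro i j
      rw [pow_succ, pow_succ, Matrix.mul_apply]
      exact Finset.dvd_sum fun l _ => mul_dvd_mul (ih i l) (h2 l j)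
  refine ⟨n * k, ?_⟩
  have hle : n * k ≤ p ^ (n * k) := (Nat.lt_pow_self hp.one_lt).le
  have h4 : M ^ (p ^ (n * k)) = 1 + N ^ (p ^ (n * k)) := by
    have h5 : M = 1 + N := by simp [N]
    conv_lhs => rw [h5]
    have hc : CharP (Matrix (Fin n) (Fin n) (ZMod p)[X]) p ∨ n = 0 := by
      rcases Nat.eq_zero_or_pos n with h | h
      · exact Or.inr h
      · have : Nonempty (Fin n) := ⟨⟨0, h⟩⟩
        exact Or.inl inferInstance
    rcases hc with hc | hc
    · rw [add_pow_char_pow_of_commute (p := p) (n := n * k) (Commute.one_left N), one_pow]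
    · subst hc
      ext i
      exact i.elim0
  rw [mem_Gam_iff]
  intro i j
  have h6 : (g ^ (p ^ (n * k))).1 = M ^ (p ^ (n * k)) := Matrix.SpecialLinearGroup.coe_pow _ _
  rw [h6, h4, Matrix.add_apply, add_sub_cancel_left]
  obtain ⟨c, hc⟩ := Nat.exists_eq_add_of_le hle
  rw [hc, pow_add, pow_mul, Matrix.mul_apply]
  exact Finset.dvd_sum fun l _ => Dvd.dvd.mul_right (h3 k i l) _

theorem odd_Gk {n p : ℕ} [NeZero n] (hp : p.Prime) (hp2 : p ≠ 2) (k) (_hk : 1 ≤ k) :
    Odd (Nat.card (Gk n p k)) := by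
  have := Fact.mk hp
  have := finite_Gk (n := n) hp k
  have hpg : IsPGroup p (Gk n p k) := by
    intro q
    induction q using QuotientGroup.induction_on with
    | H g =>
      obtain ⟨a, ha⟩ := pow_mem_Gam hp k g.1 g.2
      refine ⟨a, ?_⟩
      rw [← QuotientGroup.mk_pow, QuotientGroup.eq_one_iff, Subgroup.mem_subgroupOf]
      exact ha
  obtain ⟨m, hm⟩ := (IsPGroup.iff_card).mp hpg
  rw [hm]
  exact (hp.odd_of_ne_two hp2).pow

theorem odd_HsubU {n p : ℕ} [NeZero n] (hp : p.Prime) (hp2 : p ≠ 2) (j : Fin n) :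
    Finite ↥(HsubU n p j) ∧ Odd (Nat.card ↥(HsubU n p j)) := by
  have := finite_Gk (n := n) hp 2
  let φ : ↥(HsubU n p j) →* Gk n p 2 :=
    (QuotientGroup.mk' ((Gam n p 2).subgroupOf (Uplus n p))).comp (HsubU n p j).subtype
  have hinj : Function.Injective φ := by
    rintro ⟨⟨a, ha⟩, ha'⟩ ⟨⟨b, hb⟩, hb'⟩ h
    have h1 := QuotientGroup.eq.mp h
    have h2 := Hsub_eq_of_congr hp 2 le_rfl j j a b ha' hb' h1
    subst h2
    rfl
  exact ⟨Finite.of_injective φ hinj,
    Odd.of_dvd_nat (odd_Gk hp hp2 2 (by norm_num)) (Subgroup.card_dvd_of_injective φ hinj)⟩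

end Crest.Agent.R066.E
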