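import Crest.Agent.R066.EXT
import Crest.Agent.R066.Chain

/-!
# Row 66, part (E): exactness of the function complex of the typed coset complex from exactness of chains
-/

set_option autoImplicit false
set_option linter.unusedSectionVars false

open Finset

namespace Crest.Agent.R066.E

section Dual

variable {I G : Type*} [DecidableEq I] [Group G] (P : I → Subgroup G) [DecidableEq (CosetVert P)]

/-- The simplex of type `S` of the chamber `g`. -/
def XT.sx (S : Finset I) (g : G) : Finset (CosetVert P) :=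
  S.image (fun i => (⟨i, (g : G ⧸ P i)⟩ : CosetVert P))

theorem XT.vert_inj (g : G) :
    Function.Injective (fun i => (⟨i, (g : G ⧸ P i)⟩ : CosetVert P)) := by
  intro i j h
  exact congrArg Sigma.fst h

theorem XT.card_sx (S : Finset I) (g : G) : (XT.sx P S g).card = S.card :=
  Finset.card_image_of_injective _ (XT.vert_inj P g)

theorem XT.sx_mem (S : Finset I) (g : G) : XT.sx P S g ∈ cosetCx P := by
  refine ⟨g, fun v hv => ?_⟩
  obtain ⟨i, _, rfl⟩ := Finset.mem_image.mp hv
  rfl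

theorem XT.mem_sx {S : Finset I} {g : G} {v : CosetVert P} :
    v ∈ XT.sx P S g ↔ v.1 ∈ S ∧ v.2 = (g : G ⧸ P v.1) := by
  constructor
  · intro hv
    obtain ⟨i, hi, rfl⟩ := Finset.mem_image.mp hv
    exact ⟨hi, rfl⟩
  · rintro ⟨h1, h2⟩
    refine Finset.mem_image.mpr ⟨v.1, h1, ?_⟩
    rw [← h2]

theorem XT.exists_sx {s : Finset (CosetVert P)} (hs : s ∈ cosetCx P) :
    ∃ (S : Finset I) (g : G), s = XT.sx P S g := by
  obtain ⟨g, hg⟩ := hs
  refine ⟨s.image Sigma.fst, g, ?_⟩
  ext v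
  rw [XT.mem_sx]
  constructor
  · intro hv
    exact ⟨Finset.mem_image_of_mem _ hv, hg v hv⟩
  · rintro ⟨h1, h2⟩
    obtain ⟨w, hw, hwv⟩ := Finset.mem_image.mp h1
    have h3 := hg w hw
    obtain ⟨i, c⟩ := v
    obtain ⟨j, d⟩ := w
    simp only at hwv h2 h3
    subst hwv
    rw [h2, ← h3]
    exact hw

theorem XT.sx_eq_iff {S T : Finset I} {g h : G} :
    XT.sx P S g = XT.sx P T h ↔ S = T ∧ g⁻¹ * h ∈ PJ P S := by
  constructor
  · intro e
    have h1 : S = T := by
      ext i
      constructor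
      · intro hi
        have : (⟨i, (g : G ⧸ P i)⟩ : CosetVert P) ∈ XT.sx P T h := by
          rw [← e]; exact (XT.mem_sx P).mpr ⟨hi, rfl⟩
        exact ((XT.mem_sx P).mp this).1
      · intro hi
        have : (⟨i, (h : G ⧸ P i)⟩ : CosetVert P) ∈ XT.sx P S g := by
          rw [e]; exact (XT.mem_sx P).mpr ⟨hi, rfl⟩
        exact ((XT.mem_sx P).mp this).1
    refine ⟨h1, ?_⟩
    simp only [PJ, Subgroup.mem_iInf]
    intro i hi
    have : (⟨i, (g : G ⧸ P i)⟩ : CosetVert P) ∈ XT.sx P T h := by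
      rw [← e]; exact (XT.mem_sx P).mpr ⟨hi, rfl⟩
    exact QuotientGroup.eq.mp ((XT.mem_sx P).mp this).2
  · rintro ⟨rfl, h1⟩
    simp only [PJ, Subgroup.mem_iInf] at h1
    ext v
    rw [XT.mem_sx, XT.mem_sx]
    constructor
    · rintro ⟨h2, h3⟩
      exact ⟨h2, h3.trans (QuotientGroup.eq.mpr (h1 _ h2))⟩
    · rintro ⟨h2, h3⟩
      exact ⟨h2, h3.trans (QuotientGroup.eq.mpr (h1 _ h2)).symm⟩

theorem XT.sx_erase {S : Finset I} {g : G} (i : I) :
    (XT.sx P S g).erase ⟨i, (g : G ⧸ P i)⟩ = XT.sx P (S.erase i) g :=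
  (Finset.image_erase (XT.vert_inj P g) S i).symm

theorem XT.bd_sx (S : Finset I) (g : G) :
    bd (Finsupp.single (XT.sx P S g) 1) =
      ∑ i ∈ S, (Finsupp.single (XT.sx P (S.erase i) g) 1 : Ch (CosetVert P)) := by
  rw [bd_single]
  conv_lhs => rw [XT.sx]
  rw [Finset.sum_image (fun i _ j _ h => XT.vert_inj P g h)]
  refine Finset.sum_congr rfl fun i _ => ?_
  rw [← XT.sx_erase]
  rfl

open Classical in
/-- Value of `f` on a simplex of the coset complex. -/
noncomputable def XT.val {b : ℕ} (f : XT P b → F2) (s : Finset (CosetVert P)) : F2 :=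
  if h : ∃ (S : Finset I) (_ : S.card = b) (g : G), s = XT.sx P S g then
    f (XT.mk P h.choose h.choose_spec.choose h.choose_spec.choose_spec.choose) else 0

theorem XT.val_sx {b : ℕ} (f : XT P b → F2) (S : Finset I) (hS : S.card = b) (g : G) :
    XT.val P f (XT.sx P S g) = f (XT.mk P S hS g) := by
  have h : ∃ (T : Finset I) (_ : T.card = b) (g' : G), XT.sx P S g = XT.sx P T g' := ⟨S, hS, g, rfl⟩
  rw [XT.val, dif_pos h]
  congr 1
  rw [XT.mk_eq_iff]
  have h2 := h.choose_spec.choose_spec.choose_spec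
  exact (XT.sx_eq_iff P).mp h2.symm

/-- The functional on chains given by a function on faces. -/
noncomputable def XT.fn {b : ℕ} (f : XT P b → F2) : Ch (CosetVert P) →ₗ[ZMod 2] F2 :=
  Finsupp.linearCombination (ZMod 2) (XT.val P f)

theorem XT.fn_sx {b : ℕ} (f : XT P b → F2) (S : Finset I) (hS : S.card = b) (g : G) :
    XT.fn P f (Finsupp.single (XT.sx P S g) 1) = f (XT.mk P S hS g) := by
  rw [XT.fn, Finsupp.linearCombination_single, one_smul, XT.val_sx]

theorem XT.fn_bd_sx {b : ℕ} (f : XT P b → F2) (S : Finset I) (hS : S.card = b + 1) (g : G) :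
    XT.fn P f (bd (Finsupp.single (XT.sx P S g) 1)) = cd f (XT.mk P S hS g) := by
  rw [XT.bd_sx, map_sum, XT.cd_mk]
  refine Finset.sum_congr rfl fun i hi => ?_
  have h : (S.erase i).card = b := by rw [Finset.card_erase_of_mem hi, hS]; rfl
  rw [XT.fn_sx P f _ h, XT.ev_of_card f h]

theorem XT.chains_induction {i : ℕ} {N : Type*} [AddCommMonoid N] [Module (ZMod 2) N]
    {φ ψ : Ch (CosetVert P) →ₗ[ZMod 2] N}
    (h : ∀ (S : Finset I) (_ : S.card = i) (g : G),
      φ (Finsupp.single (XT.sx P S g) 1) = ψ (Finsupp.single (XT.sx P S g) 1))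
    {z : Ch (CosetVert P)} (hz : z ∈ chains (cosetCx P) i) : φ z = ψ z := by
  rw [mem_chains] at hz
  rw [← Finsupp.sum_single z, Finsupp.sum, map_sum, map_sum]
  refine Finset.sum_congr rfl fun s hs => ?_
  obtain ⟨h1, h2⟩ := hz s hs
  obtain ⟨S, g, rfl⟩ := XT.exists_sx P h1
  rw [XT.card_sx] at h2
  have h3 : (Finsupp.single (XT.sx P S g) (z (XT.sx P S g)) : Ch (CosetVert P)) =
      z (XT.sx P S g) • Finsupp.single (XT.sx P S g) 1 := by
    rw [Finsupp.smul_single, smul_eq_mul, mul_one]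
  rw [h3, map_smul, map_smul, h S h2 g]

theorem XT.fn_bd {b : ℕ} (f : XT P b → F2) (hf : cd f = 0) {z : Ch (CosetVert P)}
    (hz : z ∈ chains (cosetCx P) (b + 1)) : XT.fn P f (bd z) = 0 := by
  have := XT.chains_induction P (φ := (XT.fn P f).comp bd) (ψ := 0) (i := b + 1) ?_ hz
  · exact this
  · intro S hS g
    rw [LinearMap.comp_apply, XT.fn_bd_sx P f S hS, hf]
    rfl

/-- Exactness of the chain complex gives exactness of the complex of all functions. -/
theorem XT.fex_of_exactAt (m : ℕ) (h : ExactAt (cosetCx P) m) : FEx (XT P) m := by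
  cases m with
  | zero =>
    intro f hf
    funext x
    obtain ⟨S, hS, g, rfl⟩ := XT.exists_mk P x
    have hz : (Finsupp.single (XT.sx P S g) 1 : Ch (CosetVert P)) ∈ chains (cosetCx P) 0 :=
      single_mem_chains' (XT.sx_mem P S g) (by rw [XT.card_sx, hS]) 1
    have hS0 : S = ∅ := Finset.card_eq_zero.mp hS
    obtain ⟨y, hy, hy2⟩ := h _ hz (by rw [XT.bd_sx, hS0, Finset.sum_empty])
    have h1 := XT.fn_bd P f hf hy
    rw [hy2, XT.fn_sx P f S hS] at h1
    exact h1
  | succ n =>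
    intro f hf
    -- the functional on chains factors through the boundary
    let B : ↥(chains (cosetCx P) (n + 1)) →ₗ[ZMod 2] Ch (CosetVert P) :=
      bd.comp (Submodule.subtype _)
    let φ : Module.Dual (ZMod 2) ↥(chains (cosetCx P) (n + 1)) :=
      (XT.fn P f).comp (Submodule.subtype _)
    have hφ : φ ∈ (LinearMap.ker B).dualAnnihilator := by
      rw [Submodule.mem_dualAnnihilator]
      rintro ⟨z, hz⟩ hz2
      have hz3 : bd z = 0 := hz2
      obtain ⟨y, hy, hy2⟩ := h z hz hz3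
      change XT.fn P f z = 0
      rw [← hy2]
      exact XT.fn_bd P f hf hy
    rw [← LinearMap.range_dualMap_eq_dualAnnihilator_ker] at hφ
    obtain ⟨ψ, hψ⟩ := hφ
    refine ⟨fun x => ψ (Finsupp.single (XT.sx P x.1.1 x.2.out) 1), ?_⟩
    have hg : ∀ (S : Finset I) (hS : S.card = n) (g : G),
        (fun x : XT P n => ψ (Finsupp.single (XT.sx P x.1.1 x.2.out) 1)) (XT.mk P S hS g) =
          ψ (Finsupp.single (XT.sx P S g) 1) := by
      intro S hS g
      change ψ (Finsupp.single (XT.sx P S (g : G ⧸ PJ P S).out) 1) = _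
      have : XT.sx P S (g : G ⧸ PJ P S).out = XT.sx P S g := by
        rw [XT.sx_eq_iff]
        refine ⟨rfl, ?_⟩
        exact QuotientGroup.eq.mp (Quotient.out_eq' (g : G ⧸ PJ P S))
      rw [this]
    funext x
    obtain ⟨S, hS, g, rfl⟩ := XT.exists_mk P x
    rw [XT.cd_mk]
    have h1 : ∀ i ∈ S, XT.ev (fun x : XT P n => ψ (Finsupp.single (XT.sx P x.1.1 x.2.out) 1))
        (S.erase i) g = ψ (Finsupp.single (XT.sx P (S.erase i) g) 1) := by
      intro i hi
      have h : (S.erase i).card = n := by rw [Finset.card_erase_of_mem hi, hS]; rfl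
      rw [XT.ev_of_card _ h]
      exact hg _ h g
    rw [Finset.sum_congr rfl h1, ← map_sum, ← XT.bd_sx]
    have hz : (Finsupp.single (XT.sx P S g) 1 : Ch (CosetVert P)) ∈
        chains (cosetCx P) (n + 1) :=
      single_mem_chains' (XT.sx_mem P S g) (by rw [XT.card_sx, hS]) 1
    have h2 := LinearMap.congr_fun hψ ⟨_, hz⟩
    change ψ (bd (Finsupp.single (XT.sx P S g) 1)) = XT.fn P f (Finsupp.single (XT.sx P S g) 1) at h2
    rw [h2, XT.fn_sx P f S hS]

end Dual

end Crest.Agent.R066.E
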