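import Crest.Agent.R066.EXT

/-!
# Row 66, part (E): invariant functions on the typed coset complex; stabilisers
-/

set_option autoImplicit false
set_option linter.unusedSectionVars false

open Finset

namespace Crest.Agent.R066.E

variable {I G : Type*} [DecidableEq I] [Group G]

theorem XT.inv_mk {P : I → Subgroup G} {b : ℕ} {f : XT P b → F2} (hf : Inv G f) (S : Finset I)
    (hS : S.card = b) (g : G) : f (XT.mk P S hS g) = XT.ev f S 1 := by
  rw [XT.ev_of_card f hS]
  have := hf g (XT.mk P S hS 1)
  rw [XT.smul_mk, mul_one] at this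
  exact this

theorem XT.ex_top [Nonempty I] (P : I → Subgroup G) (b : ℕ) : Ex G (XT P) b := by
  classical
  obtain ⟨i0⟩ := (inferInstance : Nonempty I)
  cases b with
  | zero =>
    intro f _ h0
    funext x
    obtain ⟨S, hS, g, rfl⟩ := XT.exists_mk P x
    have h1 := congrFun h0 (XT.mk P {i0} (Finset.card_singleton i0) g)
    rw [XT.cd_mk, Finset.sum_singleton] at h1
    have h2 : ({i0} : Finset I).erase i0 = S := by
      rw [Finset.card_eq_zero.mp hS]
      simp
    rw [h2, XT.ev_of_card f hS] at h1
    exact h1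
  | succ n =>
    intro f hf h0
    let φ : Finset I → F2 := fun S => XT.ev f S 1
    let γ : Finset I → F2 := fun T => if i0 ∈ T then 0 else φ (insert i0 T)
    refine ⟨fun x => γ x.1.1, ?_, ?_⟩
    · intro k x
      rfl
    · funext x
      obtain ⟨S, hS, g, rfl⟩ := XT.exists_mk P x
      rw [XT.cd_mk, XT.inv_mk hf]
      have h1 : ∀ i ∈ S, XT.ev (fun x : XT P n => γ x.1.1) (S.erase i) g = γ (S.erase i) := by
        intro i hi
        rw [XT.ev_of_card _ (by rw [Finset.card_erase_of_mem hi, hS]; rfl)]
        rfl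
      rw [Finset.sum_congr rfl h1]
      change _ = φ S
      by_cases hi0 : i0 ∈ S
      · rw [Finset.sum_eq_single i0]
        · simp only [γ, Finset.notMem_erase, if_false]
          rw [Finset.insert_erase hi0]
        · intro i hi hne
          simp only [γ]
          rw [if_pos (Finset.mem_erase.mpr ⟨hne.symm, hi0⟩)]
        · exact fun h => absurd hi0 h
      · have h2 := congrFun h0 (XT.mk P (insert i0 S)
          (by rw [Finset.card_insert_of_notMem hi0, hS]) 1)
        rw [XT.cd_mk, Finset.sum_insert hi0, Finset.erase_insert hi0] at h2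
        have h3 : ∑ i ∈ S, γ (S.erase i) = ∑ i ∈ S, XT.ev f ((insert i0 S).erase i) 1 := by
          refine Finset.sum_congr rfl fun i hi => ?_
          have hne : i ≠ i0 := fun h => hi0 (h ▸ hi)
          simp only [γ]
          rw [if_neg (fun h => hi0 (Finset.mem_of_mem_erase h)),
            Finset.erase_insert_of_ne hne.symm]
        rw [h3]
        exact (CharTwo.add_eq_zero.mp h2).symm

theorem XT.stab_odd (P : I → Subgroup G) (hP : ∀ i, Finite (P i) ∧ Odd (Nat.card (P i)))
    (K : Subgroup G) {b : ℕ} (hb : 1 ≤ b) (y : XT P b) :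
    Finite (MulAction.stabilizer K y) ∧ Odd (Nat.card (MulAction.stabilizer K y)) := by
  obtain ⟨S, hS, g, rfl⟩ := XT.exists_mk P y
  obtain ⟨i, hi⟩ : S.Nonempty := Finset.card_pos.mp (by omega)
  have hk : ∀ k : MulAction.stabilizer K (XT.mk P S hS g), g⁻¹ * (k.1 : G) * g ∈ P i := by
    rintro ⟨k, hk⟩
    rw [MulAction.mem_stabilizer_iff] at hk
    have h1 : XT.mk P S hS ((k : G) * g) = XT.mk P S hS g := hk
    rw [XT.mk_eq_iff] at h1
    have h2 := h1.2
    have h3 := inv_mem h2
    have h4 : g⁻¹ * (k : G) * g ∈ PJ P S := by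
      have : ((↑k * g)⁻¹ * g)⁻¹ = g⁻¹ * (k : G) * g := by group
      rwa [this] at h3
    simp only [PJ, Subgroup.mem_iInf] at h4
    exact h4 i hi
  let φ : MulAction.stabilizer K (XT.mk P S hS g) →* P i :=
    { toFun := fun k => ⟨g⁻¹ * (k.1 : G) * g, hk k⟩
      map_one' := by
        apply Subtype.ext
        simp
      map_mul' := by
        intro a b
        apply Subtype.ext
        simp [mul_assoc] }
  have hinj : Function.Injective φ := by
    intro a b h
    have h1 : g⁻¹ * (a.1 : G) * g = g⁻¹ * (b.1 : G) * g := congrArg Subtype.val h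
    have h2 : (a.1 : G) = b.1 := by
      have := mul_right_cancel h1
      exact mul_left_cancel this
    exact Subtype.ext (Subtype.ext h2)
  have hfin := (hP i).1
  refine ⟨Finite.of_injective φ hinj, ?_⟩
  exact Odd.of_dvd_nat (hP i).2 (Subgroup.card_dvd_of_injective φ hinj)

theorem XT.stab_odd' (P : I → Subgroup G) (hP : ∀ i, Finite (P i) ∧ Odd (Nat.card (P i)))
    {b : ℕ} (hb : 1 ≤ b) (y : XT P b) :
    Finite (MulAction.stabilizer G y) ∧ Odd (Nat.card (MulAction.stabilizer G y)) := by
  obtain ⟨h1, h2⟩ := XT.stab_odd P hP ⊤ hb y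
  have e : MulAction.stabilizer G y ≃ MulAction.stabilizer (⊤ : Subgroup G) y :=
    { toFun := fun g => ⟨⟨g.1, trivial⟩, g.2⟩
      invFun := fun g => ⟨g.1.1, g.2⟩
      left_inv := fun g => rfl
      right_inv := fun g => rfl }
  exact ⟨Finite.of_equiv _ e.symm, by rw [Nat.card_congr e]; exact h2⟩

end Crest.Agent.R066.E
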