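import Crest.Agent.R066.EXT

/-!
# Row 66, part (E): vanishing for the quotient system from exactness of the `N`-invariant functions
-/

set_option autoImplicit false
set_option linter.unusedSectionVars false

open Finset

namespace Crest.Agent.R066.E

theorem PJ_empty' {I G : Type*} [Group G] (P : I → Subgroup G) : PJ P ∅ = ⊤ := by simp [PJ]

section

variable {I G : Type*} [DecidableEq I] [Group G] (P : I → Subgroup G) (N : Subgroup G) [N.Normal]

theorem XT.ev_mul_right {b : ℕ} (u : XT P b → F2) (J : Finset I) (g k : G) (hk : k ∈ PJ P J) :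
    XT.ev u J (g * k) = XT.ev u J g := by
  unfold XT.ev
  split_ifs with h
  · congr 1
    rw [XT.mk_eq_iff]
    refine ⟨rfl, ?_⟩
    have : (g * k)⁻¹ * g = k⁻¹ := by group
    rw [this]
    exact (PJ P J).inv_mem hk
  · rfl

theorem XT.ev_smul {b : ℕ} {u : XT P b → F2} (hu : Inv N u) (J : Finset I) (a : G) (ha : a ∈ N)
    (g : G) : XT.ev u J (a * g) = XT.ev u J g := by
  unfold XT.ev
  split_ifs with h
  · have := hu ⟨a, ha⟩ (XT.mk P J h g)
    exact this
  · rfl

theorem XT.ev_out {b : ℕ} {u : XT P b → F2} (hu : Inv N u) (J : Finset I) (g : G) :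
    XT.ev u J ((g : G ⧸ N).out) = XT.ev u J g := by
  have h1 : (((g : G ⧸ N).out : G) : G ⧸ N) = (g : G ⧸ N) := Quotient.out_eq' _
  have h2 : g⁻¹ * (g : G ⧸ N).out ∈ N := QuotientGroup.eq.mp h1.symm
  have h3 : (g : G ⧸ N).out * g⁻¹ ∈ N := by
    have := (inferInstance : N.Normal).conj_mem _ h2 g
    have e : g * (g⁻¹ * (g : G ⧸ N).out) * g⁻¹ = (g : G ⧸ N).out * g⁻¹ := by group
    rwa [e] at this
  have h4 := XT.ev_smul P N hu J _ h3 g
  have e : (g : G ⧸ N).out * g⁻¹ * g = (g : G ⧸ N).out := by group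
  rw [e] at h4
  exact h4

/-- Exactness of the complex of `N`-invariant functions gives the vanishing of the cohomology of
the quotient system. -/
theorem van_of_ex (m : ℕ) (hm : 1 ≤ m)
    (hPJ : ∀ J : Finset I, PJ (fun i => (P i).map (QuotientGroup.mk' N)) J =
      (PJ P J).map (QuotientGroup.mk' N))
    (h : Ex N (XT P) m) : Van (fun i => (P i).map (QuotientGroup.mk' N)) m := by
  obtain ⟨n, rfl⟩ : ∃ n, m = n + 1 := ⟨m - 1, by omega⟩
  intro f hf hcl
  -- values of `f`
  have hfr : ∀ (J : Finset I), J.card = n + 1 → ∀ (g k : G), k ∈ PJ P J →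
      f J ((g * k : G) : G ⧸ N) = f J (g : G ⧸ N) := by
    intro J hJ g k hk
    have h1 := hf J hJ (Finset.disjoint_empty_right _) (g : G ⧸ N)
      (by rw [PJ_empty']; trivial) (k : G ⧸ N) (by
        rw [Finset.union_empty, hPJ]
        exact ⟨k, hk, rfl⟩)
    rw [← h1]
    rfl
  have hfl : ∀ (J : Finset I) (a g : G), a ∈ N →
      f J ((a * g : G) : G ⧸ N) = f J (g : G ⧸ N) := by
    intro J a g ha
    congr 1
    rw [QuotientGroup.mk_mul, (QuotientGroup.eq_one_iff a).mpr ha, one_mul]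
  -- the invariant function
  let F : XT P (n + 1) → F2 := fun x => f x.1.1 ((x.2.out : G) : G ⧸ N)
  have hF : ∀ (S : Finset I) (hS : S.card = n + 1) (g : G), F (XT.mk P S hS g) = f S (g : G ⧸ N) := by
    intro S hS g
    change f S (((g : G ⧸ PJ P S).out : G) : G ⧸ N) = _
    have h1 : (((g : G ⧸ PJ P S).out : G) : G ⧸ PJ P S) = (g : G ⧸ PJ P S) := Quotient.out_eq' _
    have h2 : g⁻¹ * (g : G ⧸ PJ P S).out ∈ PJ P S := QuotientGroup.eq.mp h1.symm
    have h3 := hfr S hS g _ h2
    rw [mul_inv_cancel_left] at h3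
    exact h3
  have hinv : Inv N F := by
    rintro ⟨a, ha⟩ x
    obtain ⟨S, hS, g, rfl⟩ := XT.exists_mk P x
    have e : (⟨a, ha⟩ : N) • XT.mk P S hS g = XT.mk P S hS (a * g) := rfl
    rw [e, hF, hF, hfl S a g ha]
  have hcd : cd F = 0 := by
    funext x
    obtain ⟨S, hS, g, rfl⟩ := XT.exists_mk P x
    rw [XT.cd_mk]
    have h1 := hcl S hS (g : G ⧸ N)
    unfold cob at h1
    change _ = (0 : F2)
    rw [← h1]
    refine Finset.sum_congr rfl fun i hi => ?_
    have h2 : (S.erase i).card = n + 1 := by rw [Finset.card_erase_of_mem hi, hS]; rfl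
    rw [XT.ev_of_card _ h2, hF]
  obtain ⟨u, hu, hcu⟩ := h F hinv hcd
  refine ⟨fun J x => XT.ev u J x.out, ?_, ?_⟩
  · intro J _ _ x _ y hy
    rw [Finset.union_empty, hPJ] at hy
    obtain ⟨k, hk, rfl⟩ := hy
    induction x using QuotientGroup.induction_on with
    | H g =>
      have e : ((g : G ⧸ N) * QuotientGroup.mk' N k) = ((g * k : G) : G ⧸ N) := rfl
      rw [e]
      change XT.ev u J (((g * k : G) : G ⧸ N).out) = XT.ev u J ((g : G ⧸ N).out)
      rw [XT.ev_out P N hu, XT.ev_out P N hu, XT.ev_mul_right P u J g k hk]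
  · intro J hJ x
    induction x using QuotientGroup.induction_on with
    | H g =>
      rw [← hF J hJ g, ← hcu, XT.cd_mk]
      unfold cob
      exact Finset.sum_congr rfl fun i _ => (XT.ev_out P N hu (J.erase i) g).symm

end

end Crest.Agent.R066.E
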