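import Crest.Agent.R066.EInd
import Crest.Agent.R066.EXTDual
import Crest.Agent.R066.EXTInv
import Crest.Agent.R066.EXTVan
import Crest.Agent.R066.EMatDet
import Crest.Agent.R066.EMatOdd

/-!
# Row 66, part (E): vanishing theorem
-/

set_option autoImplicit false
set_option linter.unusedSectionVars false

open Finset

namespace Crest.Agent.R066.E

open Module Polynomial

section XTAcy

variable {I G : Type*} [DecidableEq I] [Group G]

instance (P : I → Subgroup G) : Unique (XT P 0) where
  default := XT.mk P ∅ Finset.card_empty 1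
  uniq y := by
    obtain ⟨S, hS, g, rfl⟩ := XT.exists_mk P y
    rw [XT.mk_eq_iff]
    refine ⟨Finset.card_eq_zero.mp hS, ?_⟩
    have : S = ∅ := Finset.card_eq_zero.mp hS
    subst this
    simp [PJ]

/-- A group acting with finite odd stabilisers on an exact complex with quotient a simplex is
acyclic. -/
theorem acy_of_XT [Nonempty I] (P : I → Subgroup G)
    (hP : ∀ i, Finite (P i) ∧ Odd (Nat.card (P i))) (L : ℕ) (hF : ∀ b ≤ L, FEx (XT P) b) :
    Acy G L := by
  intro a ha
  cases a with
  | zero => exact tup_ex_zero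
  | succ n =>
    refine compare_ex (H := G) (X := Tup G) (Y := XT P) n ?_ ?_ ?_ (hF 0 (by omega))
    · intro a b hb _ y
      obtain ⟨h1, h2⟩ := XT.stab_odd' P hP hb y
      exact Ex.of_odd h2 a (tup_fex a)
    · intro a b ha' hb e x
      exact Ex.of_bot (stab_eq_bot_of_free free_left ha' x) b (hF b (by omega))
    · exact XT.ex_top P (n + 1)

/-- The quotient by a normal acyclic subgroup is exact. -/
theorem ex_XT_of_acy (P : I → Subgroup G)
    (hP : ∀ i, Finite (P i) ∧ Odd (Nat.card (P i))) (N : Subgroup G) (m : ℕ)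
    (hF : ∀ b ≤ m, FEx (XT P) b) (hm : 1 ≤ m) (hN : Acy N m) : Ex N (XT P) m := by
  obtain ⟨n, rfl⟩ : ∃ n, m = n + 1 := ⟨m - 1, by omega⟩
  have hfree : ∀ (h : N) (v : G), h • v = v → h = 1 := by
    intro h v e
    have : (h : G) * v = v := e
    rw [mul_eq_right] at this
    exact Subtype.ext this
  refine compare_ex (H := N) (X := XT P) (Y := Tup G) n ?_ ?_ ?_ (tup_fex 0)
  · intro a b hb e y
    exact Ex.of_bot (stab_eq_bot_of_free hfree hb y) a (hF a (by omega))
  · intro a b ha hb e x
    obtain ⟨h1, h2⟩ := XT.stab_odd P hP N ha x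
    exact Ex.of_odd h2 b (tup_fex b)
  · exact hN.ex hfree le_rfl

end XTAcy

/-- The rank needed for the vanishing in degree `L`. -/
def rkE : ℕ → ℕ
  | 0 => 5
  | (L + 1) => rkE L + (L + 2) + rk (L + 1) + 3

section Main

variable {p : ℕ}

open Classical in
theorem acy_NP (hp : p.Prime) (hp2 : p ≠ 2) (k : ℕ) (hk : 2 ≤ k) (N : ℕ)
    (hex : ∀ n : ℕ, n ≤ N → ∀ [NeZero n], ∀ m, m + 2 ≤ n → ExactAt (cosetCx (HsubU n p)) m) :
    ∀ (L n : ℕ), rkE L ≤ n → n ≤ N →
      Acy (NP (Fin n → (ZMod p)[X]) (Ideal.span {(X : (ZMod p)[X]) ^ k})) L := by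
  have := Fact.mk hp
  intro L
  induction L with
  | zero => exact fun n _ _ => acy_one.mono (by omega)
  | succ L ih =>
    intro n hn hnN
    simp only [rkE] at hn
    have hn5 : 5 ≤ n := by
      have : 5 ≤ rkE L := by
        cases L with
        | zero => exact le_rfl
        | succ L => simp only [rkE]; unfold rk; omega
      omega
    have : NeZero n := ⟨by omega⟩
    have hfr : finrank (ZMod p)[X] (Fin n → (ZMod p)[X]) = n := finrank_pi_poly
    have hpR : ((p : ℕ) : (ZMod p)[X]) = 0 := CharP.cast_eq_zero _ _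
    let Γ := (Fin n → (ZMod p)[X]) ≃ₗ[(ZMod p)[X]] (Fin n → (ZMod p)[X])
    let Nn : Subgroup Γ := NP (Fin n → (ZMod p)[X]) (Ideal.span {(X : (ZMod p)[X]) ^ k})
    let U : Subgroup Γ := (Uplus n p).map Matrix.SpecialLinearGroup.toLin'
    have hinj : Function.Injective
        (Matrix.SpecialLinearGroup.toLin' : SLX n p →* Γ) :=
      Matrix.SpecialLinearGroup.toLin'_injective
    have hNU : Nn ≤ U := by
      intro g hg
      obtain ⟨A, hA, rfl⟩ := exists_of_mem_NP hp k (by omega) g hg
      exact ⟨A, Gam_le_Uplus k (by omega) hA, rfl⟩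
    -- the quotient
    have hcomap : (Gam n p k) = Nn.comap Matrix.SpecialLinearGroup.toLin' := by
      ext A
      exact mem_Gam_iff_NP k A
    let e : ↥(Uplus n p) ≃* ↥U := (Uplus n p).equivMapOfInjective _ hinj
    have hmap : ((Gam n p k).subgroupOf (Uplus n p)).map e.toMonoidHom = Nn.subgroupOf U := by
      ext ⟨g, hg⟩
      rw [Subgroup.mem_subgroupOf]
      constructor
      · rintro ⟨⟨A, hA⟩, hAG, e1⟩
        have : Matrix.SpecialLinearGroup.toLin' A = g := congrArg Subtype.val e1
        change g ∈ Nn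
        rw [← this]
        exact (mem_Gam_iff_NP k A).mp hAG
      · intro hgN
        obtain ⟨A, hA, rfl⟩ := exists_of_mem_NP hp k (by omega) g hgN
        exact ⟨⟨A, Gam_le_Uplus k (by omega) hA⟩, hA, rfl⟩
    have eq : Gk n p k ≃* ↥U ⧸ Nn.subgroupOf U :=
      QuotientGroup.congr _ _ e hmap
    have := finite_Gk (n := n) hp k
    have hfin : Finite (↥U ⧸ Nn.subgroupOf U) := Finite.of_equiv _ eq.toEquiv
    have hodd : Odd (Nat.card (↥U ⧸ Nn.subgroupOf U)) := by
      rw [← Nat.card_congr eq.toEquiv]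
      exact odd_Gk hp hp2 k (by omega)
    have hUacy : Acy ↥(Uplus n p) (L + 1) :=
      acy_of_XT (HsubU n p) (odd_HsubU hp hp2) (L + 1)
        (fun b hb => XT.fex_of_exactAt _ b (hex n hnN b (by unfold rk at hn; omega)))
    have hU : Ex U (Tup Γ) (L + 1) :=
      (Acy.of_equiv e.symm hUacy).ex (free_GL U) le_rfl
    have hFG : ∀ u ∈ U, ∀ σ : Frame (ZMod p)[X] (Fin n → (ZMod p)[X]), u ∈ FG σ := by
      rintro _ ⟨A, hA, rfl⟩ σ
      exact Uplus_le_FG hn5 σ (hex n hnN 1 (by omega)) hA
    have hstep : Ex Nn (Tup Γ) (L + 1) := by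
      refine ind_step hp2 _ L (by rw [hfr]; omega) ?_ ?_ U hNU hFG hfin hodd hU
      · rintro σ x (⟨u, hu, rfl⟩ | ⟨ψ, hψ, rfl⟩)
        · exact transv_pack_left p hpR _ σ u hu
        · exact transv_pack_right p hpR _ σ ψ hψ
      · intro b hb1 hb y c hc
        have hσ : Pairwise fun i j => Perp (y.1 i) (y.1 j) := fun i j h => y.2 i j h
        have e1 : MulAction.stabilizer Nn y ≃*
            stabNP (Ideal.span {(X : (ZMod p)[X]) ^ k}) y.1 :=
          { toFun := fun g => ⟨g.1.1, mem_stabNP.2 ⟨g.1.2, fun i => by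
              have := g.2
              rw [MulAction.mem_stabilizer_iff] at this
              have h' : (g.1.1 : Γ) • y = y := this
              exact (clq_smul_eq_iff.mp h') i⟩⟩
            invFun := fun g => ⟨⟨g.1, (mem_stabNP.1 g.2).1⟩, by
              rw [MulAction.mem_stabilizer_iff]
              change (g.1 : Γ) • y = y
              exact clq_smul_eq_iff.mpr (mem_stabNP.1 g.2).2⟩
            left_inv := fun g => rfl
            right_inv := fun g => rfl
            map_mul' := fun g h => rfl }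
        have e2 := stabEquivPi (Ideal.span {(X : (ZMod p)[X]) ^ k}) y.1 hσ
        rw [hfr] at e2
        have h3 := (ih (n - b) (by omega) (by omega))
        have h4 : Acy (MulAction.stabilizer Nn y) L := Acy.of_equiv (e1.trans e2) h3
        refine h4.ex ?_ hc
        rintro ⟨g, hg⟩ v e5
        have := free_GL Nn g v e5
        exact Subtype.ext this
    -- from Γ to the abstract statement
    have hall : ∀ a ≤ L + 1, Ex Nn (Tup Γ) a := by
      intro a ha
      rcases Nat.lt_or_ge a (L + 1) with h | h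
      · exact (ih n (by omega) hnN).ex (free_GL Nn) (by omega)
      · obtain rfl : a = L + 1 := by omega
        exact hstep
    exact acy_of_ex (free_GL Nn) hall

end Main

end Crest.Agent.R066.E
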