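import Crest.Agent.R066.ECore

set_option autoImplicit false
set_option linter.unusedSectionVars false

open Finset

namespace Crest.Agent.R066.E

theorem continuous_msum {α : Type*} (s : Multiset α) :
    Continuous (fun g : α → F2 => (s.map g).sum) := by
  induction s using Multiset.induction_on with
  | empty => simpa using continuous_const
  | cons a s ih =>
    simp only [Multiset.map_cons, Multiset.sum_cons]
    exact (continuous_of_discreteTopology (f := fun q : F2 × F2 => q.1 + q.2)).comp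
      ((continuous_apply a).prodMk ih)

theorem Ex.of_locOdd {H : Type*} [Group H] {X : ℕ → Type*} [Cx X] [∀ n, MulAction H (X n)]
    [CxAct H X]
    (hLF : ∀ S : Finset H, ∃ K : Subgroup H, (∀ s ∈ S, s ∈ K) ∧ Finite K ∧ Odd (Nat.card K))
    (n : ℕ) (h : FEx X n) : Ex H X n := by
  classical
  cases n with
  | zero => exact fun f _ h0 => h f h0
  | succ n =>
    intro f hf h0
    let ι := {K : Subgroup H // Finite K ∧ Odd (Nat.card K)}
    let t : ι → Set (X n → F2) := fun K => {g | (∀ k ∈ K.1, ∀ x, g (k • x) = g x) ∧ cd g = f}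
    have hι : Nonempty ι := by
      obtain ⟨K, -, h1, h2⟩ := hLF ∅
      exact ⟨⟨K, h1, h2⟩⟩
    have hcl : ∀ i, IsClosed (t i) := by
      intro K
      have e : t K = (⋂ k ∈ K.1, ⋂ x, {g : X n → F2 | g (k • x) = g x}) ∩
          ⋂ x, {g : X n → F2 | ((Cx.fc n x).map g).sum = f x} := by
        ext g
        simp only [t, Set.mem_ofPred_eq, Set.mem_inter_iff, Set.mem_iInter]
        constructor
        · rintro ⟨h1, h2⟩
          exact ⟨h1, fun x => congrFun h2 x⟩
        · rintro ⟨h1, h2⟩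
          exact ⟨h1, funext h2⟩
      rw [e]
      refine IsClosed.inter ?_ ?_
      · refine isClosed_iInter fun k => isClosed_iInter fun _ => isClosed_iInter fun x => ?_
        exact isClosed_eq (continuous_apply _) (continuous_apply _)
      · refine isClosed_iInter fun x => ?_
        exact isClosed_eq (continuous_msum _) continuous_const
    obtain ⟨g, hg⟩ := IsCompact.nonempty_iInter_of_directed_nonempty_isCompact_isClosed t
      (by
        rintro ⟨K1, hf1, ho1⟩ ⟨K2, hf2, ho2⟩
        have := Fintype.ofFinite K1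
        have := Fintype.ofFinite K2
        let S1 : Finset H := Finset.image (fun k : K1 => k.1) Finset.univ
        let S2 : Finset H := Finset.image (fun k : K2 => k.1) Finset.univ
        obtain ⟨K3, h3, hf3, ho3⟩ := hLF (S1 ∪ S2)
        refine ⟨⟨K3, hf3, ho3⟩, ?_, ?_⟩
        · rintro g ⟨hg1, hg2⟩
          refine ⟨fun k hk x => hg1 k (h3 k ?_) x, hg2⟩
          exact Finset.mem_union_left _ (Finset.mem_image.mpr
            ⟨(⟨k, hk⟩ : K1), Finset.mem_univ _, rfl⟩)
        · rintro g ⟨hg1, hg2⟩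
          refine ⟨fun k hk x => hg1 k (h3 k ?_) x, hg2⟩
          exact Finset.mem_union_right _ (Finset.mem_image.mpr
            ⟨(⟨k, hk⟩ : K2), Finset.mem_univ _, rfl⟩))
      (by
        rintro ⟨K, hfK, hoK⟩
        have := Ex.of_odd (H := K) hoK (n + 1) h
        obtain ⟨g, hg, hgf⟩ := this f (fun k x => hf k x) h0
        exact ⟨g, fun k hk x => hg ⟨k, hk⟩ x, hgf⟩)
      (fun i => (hcl i).isCompact) hcl
    rw [Set.mem_iInter] at hg
    refine ⟨g, ?_, (hg hι.some).2⟩
    intro k x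
    obtain ⟨K, h1, h2, h3⟩ := hLF {k}
    exact (hg ⟨K, h2, h3⟩).1 k (h1 k (Finset.mem_singleton_self k)) x

theorem transfer {U : Type*} [Group U] {X : ℕ → Type*} [Cx X] [∀ n, MulAction U (X n)]
    [CxAct U X] (N : Subgroup U) [N.Normal] [Finite (U ⧸ N)] (hodd : Odd (Nat.card (U ⧸ N)))
    (n : ℕ) (hU : Ex U X (n+1)) (f : X (n+1) → F2) (hf : Inv N f) (hf0 : cd f = 0)
    (htriv : ∀ u : U, ∃ γ : X n → F2, Inv N γ ∧ cd γ = fun x => f (u • x) + f x) :
    ∃ g : X n → F2, Inv N g ∧ cd g = f := by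
  classical
  have := Fintype.ofFinite (U ⧸ N)
  choose γ hγ hγe using htriv
  have hq : ∀ (u v : U), (u : U ⧸ N) = v → ∀ x, f (u⁻¹ • x) = f (v⁻¹ • x) := by
    intro u v huv x
    have h1 : u⁻¹ * v ∈ N := QuotientGroup.eq.mp huv
    have h2 := hf ⟨u⁻¹ * v, h1⟩ (v⁻¹ • x)
    rw [← h2]
    change f (u⁻¹ • x) = f ((u⁻¹ * v) • v⁻¹ • x)
    rw [smul_smul, mul_assoc, mul_inv_cancel, mul_one]
  let F : X (n + 1) → F2 := fun x => ∑ c : U ⧸ N, f ((Quotient.out c)⁻¹ • x)
  have hF : Inv U F := by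
    intro w x
    simp only [F]
    rw [← Equiv.sum_comp (MulAction.toPerm w : Equiv.Perm (U ⧸ N))]
    refine Finset.sum_congr rfl fun c _ => ?_
    rw [MulAction.toPerm_apply, smul_smul]
    have h1 : (Quotient.out (w • c))⁻¹ * w = (w⁻¹ * Quotient.out (w • c))⁻¹ := by
      rw [mul_inv_rev, inv_inv]
    rw [h1]
    refine hq _ _ ?_ x
    have h2 : ((Quotient.out (w • c) : U) : U ⧸ N) = w • c := QuotientGroup.out_eq' _
    have h3 : ((w⁻¹ * Quotient.out (w • c) : U) : U ⧸ N) = w⁻¹ • ((Quotient.out (w • c) : U) : U ⧸ N) :=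
      rfl
    rw [h3, h2, inv_smul_smul]
    exact (QuotientGroup.out_eq' _).symm
  have hF0 : cd F = 0 := by
    have h1 : F = ∑ c : U ⧸ N, fun x => f ((Quotient.out c)⁻¹ • x) := by
      funext x
      simp [F]
    rw [h1, cd_sum]
    refine Finset.sum_eq_zero fun c _ => ?_
    rw [cd_smul, hf0]
    rfl
  obtain ⟨G, hG, hGF⟩ := hU F hF hF0
  refine ⟨G + ∑ c : U ⧸ N, γ (Quotient.out c)⁻¹, ?_, ?_⟩
  · intro k x
    simp only [Pi.add_apply, Finset.sum_apply]
    congr 1
    · exact hG k x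
    · exact Finset.sum_congr rfl fun c _ => hγ _ k x
  · rw [cd_add, cd_sum, hGF]
    funext x
    simp only [Pi.add_apply, Finset.sum_apply, hγe, F]
    rw [Finset.sum_add_distrib, ← add_assoc, CharTwo.add_self_eq_zero, zero_add,
      Finset.sum_const, Finset.card_univ, ← Nat.card_eq_fintype_card, nsmul_eq_mul]
    obtain ⟨m, hm⟩ := hodd
    rw [hm]
    push_cast
    have : (2 : F2) = 0 := rfl
    rw [this]; ring

theorem comm_locOdd' {A : Type*} [Group A] (p : ℕ) [Fact p.Prime] (hp : p ≠ 2)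
    (hc : ∀ a b : A, a * b = b * a) (h : ∀ a : A, a ^ p = 1) :
    ∀ S : Finset A, ∃ K : Subgroup A, (∀ s ∈ S, s ∈ K) ∧ Finite K ∧ Odd (Nat.card K) := by
  intro S
  let K := Subgroup.closure (S : Set A)
  have hp0 : 0 < p := (Fact.out : p.Prime).pos
  have hfin : Finite K := by
    let _ : CommGroup K := { (inferInstance : Group K) with
      mul_comm := fun a b => Subtype.ext (hc _ _) }
    have hfg : Group.FG K := Group.closure_finset_fg S
    refine CommGroup.finite_of_fg_isMulTorsion K ?_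
    intro x
    rw [isOfFinOrder_iff_pow_eq_one]
    exact ⟨p, hp0, Subtype.ext (h _)⟩
  refine ⟨K, fun s hs => Subgroup.subset_closure hs, hfin, ?_⟩
  have hpg : IsPGroup p K := fun x => ⟨1, by rw [pow_one]; exact Subtype.ext (h _)⟩
  obtain ⟨n, hn⟩ := (IsPGroup.iff_card).mp hpg
  rw [hn]
  exact ((Fact.out : p.Prime).odd_of_ne_two hp).pow

end Crest.Agent.R066.E
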