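import Mathlib

/-!
# Row 66, part (E1), (E2): split frames over a principal ideal domain

* `Frame R P`: pairs `(v, φ)` with `φ v = 1`; `Perp`; the action of `P ≃ₗ[R] P`; `NP I P`.
* `exists_perp`, `exists_perp_frame` (E1): finitely many frames have a common orthogonal frame.
* `exists_lift_perp` (E2a), `exists_conj` (E2b), `stabEquiv` (E2c).
-/

set_option autoImplicit false

namespace Crest.Agent.R066

open Module

section Basic

variable (R : Type*) (P : Type*) [CommRing R] [AddCommGroup P] [Module R P]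

/-- A split frame: a vector and a functional with value one on it. -/
@[ext] structure Frame where
  v : P
  φ : Module.Dual R P
  h : φ v = 1

variable {R P}

theorem inv_app (g : P ≃ₗ[R] P) (x : P) : g⁻¹ (g x) = x := g.symm_apply_apply x

theorem app_inv (g : P ≃ₗ[R] P) (x : P) : g (g⁻¹ x) = x := g.apply_symm_apply x

/-- Orthogonality of frames. -/
def Perp (a b : Frame R P) : Prop := a.φ b.v = 0 ∧ b.φ a.v = 0

theorem Perp.symm {a b : Frame R P} (h : Perp a b) : Perp b a := ⟨h.2, h.1⟩

theorem perp_comm {a b : Frame R P} : Perp a b ↔ Perp b a := ⟨Perp.symm, Perp.symm⟩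

theorem not_perp_self [Nontrivial R] (a : Frame R P) : ¬ Perp a a := by
  intro h
  have := h.1
  rw [a.h] at this
  exact one_ne_zero this

instance : MulAction (P ≃ₗ[R] P) (Frame R P) where
  smul g a := ⟨g a.v, a.φ ∘ₗ ((g⁻¹ : P ≃ₗ[R] P) : P →ₗ[R] P), by
    change a.φ (g⁻¹ (g a.v)) = 1
    rw [inv_app, a.h]⟩
  one_smul a := by
    apply Frame.ext
    · rfl
    · ext x; rfl
  mul_smul g h a := by
    apply Frame.ext
    · rfl
    · ext x
      change a.φ ((g * h)⁻¹ x) = a.φ (h⁻¹ (g⁻¹ x))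
      rw [mul_inv_rev]; rfl

@[simp] theorem smul_v (g : P ≃ₗ[R] P) (a : Frame R P) : (g • a).v = g a.v := rfl

@[simp] theorem smul_φ_apply (g : P ≃ₗ[R] P) (a : Frame R P) (x : P) :
    (g • a).φ x = a.φ (g⁻¹ x) := rfl

theorem smul_eq_iff {g : P ≃ₗ[R] P} {a b : Frame R P} :
    g • a = b ↔ g a.v = b.v ∧ ∀ x, b.φ (g x) = a.φ x := by
  constructor
  · rintro rfl
    refine ⟨rfl, fun x => ?_⟩
    rw [smul_φ_apply, inv_app]
  · rintro ⟨h1, h2⟩
    apply Frame.ext
    · exact h1
    · ext x
      rw [smul_φ_apply, ← h2, app_inv]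

theorem Perp.smul {a b : Frame R P} (g : P ≃ₗ[R] P) (h : Perp a b) : Perp (g • a) (g • b) := by
  constructor
  · rw [smul_φ_apply, smul_v, inv_app, h.1]
  · rw [smul_φ_apply, smul_v, inv_app, h.2]

theorem perp_smul_iff {a b : Frame R P} (g : P ≃ₗ[R] P) : Perp (g • a) (g • b) ↔ Perp a b := by
  constructor
  · intro h
    have := h.smul g⁻¹
    rwa [inv_smul_smul, inv_smul_smul] at this
  · exact Perp.smul g

variable (P) in
/-- The congruence subgroup `{g | g = 1 mod I}`. -/
def NP (I : Ideal R) : Subgroup (P ≃ₗ[R] P) where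
  carrier := {g | ∀ x, g x - x ∈ I • (⊤ : Submodule R P)}
  one_mem' := fun x => by simp
  mul_mem' := by
    intro g h hg hh x
    have : (g * h) x - x = (g (h x) - h x) + (h x - x) := by
      rw [LinearEquiv.mul_apply]; abel
    rw [this]
    exact add_mem (hg _) (hh _)
  inv_mem' := by
    intro g hg x
    have h1 := hg (g⁻¹ x)
    have h2 : g (g⁻¹ x) = x := app_inv g x
    rw [h2] at h1
    rw [← neg_sub]
    exact neg_mem h1

theorem mem_NP {I : Ideal R} {g : P ≃ₗ[R] P} :
    g ∈ NP P I ↔ ∀ x, g x - x ∈ I • (⊤ : Submodule R P) := Iff.rfl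

theorem smul_mem_smul_top {I : Ideal R} {c : R} (hc : c ∈ I) (x : P) :
    c • x ∈ I • (⊤ : Submodule R P) := Submodule.smul_mem_smul hc trivial

theorem map_mem_smul_top {Q : Type*} [AddCommGroup Q] [Module R Q] {I : Ideal R} (f : P →ₗ[R] Q)
    {x : P} (hx : x ∈ I • (⊤ : Submodule R P)) : f x ∈ I • (⊤ : Submodule R Q) := by
  have : f x ∈ (I • (⊤ : Submodule R P)).map f := Submodule.mem_map_of_mem hx
  rw [Submodule.map_smul''] at this
  exact Submodule.smul_mono le_rfl le_top this

theorem dual_mem_of_mem_smul_top {I : Ideal R} (f : Dual R P)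
    {x : P} (hx : x ∈ I • (⊤ : Submodule R P)) : f x ∈ I := by
  have := map_mem_smul_top f hx
  simpa using this

instance NP_normal (I : Ideal R) : (NP P I).Normal where
  conj_mem g hg h := by
    intro x
    have h1 := hg (h⁻¹ x)
    have h2 : h (h⁻¹ x) = x := app_inv h x
    have h3 : (h * g * h⁻¹) x - x = h (g (h⁻¹ x) - h⁻¹ x) := by
      rw [map_sub, h2]; rfl
    rw [h3]
    exact map_mem_smul_top (h : P →ₗ[R] P) h1

/-- Congruence of frames modulo an ideal. -/
def FCongr (I : Ideal R) (a b : Frame R P) : Prop :=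
  a.v - b.v ∈ I • (⊤ : Submodule R P) ∧ ∀ x, a.φ x - b.φ x ∈ I

theorem FCongr.refl {I : Ideal R} (a : Frame R P) : FCongr I a a := ⟨by simp, fun x => by simp⟩

theorem FCongr.symm {I : Ideal R} {a b : Frame R P} (h : FCongr I a b) : FCongr I b a :=
  ⟨by rw [← neg_sub]; exact neg_mem h.1, fun x => by rw [← neg_sub]; exact neg_mem (h.2 x)⟩

theorem FCongr.trans {I : Ideal R} {a b c : Frame R P} (h : FCongr I a b) (h' : FCongr I b c) :
    FCongr I a c :=
  ⟨by rw [← sub_add_sub_cancel]; exact add_mem h.1 h'.1,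
   fun x => by rw [← sub_add_sub_cancel (a.φ x) (b.φ x)]; exact add_mem (h.2 x) (h'.2 x)⟩

theorem fcongr_smul {I : Ideal R} {g : P ≃ₗ[R] P} (hg : g ∈ NP P I) (a : Frame R P) :
    FCongr I (g • a) a := by
  refine ⟨hg a.v, fun x => ?_⟩
  rw [smul_φ_apply, ← map_sub]
  exact dual_mem_of_mem_smul_top _ (inv_mem hg x)

/-- Orthogonality modulo `I`. -/
def PerpMod (I : Ideal R) (a b : Frame R P) : Prop := a.φ b.v ∈ I ∧ b.φ a.v ∈ I

theorem Perp.perpMod {I : Ideal R} {a b : Frame R P} (h : Perp a b) : PerpMod I a b :=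
  ⟨by rw [h.1]; exact I.zero_mem, by rw [h.2]; exact I.zero_mem⟩

theorem PerpMod.congr {I : Ideal R} {a a' b b' : Frame R P} (ha : FCongr I a a')
    (hb : FCongr I b b') (h : PerpMod I a b) : PerpMod I a' b' := by
  have key : ∀ {a a' b b' : Frame R P}, FCongr I a a' → FCongr I b b' → a.φ b.v ∈ I →
      a'.φ b'.v ∈ I := by
    intro a a' b b' ha hb h
    have h1 : a'.φ b'.v = a.φ b.v - a.φ (b.v - b'.v) - (a.φ b'.v - a'.φ b'.v) := by
      rw [map_sub]; ring
    rw [h1]
    exact sub_mem (sub_mem h (dual_mem_of_mem_smul_top _ hb.1)) (ha.2 _)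
  exact ⟨key ha hb h.1, key hb ha h.2⟩

/-- The transvection `x ↦ x + f x • v` as an automorphism. -/
noncomputable def transv (f : Dual R P) (v : P) (h : f v = 0) : P ≃ₗ[R] P :=
  LinearEquiv.transvection h

@[simp] theorem transv_apply (f : Dual R P) (v : P) (h : f v = 0) (x : P) :
    transv f v h x = x + f x • v := by
  rw [transv, LinearEquiv.transvection.apply]

theorem transv_mem_NP_left {I : Ideal R} (f : Dual R P) (v : P) (h : f v = 0)
    (hv : v ∈ I • (⊤ : Submodule R P)) : transv f v h ∈ NP P I := by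
  intro x
  rw [transv_apply, add_sub_cancel_left]
  exact Submodule.smul_mem _ _ hv

theorem transv_mem_NP_right {I : Ideal R} (f : Dual R P) (v : P) (h : f v = 0)
    (hf : ∀ x, f x ∈ I) : transv f v h ∈ NP P I := by
  intro x
  rw [transv_apply, add_sub_cancel_left]
  exact smul_mem_smul_top (hf x) v

theorem transv_smul_of_perp (f : Dual R P) (v : P) (h : f v = 0) (a : Frame R P)
    (h1 : f a.v = 0) (h2 : a.φ v = 0) : transv f v h • a = a := by
  rw [smul_eq_iff]
  refine ⟨by rw [transv_apply, h1, zero_smul, add_zero], fun x => ?_⟩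
  rw [transv_apply, map_add, map_smul, h2, smul_zero, add_zero]

end Basic

section PID

variable {R : Type*} [CommRing R] [IsDomain R] [IsPrincipalIdealRing R]
variable {P : Type*} [AddCommGroup P] [Module R P]

/-- A nonzero functional is a nonzero multiple of a surjective one. -/
theorem exists_surj_functional (ψ : Dual R P) (hψ : ψ ≠ 0) :
    ∃ (c : R) (μ : Dual R P) (w : P), c ≠ 0 ∧ μ w = 1 ∧ ∀ x, ψ x = c * μ x := by
  obtain ⟨c, hc⟩ := (IsPrincipalIdealRing.principal (LinearMap.range ψ)).principal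
  have hc0 : c ≠ 0 := by
    rintro rfl
    apply hψ
    rw [Submodule.span_zero_singleton] at hc
    exact LinearMap.range_eq_bot.1 hc
  have hmem : ∀ x, ∃ a, ψ x = c * a := by
    intro x
    have : ψ x ∈ Submodule.span R {c} := hc ▸ LinearMap.mem_range_self ψ x
    obtain ⟨a, ha⟩ := Submodule.mem_span_singleton.1 this
    exact ⟨a, by rw [← ha, smul_eq_mul, mul_comm]⟩
  choose μ hμ using hmem
  refine ⟨c, { toFun := μ, map_add' := ?_, map_smul' := ?_ }, ?_⟩
  · intro x y
    apply mul_left_cancel₀ hc0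
    rw [← hμ, map_add, hμ x, hμ y, mul_add]
  · intro a x
    apply mul_left_cancel₀ hc0
    rw [← hμ, map_smul, hμ x, smul_eq_mul, RingHom.id_apply, smul_eq_mul]
    ring
  · have : c ∈ LinearMap.range ψ := by rw [hc]; exact Submodule.mem_span_singleton_self c
    obtain ⟨w, hw⟩ := this
    refine ⟨w, hc0, ?_, hμ⟩
    change μ w = 1
    apply mul_left_cancel₀ hc0
    rw [← hμ, hw, mul_one]

variable [Module.Free R P] [Module.Finite R P]

/-- Fewer than `rank` vectors are killed by a surjective functional. -/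
theorem exists_functional_of_card_lt {ι : Type*} [Fintype ι] (v : ι → P)
    (h : Fintype.card ι < finrank R P) :
    ∃ (w : P) (ψ : Dual R P), ψ w = 1 ∧ ∀ i, ψ (v i) = 0 := by
  classical
  let ev : Dual R P →ₗ[R] (ι → R) := LinearMap.pi fun i => (Dual.eval R P (v i))
  have hker : ∃ ψ : Dual R P, ψ ≠ 0 ∧ ev ψ = 0 := by
    by_contra hcon
    push Not at hcon
    have hinj : Function.Injective ev := by
      rw [← LinearMap.ker_eq_bot, LinearMap.ker_eq_bot']
      intro m hm
      by_contra hne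
      exact hcon m hne hm
    have := LinearMap.finrank_le_finrank_of_injective hinj
    rw [finrank_fintype_fun_eq_card] at this
    have h2 : finrank R (Dual R P) = finrank R P := Module.finrank_linearMap_self R R P 
    omega
  obtain ⟨ψ, hψ0, hψ⟩ := hker
  obtain ⟨c, μ, w, hc, hw, hμ⟩ := exists_surj_functional ψ hψ0
  refine ⟨w, μ, hw, fun i => ?_⟩
  have : ψ (v i) = 0 := congrFun hψ i
  rw [hμ] at this
  exact (mul_eq_zero.1 this).resolve_left hc

omit [Module.Free R P] in
/-- The kernel of a map to a free module is a direct summand. -/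
theorem exists_proj_ker {κ : Type*} [Fintype κ] (Φ : P →ₗ[R] (κ → R)) :
    ∃ pr : P →ₗ[R] LinearMap.ker Φ, ∀ x : LinearMap.ker Φ, pr x = x := by
  obtain ⟨sec, hsec⟩ := Module.projective_lifting_property Φ.rangeRestrict
    (LinearMap.id : LinearMap.range Φ →ₗ[R] LinearMap.range Φ) Φ.surjective_rangeRestrict
  have hpr : ∀ x, x - sec (Φ.rangeRestrict x) ∈ LinearMap.ker Φ := by
    intro x
    have h1 : Φ.rangeRestrict (sec (Φ.rangeRestrict x)) = Φ.rangeRestrict x :=
      LinearMap.congr_fun hsec (Φ.rangeRestrict x)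
    have h2 : Φ (sec (Φ.rangeRestrict x)) = Φ x := congrArg Subtype.val h1
    rw [LinearMap.mem_ker, map_sub, h2, sub_self]
  refine ⟨LinearMap.codRestrict _ (LinearMap.id - sec ∘ₗ Φ.rangeRestrict) hpr, fun x => ?_⟩
  apply Subtype.ext
  have : Φ.rangeRestrict (x : P) = 0 := by
    apply Subtype.ext
    exact x.2
  change (x : P) - sec (Φ.rangeRestrict x) = x
  rw [this, map_zero, sub_zero]

omit [IsPrincipalIdealRing R] [Module.Free R P] in
theorem finrank_range_add_finrank_ker' {Q : Type*} [AddCommGroup Q] [Module R Q]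
    (Φ : P →ₗ[R] Q) :
    finrank R (LinearMap.range Φ) + finrank R (LinearMap.ker Φ) = finrank R P := by
  rw [← Submodule.finrank_quotient_add_finrank (LinearMap.ker Φ),
    Φ.quotKerEquivRange.finrank_eq]

omit [IsPrincipalIdealRing R] [Module.Free R P] in
theorem finrank_ker_add_card {κ : Type*} [Fintype κ] (Φ : P →ₗ[R] (κ → R)) :
    finrank R P ≤ finrank R (LinearMap.ker Φ) + Fintype.card κ := by
  have hrank := finrank_range_add_finrank_ker' Φ
  have hrange : finrank R (LinearMap.range Φ) ≤ finrank R (κ → R) :=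
    Submodule.finrank_le (LinearMap.range Φ)
  rw [finrank_fintype_fun_eq_card] at hrange
  omega

/-- (E1) Finitely many vectors and functionals have a common orthogonal frame. -/
theorem exists_perp {ι κ : Type*} [Fintype ι] [Fintype κ] (v : ι → P) (φ : κ → Dual R P)
    (h : Fintype.card ι + Fintype.card κ < finrank R P) :
    ∃ w : Frame R P, (∀ i, w.φ (v i) = 0) ∧ ∀ k, φ k w.v = 0 := by
  obtain ⟨pr, hpr⟩ := exists_proj_ker (LinearMap.pi φ)
  have h1 := finrank_ker_add_card (LinearMap.pi φ)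
  obtain ⟨w, ψ, hw, hψ⟩ := exists_functional_of_card_lt (R := R)
    (P := LinearMap.ker (LinearMap.pi φ)) (fun i => pr (v i)) (by omega)
  refine ⟨⟨w, ψ ∘ₗ pr, ?_⟩, fun i => hψ i, fun k => ?_⟩
  · rw [LinearMap.comp_apply, hpr, hw]
  · have : (LinearMap.pi φ) (w : P) = 0 := w.2
    exact congrFun this k

/-- (E1) Finitely many frames have a common orthogonal frame. -/
theorem exists_perp_frame (T : Finset (Frame R P)) (h : 2 * T.card < finrank R P) :
    ∃ w : Frame R P, ∀ t ∈ T, Perp w t := by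
  obtain ⟨w, h1, h2⟩ := exists_perp (R := R) (fun t : T => (t : Frame R P).v)
    (fun t : T => (t : Frame R P).φ) (by rw [Fintype.card_coe]; omega)
  exact ⟨w, fun t ht => ⟨h1 ⟨t, ht⟩, h2 ⟨t, ht⟩⟩⟩

/-- (E2b) Congruent frames orthogonal to `σ` are conjugate under the stabiliser of `σ` in the
congruence subgroup. -/
theorem exists_conj (I : Ideal R) (σ : Finset (Frame R P)) (w w' : Frame R P)
    (hw : ∀ s ∈ σ, Perp w s) (hw' : ∀ s ∈ σ, Perp w' s) (hc : FCongr I w w')
    (h : 2 * (σ.card + 2) < finrank R P) :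
    ∃ g ∈ NP P I, g • w = w' ∧ ∀ s ∈ σ, g • s = s := by
  classical
  obtain ⟨z, hz⟩ := exists_perp_frame (R := R) (insert w (insert w' σ)) (by
    have h1 := Finset.card_insert_le w (insert w' σ)
    have h2 := Finset.card_insert_le w' σ
    omega)
  have hzw : Perp z w := hz w (Finset.mem_insert_self _ _)
  have hzw' : Perp z w' := hz w' (Finset.mem_insert_of_mem (Finset.mem_insert_self _ _))
  have hzs : ∀ s ∈ σ, Perp z s := fun s hs =>
    hz s (Finset.mem_insert_of_mem (Finset.mem_insert_of_mem hs))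
  -- the three transvections
  let t1 := transv w.φ z.v hzw.2
  have e2 : z.φ (w'.v - w.v) = 0 := by rw [map_sub, hzw'.1, hzw.1, sub_zero]
  let t2 := transv z.φ (w'.v - w.v) e2
  have e3 : (-w'.φ) z.v = 0 := by rw [LinearMap.neg_apply, hzw'.2, neg_zero]
  let t3 := transv (-w'.φ) z.v e3
  let g1 := t3 * t2 * t1
  have hg1N : g1 ∈ NP P I := by
    intro x
    have h1 : t2 (t1 x) - t1 x ∈ I • (⊤ : Submodule R P) :=
      transv_mem_NP_left _ _ e2 (hc.symm.1) (t1 x)
    have h2 : t3 (t2 (t1 x)) - t3 (t1 x) ∈ I • (⊤ : Submodule R P) := by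
      rw [← map_sub]
      exact map_mem_smul_top (t3 : P →ₗ[R] P) h1
    have h3 : t3 (t1 x) - x ∈ I • (⊤ : Submodule R P) := by
      have : t3 (t1 x) - x = (w.φ x - w'.φ x) • z.v := by
        have e : (-w'.φ) (x + w.φ x • z.v) = - w'.φ x := by simp [hzw'.2]
        simp only [t3, t1, transv_apply]
        rw [e]
        module
      rw [this]
      exact smul_mem_smul_top (hc.2 x) _
    have h4 : g1 x - x = (t3 (t2 (t1 x)) - t3 (t1 x)) + (t3 (t1 x) - x) := by
      rw [sub_add_sub_cancel]; rfl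
    rw [h4]
    exact add_mem h2 h3
  have hg1w : g1 w.v = w'.v := by
    change t3 (t2 (t1 w.v)) = w'.v
    have a1 : t1 w.v = w.v + z.v := by simp only [t1, transv_apply, w.h, one_smul]
    have a2 : t2 (w.v + z.v) = w'.v + z.v := by
      have : z.φ (w.v + z.v) = 1 := by rw [map_add, hzw.1, z.h, zero_add]
      simp only [t2, transv_apply, this, one_smul]
      abel
    have a3 : t3 (w'.v + z.v) = w'.v := by
      have : (-w'.φ) (w'.v + z.v) = -1 := by
        rw [LinearMap.neg_apply, map_add, w'.h, hzw'.2, add_zero]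
      simp only [t3, transv_apply, this]
      module
    rw [a1, a2, a3]
  have hg1s : ∀ s ∈ σ, g1 • s = s := by
    intro s hs
    have a1 : t1 • s = s := transv_smul_of_perp _ _ _ _ (hw s hs).1 (hzs s hs).2
    have a2 : t2 • s = s := transv_smul_of_perp _ _ _ _ (hzs s hs).1
      (by rw [map_sub, (hw' s hs).2, (hw s hs).2, sub_zero])
    have a3 : t3 • s = s := transv_smul_of_perp _ _ _ _
      (by rw [LinearMap.neg_apply, (hw' s hs).1, neg_zero]) (hzs s hs).2
    rw [mul_smul, mul_smul, a1, a2, a3]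
  -- the last transvection
  let ψ := (g1 • w).φ
  have e4 : (ψ - w'.φ) w'.v = 0 := by
    rw [LinearMap.sub_apply, w'.h, ← hg1w]
    change (g1 • w).φ ((g1 • w).v) - 1 = 0
    rw [(g1 • w).h, sub_self]
  let g2 := transv (ψ - w'.φ) w'.v e4
  have hg2N : g2 ∈ NP P I := by
    refine transv_mem_NP_right _ _ e4 fun x => ?_
    have := ((fcongr_smul hg1N w).trans hc).2 x
    exact this
  refine ⟨g2 * g1, mul_mem hg2N hg1N, ?_, ?_⟩
  · rw [mul_smul, smul_eq_iff]
    constructor
    · rw [smul_v, hg1w, transv_apply, e4, zero_smul, add_zero]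
    · intro x
      rw [transv_apply, map_add, map_smul, w'.h, LinearMap.sub_apply, smul_eq_mul, mul_one]
      change w'.φ x + (ψ x - w'.φ x) = ψ x
      ring
  · intro s hs
    rw [mul_smul, hg1s s hs]
    refine transv_smul_of_perp _ _ _ _ ?_ (hw' s hs).2
    rw [LinearMap.sub_apply, (hw' s hs).1, sub_zero]
    have : (g1 • w).φ (g1 • s).v = 0 := ((hw s hs).smul g1).1
    rwa [hg1s s hs] at this

/-- Every vector is a multiple of the vector of a frame. -/
theorem exists_primitive (hP : 0 < finrank R P) (w : P) :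
    ∃ (c : R) (u : Frame R P), w = c • u.v := by
  by_cases hw : w = 0
  · obtain ⟨u, -, -⟩ := exists_perp (R := R) (P := P) (ι := Fin 0) (κ := Fin 0) (fun i => i.elim0)
      (fun i => i.elim0) (by simpa using hP)
    exact ⟨0, u, by rw [hw, zero_smul]⟩
  · have hev : Dual.eval R P w ≠ 0 := by
      intro h0
      apply hw
      rw [← Module.forall_dual_apply_eq_zero_iff R]
      intro φ
      exact LinearMap.congr_fun h0 φ
    obtain ⟨c, μ, ψ0, hc, hψ0, hμ⟩ := exists_surj_functional (R := R) (P := Dual R P)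
      (Dual.eval R P w) hev
    have hu : ∀ ψ : Dual R P, ψ ((evalEquiv R P).symm μ) = μ ψ := by
      intro ψ
      have := LinearMap.congr_fun ((evalEquiv R P).apply_symm_apply μ) ψ
      simpa using this
    refine ⟨c, ⟨(evalEquiv R P).symm μ, ψ0, by rw [hu, hψ0]⟩, ?_⟩
    rw [← sub_eq_zero, ← Module.forall_dual_apply_eq_zero_iff R]
    intro ψ
    rw [map_sub, map_smul]
    change ψ w - c • ψ ((evalEquiv R P).symm μ) = 0
    rw [hu, smul_eq_mul, ← hμ]
    simp

/-- A frame modulo a principal ideal lifts to a frame. -/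
theorem exists_lift_frame (a : R) (w : P) (ψ : Dual R P) (h : ψ w - 1 ∈ Ideal.span {a})
    (hr : 3 ≤ finrank R P) :
    ∃ f : Frame R P, f.v - w ∈ Ideal.span {a} • (⊤ : Submodule R P) ∧
      ∀ x, f.φ x - ψ x ∈ Ideal.span {a} := by
  obtain ⟨c, u, rfl⟩ := exists_primitive (R := R) (by omega) w
  obtain ⟨e, he⟩ := Ideal.mem_span_singleton'.1 h
  rw [map_smul, smul_eq_mul] at he
  obtain ⟨u', h1, h2⟩ := exists_perp (R := R) (P := P) (ι := Fin 1) (κ := Fin 1) (fun _ => u.v)
    (fun _ => u.φ) (by simp only [Fintype.card_fin]; omega)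
  have h1 := h1 0
  have h2 := h2 0
  have ha : a ∈ Ideal.span {a} := Ideal.mem_span_singleton_self a
  let χ : Dual R P := (ψ u.v) • u.φ + (-e) • u'.φ
  have hχ : χ (c • u.v + a • u'.v) = 1 := by
    simp only [χ, LinearMap.add_apply, LinearMap.smul_apply, map_add, map_smul, u.h, u'.h, h1, h2,
      smul_eq_mul]
    linear_combination (-1 : R) * he
  refine ⟨⟨c • u.v + a • u'.v, ψ + (1 - ψ (c • u.v + a • u'.v)) • χ, ?_⟩, ?_, fun x => ?_⟩
  · rw [LinearMap.add_apply, LinearMap.smul_apply, hχ, smul_eq_mul]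
    ring
  · rw [add_sub_cancel_left]
    exact smul_mem_smul_top ha _
  · change ψ x + (1 - ψ (c • u.v + a • u'.v)) * χ x - ψ x ∈ _
    rw [add_sub_cancel_left]
    apply Ideal.mul_mem_right
    have : 1 - ψ (c • u.v + a • u'.v) = -(ψ (c • u.v) - 1) - a * ψ u'.v := by
      rw [map_add, map_smul ψ a, smul_eq_mul]; ring
    rw [this]
    exact sub_mem (neg_mem h) (Ideal.mul_mem_right _ _ ha)

end PID

section Complement

variable {R : Type*} [CommRing R] {P : Type*} [AddCommGroup P] [Module R P]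
variable {ι : Type*} [Fintype ι]

/-- The common kernel of the functionals of a family of frames. -/
def kerAll {ι : Type*} (σ : ι → Frame R P) : Submodule R P := ⨅ i, LinearMap.ker (σ i).φ

theorem mem_kerAll {ι : Type*} {σ : ι → Frame R P} {x : P} :
    x ∈ kerAll σ ↔ ∀ i, (σ i).φ x = 0 := by
  simp [kerAll]

theorem phi_sum [DecidableEq ι] {σ : ι → Frame R P} (hσ : Pairwise fun i j => Perp (σ i) (σ j))
    (c : ι → R) (i : ι) : (σ i).φ (∑ j, c j • (σ j).v) = c i := by
  rw [map_sum, Finset.sum_eq_single i]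
  · rw [map_smul, (σ i).h, smul_eq_mul, mul_one]
  · intro j _ hj
    rw [map_smul, (hσ hj.symm).1, smul_zero]
  · simp

/-- The projection onto the common kernel. -/
noncomputable def projAll (σ : ι → Frame R P) (hσ : Pairwise fun i j => Perp (σ i) (σ j)) :
    P →ₗ[R] kerAll σ :=
  LinearMap.codRestrict (kerAll σ) (LinearMap.id - ∑ i, (σ i).φ.smulRight (σ i).v) (by
    classical
    intro x
    rw [mem_kerAll]
    intro i
    rw [LinearMap.sub_apply, map_sub, LinearMap.id_apply, LinearMap.sum_apply]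
    simp only [LinearMap.smulRight_apply]
    rw [phi_sum hσ (fun j => (σ j).φ x), sub_self])

theorem projAll_coe (σ : ι → Frame R P) (hσ : Pairwise fun i j => Perp (σ i) (σ j)) (x : P) :
    (projAll σ hσ x : P) = x - ∑ i, (σ i).φ x • (σ i).v := by
  simp [projAll, LinearMap.sum_apply]

theorem projAll_of_mem (σ : ι → Frame R P) (hσ : Pairwise fun i j => Perp (σ i) (σ j))
    (x : kerAll σ) : projAll σ hσ x = x := by
  apply Subtype.ext
  rw [projAll_coe, Finset.sum_eq_zero, sub_zero]
  intro i _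
  rw [mem_kerAll.1 x.2 i, zero_smul]

theorem projAll_v (σ : ι → Frame R P) (hσ : Pairwise fun i j => Perp (σ i) (σ j)) (i : ι) :
    projAll σ hσ (σ i).v = 0 := by
  classical
  apply Subtype.ext
  rw [projAll_coe, Finset.sum_eq_single i]
  · rw [(σ i).h, one_smul, sub_self]; rfl
  · intro j _ hj
    rw [(hσ hj).1, zero_smul]
  · simp

/-- The splitting given by an orthogonal family of frames. -/
noncomputable def splitEquiv (σ : ι → Frame R P) (hσ : Pairwise fun i j => Perp (σ i) (σ j)) :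
    P ≃ₗ[R] (ι → R) × kerAll σ :=
  LinearEquiv.ofLinearMap
    ((LinearMap.pi fun i => (σ i).φ).prod (projAll σ hσ))
    ((∑ i, (LinearMap.proj i).smulRight (σ i).v).coprod (kerAll σ).subtype)
    (by
      classical
      apply LinearMap.ext
      rintro ⟨c, y⟩
      have hy : ∀ i, (σ i).φ y = 0 := mem_kerAll.1 y.2
      have h1 : (∑ i, (LinearMap.proj i : (ι → R) →ₗ[R] R).smulRight (σ i).v) c
          = ∑ i, c i • (σ i).v := by
        rw [LinearMap.sum_apply]; rfl
      apply Prod.ext
      · ext i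
        change (σ i).φ ((∑ i, (LinearMap.proj i : (ι → R) →ₗ[R] R).smulRight (σ i).v) c
          + (y : P)) = c i
        rw [h1, map_add, phi_sum hσ, hy, add_zero]
      · change projAll σ hσ ((∑ i, (LinearMap.proj i : (ι → R) →ₗ[R] R).smulRight (σ i).v) c
          + (y : P)) = y
        rw [h1, map_add, projAll_of_mem, map_sum, Finset.sum_eq_zero, zero_add]
        intro i _
        rw [map_smul, projAll_v, smul_zero])
    (by
      apply LinearMap.ext
      intro x
      have h1 : (∑ i, (LinearMap.proj i : (ι → R) →ₗ[R] R).smulRight (σ i).v)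
          (fun i => (σ i).φ x) = ∑ i, (σ i).φ x • (σ i).v := by
        rw [LinearMap.sum_apply]; rfl
      change _ + ((projAll σ hσ x : kerAll σ) : P) = x
      rw [projAll_coe]
      change (∑ i, (LinearMap.proj i : (ι → R) →ₗ[R] R).smulRight (σ i).v)
          (fun i => (σ i).φ x) + (x - ∑ i, (σ i).φ x • (σ i).v) = x
      rw [h1]; abel)

theorem splitEquiv_apply (σ : ι → Frame R P) (hσ : Pairwise fun i j => Perp (σ i) (σ j)) (x : P) :
    splitEquiv σ hσ x = (fun i => (σ i).φ x, projAll σ hσ x) := rfl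

theorem splitEquiv_symm_apply (σ : ι → Frame R P) (hσ : Pairwise fun i j => Perp (σ i) (σ j))
    (c : ι → R) (y : kerAll σ) :
    (splitEquiv σ hσ).symm (c, y) = ∑ i, c i • (σ i).v + (y : P) := by
  change (∑ i, (LinearMap.proj i : (ι → R) →ₗ[R] R).smulRight (σ i).v) c + (y : P) = _
  rw [LinearMap.sum_apply]; rfl

/-- Extension of an automorphism of the common kernel by the identity. -/
noncomputable def extAll (σ : ι → Frame R P) (hσ : Pairwise fun i j => Perp (σ i) (σ j)) :
    (kerAll σ ≃ₗ[R] kerAll σ) →* (P ≃ₗ[R] P) where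
  toFun h := ((splitEquiv σ hσ).trans ((LinearEquiv.refl R (ι → R)).prodCongr h)).trans
    (splitEquiv σ hσ).symm
  map_one' := by
    ext x
    change (splitEquiv σ hσ).symm (splitEquiv σ hσ x) = x
    exact LinearEquiv.symm_apply_apply _ _
  map_mul' := by
    intro g h
    ext x
    change (splitEquiv σ hσ).symm _ = (splitEquiv σ hσ).symm (((LinearEquiv.refl R (ι → R)).prodCongr g)
      (splitEquiv σ hσ ((splitEquiv σ hσ).symm _)))
    rw [LinearEquiv.apply_symm_apply]
    rfl

theorem extAll_apply (σ : ι → Frame R P) (hσ : Pairwise fun i j => Perp (σ i) (σ j))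
    (h : kerAll σ ≃ₗ[R] kerAll σ) (x : P) :
    extAll σ hσ h x = ∑ i, (σ i).φ x • (σ i).v + (h (projAll σ hσ x) : P) := by
  change (splitEquiv σ hσ).symm (fun i => (σ i).φ x, h (projAll σ hσ x)) = _
  rw [splitEquiv_symm_apply]

theorem extAll_coe (σ : ι → Frame R P) (hσ : Pairwise fun i j => Perp (σ i) (σ j))
    (h : kerAll σ ≃ₗ[R] kerAll σ) (x : kerAll σ) :
    extAll σ hσ h (x : P) = (h x : P) := by
  rw [extAll_apply, projAll_of_mem, Finset.sum_eq_zero, zero_add]
  intro i _
  rw [mem_kerAll.1 x.2 i, zero_smul]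

theorem extAll_smul (σ : ι → Frame R P) (hσ : Pairwise fun i j => Perp (σ i) (σ j))
    (h : kerAll σ ≃ₗ[R] kerAll σ) (i : ι) : extAll σ hσ h • σ i = σ i := by
  classical
  rw [smul_eq_iff]
  constructor
  · rw [extAll_apply, projAll_v, map_zero, Submodule.coe_zero, add_zero,
      Finset.sum_eq_single i]
    · rw [(σ i).h, one_smul]
    · intro j _ hj
      rw [(hσ hj).1, zero_smul]
    · simp
  · intro x
    rw [extAll_apply, map_add, phi_sum hσ, mem_kerAll.1 (h (projAll σ hσ x)).2 i, add_zero]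

/-- The stabiliser of an orthogonal family of frames in the congruence subgroup. -/
def stabNP {ι : Type*} (I : Ideal R) (σ : ι → Frame R P) : Subgroup (P ≃ₗ[R] P) :=
  NP P I ⊓ ⨅ i, MulAction.stabilizer (P ≃ₗ[R] P) (σ i)

theorem mem_stabNP {ι : Type*} {I : Ideal R} {σ : ι → Frame R P} {g : P ≃ₗ[R] P} :
    g ∈ stabNP I σ ↔ g ∈ NP P I ∧ ∀ i, g • σ i = σ i := by
  simp [stabNP, Subgroup.mem_iInf, MulAction.mem_stabilizer_iff]

theorem stab_maps {ι : Type*} {σ : ι → Frame R P} {g : P ≃ₗ[R] P} (hg : ∀ i, g • σ i = σ i)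
    (x : P) (hx : x ∈ kerAll σ) : g x ∈ kerAll σ := by
  rw [mem_kerAll] at hx ⊢
  intro i
  rw [(smul_eq_iff.1 (hg i)).2, hx]

/-- Restriction of an element of the stabiliser to the common kernel. -/
noncomputable def resAll {ι : Type*} (σ : ι → Frame R P) (g : P ≃ₗ[R] P)
    (hg : ∀ i, g • σ i = σ i) : kerAll σ ≃ₗ[R] kerAll σ :=
  LinearEquiv.ofLinearMap
    ((g : P →ₗ[R] P).restrict (stab_maps hg))
    (((g⁻¹ : P ≃ₗ[R] P) : P →ₗ[R] P).restrict
      (stab_maps (fun i => by rw [inv_smul_eq_iff, hg i])))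
    (by ext x; exact app_inv g x)
    (by ext x; exact inv_app g x)

@[simp] theorem resAll_coe {ι : Type*} (σ : ι → Frame R P) (g : P ≃ₗ[R] P)
    (hg : ∀ i, g • σ i = σ i) (x : kerAll σ) : (resAll σ g hg x : P) = g x := rfl

theorem extAll_resAll (σ : ι → Frame R P) (hσ : Pairwise fun i j => Perp (σ i) (σ j))
    (g : P ≃ₗ[R] P) (hg : ∀ i, g • σ i = σ i) : extAll σ hσ (resAll σ g hg) = g := by
  ext x
  rw [extAll_apply, resAll_coe, projAll_coe, map_sub, map_sum]
  have : ∀ i, g ((σ i).φ x • (σ i).v) = (σ i).φ x • (σ i).v := by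
    intro i
    rw [map_smul, (smul_eq_iff.1 (hg i)).1]
  simp_rw [this]
  abel

theorem resAll_mem (σ : ι → Frame R P) (hσ : Pairwise fun i j => Perp (σ i) (σ j)) {I : Ideal R}
    (g : P ≃ₗ[R] P) (hg : ∀ i, g • σ i = σ i) (hN : g ∈ NP P I) :
    resAll σ g hg ∈ NP (kerAll σ) I := by
  intro x
  have h1 := map_mem_smul_top (projAll σ hσ) (hN (x : P))
  rw [map_sub, projAll_of_mem, ← resAll_coe σ g hg, projAll_of_mem] at h1
  exact h1

theorem extAll_mem (σ : ι → Frame R P) (hσ : Pairwise fun i j => Perp (σ i) (σ j)) {I : Ideal R}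
    (h : kerAll σ ≃ₗ[R] kerAll σ) (hN : h ∈ NP (kerAll σ) I) : extAll σ hσ h ∈ NP P I := by
  intro x
  have h1 := map_mem_smul_top (kerAll σ).subtype (hN (projAll σ hσ x))
  have h2 : extAll σ hσ h x - x = (h (projAll σ hσ x) : P) - (projAll σ hσ x : P) := by
    rw [extAll_apply, projAll_coe]; abel
  rw [h2]
  simpa using h1

/-- (E2c) The stabiliser of an orthogonal family of frames in `NP P I` is `NP (kerAll σ) I`. -/
noncomputable def stabEquiv (I : Ideal R) (σ : ι → Frame R P)
    (hσ : Pairwise fun i j => Perp (σ i) (σ j)) : NP (kerAll σ) I ≃* stabNP I σ where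
  toFun h := ⟨extAll σ hσ h, mem_stabNP.2 ⟨extAll_mem σ hσ _ h.2, extAll_smul σ hσ _⟩⟩
  invFun g := ⟨resAll σ g (mem_stabNP.1 g.2).2, resAll_mem σ hσ _ _ (mem_stabNP.1 g.2).1⟩
  left_inv h := by
    apply Subtype.ext
    ext x
    change (extAll σ hσ h) (x : P) = _
    rw [extAll_coe]
  right_inv g := by
    apply Subtype.ext
    exact extAll_resAll σ hσ g (mem_stabNP.1 g.2).2
  map_mul' g h := by
    apply Subtype.ext
    change extAll σ hσ ((g : kerAll σ ≃ₗ[R] kerAll σ) * h) = _
    rw [map_mul]; rfl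

/-- (E2a) A frame orthogonal to `σ` modulo `I = (a)` is congruent to one orthogonal to `σ`. -/
theorem exists_lift_perp [IsDomain R] [IsPrincipalIdealRing R] [Module.Free R P]
    [Module.Finite R P] (a : R) (σ : ι → Frame R P)
    (hσ : Pairwise fun i j => Perp (σ i) (σ j)) (c : Frame R P)
    (hc : ∀ i, PerpMod (Ideal.span {a}) c (σ i)) (hr : Fintype.card ι + 3 ≤ finrank R P) :
    ∃ w : Frame R P, (∀ i, Perp w (σ i)) ∧ FCongr (Ideal.span {a}) w c := by
  classical
  have hrank : finrank R P = Fintype.card ι + finrank R (kerAll σ) := by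
    rw [(splitEquiv σ hσ).finrank_eq, Module.finrank_prod, finrank_fintype_fun_eq_card]
  have hd : ∀ x : P, c.φ (projAll σ hσ x : P) - c.φ x ∈ Ideal.span {a} := by
    intro x
    rw [← map_sub, projAll_coe, sub_sub_cancel_left, map_neg, map_sum]
    refine neg_mem (sum_mem fun i _ => ?_)
    rw [map_smul, smul_eq_mul]
    exact Ideal.mul_mem_left _ _ (hc i).1
  obtain ⟨f, hf1, hf2⟩ := exists_lift_frame (R := R) (P := kerAll σ) a (projAll σ hσ c.v)
    (c.φ ∘ₗ (kerAll σ).subtype) (by
      have := hd c.v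
      rw [c.h] at this
      exact this) (by omega)
  refine ⟨⟨f.v, f.φ ∘ₗ projAll σ hσ, ?_⟩, fun i => ⟨?_, ?_⟩, ?_, fun x => ?_⟩
  · rw [LinearMap.comp_apply, projAll_of_mem, f.h]
  · change f.φ (projAll σ hσ (σ i).v) = 0
    rw [projAll_v, map_zero]
  · exact mem_kerAll.1 f.v.2 i
  · have h1 := map_mem_smul_top (kerAll σ).subtype hf1
    have h2 : (f.v : P) - c.v = (f.v : P) - (projAll σ hσ c.v : P)
        + ((projAll σ hσ c.v : P) - c.v) := by abel
    change (f.v : P) - c.v ∈ _
    rw [h2]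
    refine add_mem (by simpa using h1) ?_
    rw [projAll_coe, sub_sub_cancel_left]
    refine neg_mem (sum_mem fun i _ => ?_)
    exact smul_mem_smul_top (hc i).2 _
  · change f.φ (projAll σ hσ x) - c.φ x ∈ _
    rw [← sub_add_sub_cancel _ (c.φ (projAll σ hσ x : P)) _]
    exact add_mem (hf2 _) (hd x)

theorem finrank_kerAll [Module.Free R P] [Module.Finite R P] [IsDomain R]
    [IsPrincipalIdealRing R] (σ : ι → Frame R P)
    (hσ : Pairwise fun i j => Perp (σ i) (σ j)) :
    finrank R P = Fintype.card ι + finrank R (kerAll σ) := by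
  rw [(splitEquiv σ hσ).finrank_eq, Module.finrank_prod, finrank_fintype_fun_eq_card]

end Complement

end Crest.Agent.R066
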