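import Crest.Agent.R066.CliqueEx
import Crest.Agent.R066.Frames

/-!
# Row 66, part (E): the complex of split frames is exact, and so is the complex of functions
invariant under the congruence subgroup.
-/

set_option autoImplicit false

open Finset

namespace Crest.Agent.R066.E

open CliqueCone Module

section

variable {R : Type*} [CommRing R] {P : Type*} [AddCommGroup P] [Module R P]

instance : RelAct (P ≃ₗ[R] P) (Perp : Frame R P → Frame R P → Prop) where
  smul_rel g _ _ h := h.smul g

/-- Congruence as a setoid. -/
def fcSetoid (R : Type*) [CommRing R] (P : Type*) [AddCommGroup P] [Module R P] (I : Ideal R) :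
    Setoid (Frame R P) where
  r := FCongr I
  iseqv := ⟨FCongr.refl, FCongr.symm, FCongr.trans⟩

/-- Orthogonality modulo `I` on classes. -/
def perpQ (I : Ideal R) (x y : Quotient (fcSetoid R P I)) : Prop :=
  Quotient.liftOn₂ x y (PerpMod I) (fun _ _ _ _ h1 h2 =>
    propext ⟨PerpMod.congr h1 h2, PerpMod.congr (FCongr.symm h1) (FCongr.symm h2)⟩)

theorem perpQ_symm (I : Ideal R) (x y : Quotient (fcSetoid R P I)) (h : perpQ I x y) :
    perpQ I y x := by
  induction x using Quotient.inductionOn
  induction y using Quotient.inductionOn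
  exact ⟨h.2, h.1⟩

end

variable {R : Type*} [CommRing R] [IsDomain R] [IsPrincipalIdealRing R]
variable {P : Type*} [AddCommGroup P] [Module R P] [Module.Free R P] [Module.Finite R P]

/-- The complex of split frames is exact in low degrees. -/
theorem frame_fex (B : ℕ) (hP : 2 * coneBound B ≤ finrank R P) (b : ℕ) (hb : b ≤ B) :
    FEx (Clq (Perp : Frame R P → Frame R P → Prop)) b :=
  fex_clq (fun _ _ h => h.symm) B (fun T hT => exists_perp_frame T (by omega)) b hb

/-- The rank needed in `frame_ex`. -/
def rk (B : ℕ) : ℕ := 2 * coneBound B + 2 * B + 5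

/-- The complex of functions on split frames invariant under the congruence subgroup of a
principal ideal is exact in low degrees. -/
theorem frame_ex (a : R) (B : ℕ) (hP : rk B ≤ finrank R P) (b : ℕ) (hb : b ≤ B) :
    Ex (NP P (Ideal.span {a})) (Clq (Perp : Frame R P → Frame R P → Prop)) b := by
  classical
  unfold rk at hP
  refine ex_clq (NP P (Ideal.span {a})) (fun _ _ h => h.symm) B
    (fun T hT => exists_perp_frame T (by omega)) (fcSetoid R P (Ideal.span {a}))
    (perpQ (Ideal.span {a})) (perpQ_symm _) (fun x y h => h.perpMod)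
    (fun n hn v => Quotient.sound (fcongr_smul hn v)) ?_ ?_ b hb
  · intro b hb σ c h
    obtain ⟨w, hw1, hw2⟩ := exists_lift_perp a σ.1 (fun i j hij => σ.2 i j hij) c
      (fun i => h i) (by rw [Fintype.card_fin]; omega)
    exact ⟨w, Quotient.sound hw2, hw1⟩
  · intro b hb σ c c' hcc hc hc'
    have hcard : (Finset.univ.image σ.1).card ≤ b :=
      Finset.card_image_le.trans (by simp)
    obtain ⟨g, hg, hg1, hg2⟩ := exists_conj (Ideal.span {a}) (Finset.univ.image σ.1) c c'
      (by simpa using hc) (by simpa using hc') (Quotient.exact hcc) (by omega)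
    exact ⟨g, hg, fun i => hg2 _ (Finset.mem_image_of_mem _ (Finset.mem_univ i)), hg1⟩

end Crest.Agent.R066.E
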