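import Crest.Agent.R066.Frames

/-!
# Row 66, part (E4), (E5): transvections attached to a frame

For a frame `a = (v, φ)`: `W1 a = {1 + u ⊗ φ | φ u = 0}`, `W2 a = {1 + v ⊗ ψ | ψ v = 0}`,
`FG a = W1 a ⊔ W2 a`.
-/

set_option autoImplicit false

namespace Crest.Agent.R066

open Module

section Basic

variable {R : Type*} [CommRing R] {P : Type*} [AddCommGroup P] [Module R P]

theorem transv_ext {f g : Dual R P} {u w : P} (hf : f u = 0) (hg : g w = 0)
    (h : ∀ x, f x • u = g x • w) : transv f u hf = transv g w hg := by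
  ext x
  rw [transv_apply, transv_apply, h]

theorem transv_zero_right (f : Dual R P) (h : f 0 = 0) : transv f 0 h = 1 := by
  ext x
  rw [transv_apply, smul_zero, add_zero]; rfl

theorem transv_zero_left (u : P) (h : (0 : Dual R P) u = 0) : transv 0 u h = 1 := by
  ext x
  rw [transv_apply, LinearMap.zero_apply, zero_smul, add_zero]; rfl

theorem transv_mul_right (f : Dual R P) (u w : P) (hu : f u = 0) (hw : f w = 0) :
    transv f u hu * transv f w hw = transv f (u + w) (by rw [map_add, hu, hw, add_zero]) := by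
  ext x
  rw [LinearEquiv.mul_apply]
  simp only [transv_apply, map_add, map_smul, hw, smul_add]
  module

theorem transv_mul_left (f g : Dual R P) (u : P) (hf : f u = 0) (hg : g u = 0) :
    transv f u hf * transv g u hg
      = transv (f + g) u (by rw [LinearMap.add_apply, hf, hg, add_zero]) := by
  ext x
  rw [LinearEquiv.mul_apply]
  simp only [transv_apply, map_add, map_smul, hf, LinearMap.add_apply, add_smul]
  module

theorem transv_inv (f : Dual R P) (u : P) (hu : f u = 0) :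
    (transv f u hu)⁻¹ = transv f (-u) (by rw [map_neg, hu, neg_zero]) := by
  rw [inv_eq_iff_mul_eq_one, transv_mul_right]
  ext x
  rw [transv_apply, add_neg_cancel, smul_zero, add_zero]; rfl

theorem transv_neg (f : Dual R P) (u : P) (hu : f u = 0) :
    transv f (-u) (by rw [map_neg, hu, neg_zero])
      = transv (-f) u (by rw [LinearMap.neg_apply, hu, neg_zero]) := by
  apply transv_ext
  intro x
  rw [LinearMap.neg_apply, neg_smul, smul_neg]

/-- Conjugation of a transvection. -/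
theorem conj_transv (h : P ≃ₗ[R] P) (f : Dual R P) (u : P) (hu : f u = 0) :
    h * transv f u hu * h⁻¹
      = transv (f ∘ₗ ((h⁻¹ : P ≃ₗ[R] P) : P →ₗ[R] P)) (h u) (by
          change f (h⁻¹ (h u)) = 0
          rw [inv_app, hu]) := by
  ext x
  rw [LinearEquiv.mul_apply, LinearEquiv.mul_apply, transv_apply, transv_apply, map_add, app_inv,
    map_smul]
  rfl

/-- The transvections `1 + u ⊗ φ`. -/
noncomputable def W1 (a : Frame R P) : Subgroup (P ≃ₗ[R] P) where
  carrier := {g | ∃ u, ∃ h : a.φ u = 0, g = transv a.φ u h}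
  one_mem' := ⟨0, map_zero _, (transv_zero_right _ _).symm⟩
  mul_mem' := by
    rintro _ _ ⟨u, hu, rfl⟩ ⟨w, hw, rfl⟩
    exact ⟨_, _, transv_mul_right _ _ _ hu hw⟩
  inv_mem' := by
    rintro _ ⟨u, hu, rfl⟩
    exact ⟨_, _, transv_inv _ _ hu⟩

/-- The transvections `1 + v ⊗ ψ`. -/
noncomputable def W2 (a : Frame R P) : Subgroup (P ≃ₗ[R] P) where
  carrier := {g | ∃ ψ : Dual R P, ∃ h : ψ a.v = 0, g = transv ψ a.v h}
  one_mem' := ⟨0, rfl, (transv_zero_left _ _).symm⟩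
  mul_mem' := by
    rintro _ _ ⟨u, hu, rfl⟩ ⟨w, hw, rfl⟩
    exact ⟨_, _, transv_mul_left _ _ _ hu hw⟩
  inv_mem' := by
    rintro _ ⟨u, hu, rfl⟩
    exact ⟨_, _, (transv_inv _ _ hu).trans (transv_neg _ _ hu)⟩

theorem mem_W1 {a : Frame R P} {g : P ≃ₗ[R] P} :
    g ∈ W1 a ↔ ∃ u, ∃ h : a.φ u = 0, g = transv a.φ u h := Iff.rfl

theorem mem_W2 {a : Frame R P} {g : P ≃ₗ[R] P} :
    g ∈ W2 a ↔ ∃ ψ : Dual R P, ∃ h : ψ a.v = 0, g = transv ψ a.v h := Iff.rfl

theorem transv_mem_W1 (a : Frame R P) (u : P) (h : a.φ u = 0) : transv a.φ u h ∈ W1 a :=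
  ⟨u, h, rfl⟩

theorem transv_mem_W2 (a : Frame R P) (ψ : Dual R P) (h : ψ a.v = 0) : transv ψ a.v h ∈ W2 a :=
  ⟨ψ, h, rfl⟩

theorem W1_comm {a : Frame R P} {g h : P ≃ₗ[R] P} (hg : g ∈ W1 a) (hh : h ∈ W1 a) :
    g * h = h * g := by
  obtain ⟨u, hu, rfl⟩ := hg
  obtain ⟨w, hw, rfl⟩ := hh
  rw [transv_mul_right, transv_mul_right]
  apply transv_ext
  intro x
  rw [add_comm]

theorem W2_comm {a : Frame R P} {g h : P ≃ₗ[R] P} (hg : g ∈ W2 a) (hh : h ∈ W2 a) :
    g * h = h * g := by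
  obtain ⟨u, hu, rfl⟩ := hg
  obtain ⟨w, hw, rfl⟩ := hh
  rw [transv_mul_left, transv_mul_left]
  apply transv_ext
  intro x
  rw [add_comm]

theorem transv_pow (f : Dual R P) (u : P) (hu : f u = 0) (n : ℕ) :
    (transv f u hu) ^ n = transv f (n • u) (by rw [map_nsmul, hu, smul_zero]) := by
  induction n with
  | zero =>
    rw [pow_zero]
    ext x
    rw [transv_apply, zero_smul, smul_zero, add_zero]; rfl
  | succ n ih =>
    rw [pow_succ, ih, transv_mul_right]
    apply transv_ext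
    intro x
    rw [succ_nsmul]

theorem transv_pow_char (p : ℕ) (hp : (p : R) = 0) (f : Dual R P) (u : P) (hu : f u = 0) :
    (transv f u hu) ^ p = 1 := by
  rw [transv_pow]
  ext x
  rw [transv_apply, ← Nat.cast_smul_eq_nsmul R, hp, zero_smul, smul_zero, add_zero]; rfl

theorem W1_pow_char (p : ℕ) (hp : (p : R) = 0) {a : Frame R P} {g : P ≃ₗ[R] P} (hg : g ∈ W1 a) :
    g ^ p = 1 := by
  obtain ⟨u, hu, rfl⟩ := hg
  exact transv_pow_char p hp _ _ _

theorem W2_pow_char (p : ℕ) (hp : (p : R) = 0) {a : Frame R P} {g : P ≃ₗ[R] P} (hg : g ∈ W2 a) :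
    g ^ p = 1 := by
  obtain ⟨u, hu, rfl⟩ := hg
  exact transv_pow_char p hp _ _ _

theorem conj_mem_W1 (h : P ≃ₗ[R] P) {a : Frame R P} {g : P ≃ₗ[R] P} (hg : g ∈ W1 a) :
    h * g * h⁻¹ ∈ W1 (h • a) := by
  obtain ⟨u, hu, rfl⟩ := hg
  exact ⟨_, _, conj_transv h _ _ hu⟩

theorem conj_mem_W2 (h : P ≃ₗ[R] P) {a : Frame R P} {g : P ≃ₗ[R] P} (hg : g ∈ W2 a) :
    h * g * h⁻¹ ∈ W2 (h • a) := by
  obtain ⟨u, hu, rfl⟩ := hg
  exact ⟨_, _, conj_transv h _ _ hu⟩

/-- For `x ∈ W1 a` and `h` in the congruence subgroup fixing `a`: `x⁻¹ h x ∈ h (W1 a ∩ N)`. -/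
theorem comm_mem_W1 {I : Ideal R} {a : Frame R P} {x h : P ≃ₗ[R] P} (hx : x ∈ W1 a)
    (hN : h ∈ NP P I) (ha : h • a = a) : h⁻¹ * (x⁻¹ * h * x) ∈ W1 a ⊓ NP P I := by
  refine Subgroup.mem_inf.2 ⟨?_, ?_⟩
  · have h1 : h⁻¹ * x⁻¹ * h⁻¹⁻¹ ∈ W1 (h⁻¹ • a) := conj_mem_W1 h⁻¹ (inv_mem hx)
    have h2 : h⁻¹ • a = a := by rw [inv_smul_eq_iff, ha]
    rw [h2] at h1
    have : h⁻¹ * (x⁻¹ * h * x) = h⁻¹ * x⁻¹ * h⁻¹⁻¹ * x := by group
    rw [this]
    exact mul_mem h1 hx
  · refine mul_mem (inv_mem hN) ?_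
    have := (NP_normal (P := P) I).conj_mem h hN x⁻¹
    rwa [inv_inv] at this

theorem comm_mem_W2 {I : Ideal R} {a : Frame R P} {x h : P ≃ₗ[R] P} (hx : x ∈ W2 a)
    (hN : h ∈ NP P I) (ha : h • a = a) : h⁻¹ * (x⁻¹ * h * x) ∈ W2 a ⊓ NP P I := by
  refine Subgroup.mem_inf.2 ⟨?_, ?_⟩
  · have h1 : h⁻¹ * x⁻¹ * h⁻¹⁻¹ ∈ W2 (h⁻¹ • a) := conj_mem_W2 h⁻¹ (inv_mem hx)
    have h2 : h⁻¹ • a = a := by rw [inv_smul_eq_iff, ha]
    rw [h2] at h1
    have : h⁻¹ * (x⁻¹ * h * x) = h⁻¹ * x⁻¹ * h⁻¹⁻¹ * x := by group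
    rw [this]
    exact mul_mem h1 hx
  · refine mul_mem (inv_mem hN) ?_
    have := (NP_normal (P := P) I).conj_mem h hN x⁻¹
    rwa [inv_inv] at this

/-- The group generated by the transvections attached to a frame. -/
noncomputable def FG (a : Frame R P) : Subgroup (P ≃ₗ[R] P) := W1 a ⊔ W2 a

theorem W1_le_FG (a : Frame R P) : W1 a ≤ FG a := le_sup_left

theorem W2_le_FG (a : Frame R P) : W2 a ≤ FG a := le_sup_right

theorem conj_mem_FG (h : P ≃ₗ[R] P) {a : Frame R P} {g : P ≃ₗ[R] P} (hg : g ∈ FG a) :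
    h * g * h⁻¹ ∈ FG (h • a) := by
  have : FG a ≤ (FG (h • a)).comap (MulAut.conj h).toMonoidHom := by
    refine sup_le (fun g hg => ?_) (fun g hg => ?_)
    · rw [Subgroup.mem_comap]
      exact W1_le_FG _ (conj_mem_W1 h hg)
    · rw [Subgroup.mem_comap]
      exact W2_le_FG _ (conj_mem_W2 h hg)
  exact this hg

/-- Rotation of a frame onto an orthogonal one. -/
theorem exists_rotation {a b : Frame R P} (h : Perp a b) : ∃ g ∈ FG a, g • a = b := by
  refine ⟨transv a.φ b.v h.1 * transv (-b.φ) a.v (by rw [LinearMap.neg_apply, h.2, neg_zero]) *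
    transv a.φ b.v h.1, ?_, ?_⟩
  · exact mul_mem (mul_mem (W1_le_FG _ (transv_mem_W1 _ _ _)) (W2_le_FG _ (transv_mem_W2 _ _ _)))
      (W1_le_FG _ (transv_mem_W1 _ _ _))
  · rw [smul_eq_iff]
    constructor
    · rw [LinearEquiv.mul_apply, LinearEquiv.mul_apply]
      simp only [transv_apply, a.h, b.h, h.1, h.2, map_add, map_smul, LinearMap.neg_apply,
        one_smul]
      simp
    · intro x
      rw [LinearEquiv.mul_apply, LinearEquiv.mul_apply]
      simp only [transv_apply, a.h, b.h, h.1, h.2, map_add, map_smul, LinearMap.neg_apply,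
        one_smul, smul_eq_mul]
      ring

theorem FG_smul_of_mem {a : Frame R P} {g : P ≃ₗ[R] P} (hg : g ∈ FG a) : FG (g • a) = FG a := by
  apply le_antisymm
  · intro x hx
    have h1 := conj_mem_FG g⁻¹ hx
    rw [inv_smul_smul, inv_inv] at h1
    have h2 : x = g * (g⁻¹ * x * g) * g⁻¹ := by group
    rw [h2]
    exact mul_mem (mul_mem hg h1) (inv_mem hg)
  · intro x hx
    have h1 : g⁻¹ * x * g ∈ FG a := mul_mem (mul_mem (inv_mem hg) hx) hg
    have h2 := conj_mem_FG g h1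
    have h3 : x = g * (g⁻¹ * x * g) * g⁻¹ := by group
    rw [h3]
    exact h2

theorem FG_eq_of_perp {a b : Frame R P} (h : Perp a b) : FG a = FG b := by
  obtain ⟨g, hg, rfl⟩ := exists_rotation h
  exact (FG_smul_of_mem hg).symm

end Basic

section PID

variable {R : Type*} [CommRing R] [IsDomain R] [IsPrincipalIdealRing R]
variable {P : Type*} [AddCommGroup P] [Module R P] [Module.Free R P] [Module.Finite R P]

theorem FG_eq (hP : 5 ≤ finrank R P) (a b : Frame R P) : FG a = FG b := by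
  classical
  obtain ⟨w, hw⟩ := exists_perp_frame (R := R) {a, b} (by
    have := Finset.card_le_two (a := a) (b := b)
    omega)
  have h1 : Perp w a := hw a (by simp)
  have h2 : Perp w b := hw b (by simp)
  rw [← FG_eq_of_perp h1, FG_eq_of_perp h2]

theorem exists_FG_smul (hP : 5 ≤ finrank R P) (a b : Frame R P) : ∃ g ∈ FG a, g • a = b := by
  classical
  obtain ⟨w, hw⟩ := exists_perp_frame (R := R) {a, b} (by
    have := Finset.card_le_two (a := a) (b := b)
    omega)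
  have h1 : Perp w a := hw a (by simp)
  have h2 : Perp w b := hw b (by simp)
  obtain ⟨g1, hg1, e1⟩ := exists_rotation h1.symm
  obtain ⟨g2, hg2, e2⟩ := exists_rotation h2
  refine ⟨g2 * g1, mul_mem ?_ hg1, by rw [mul_smul, e1, e2]⟩
  rw [FG_eq hP a w]
  exact hg2

theorem transv_mem_FG (hP : 5 ≤ finrank R P) (a b : Frame R P) (u : P) (h : b.φ u = 0) :
    transv b.φ u h ∈ FG a := by
  rw [FG_eq hP a b]
  exact W1_le_FG _ (transv_mem_W1 _ _ _)

end PID

end Crest.Agent.R066
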