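import Crest.Agent.R066.EAcy
import Crest.Agent.R066.FrameEx
import Crest.Agent.R066.Transv
import Crest.Agent.R066.ELF

/-!
# Row 66, part (E): the inductive step
-/

set_option autoImplicit false
set_option linter.unusedSectionVars false

open Finset

namespace Crest.Agent.R066.E

open Module


section Step

variable {R : Type*} [CommRing R] [IsDomain R] [IsPrincipalIdealRing R]
variable {P : Type*} [AddCommGroup P] [Module R P] [Module.Free R P] [Module.Finite R P]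

instance {V : Type*} (r : V → V → Prop) : Unique (Clq r 0) where
  default := ⟨Fin.elim0, fun i => i.elim0⟩
  uniq y := by ext i; exact i.elim0

/-- Data making `x` act trivially on the cohomology of the stabiliser of `σ`. -/
def Pack (p : ℕ) (N : Subgroup (P ≃ₗ[R] P)) (σ : Frame R P) (x : P ≃ₗ[R] P) : Prop :=
  ∃ K Wt : Subgroup (P ≃ₗ[R] P), K ≤ N ∧ (∀ g ∈ N, g • σ = σ → g ∈ K) ∧ x ∈ Wt ∧
    (∀ k ∈ K, ∀ w ∈ Wt, k * w * k⁻¹ ∈ Wt) ∧ (∀ x ∈ Wt, ∀ k ∈ K, x * k * x⁻¹ ∈ K) ∧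
    (∀ x ∈ Wt, ∀ y ∈ Wt, x * y = y * x) ∧ (∀ x ∈ Wt, x ^ p = 1)

theorem free_GL (H : Subgroup (P ≃ₗ[R] P)) (h : H) (v : P ≃ₗ[R] P) (e : h • v = v) : h = 1 := by
  have : (h : P ≃ₗ[R] P) * v = v := e
  rw [mul_eq_right] at this
  exact Subtype.ext this

/-- `x` acts trivially on the restriction to the stabiliser of `σ`. -/
def TrivOn (N : Subgroup (P ≃ₗ[R] P)) (L : ℕ) (σ : Frame R P) (x : P ≃ₗ[R] P) : Prop :=
  ∀ f : Tup (P ≃ₗ[R] P) (L + 1) → F2, Inv N f → cd (X := Tup (P ≃ₗ[R] P)) f = 0 →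
    ∃ γ : Tup (P ≃ₗ[R] P) L → F2, (∀ g ∈ N, g • σ = σ → ∀ v, γ (g • v) = γ v) ∧
      cd (X := Tup (P ≃ₗ[R] P)) γ = fun v => f (x • v) + f v

theorem trivOn_of_pack {p : ℕ} [Fact p.Prime] (hp2 : p ≠ 2) {N : Subgroup (P ≃ₗ[R] P)} (L : ℕ)
    {σ : Frame R P} {x : P ≃ₗ[R] P} (h : Pack p N σ x) : TrivOn N L σ x := by
  obtain ⟨K, Wt, hKN, hK, hx, hn, hxk, hcomm, hpow⟩ := h
  intro f hf hf0
  obtain ⟨γ, hγ, e⟩ := unip_trivial K Wt hn (fun a => Ex.of_locOdd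
    (comm_locOdd' p hp2 (fun x y => Subtype.ext (Subtype.ext (hcomm _ x.2 _ y.2)))
      (fun x => Subtype.ext (Subtype.ext (hpow _ x.2)))) a (tup_fex a)) x hx (hxk x hx) L f
    (fun k v => hf ⟨k, hKN k.2⟩ v) hf0
  exact ⟨γ, fun g hg hgσ v => hγ ⟨g, hK g hg hgσ⟩ v, e⟩

theorem shift_inv {N : Subgroup (P ≃ₗ[R] P)} [N.Normal] {L : ℕ} {f : Tup (P ≃ₗ[R] P) L → F2}
    (hf : Inv N f) (x : P ≃ₗ[R] P) : Inv N (fun v : Tup (P ≃ₗ[R] P) L => f (x • v)) := by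
  intro k v
  have h1 : x • k • v = (⟨x * k * x⁻¹, Subgroup.Normal.conj_mem inferInstance _ k.2 x⟩ : N) •
      (x • v) := by
    funext i
    change x * ((k : P ≃ₗ[R] P) * v i) = (x * k * x⁻¹) * (x * v i)
    group
  change f (x • k • v) = f (x • v)
  rw [h1, hf]

theorem shift_cd {L : ℕ} {f : Tup (P ≃ₗ[R] P) L → F2} (hf : cd (X := Tup (P ≃ₗ[R] P)) f = 0)
    (x : P ≃ₗ[R] P) : cd (X := Tup (P ≃ₗ[R] P)) (fun v : Tup (P ≃ₗ[R] P) L => f (x • v)) = 0 := by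
  have := cd_smul (H := P ≃ₗ[R] P) (X := Tup (P ≃ₗ[R] P)) f x
  rw [this, hf]
  rfl

/-- The elements acting trivially form a subgroup. -/
def trivSub (N : Subgroup (P ≃ₗ[R] P)) [N.Normal] (L : ℕ) (σ : Frame R P) :
    Subgroup (P ≃ₗ[R] P) where
  carrier := {x | TrivOn N L σ x}
  one_mem' := by
    intro f _ _
    refine ⟨0, fun _ _ _ _ => rfl, ?_⟩
    rw [cd_zero]
    funext v
    rw [one_smul]
    exact (CharTwo.add_self_eq_zero _).symm
  mul_mem' := by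
    intro x y hx hy f hf hf0
    obtain ⟨γ1, hγ1, e1⟩ := hy (fun v => f (x • v)) (shift_inv hf x) (shift_cd hf0 x)
    obtain ⟨γ2, hγ2, e2⟩ := hx f hf hf0
    refine ⟨γ1 + γ2, fun g hg hgσ v => ?_, ?_⟩
    · simp only [Pi.add_apply, hγ1 g hg hgσ v, hγ2 g hg hgσ v]
    · rw [cd_add, e1, e2]
      funext v
      simp only [Pi.add_apply]
      have : f (x • y • v) = f ((x * y) • v) := by rw [mul_smul]
      rw [this]
      have := CharTwo.add_self_eq_zero (f (x • v))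
      linear_combination this
  inv_mem' := by
    intro x hx f hf hf0
    obtain ⟨γ, hγ, e⟩ := hx (fun v => f (x⁻¹ • v)) (shift_inv hf x⁻¹) (shift_cd hf0 x⁻¹)
    refine ⟨γ, hγ, ?_⟩
    rw [e]
    funext v
    simp only [inv_smul_smul]
    ring

/-- The inductive step. -/
theorem ind_step {p : ℕ} [Fact p.Prime] (hp2 : p ≠ 2) (a : R) (L : ℕ)
    (hrank : rk (L + 1) ≤ finrank R P)
    (hpack : ∀ σ : Frame R P, ∀ x, x ∈ W1 σ ∨ x ∈ W2 σ → Pack p (NP P (Ideal.span {a})) σ x)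
    (hstab : ∀ b, 1 ≤ b → b ≤ L + 2 → ∀ y : Clq (Perp : Frame R P → Frame R P → Prop) b,
      ∀ c ≤ L, Ex (MulAction.stabilizer (NP P (Ideal.span {a})) y) (Tup (P ≃ₗ[R] P)) c)
    (U : Subgroup (P ≃ₗ[R] P)) (hNU : NP P (Ideal.span {a}) ≤ U)
    (hUF : ∀ u ∈ U, ∀ σ : Frame R P, u ∈ FG σ)
    (hfin : Finite (U ⧸ (NP P (Ideal.span {a})).subgroupOf U))
    (hodd : Odd (Nat.card (U ⧸ (NP P (Ideal.span {a})).subgroupOf U)))
    (hU : Ex U (Tup (P ≃ₗ[R] P)) (L + 1)) :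
    Ex (NP P (Ideal.span {a})) (Tup (P ≃ₗ[R] P)) (L + 1) := by
  set N := NP P (Ideal.span {a}) with hN
  intro f hf hf0
  -- every element of `U` acts trivially
  have key : ∀ u ∈ U, ∃ γ : Tup (P ≃ₗ[R] P) L → F2, Inv N γ ∧
      cd (X := Tup (P ≃ₗ[R] P)) γ = fun v => f (u • v) + f v := by
    intro u hu
    have hfu : Inv N (fun v : Tup (P ≃ₗ[R] P) (L + 1) => f (u • v) + f v) :=
      (shift_inv hf u).add hf
    have hfu0 : cd (X := Tup (P ≃ₗ[R] P)) (fun v : Tup (P ≃ₗ[R] P) (L + 1) => f (u • v) + f v) =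
        0 := by
      have := cd_add (X := Tup (P ≃ₗ[R] P)) (fun v : Tup (P ≃ₗ[R] P) (L + 1) => f (u • v)) f
      rw [shift_cd hf0, hf0, add_zero] at this
      exact this
    refine restr_inj' (H := N) (X := Tup (P ≃ₗ[R] P))
      (Y := Clq (Perp : Frame R P → Frame R P → Prop)) L ?_ ?_ ?_ ?_ _ hfu hfu0 ?_
    · intro c b hb e y
      exact hstab b (by omega) (by omega) y c (by omega)
    · intro c b hc hb e x
      exact Ex.of_bot (stab_eq_bot_of_free (free_GL N) hc x) b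
        (frame_fex (L + 1) (by unfold rk at hrank; omega) b (by omega))
    · exact frame_ex a (L + 1) hrank (L + 1) le_rfl
    · exact frame_fex (L + 1) (by unfold rk at hrank; omega) 0 (by omega)
    · intro y
      have hsub : FG (y.1 0) ≤ trivSub N L (y.1 0) := by
        refine sup_le ?_ ?_
        · intro x hx
          exact trivOn_of_pack hp2 L (hpack _ x (Or.inl hx))
        · intro x hx
          exact trivOn_of_pack hp2 L (hpack _ x (Or.inr hx))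
      obtain ⟨γ, hγ, e⟩ := hsub (hUF u hu (y.1 0)) f hf hf0
      refine ⟨γ, ?_, e⟩
      rintro ⟨⟨g, hgN⟩, hg⟩ v
      rw [MulAction.mem_stabilizer_iff] at hg
      have hg' : g • y = y := hg
      rw [clq_smul_eq_iff] at hg'
      exact hγ g hgN (hg' 0) v
  -- transfer
  have hfU : Inv (N.subgroupOf U) f := by
    rintro ⟨⟨g, hgU⟩, hg⟩ v
    exact hf ⟨g, hg⟩ v
  obtain ⟨g, hg, hgf⟩ := transfer (U := U) (X := Tup (P ≃ₗ[R] P)) (N.subgroupOf U) hodd L hU f hfU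
    hf0 (by
      intro u
      obtain ⟨γ, hγ, e⟩ := key u u.2
      refine ⟨γ, ?_, e⟩
      rintro ⟨⟨g, hgU⟩, hg⟩ v
      exact hγ ⟨g, hg⟩ v)
  refine ⟨g, ?_, hgf⟩
  rintro ⟨k, hk⟩ v
  exact hg ⟨⟨k, hNU hk⟩, hk⟩ v

end Step

end Crest.Agent.R066.E
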