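import Crest.Agent.R066.ETup

/-!
# Row 66, part (E): comparison of the tuples of two `H`-sets; locally finite groups; transfer
-/

set_option autoImplicit false
set_option linter.unusedSectionVars false

open Finset

namespace Crest.Agent.R066.E

section Prism

variable {V W : Type*} (π : V → W)

/-- The prism operator. -/
def prism {a b N : ℕ} (h : a + b = N) (z : Tup V (a + 1) → Tup W (b + 1) → F2) :
    Tup V (N + 1) → F2 :=
  fun v => z (fun i => v ⟨i, by have := i.2; omega⟩) (fun j => π (v ⟨a + j, by have := j.2; omega⟩))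

theorem prism_add {a b N : ℕ} (h : a + b = N) (y z : Tup V (a + 1) → Tup W (b + 1) → F2) :
    prism π h (y + z) = prism π h y + prism π h z := rfl

theorem cd_prism {a b N : ℕ} (h : a + b = N) (y : Tup V (a + 1) → Tup W (b + 1) → F2) :
    cd (X := Tup V) (prism π h y) =
      prism π (show (a + 1) + b = N + 1 by omega) (dX (X := Tup V) y) +
      prism π (show a + (b + 1) = N + 1 by omega) (dY (Y := Tup W) y) := by
  funext v
  let A : ℕ → F2 := fun i => y
    (fun k => v ⟨if (k : ℕ) < i then (k : ℕ) else (k : ℕ) + 1, by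
      have := k.2
      split_ifs <;> omega⟩)
    (fun j => π (v ⟨a + 1 + j, by have := j.2; omega⟩))
  let B : ℕ → F2 := fun i => y
    (fun k => v ⟨k, by have := k.2; omega⟩)
    (fun j => π (v ⟨if (j : ℕ) < i then a + j else a + j + 1, by
      have := j.2
      split_ifs <;> omega⟩))
  have hA : ∀ i : Fin (a + 2), A i = y
      ((fun i : Fin (a + 2) => v ⟨i, by have := i.2; omega⟩) ∘ i.succAbove)
      (fun j => π (v ⟨a + 1 + j, by have := j.2; omega⟩)) := by
    intro i
    simp only [A]
    congr 1
    funext k
    simp only [Function.comp]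
    congr 1
    ext
    simp only [Fin.succAbove, Fin.lt_def, Fin.val_castSucc]
    split_ifs <;> simp
  have hB : ∀ i : Fin (b + 2), B i = y
      (fun k => v ⟨k, by have := k.2; omega⟩)
      ((fun j : Fin (b + 2) => π (v ⟨a + j, by have := j.2; omega⟩)) ∘ i.succAbove) := by
    intro i
    simp only [B]
    congr 1
    funext j
    simp only [Function.comp]
    congr 2
    ext
    simp only [Fin.succAbove, Fin.lt_def, Fin.val_castSucc]
    split_ifs <;> simp <;> omega
  have hL : ∀ i : Fin (N + 2), prism π h y (v ∘ i.succAbove) =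
      if (i : ℕ) < a + 1 then A i else B (i - a) := by
    intro i
    split_ifs with hi
    · simp only [A, prism, Function.comp]
      congr 1
      · funext k
        congr 1
        ext
        simp only [Fin.succAbove, Fin.lt_def, Fin.val_castSucc]
        split_ifs <;> simp
      · funext j
        congr 2
        ext
        simp only [Fin.succAbove, Fin.lt_def, Fin.val_castSucc]
        have := j.2
        split_ifs <;> simp at * <;> omega
    · simp only [B, prism, Function.comp]
      congr 1
      · funext k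
        congr 1
        ext
        have := k.2
        simp only [Fin.succAbove, Fin.lt_def, Fin.val_castSucc]
        split_ifs <;> simp at * <;> omega
      · funext j
        congr 2
        ext
        have := j.2
        simp only [Fin.succAbove, Fin.lt_def, Fin.val_castSucc]
        split_ifs <;> simp at * <;> omega
  rw [cd_tup]
  simp only [hL]
  rw [Fin.sum_univ_eq_sum_range (fun i => if i < a + 1 then A i else B (i - a)) (N + 2)]
  have e1 : Finset.range (N + 2) = Finset.range ((a + 1) + (b + 1)) := by
    congr 1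
    omega
  have e2 : ∑ i ∈ Finset.range (N + 2), (if i < a + 1 then A i else B (i - a)) =
      ∑ i ∈ Finset.range (a + 1), (if i < a + 1 then A i else B (i - a)) +
      ∑ x ∈ Finset.range (b + 1), (if a + 1 + x < a + 1 then A (a + 1 + x) else
        B (a + 1 + x - a)) := by
    rw [e1, Finset.sum_range_add]
  rw [e2]
  have s1 : ∑ x ∈ Finset.range (a + 1), (if x < a + 1 then A x else B (x - a)) =
      ∑ x ∈ Finset.range (a + 1), A x :=
    Finset.sum_congr rfl fun x hx => by rw [if_pos (Finset.mem_range.mp hx)]
  have s2 : ∑ x ∈ Finset.range (b + 1), (if a + 1 + x < a + 1 then A (a + 1 + x) else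
      B (a + 1 + x - a)) = ∑ x ∈ Finset.range (b + 1), B (x + 1) :=
    Finset.sum_congr rfl fun x hx => by
      rw [if_neg (by omega)]
      congr 1
      omega
  rw [s1, s2]
  change _ = cd (X := Tup V) (fun x' => y x' _) _ + cd (X := Tup W) (y _) _
  rw [cd_tup, cd_tup]
  simp only [← hA, ← hB]
  rw [Fin.sum_univ_eq_sum_range (fun i => A i) (a + 2), Fin.sum_univ_eq_sum_range (fun i => B i) (b + 2),
    Finset.sum_range_succ (fun i => A i) (a + 1), Finset.sum_range_succ' (fun i => B i) (b + 1)]
  have hAB : A (a + 1) = B 0 := by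
    simp only [A, B]
    congr 1
    · funext k
      congr 1
      ext
      have := k.2
      simp
      omega
    · funext j
      congr 2
      ext
      simp
      omega
  rw [hAB]
  have : B 0 + B 0 = 0 := CharTwo.add_self_eq_zero _
  linear_combination -this

variable {H : Type*} [Group H] [MulAction H V] [MulAction H W]

theorem prism_inv (hπ : ∀ (h : H) v, π (h • v) = h • π v) {a b N : ℕ} (h : a + b = N)
    {z : Tup V (a + 1) → Tup W (b + 1) → F2} (hz : BInv H z) : Inv H (prism π h z) := by
  intro k v
  have := hz k (fun i => v ⟨i, by have := i.2; omega⟩)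
    (fun j => π (v ⟨a + j, by have := j.2; omega⟩))
  simp only [prism]
  rw [← this]
  congr 1
  funext j
  simp only [Pi.smul_apply, hπ]

theorem prism_main (hπ : ∀ (h : H) v, π (h • v) = h • π v) : ∀ (a b N : ℕ) (h : a + b = N)
    (_ : ∀ a' b', 1 ≤ b' → a' + b' = N + 2 → ExX H (Tup V) (Tup W) a' b')
    (z : Tup V (a + 1) → Tup W (b + 1) → F2) (_ : BInv H z)
    (_ : dX (X := Tup V) z = 0) (_ : dY (Y := Tup W) z = 0),
    ∃ (γ : Tup V N → F2) (β : Tup W (N + 1) → F2), Inv H γ ∧ Inv H β ∧
      prism π h z = cd (X := Tup V) γ + fun v => β (π ∘ v) := by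
  intro a
  induction a with
  | zero =>
    intro b N h hex z hz hzX hzY
    obtain ⟨y, hy, hyz⟩ := hex 1 (b + 1) (by omega) (by omega) z hz hzX
    obtain rfl : b = N := by omega
    refine ⟨0, y default, fun _ _ => rfl, fun k w => ?_, ?_⟩
    · have := hy k default w
      rw [← this]
      congr 1
      exact Subsingleton.elim _ _
    · rw [cd_zero, zero_add]
      funext v
      rw [← hyz]
      simp only [prism, dX]
      rw [cd_tup, Fin.sum_univ_one]
      exact congrArg₂ y (Subsingleton.elim _ _) (by funext j; simp)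
  | succ a ih =>
    intro b N h hex z hz hzX hzY
    obtain ⟨y, hy, hyz⟩ := hex (a + 1 + 1) (b + 1) (by omega) (by omega) z hz hzX
    obtain ⟨M, rfl⟩ : ∃ M, N = M + 1 := ⟨N - 1, by omega⟩
    have hyX : dX (X := Tup V) (dY (Y := Tup W) y) = 0 := by rw [dX_dY, hyz, hzY]
    obtain ⟨γ, β, hγ, hβ, e⟩ := ih (b + 1) (M + 1) (by omega) hex (dY (Y := Tup W) y) hy.dY hyX
      (dY_dY y)
    refine ⟨prism π (show a + b = M by omega) y + γ, β,
      (prism_inv π hπ _ hy).add hγ, hβ, ?_⟩
    rw [cd_add, cd_prism, hyz, e]
    have h1 := add_self (cd (X := Tup V) γ)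
    have h2 := add_self (fun v : Tup V (M + 1 + 1) => β (π ∘ v))
    funext v
    have h1' := congrFun h1 v
    have h2' := congrFun h2 v
    simp only [Pi.add_apply, Pi.zero_apply] at h1' h2' ⊢
    linear_combination -h1' - h2'

/-- Comparison: every cocycle on `V` is cohomologous to the pull back of a cochain on `W`. -/
theorem comparison (hπ : ∀ (h : H) v, π (h • v) = h • π v) (N : ℕ)
    (hex : ∀ a b, 1 ≤ b → a + b = N + 2 → ExX H (Tup V) (Tup W) a b)
    (f : Tup V (N + 1) → F2) (hf : Inv H f) (hf0 : cd (X := Tup V) f = 0) :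
    ∃ (γ : Tup V N → F2) (β : Tup W (N + 1) → F2), Inv H γ ∧ Inv H β ∧
      f = cd (X := Tup V) γ + fun v => β (π ∘ v) := by
  have hz : BInv H (dY (Y := Tup W) (fun (x : Tup V (N + 1)) (_ : Tup W 0) => f x)) :=
    BInv.dY (H := H) (X := Tup V) (Y := Tup W) (fun k x _ => hf k x)
  obtain ⟨γ, β, hγ, hβ, e⟩ := prism_main π hπ N 0 N (by omega) hex
    (dY (Y := Tup W) (fun (x : Tup V (N + 1)) (_ : Tup W 0) => f x)) hz
    (by
      rw [dX_dY]
      have : dX (X := Tup V) (fun (x : Tup V (N + 1)) (_ : Tup W 0) => f x) = 0 := by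
        funext x _
        exact congrFun hf0 x
      rw [this, dY_zero])
    (dY_dY _)
  refine ⟨γ, β, hγ, hβ, ?_⟩
  rw [← e]
  funext v
  simp only [prism, dY]
  rw [cd_tup, Fin.sum_univ_one]

end Prism

end Crest.Agent.R066.E
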