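import Crest.Agent.R066.ECore

/-!
# Row 66, part (E): the complex of tuples
-/

set_option autoImplicit false
set_option linter.unusedSectionVars false

open Finset

namespace Crest.Agent.R066.E

theorem simplicial_sum_zero {n : ℕ} (φ : Fin (n + 2) → Fin (n + 1) → F2)
    (h : ∀ i j : Fin (n + 1), i ≤ j → φ j.succ i = φ i.castSucc j) :
    ∑ j, ∑ i, φ j i = 0 := by
  classical
  rw [← Finset.sum_product']
  let S : Finset (Fin (n + 2) × Fin (n + 1)) := Finset.univ ×ˢ Finset.univ
  rw [← Finset.sum_filter_add_sum_filter_not S (fun p => p.2.castSucc < p.1)]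
  have key : ∑ p ∈ S.filter (fun p => p.2.castSucc < p.1), φ p.1 p.2 =
      ∑ p ∈ S.filter (fun p => ¬ p.2.castSucc < p.1), φ p.1 p.2 := by
    refine Finset.sum_bij (fun p hp => (p.2.castSucc, p.1.pred (by
      have := (Finset.mem_filter.mp hp).2
      intro h0
      rw [h0] at this
      exact absurd this (Fin.not_lt_zero _)))) ?_ ?_ ?_ ?_
    · rintro ⟨j, i⟩ hp
      have hlt := (Finset.mem_filter.mp hp).2
      simp only [S, Finset.mem_filter, Finset.mem_product, Finset.mem_univ, true_and, not_lt]
      simp only [Fin.lt_def, Fin.val_castSucc] at hlt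
      simp only [Fin.le_def, Fin.val_castSucc, Fin.val_pred]
      omega
    · rintro ⟨j, i⟩ hp ⟨j', i'⟩ hp' e
      have hlt := (Finset.mem_filter.mp hp).2
      have hlt' := (Finset.mem_filter.mp hp').2
      simp only [Fin.lt_def, Fin.val_castSucc] at hlt hlt'
      simp only [Prod.mk.injEq, Fin.ext_iff, Fin.val_castSucc, Fin.val_pred] at e ⊢
      omega
    · rintro ⟨j, i⟩ hp
      have hlt := (Finset.mem_filter.mp hp).2
      simp only [Fin.lt_def, Fin.val_castSucc, not_lt] at hlt
      have hi := i.2
      refine ⟨(i.succ, ⟨j, by omega⟩), ?_, ?_⟩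
      · simp only [S, Finset.mem_filter, Finset.mem_product, Finset.mem_univ, true_and,
          Fin.lt_def, Fin.val_castSucc, Fin.val_succ]
        omega
      · simp only [Prod.mk.injEq, Fin.ext_iff, Fin.val_castSucc, Fin.val_pred, Fin.val_succ]
        simp
    · rintro ⟨j, i⟩ hp
      have hlt := (Finset.mem_filter.mp hp).2
      have hj : j ≠ 0 := by
        intro h0
        rw [h0] at hlt
        exact absurd hlt (Fin.not_lt_zero _)
      have := h i (j.pred hj) (by
        simp only [Fin.lt_def, Fin.val_castSucc] at hlt
        simp only [Fin.le_def, Fin.val_pred]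
        omega)
      rw [Fin.succ_pred] at this
      exact this
  rw [key]
  exact CharTwo.add_self_eq_zero _

theorem succAbove_comp {n : ℕ} {V : Type*} (x : Fin (n + 2) → V) (i j : Fin (n + 1)) (h : i ≤ j) :
    (x ∘ j.succ.succAbove) ∘ i.succAbove = (x ∘ i.castSucc.succAbove) ∘ j.succAbove := by
  funext k
  simp only [Function.comp]
  congr 1
  ext
  simp only [Fin.succAbove, Fin.lt_def, Fin.le_def] at *
  have := k.2
  split_ifs <;> simp at * <;> omega

/-- Tuples. -/
abbrev Tup (V : Type*) : ℕ → Type _ := fun n => Fin n → V

instance tupCx (V : Type*) : Cx (Tup V) where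
  fc n y := (Finset.univ : Finset (Fin (n + 1))).val.map (fun i => y ∘ i.succAbove)
  fcfc n f x := by
    simp only [Multiset.map_map, Function.comp_def]
    exact simplicial_sum_zero (fun j i => f ((x ∘ j.succAbove) ∘ i.succAbove))
      (fun i j h => by rw [succAbove_comp x i j h])

instance tupAct {H V : Type*} [Group H] [MulAction H V] : CxAct H (Tup V) where
  fc_smul n h x := by
    change (Finset.univ : Finset (Fin (n + 1))).val.map _ = Multiset.map _ (Multiset.map _ _)
    rw [Multiset.map_map]
    rfl

theorem cd_tup {V : Type*} {n : ℕ} (f : (Fin n → V) → F2) (y : Fin (n + 1) → V) :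
    cd (X := Tup V) f y = ∑ i : Fin (n + 1), f (y ∘ i.succAbove) := by
  change (Multiset.map f (Multiset.map _ _)).sum = _
  rw [Multiset.map_map]
  rfl

theorem tup_fex {V : Type*} [Nonempty V] (n : ℕ) : FEx (Tup V) n := by
  obtain ⟨v⟩ := (inferInstance : Nonempty V)
  cases n with
  | zero =>
    intro f h
    funext x
    have := congrFun h (fun _ => v)
    rw [cd_tup] at this
    rw [Fin.sum_univ_one] at this
    change _ = (0 : F2) at this
    change f x = 0
    rw [← this]
    congr 1
    exact Subsingleton.elim _ _
  | succ n =>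
    intro f h
    refine ⟨fun y => f (Fin.cons v y), ?_⟩
    funext y
    have h1 := congrFun h (Fin.cons v y)
    rw [cd_tup, Fin.sum_univ_succ] at h1
    have h2 : f ((Fin.cons v y : Fin (n + 1 + 1) → V) ∘ (0 : Fin (n + 1 + 1)).succAbove) = f y := by
      congr 1
    rw [h2] at h1
    have h3 : ∀ i : Fin (n + 1), (Fin.cons v y : Fin (n + 1 + 1) → V) ∘ i.succ.succAbove =
        Fin.cons v (y ∘ i.succAbove) := by
      intro i
      funext k
      refine Fin.cases ?_ (fun k => ?_) k
      · simp
      · simp
    simp only [h3] at h1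
    rw [cd_tup]
    exact (CharTwo.add_eq_zero.mp h1).symm

/-- In degrees `0` and `1` invariants are exact as well. -/
theorem tup_ex_zero {H V : Type*} [Group H] [MulAction H V] [Nonempty V] : Ex H (Tup V) 0 :=
  fun f _ h => tup_fex 0 f h

theorem tup_ex_one {H V : Type*} [Group H] [MulAction H V] [Nonempty V] : Ex H (Tup V) 1 := by
  intro f _ h
  obtain ⟨g, hg⟩ := tup_fex 1 f h
  refine ⟨g, ?_, hg⟩
  intro k x
  congr 1
  exact Subsingleton.elim _ _

section Free

variable {H : Type*} [Group H] {V : Type*} [MulAction H V]

theorem stab_eq_bot_of_free (hfree : ∀ (h : H) (v : V), h • v = v → h = 1) {b : ℕ} (hb : 1 ≤ b)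
    (y : Tup V b) : MulAction.stabilizer H y = ⊥ := by
  rw [Subgroup.eq_bot_iff_forall]
  intro h hh
  rw [MulAction.mem_stabilizer_iff] at hh
  exact hfree h (y ⟨0, hb⟩) (congrFun hh ⟨0, hb⟩)

theorem Ex.of_bot {X : ℕ → Type*} [Cx X] [∀ n, MulAction H (X n)] [CxAct H X]
    {K : Subgroup H} (hK : K = ⊥) (n : ℕ) (h : FEx X n) : Ex K X n := by
  subst hK
  exact Ex.of_odd (by simp) n h

/-- Change of the free `H`-set. -/
theorem Ex.ambient {W : Type*} [MulAction H W] [Nonempty V] [Nonempty W]
    (hV : ∀ (h : H) (v : V), h • v = v → h = 1) (hW : ∀ (h : H) (v : W), h • v = v → h = 1)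
    (n : ℕ) (h : Ex H (Tup W) n) : Ex H (Tup V) n := by
  cases n with
  | zero => exact tup_ex_zero
  | succ n =>
    have key := compare (H := H) (X := Tup V) (Y := Tup W) n
      (fun a b hb _ => exX_of_stab a b fun y => Ex.of_bot (stab_eq_bot_of_free hW hb y) a (tup_fex a))
      (fun a b hb e => by
        rcases Nat.eq_zero_or_pos a with h0 | h0
        · subst h0
          obtain rfl : b = n + 1 := by omega
          intro f hf hfY
          obtain ⟨g, hg, hgf⟩ := h (f default) (fun k y => by
            rw [← hf k default y]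
            congr 1
            exact Subsingleton.elim _ _) (by
              funext y
              exact congrFun (congrFun hfY default) y)
          refine ⟨fun _ y => g y, fun k _ y => hg k y, ?_⟩
          funext x y
          change cd g y = _
          rw [hgf]
          congr 1
          exact Subsingleton.elim _ _
        · exact exY_of_stab a b fun x => Ex.of_bot (stab_eq_bot_of_free hV h0 x) b (tup_fex b))
      (exY_of_exX _ _ (by
        intro f hf h0
        funext y x
        have := tup_fex (V := W) 0 (fun y => f y x) (by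
          funext y'
          exact congrFun (congrFun h0 y') x)
        exact congrFun this y))
    intro f hf hfX
    obtain ⟨g, hg, hgf⟩ := key (fun x _ => f x) (fun k x _ => hf k x) (by
      funext x _
      exact congrFun hfX x)
    refine ⟨fun x => g x default, ?_, ?_⟩
    · intro k x
      change g (k • x) default = g x default
      rw [← hg k x default]
      congr 1
      exact Subsingleton.elim _ _
    · funext x
      exact congrFun (congrFun hgf x) default

end Free

end Crest.Agent.R066.E
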