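import Crest.Agent.R066.ETup
import Crest.Agent.R066.Basic

/-!
# Row 66, part (E): the typed coset complex as a `Cx`
-/

set_option autoImplicit false
set_option linter.unusedSectionVars false

open Finset

namespace Crest.Agent.R066.E

variable {I G : Type*} [DecidableEq I] [Group G]

theorem PJ_anti (P : I → Subgroup G) {S T : Finset I} (h : T ⊆ S) : PJ P S ≤ PJ P T := by
  intro g hg
  simp only [PJ, Subgroup.mem_iInf] at hg ⊢
  exact fun i hi => hg i (h hi)

/-- Faces with `b` vertices of the typed coset complex. -/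
def XT (P : I → Subgroup G) (b : ℕ) : Type _ := Σ S : {S : Finset I // S.card = b}, G ⧸ PJ P S.1

/-- The face of type `S` of the chamber `g`. -/
def XT.mk (P : I → Subgroup G) {b : ℕ} (S : Finset I) (hS : S.card = b) (g : G) : XT P b :=
  ⟨⟨S, hS⟩, (g : G ⧸ PJ P S)⟩

theorem XT.mk_congr (P : I → Subgroup G) {b : ℕ} {S T : Finset I} (hS : S.card = b)
    (hT : T.card = b) (h : S = T) (g : G) : XT.mk P S hS g = XT.mk P T hT g := by
  subst h; rfl

theorem XT.mk_eq_iff (P : I → Subgroup G) {b : ℕ} {S T : Finset I} (hS : S.card = b)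
    (hT : T.card = b) (g h : G) :
    XT.mk P S hS g = XT.mk P T hT h ↔ S = T ∧ g⁻¹ * h ∈ PJ P S := by
  constructor
  · intro e
    have h1 : S = T := by
      have := congrArg (fun x : XT P b => x.1.1) e
      exact this
    subst h1
    refine ⟨rfl, ?_⟩
    have h2 : (g : G ⧸ PJ P S) = (h : G ⧸ PJ P S) := eq_of_heq (Sigma.mk.inj_iff.mp e).2
    exact QuotientGroup.eq.mp h2
  · rintro ⟨rfl, h1⟩
    have h2 : (g : G ⧸ PJ P S) = (h : G ⧸ PJ P S) := QuotientGroup.eq.mpr h1
    rw [XT.mk, XT.mk, h2]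

theorem XT.exists_mk (P : I → Subgroup G) {b : ℕ} (x : XT P b) :
    ∃ (S : Finset I) (hS : S.card = b) (g : G), x = XT.mk P S hS g := by
  obtain ⟨⟨S, hS⟩, c⟩ := x
  induction c using QuotientGroup.induction_on with
  | H g => exact ⟨S, hS, g, rfl⟩

instance (P : I → Subgroup G) (b : ℕ) : MulAction G (XT P b) where
  smul g x := ⟨x.1, g • x.2⟩
  one_smul x := by
    obtain ⟨S, c⟩ := x
    change (⟨S, (1 : G) • c⟩ : XT P b) = ⟨S, c⟩
    rw [one_smul]
  mul_smul g h x := by
    change (⟨x.1, (g * h) • x.2⟩ : XT P b) = ⟨x.1, g • (h • x.2)⟩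
    rw [mul_smul]

theorem XT.smul_mk (P : I → Subgroup G) {b : ℕ} (S : Finset I) (hS : S.card = b) (g h : G) :
    g • XT.mk P S hS h = XT.mk P S hS (g * h) := rfl

/-- Faces. -/
def XT.fc (P : I → Subgroup G) (b : ℕ) (x : XT P (b + 1)) : Multiset (XT P b) :=
  x.1.1.attach.val.map (fun i =>
    ⟨⟨x.1.1.erase i.1, by rw [Finset.card_erase_of_mem i.2, x.1.2]; rfl⟩,
      Subgroup.quotientMapOfLE (PJ_anti P (Finset.erase_subset i.1 x.1.1)) x.2⟩)

theorem XT.fc_mk (P : I → Subgroup G) (b : ℕ) (S : Finset I) (hS : S.card = b + 1) (g : G) :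
    XT.fc P b (XT.mk P S hS g) = S.attach.val.map (fun i =>
      XT.mk P (S.erase i.1) (by rw [Finset.card_erase_of_mem i.2, hS]; rfl) g) := rfl

theorem XT.sum_fc (P : I → Subgroup G) (b : ℕ) (f : XT P b → F2) (S : Finset I)
    (hS : S.card = b + 1) (g : G) (F : Finset I → F2)
    (hF : ∀ i ∈ S, ∀ h : (S.erase i).card = b, f (XT.mk P (S.erase i) h g) = F (S.erase i)) :
    ((XT.fc P b (XT.mk P S hS g)).map f).sum = ∑ i ∈ S, F (S.erase i) := by
  rw [XT.fc_mk, Multiset.map_map]
  change ∑ i ∈ S.attach, _ = _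
  rw [← Finset.sum_attach S]
  refine Finset.sum_congr rfl fun i _ => ?_
  exact hF i.1 i.2 _

open Classical in
/-- Value of a function on the face of type `S` of `g` (zero if the type has the wrong size). -/
noncomputable def XT.ev {P : I → Subgroup G} {b : ℕ} (f : XT P b → F2) (S : Finset I) (g : G) : F2 :=
  if h : S.card = b then f (XT.mk P S h g) else 0

theorem XT.ev_of_card {P : I → Subgroup G} {b : ℕ} (f : XT P b → F2) {S : Finset I}
    (h : S.card = b) (g : G) : XT.ev f S g = f (XT.mk P S h g) := by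
  rw [XT.ev, dif_pos h]

instance (P : I → Subgroup G) : Cx (XT P) where
  fc := XT.fc P
  fcfc n f x := by
    obtain ⟨S, hS, g, rfl⟩ := XT.exists_mk P x
    have h1 : ∀ T : Finset I, ∀ hT : T.card = n + 1,
        ((XT.fc P n (XT.mk P T hT g)).map f).sum = ∑ i ∈ T, XT.ev f (T.erase i) g := by
      intro T hT
      exact XT.sum_fc P n f T hT g (fun U => XT.ev f U g) (fun _ _ h => (XT.ev_of_card f h g).symm)
    rw [XT.sum_fc P (n + 1) _ S hS g (fun T => ∑ i ∈ T, XT.ev f (T.erase i) g)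
      (fun _ _ h => h1 _ h)]
    have := congrFun (congrFun (cob_cob' (fun S (_ : G) => XT.ev f S g)) S) g
    exact this
where
  cob_cob' (f : Finset I → G → ZMod 2) : cob (cob f) = 0 := by
    funext S x
    simp only [cob, Pi.zero_apply]
    rw [Finset.sum_sigma']
    refine Finset.sum_involution (fun p _ => ⟨p.2, p.1⟩) ?_ ?_ ?_ ?_
    · rintro ⟨a, b⟩ h
      simp only [Finset.mem_sigma, Finset.mem_erase] at h
      rw [Finset.erase_right_comm]
      exact CharTwo.add_self_eq_zero _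
    · rintro ⟨a, b⟩ h _
      simp only [Finset.mem_sigma, Finset.mem_erase] at h
      intro e
      simp only [Sigma.mk.injEq, heq_eq_eq] at e
      exact h.2.1 e.1
    · rintro ⟨a, b⟩ h
      simp only [Finset.mem_sigma, Finset.mem_erase] at h ⊢
      exact ⟨h.2.2, fun e => h.2.1 e.symm, h.1⟩
    · rintro ⟨a, b⟩ h
      rfl

theorem XT.cd_mk (P : I → Subgroup G) {b : ℕ} (f : XT P b → F2) (S : Finset I)
    (hS : S.card = b + 1) (g : G) :
    cd f (XT.mk P S hS g) = ∑ i ∈ S, XT.ev f (S.erase i) g :=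
  XT.sum_fc P b f S hS g (fun U => XT.ev f U g) (fun _ _ h => (XT.ev_of_card f h g).symm)

instance (P : I → Subgroup G) : CxAct G (XT P) where
  fc_smul n g x := by
    obtain ⟨S, hS, h, rfl⟩ := XT.exists_mk P x
    rw [XT.smul_mk]
    change XT.fc P n _ = Multiset.map _ (XT.fc P n _)
    rw [XT.fc_mk, XT.fc_mk, Multiset.map_map]
    rfl

end Crest.Agent.R066.E
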