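import Mathlib
import Crest.Agent.R066.FillChain

/-!
Row 66 (S0088), part (C): bounded fillings in a join `K_A * K_B` when only `K_A` is assumed to have
bounded fillings.
-/

set_option autoImplicit false
set_option linter.unusedSectionVars false

namespace Crest.Agent.R066.Fill

open Finset

universe u

open Classical in
/-- join of a complex `KA` on the vertex set `A` and a complex `KB` on its complement -/
def Join {V : Type u} (A : Set V) (KA KB : Set (Finset V)) : Set (Finset V) :=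
  {σ | σ.filter (· ∈ A) ∈ KA ∧ σ.filter (· ∉ A) ∈ KB}

open Classical in
theorem mem_Join {V : Type u} {A : Set V} {KA KB : Set (Finset V)} {σ : Finset V} :
    σ ∈ Join A KA KB ↔ σ.filter (· ∈ A) ∈ KA ∧ σ.filter (· ∉ A) ∈ KB := Iff.rfl

theorem Join_mono {V : Type u} {A : Set V} {KA KB KB' : Set (Finset V)} (h : KB ⊆ KB') :
    Join A KA KB ⊆ Join A KA KB' := fun _ hσ => ⟨hσ.1, h hσ.2⟩

theorem IsCh.mono {V : Type u} {K K' : Set (Finset V)} (h : K ⊆ K') {m : ℕ} {c : Ch V}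
    (hc : IsCh K m c) : IsCh K' m c := fun σ hσ => ⟨h (hc σ hσ).1, (hc σ hσ).2⟩

open Classical in
theorem joinFill_aux (φ : ℕ → ℕ → ℕ) : ∀ l m s : ℕ, ∃ t s0 : ℕ, ∀ (V : Type u) [DecidableEq V]
    (A : Set V) (KA KB : Set (Finset V)) (B : Finset V),
    (∀ σ ∈ KA, ∀ v ∈ σ, v ∈ A) → (∀ m' ≤ m, ∀ s' ≤ s0, BF KA m' s' (φ m' s')) →
    (∀ b ∈ B, b ∉ A) → B.card ≤ l → (∀ σ ∈ KB, σ ⊆ B) → (∀ σ ∈ KB, ∀ τ ⊆ σ, τ ∈ KB) →
    ∅ ∈ KB → BF (Join A KA KB) m s t := by
  intro l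
  induction l with
  | zero =>
    intro m s
    refine ⟨φ m s, s, ?_⟩
    intro V _ A KA KB B hKA hfill hBA hB hKB hdc h0 z hz hbz hs
    have hB0 : B = ∅ := Finset.card_eq_zero.1 (Nat.le_zero.1 hB)
    have hz' : IsCh KA m z := by
      intro σ hσ
      obtain ⟨⟨h1, h2⟩, h3⟩ := hz σ hσ
      refine ⟨?_, h3⟩
      have h4 := hKB _ h2
      rw [hB0, Finset.subset_empty, Finset.filter_eq_empty_iff] at h4
      rw [Finset.filter_true_of_mem (fun x hx => by simpa using h4 hx)] at h1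
      exact h1
    obtain ⟨c, hc1, hc2, hc3⟩ := hfill m le_rfl s le_rfl z hz' hbz hs
    refine ⟨c, ?_, hc2, hc3⟩
    intro σ hσ
    obtain ⟨h1, h2⟩ := hc1 σ hσ
    have h3 := hKA σ h1
    refine ⟨⟨?_, ?_⟩, h2⟩
    · rw [Finset.filter_true_of_mem h3]; exact h1
    · rw [Finset.filter_eq_empty_iff.2 (fun x hx => by simpa using h3 x hx)]
      exact h0
  | succ l ih =>
    intro m s
    obtain ⟨ta, sa, ha⟩ := ih m s
    obtain ⟨t1, s1, h1⟩ := ih (m - 1) s
    obtain ⟨t2, s2, h2⟩ := ih m (s + t1)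
    refine ⟨ta + t1 + t2, max sa (max s1 s2), ?_⟩
    intro V _ A KA KB B hKA hfill hBA hB hKB hdc h0 z hz hbz hs
    have hfa : ∀ m' ≤ m, ∀ s' ≤ sa, BF KA m' s' (φ m' s') := fun m' hm' s' hs' =>
      hfill m' hm' s' (hs'.trans (le_max_left _ _))
    have hf1 : ∀ m' ≤ m - 1, ∀ s' ≤ s1, BF KA m' s' (φ m' s') := fun m' hm' s' hs' =>
      hfill m' (hm'.trans (Nat.sub_le _ _)) s'
        (hs'.trans ((le_max_left _ _).trans (le_max_right _ _)))
    have hf2 : ∀ m' ≤ m, ∀ s' ≤ s2, BF KA m' s' (φ m' s') := fun m' hm' s' hs' =>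
      hfill m' hm' s' (hs'.trans ((le_max_right _ _).trans (le_max_right _ _)))
    by_cases hBl : B.card ≤ l
    · obtain ⟨c, hc1, hc2, hc3⟩ := ha V A KA KB B hKA hfa hBA hBl hKB hdc h0 z hz hbz hs
      exact ⟨c, hc1, hc2, by omega⟩
    have hBne : B.Nonempty := by
      rw [← Finset.card_pos]; omega
    obtain ⟨b, hb⟩ := hBne
    have hbA := hBA b hb
    have hBe : (B.erase b).card ≤ l := by rw [Finset.card_erase_of_mem hb]; omega
    set KB1 : Set (Finset V) := {τ | b ∉ τ ∧ insert b τ ∈ KB} with hKB1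
    set KB2 : Set (Finset V) := {τ | b ∉ τ ∧ τ ∈ KB} with hKB2
    have h12 : KB1 ⊆ KB2 := fun τ hτ => ⟨hτ.1, hdc _ hτ.2 _ (Finset.subset_insert _ _)⟩
    have h2B : KB2 ⊆ KB := fun τ hτ => hτ.2
    have hBA' : ∀ x ∈ B.erase b, x ∉ A := fun x hx => hBA x (Finset.mem_of_mem_erase hx)
    have hsub2 : ∀ σ ∈ KB2, σ ⊆ B.erase b := fun σ hσ x hx =>
      Finset.mem_erase.2 ⟨fun e => hσ.1 (e ▸ hx), hKB σ hσ.2 hx⟩
    have hsub1 : ∀ σ ∈ KB1, σ ⊆ B.erase b := fun σ hσ => hsub2 σ (h12 hσ)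
    have hdc2 : ∀ σ ∈ KB2, ∀ τ ⊆ σ, τ ∈ KB2 := fun σ hσ τ hτ =>
      ⟨fun h => hσ.1 (hτ h), hdc σ hσ.2 τ hτ⟩
    have hdc1 : ∀ σ ∈ KB1, ∀ τ ⊆ σ, τ ∈ KB1 := fun σ hσ τ hτ =>
      ⟨fun h => hσ.1 (hτ h), hdc _ hσ.2 _ (Finset.insert_subset_insert _ hτ)⟩
    have h02 : ∅ ∈ KB2 := ⟨by simp, h0⟩
    -- the chain `del b z`
    have hdel : IsCh (Join A KA KB2) m (del b z) := by
      intro σ hσ
      obtain ⟨h3, h4⟩ := mem_support_del hσ
      obtain ⟨⟨h5, h6⟩, h7⟩ := hz σ h3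
      exact ⟨⟨h5, fun h => h4 (Finset.mem_of_mem_filter _ h), h6⟩, h7⟩
    by_cases hlk : lnk b z = 0
    · -- no simplex contains `b`
      have hzd : z = del b z := by
        have := del_add_cone_lnk b z
        rw [hlk, map_zero, add_zero] at this
        exact this.symm
      obtain ⟨c, hc1, hc2, hc3⟩ := h2 V A KA KB2 (B.erase b) hKA hf2 hBA' hBe hsub2 hdc2 h02 z
        (by rw [hzd]; exact hdel) hbz (by omega)
      exact ⟨c, hc1.mono (Join_mono h2B), hc2, by omega⟩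
    · -- some simplex contains `b`
      obtain ⟨ρ, hρ⟩ := Finsupp.support_nonempty_iff.2 hlk
      obtain ⟨σ0, hσ0, hbσ0, -⟩ := mem_support_lnk hρ
      have hm : m - 1 + 1 = m := by
        have h3 := (hz σ0 hσ0).2
        have h4 : 0 < σ0.card := Finset.card_pos.2 ⟨b, hbσ0⟩
        omega
      have h01 : ∅ ∈ KB1 := by
        refine ⟨by simp, ?_⟩
        obtain ⟨⟨h5, h6⟩, h7⟩ := hz σ0 hσ0
        refine hdc _ h6 _ ?_
        intro x hx
        simp only [insert_empty_eq, Finset.mem_singleton] at hx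
        subst hx
        exact Finset.mem_filter.2 ⟨hbσ0, hbA⟩
      have hL : IsCh (Join A KA KB1) (m - 1) (lnk b z) := by
        intro τ hτ
        obtain ⟨σ, hσ, hbσ, rfl⟩ := mem_support_lnk hτ
        obtain ⟨⟨h5, h6⟩, h7⟩ := hz σ hσ
        refine ⟨⟨?_, ?_, ?_⟩, by rw [Finset.card_erase_of_mem hbσ, h7]⟩
        · rw [Finset.filter_erase, Finset.erase_eq_of_notMem]
          · exact h5
          · intro h; exact hbA (Finset.mem_filter.1 h).2
        · simp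
        · rw [Finset.filter_erase, Finset.insert_erase]
          · exact h6
          · exact Finset.mem_filter.2 ⟨hbσ, hbA⟩
      obtain ⟨c, hc1, hc2, hc3⟩ := h1 V A KA KB1 (B.erase b) hKA hf1 hBA' hBe hsub1 hdc1 h01
        (lnk b z) hL (by rw [bd_lnk, hbz, map_zero]) ((card_lnk_le b z).trans hs)
      rw [hm] at hc1
      have hz' : IsCh (Join A KA KB2) m (del b z + c) :=
        hdel.add (hc1.mono (Join_mono h12))
      have hz's : (del b z + c).support.card ≤ s + t1 := by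
        have h3 := card_add_le (del b z) c
        have h4 := card_del_le b z
        omega
      obtain ⟨c2, hc21, hc22, hc23⟩ := h2 V A KA KB2 (B.erase b) hKA hf2 hBA' hBe hsub2 hdc2 h02
        (del b z + c) hz' (bd_elim hbz hc2) hz's
      refine ⟨c2 + cone b c, (hc21.mono (Join_mono h2B)).add ?_, ?_, ?_⟩
      · intro σ hσ
        obtain ⟨τ, hτ, hbτ, rfl⟩ := mem_support_cone hσ
        obtain ⟨⟨h5, h6, h7⟩, h8⟩ := hc1 τ hτ
        refine ⟨⟨?_, ?_⟩, by rw [Finset.card_insert_of_notMem hbτ, h8]⟩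
        · rw [Finset.filter_insert, if_neg hbA]; exact h5
        · rw [Finset.filter_insert, if_pos hbA]; exact h7
      · rw [map_add, hc22]
        exact (elim hc2).symm
      · have h3 := card_add_le c2 (cone b c)
        have h4 := card_cone_le b c
        omega

open Classical in
/-- **Join lemma**: if `KA` has bounded fillings in cardinalities `≤ m` then so does `KA * KB`,
with constants independent of `KB`. -/
theorem joinFill (φ : ℕ → ℕ → ℕ) (m s : ℕ) : ∃ t s0 : ℕ, ∀ (V : Type u) [DecidableEq V]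
    (A : Set V) (KA KB : Set (Finset V)),
    (∀ σ ∈ KA, ∀ v ∈ σ, v ∈ A) → (∀ m' ≤ m, ∀ s' ≤ s0, BF KA m' s' (φ m' s')) →
    (∀ σ ∈ KB, ∀ τ ⊆ σ, τ ∈ KB) → BF (Join A KA KB) m s t := by
  obtain ⟨t, s0, h⟩ := joinFill_aux φ (s * m) m s
  refine ⟨t, s0, ?_⟩
  intro V _ A KA KB hKA hfill hdc z hz hbz hs
  by_cases hz0 : z = 0
  · subst hz0
    exact ⟨0, IsCh.zero, by simp, by simp⟩
  obtain ⟨σ0, hσ0⟩ := Finsupp.support_nonempty_iff.2 hz0
  set B : Finset V := z.support.biUnion (fun σ => σ.filter (· ∉ A)) with hB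
  have hBc : B.card ≤ s * m := by
    have h1 : B.card ≤ z.support.card * m := by
      apply Finset.card_biUnion_le_card_mul
      intro σ hσ
      exact (Finset.card_filter_le _ _).trans (hz σ hσ).2.le
    exact h1.trans (Nat.mul_le_mul_right _ hs)
  set KB' : Set (Finset V) := {τ | τ ∈ KB ∧ τ ⊆ B} with hKB'
  have hsub : Join A KA KB' ⊆ Join A KA KB := Join_mono (fun τ hτ => hτ.1)
  obtain ⟨c, hc1, hc2, hc3⟩ := h V A KA KB' B hKA hfill
    (by
      intro b hb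
      obtain ⟨σ, hσ, h1⟩ := Finset.mem_biUnion.1 hb
      exact (Finset.mem_filter.1 h1).2)
    hBc (fun σ hσ => hσ.2) (fun σ hσ τ hτ => ⟨hdc σ hσ.1 τ hτ, hτ.trans hσ.2⟩)
    ⟨hdc _ (hz σ0 hσ0).1.2 _ (Finset.empty_subset _), Finset.empty_subset _⟩ z
    (by
      intro σ hσ
      obtain ⟨⟨h1, h2⟩, h3⟩ := hz σ hσ
      exact ⟨⟨h1, h2, Finset.subset_biUnion_of_mem (fun σ => σ.filter (· ∉ A)) hσ⟩, h3⟩)
    hbz hs
  exact ⟨c, hc1.mono hsub, hc2, hc3⟩

end Crest.Agent.R066.Fill
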