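import Mathlib

/-!
# Row 66: coset calculus

A finite group `G` with subgroups `K S` indexed by finite sets of types.  A face of type `S` is a
coset `g K_S`; an `n`-cochain (on faces with `n` vertices) is a family `f S : G → ZMod 2`
(`S.card = n`), each `f S` being right `K_S`-invariant.  The link of the face `(g,T)` is described
by functions on `K T`.
-/

set_option autoImplicit false

open Finset

namespace Crest.Agent.R066.LG

/-- A coset system: subgroups indexed by finite sets of types. -/
structure CosetSystem (G : Type*) [Group G] (I : Type*) [DecidableEq I] where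
  K : Finset I → Subgroup G
  K_empty : K ∅ = ⊤
  K_union : ∀ S T, K (S ∪ T) = K S ⊓ K T

variable {G : Type*} [Group G] {I : Type*} [DecidableEq I]

theorem CosetSystem.K_mono (X : CosetSystem G I) {S T : Finset I} (h : S ⊆ T) : X.K T ≤ X.K S := by
  have := X.K_union S T
  rw [Finset.union_eq_right.mpr h] at this
  rw [this]; exact inf_le_left

/-- Coboundary of a family. -/
def cob (f : Finset I → G → ZMod 2) : Finset I → G → ZMod 2 :=
  fun S g => ∑ s ∈ S, f (S.erase s) g

/-- `f` is a cochain on faces of size `n` in the link of type `T`. -/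
def IsCochain (X : CosetSystem G I) (T : Finset I) (n : ℕ) (f : Finset I → G → ZMod 2) : Prop :=
  ∀ S : Finset I, S.card = n → Disjoint T S →
    ∀ g ∈ X.K T, ∀ k ∈ X.K (T ∪ S), f S (g * k) = f S g

/-- Localisation of `f` at the face `(g,T)`. -/
def loc (f : Finset I → G → ZMod 2) (T : Finset I) (g : G) : Finset I → G → ZMod 2 :=
  fun S k => f (T ∪ S) (g * k)

theorem cob_add (f g : Finset I → G → ZMod 2) : cob (f + g) = cob f + cob g := by
  funext S x; simp [cob, Finset.sum_add_distrib]

theorem cob_zero : cob (0 : Finset I → G → ZMod 2) = 0 := by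
  funext S x; simp [cob]

theorem cob_cob (f : Finset I → G → ZMod 2) : cob (cob f) = 0 := by
  funext S x
  simp only [cob, Pi.zero_apply]
  rw [Finset.sum_sigma']
  refine Finset.sum_involution (fun p _ => ⟨p.2, p.1⟩) ?_ ?_ ?_ ?_
  · rintro ⟨a, b⟩ h
    simp only [Finset.mem_sigma, Finset.mem_erase] at h
    rw [Finset.erase_right_comm]
    exact CharTwo.add_self_eq_zero _
  · rintro ⟨a, b⟩ h _
    simp only [Finset.mem_sigma, Finset.mem_erase] at h
    intro e
    simp only [Sigma.mk.injEq, heq_eq_eq] at e
    exact h.2.1 e.1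
  · rintro ⟨a, b⟩ h
    simp only [Finset.mem_sigma, Finset.mem_erase] at h ⊢
    exact ⟨h.2.2, fun e => h.2.1 e.symm, h.1⟩
  · rintro ⟨a, b⟩ h
    rfl

theorem IsCochain.loc {X : CosetSystem G I} {n : ℕ} {f : Finset I → G → ZMod 2}
    (hf : IsCochain X ∅ n f) (T : Finset I) (hT : T.card ≤ n) (g : G) :
    IsCochain X T (n - T.card) (loc f T g) := by
  intro S hS hd x hx k hk
  simp only [LG.loc]
  rw [← mul_assoc]
  refine hf (T ∪ S) ?_ (Finset.disjoint_empty_left _) (g * x) ?_ k ?_
  · rw [Finset.card_union_of_disjoint hd, hS]; omega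
  · rw [X.K_empty]; trivial
  · simpa using hk

theorem IsCochain.cob {X : CosetSystem G I} {T : Finset I} {n : ℕ} {f : Finset I → G → ZMod 2}
    (hf : IsCochain X T n f) : IsCochain X T (n + 1) (cob f) := by
  intro S hS hd g hg k hk
  simp only [LG.cob]
  refine Finset.sum_congr rfl fun s hs => ?_
  refine hf (S.erase s) ?_ ?_ g hg k ?_
  · rw [Finset.card_erase_of_mem hs, hS]; rfl
  · exact hd.mono_right (Finset.erase_subset _ _)
  · exact X.K_mono (Finset.union_subset_union_right (Finset.erase_subset _ _)) hk

theorem IsCochain.add {X : CosetSystem G I} {T : Finset I} {n : ℕ} {f g : Finset I → G → ZMod 2}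
    (hf : IsCochain X T n f) (hg : IsCochain X T n g) : IsCochain X T n (f + g) := by
  intro S hS hd x hx k hk
  simp only [Pi.add_apply]
  rw [hf S hS hd x hx k hk, hg S hS hd x hx k hk]

section Count

variable [Fintype G] [Fintype I]

/-- The faces of size `n` in the link of type `T`. -/
def faces (T : Finset I) (n : ℕ) : Finset (Finset I) :=
  univ.filter (fun S => S.card = n ∧ Disjoint T S)

open Classical in
/-- Number of elements of the subgroup `H` where `u` does not vanish. -/
noncomputable def supp (H : Subgroup G) (u : G → ZMod 2) : ℕ :=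
  (univ.filter (fun g => g ∈ H ∧ u g ≠ 0)).card

/-- Counting norm of a cochain of the link of type `T`. -/
noncomputable def cnt (X : CosetSystem G I) (T : Finset I) (n : ℕ)
    (f : Finset I → G → ZMod 2) : ℕ :=
  ∑ S ∈ faces T n, supp (X.K T) (f S)

open Classical in
theorem supp_top (u : G → ZMod 2) :
    supp (⊤ : Subgroup G) u = (univ.filter (fun g => u g ≠ 0)).card := by
  simp [supp]

open Classical in
/-- Double counting. -/
theorem sum_supp_mul (H : Subgroup G) (P : G → Prop) (hP : ∀ g, ∀ k ∈ H, P (g * k) ↔ P g)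
    (u : G → ZMod 2) :
    ∑ g ∈ univ.filter P, supp H (fun k => u (g * k)) =
      Fintype.card H * (univ.filter (fun g => P g ∧ u g ≠ 0)).card := by
  have h1 : ∀ g, supp H (fun k => u (g * k)) = ∑ k : H, if u (g * (k : G)) ≠ 0 then 1 else 0 := by
    intro g
    rw [supp, ← Finset.sum_subtype (univ.filter (fun k => k ∈ H)) (by simp)
      (fun k => if u (g * k) ≠ 0 then 1 else 0), Finset.sum_boole, Finset.filter_filter]
    simp
  simp_rw [h1]
  rw [Finset.sum_comm]
  have h2 : ∀ k : H, ∑ g ∈ univ.filter P, (if u (g * (k : G)) ≠ 0 then 1 else 0) =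
      (univ.filter (fun g => P g ∧ u g ≠ 0)).card := by
    intro k
    rw [Finset.sum_boole, Finset.filter_filter]
    simp only [Nat.cast_id]
    refine Finset.card_bij (fun g _ => g * (k : G)) ?_ ?_ ?_
    · intro g hg
      simp only [mem_filter, mem_univ, true_and] at hg ⊢
      exact ⟨(hP g k k.2).mpr hg.1, hg.2⟩
    · intro a _ b _ h
      exact mul_right_cancel h
    · intro b hb
      simp only [mem_filter, mem_univ, true_and] at hb
      refine ⟨b * (k : G)⁻¹, ?_, by simp⟩
      simp only [mem_filter, mem_univ, true_and, inv_mul_cancel_right]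
      refine ⟨?_, hb.2⟩
      rw [← hP (b * (k : G)⁻¹) k k.2]; simpa using hb.1
  rw [Finset.sum_congr rfl (fun k _ => h2 k)]
  simp

end Count

end Crest.Agent.R066.LG
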