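import Mathlib
import Crest.Agent.R066.LGSmallSet

/-!
# Row 66: trickling down, in an abstract Hilbert space
-/

set_option autoImplicit false
set_option linter.unusedSectionVars false

open Finset

namespace Crest.Agent.R066.LG

section Hilbert

variable {I : Type*} [Fintype I] [DecidableEq I]
variable {H : Type*} [NormedAddCommGroup H] [InnerProductSpace ℝ H] [FiniteDimensional ℝ H]

local notation "⟪" x ", " y "⟫" => @inner ℝ _ _ x y

/-- Spectral gap between types `a` and `b` in the link of `κ`. -/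
def Gap (V : Finset I → Submodule ℝ H) (κ : Finset I) (a b : I) (lam : ℝ) : Prop :=
  ∀ u ∈ V (insert a κ), ∀ v ∈ V (insert b κ), u ∈ (V κ)ᗮ → v ∈ (V κ)ᗮ →
    ⟪u, v⟫ ≤ lam * ‖u‖ * ‖v‖

theorem exists_max_pair (W₁ W₂ : Submodule ℝ H) :
    ∃ u ∈ W₁, ∃ v ∈ W₂, ‖u‖ ≤ 1 ∧ ‖v‖ ≤ 1 ∧ 0 ≤ ⟪u, v⟫ ∧
      ∀ x ∈ W₁, ∀ y ∈ W₂, ⟪x, y⟫ ≤ ⟪u, v⟫ * ‖x‖ * ‖y‖ := by
  have hfd1 : IsClosed (W₁ : Set H) := W₁.closed_of_finiteDimensional
  have hfd2 : IsClosed (W₂ : Set H) := W₂.closed_of_finiteDimensional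
  have c1 : IsCompact ((W₁ : Set H) ∩ Metric.closedBall 0 1) :=
    (isCompact_closedBall (0 : H) 1).inter_left hfd1
  have c2 : IsCompact ((W₂ : Set H) ∩ Metric.closedBall 0 1) :=
    (isCompact_closedBall (0 : H) 1).inter_left hfd2
  obtain ⟨⟨u, v⟩, huv, hmax⟩ := (c1.prod c2).exists_isMaxOn
    ⟨(0, 0), by simp⟩ (f := fun p : H × H => ⟪p.1, p.2⟫)
    (Continuous.continuousOn (by fun_prop))
  obtain ⟨⟨hu1, hu2⟩, hv1, hv2⟩ := huv
  simp only [Metric.mem_closedBall, dist_zero_right] at hu2 hv2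
  have hmax' : ∀ x ∈ W₁, ∀ y ∈ W₂, ‖x‖ ≤ 1 → ‖y‖ ≤ 1 → ⟪x, y⟫ ≤ ⟪u, v⟫ := by
    intro x hx y hy h1 h2
    have := hmax (a := (x, y)) ⟨⟨hx, by simpa using h1⟩, hy, by simpa using h2⟩
    simpa using this
  have h0 : 0 ≤ ⟪u, v⟫ := by
    have := hmax' 0 W₁.zero_mem 0 W₂.zero_mem (by simp) (by simp)
    simpa using this
  refine ⟨u, hu1, v, hv1, hu2, hv2, h0, ?_⟩
  intro x hx y hy
  by_cases hx0 : x = 0
  · simp [hx0]
  by_cases hy0 : y = 0
  · simp [hy0]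
  have hxn : 0 < ‖x‖ := norm_pos_iff.mpr hx0
  have hyn : 0 < ‖y‖ := norm_pos_iff.mpr hy0
  have := hmax' (‖x‖⁻¹ • x) (W₁.smul_mem _ hx) (‖y‖⁻¹ • y) (W₂.smul_mem _ hy)
    (by rw [norm_smul, norm_inv, norm_norm, inv_mul_cancel₀ hxn.ne'])
    (by rw [norm_smul, norm_inv, norm_norm, inv_mul_cancel₀ hyn.ne'])
  rw [real_inner_smul_left, real_inner_smul_right] at this
  have h2 : ⟪x, y⟫ = ‖x‖ * ‖y‖ * (‖x‖⁻¹ * (‖y‖⁻¹ * ⟪x, y⟫)) := by
    field_simp
  rw [h2]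
  calc ‖x‖ * ‖y‖ * (‖x‖⁻¹ * (‖y‖⁻¹ * ⟪x, y⟫)) ≤ ‖x‖ * ‖y‖ * ⟪u, v⟫ := by gcongr
    _ = ⟪u, v⟫ * ‖x‖ * ‖y‖ := by ring

theorem trickle_step (V : Finset I → Submodule ℝ H)
    (hmono : ∀ S T : Finset I, S ⊆ T → V S ≤ V T)
    (κ : Finset I)
    (hinf : ∀ a b : I, a ≠ b → a ∉ κ → b ∉ κ → V (insert a κ) ⊓ V (insert b κ) ≤ V κ)
    (lam : ℝ) (hlam0 : 0 ≤ lam) (hlam1 : lam < 1)
    (hgap : ∀ c, c ∉ κ → ∀ a b : I, a ≠ b → a ∉ insert c κ → b ∉ insert c κ →
      Gap V (insert c κ) a b lam)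
    (h3 : ∀ a b : I, ∃ c, c ∉ κ ∧ c ≠ a ∧ c ≠ b) :
    ∀ a b : I, a ≠ b → a ∉ κ → b ∉ κ → Gap V κ a b (lam / (1 - lam)) := by
  classical
  -- the maximal pair
  let W : I → Submodule ℝ H := fun a => V (insert a κ) ⊓ (V κ)ᗮ
  choose u hu v hv hu1 hv1 h0 hmax using fun p : I × I => exists_max_pair (W p.1) (W p.2)
  let PP : Finset (I × I) := univ.filter (fun p => p.1 ≠ p.2 ∧ p.1 ∉ κ ∧ p.2 ∉ κ)
  intro a₀ b₀ hab₀ ha₀ hb₀
  obtain ⟨⟨a, b⟩, hp, hpmax⟩ := Finset.exists_max_image PP (fun p => ⟪u p, v p⟫)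
    ⟨(a₀, b₀), by simp [PP, hab₀, ha₀, hb₀]⟩
  simp only [PP, mem_filter, mem_univ, true_and] at hp hpmax
  obtain ⟨hab, ha, hb⟩ := hp
  set s := ⟪u (a, b), v (a, b)⟫ with hs
  have hs0 : 0 ≤ s := h0 (a, b)
  have hall : ∀ a' b' : I, a' ≠ b' → a' ∉ κ → b' ∉ κ → ∀ x ∈ W a', ∀ y ∈ W b',
      ⟪x, y⟫ ≤ s * ‖x‖ * ‖y‖ := by
    intro a' b' h1 h2 h3' x hx y hy
    have h := hmax (a', b') x hx y hy
    have h' := hpmax (a', b') ⟨h1, h2, h3'⟩
    calc ⟪x, y⟫ ≤ ⟪u (a', b'), v (a', b')⟫ * ‖x‖ * ‖y‖ := h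
      _ ≤ s * ‖x‖ * ‖y‖ := by gcongr
  -- it suffices to bound `s`
  suffices hsl : s ≤ lam / (1 - lam) by
    intro x hx y hy hx' hy'
    calc ⟪x, y⟫ ≤ s * ‖x‖ * ‖y‖ := hall a₀ b₀ hab₀ ha₀ hb₀ x ⟨hx, hx'⟩ y ⟨hy, hy'⟩
      _ ≤ lam / (1 - lam) * ‖x‖ * ‖y‖ := by gcongr
  set U := u (a, b) with hU
  set Y := v (a, b) with hY
  have hUm : U ∈ W a := hu (a, b)
  have hYm : Y ∈ W b := hv (a, b)
  have hUn : ‖U‖ ≤ 1 := hu1 (a, b)
  have hYn : ‖Y‖ ≤ 1 := hv1 (a, b)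
  -- `s < 1`
  have hs1 : s < 1 := by
    by_contra hcon
    push Not at hcon
    have hle : s ≤ ‖U‖ * ‖Y‖ := real_inner_le_norm U Y
    have hUeq : ‖U‖ = 1 := by
      nlinarith [norm_nonneg U, norm_nonneg Y]
    have hYeq : ‖Y‖ = 1 := by
      nlinarith [norm_nonneg U, norm_nonneg Y]
    have hUY : U = Y := by
      have : ⟪U, Y⟫ = 1 := le_antisymm (by rw [← hs]; nlinarith) hcon
      exact (inner_eq_one_iff_of_norm_eq_one hUeq hYeq).mp this
    have hUin : U ∈ V κ := hinf a b hab ha hb ⟨hUm.1, hUY ▸ hYm.1⟩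
    have : ⟪U, U⟫ = 0 := hUm.2 U hUin
    rw [real_inner_self_eq_norm_sq, hUeq] at this
    norm_num at this
  -- third type
  obtain ⟨c, hcκ, hca, hcb⟩ := h3 a b
  set P := (V (insert c κ)).starProjection with hP
  have hκc : V κ ≤ V (insert c κ) := hmono _ _ (Finset.subset_insert _ _)
  -- facts about a vector in `W a'`
  have facts : ∀ a' : I, a' ≠ c → a' ∉ κ → ∀ x ∈ W a', ‖x‖ ≤ 1 →
      (‖P x‖ ≤ s ∧ x - P x ∈ V (insert a' (insert c κ)) ∧ x - P x ∈ (V (insert c κ))ᗮ ∧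
        ‖x - P x‖ ^ 2 = ‖x‖ ^ 2 - ‖P x‖ ^ 2) := by
    intro a' ha'c ha'κ x hx hxn
    have hPx : P x ∈ V (insert c κ) := Submodule.starProjection_apply_mem _ _
    have horth : x - P x ∈ (V (insert c κ))ᗮ := Submodule.sub_starProjection_mem_orthogonal x
    have hinner : ⟪x, P x⟫ = ‖P x‖ ^ 2 := by
      have h1 : ⟪P x, x - P x⟫ = 0 := horth (P x) hPx
      rw [inner_sub_right, sub_eq_zero] at h1
      rw [real_inner_comm, h1, real_inner_self_eq_norm_sq]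
    have hPW : P x ∈ W c := by
      refine ⟨hPx, ?_⟩
      intro w hw
      have h1 : ⟪w, x - P x⟫ = 0 := horth w (hκc hw)
      have h2 : ⟪w, x⟫ = 0 := hx.2 w hw
      rw [inner_sub_right, h2, zero_sub, neg_eq_zero] at h1
      exact h1
    refine ⟨?_, ?_, horth, ?_⟩
    · have h1 := hall a' c ha'c ha'κ hcκ x hx (P x) hPW
      rw [hinner] at h1
      by_cases hz : ‖P x‖ = 0
      · rw [hz]; exact hs0
      · have hpos : 0 < ‖P x‖ := lt_of_le_of_ne (norm_nonneg _) (Ne.symm hz)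
        have h2 : ‖P x‖ ≤ s * ‖x‖ := by
          have : ‖P x‖ * ‖P x‖ ≤ (s * ‖x‖) * ‖P x‖ := by nlinarith
          exact le_of_mul_le_mul_right this hpos
        nlinarith
    · refine Submodule.sub_mem _ ?_ ?_
      · exact hmono _ _ (Finset.insert_subset_insert _ (Finset.subset_insert _ _)) hx.1
      · exact hmono _ _ (Finset.subset_insert _ _) hPx
    · rw [norm_sub_sq_real, hinner]; ring
  obtain ⟨hU1, hU2, hU3, hU4⟩ := facts a hca.symm ha U hUm hUn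
  obtain ⟨hY1, hY2, hY3, hY4⟩ := facts b hcb.symm hb Y hYm hYn
  have hsplit : s = ⟪P U, P Y⟫ + ⟪U - P U, Y - P Y⟫ := by
    have hPU : P U ∈ V (insert c κ) := Submodule.starProjection_apply_mem _ _
    have hPY : P Y ∈ V (insert c κ) := Submodule.starProjection_apply_mem _ _
    have h1 : ⟪P U, Y - P Y⟫ = 0 := hY3 (P U) hPU
    have h2 : ⟪U - P U, P Y⟫ = 0 := by rw [real_inner_comm]; exact hU3 (P Y) hPY
    have : U = P U + (U - P U) := by abel
    have hY' : Y = P Y + (Y - P Y) := by abel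
    rw [hs]
    conv_lhs => rw [this, hY']
    rw [inner_add_left, inner_add_right, inner_add_right, h1, h2]; ring
  have hg := hgap c hcκ a b hab
    (by rw [Finset.mem_insert]; push Not; exact ⟨hca.symm, ha⟩)
    (by rw [Finset.mem_insert]; push Not; exact ⟨hcb.symm, hb⟩)
    (U - P U) hU2 (Y - P Y) hY2 hU3 hY3
  have hcs : ⟪P U, P Y⟫ ≤ ‖P U‖ * ‖P Y‖ := real_inner_le_norm _ _
  have hUs : ‖U‖ ^ 2 ≤ 1 := by nlinarith [norm_nonneg U]
  have hYs : ‖Y‖ ^ 2 ≤ 1 := by nlinarith [norm_nonneg Y]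
  have hPU2 : ‖P U‖ ^ 2 ≤ s ^ 2 := by nlinarith [norm_nonneg (P U)]
  have hPY2 : ‖P Y‖ ^ 2 ≤ s ^ 2 := by nlinarith [norm_nonneg (P Y)]
  have hkey : s ≤ lam + (1 - lam) * s ^ 2 := by
    have h1 : ‖P U‖ * ‖P Y‖ ≤ (‖P U‖ ^ 2 + ‖P Y‖ ^ 2) / 2 := by
      nlinarith [sq_nonneg (‖P U‖ - ‖P Y‖)]
    have h2 : ‖U - P U‖ * ‖Y - P Y‖ ≤ (‖U - P U‖ ^ 2 + ‖Y - P Y‖ ^ 2) / 2 := by
      nlinarith [sq_nonneg (‖U - P U‖ - ‖Y - P Y‖)]
    have h3' : lam * ‖U - P U‖ * ‖Y - P Y‖ ≤ lam * ((‖U - P U‖ ^ 2 + ‖Y - P Y‖ ^ 2) / 2) := by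
      rw [mul_assoc]; exact mul_le_mul_of_nonneg_left h2 hlam0
    rw [hU4, hY4] at h3'
    have h4 : lam * ((‖U‖ ^ 2 - ‖P U‖ ^ 2 + (‖Y‖ ^ 2 - ‖P Y‖ ^ 2)) / 2) ≤
        lam * ((1 - ‖P U‖ ^ 2 + (1 - ‖P Y‖ ^ 2)) / 2) := by
      gcongr
    have h5 : (1 - lam) * ((‖P U‖ ^ 2 + ‖P Y‖ ^ 2) / 2) ≤ (1 - lam) * s ^ 2 := by
      refine mul_le_mul_of_nonneg_left ?_ (by linarith)
      linarith
    nlinarith
  have hfac : 0 ≤ (1 - s) * (lam - (1 - lam) * s) := by nlinarith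
  have : 0 ≤ lam - (1 - lam) * s := by
    by_contra hcon
    push Not at hcon
    nlinarith
  rw [le_div_iff₀ (by linarith)]
  linarith

theorem Gap.mono {V : Finset I → Submodule ℝ H} {κ : Finset I} {a b : I} {l₁ l₂ : ℝ}
    (h : Gap V κ a b l₁) (hl : l₁ ≤ l₂) : Gap V κ a b l₂ := by
  intro u hu v hv hu' hv'
  refine (h u hu v hv hu' hv').trans ?_
  gcongr

theorem gap_all (V : Finset I → Submodule ℝ H)
    (hmono : ∀ S T : Finset I, S ⊆ T → V S ≤ V T)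
    (hinf : ∀ (κ : Finset I) (a b : I), a ≠ b → a ∉ κ → b ∉ κ →
      V (insert a κ) ⊓ V (insert b κ) ≤ V κ)
    (lam0 : ℝ) (h0 : 0 ≤ lam0) (h1 : Fintype.card I * lam0 < 1)
    (hbase : ∀ (κ : Finset I) (a b : I), a ≠ b → a ∉ κ → b ∉ κ → κᶜ.card = 2 →
      Gap V κ a b lam0) :
    ∀ (κ : Finset I) (a b : I), a ≠ b → a ∉ κ → b ∉ κ →
      Gap V κ a b (lam0 / (1 - Fintype.card I * lam0)) := by
  have key : ∀ j : ℕ, ∀ κ : Finset I, κᶜ.card = j + 2 → ∀ a b : I, a ≠ b → a ∉ κ → b ∉ κ →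
      Gap V κ a b (lam0 / (1 - j * lam0)) := by
    intro j
    induction j with
    | zero =>
      intro κ hκ a b hab ha hb
      simpa using hbase κ a b hab ha hb hκ
    | succ j ih =>
      intro κ hκ a b hab ha hb
      have hcardI : κᶜ.card ≤ Fintype.card I := Finset.card_le_univ _
      have hj : ((j : ℝ) + 1) * lam0 < 1 := by
        have : ((j : ℝ) + 1) ≤ Fintype.card I := by
          have : j + 1 ≤ Fintype.card I := by omega
          exact_mod_cast this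
        nlinarith
      have hden : 0 < 1 - (j : ℝ) * lam0 := by nlinarith
      have hden' : 0 < 1 - ((j : ℝ) + 1) * lam0 := by linarith
      have hstep := trickle_step V hmono κ (hinf κ) (lam0 / (1 - j * lam0))
        (div_nonneg h0 hden.le) (by rw [div_lt_one hden]; linarith)
        (by
          intro c hc a' b' hab' ha' hb'
          refine ih (insert c κ) ?_ a' b' hab' ha' hb'
          rw [Finset.compl_insert, Finset.card_erase_of_mem (by simpa using hc), hκ]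
          rfl)
        (by
          intro a' b'
          have : ({a', b'} : Finset I).card < κᶜ.card := by
            rw [hκ]
            exact lt_of_le_of_lt (Finset.card_le_two) (by omega)
          obtain ⟨c, hc, hc'⟩ := Finset.exists_mem_notMem_of_card_lt_card this
          rw [Finset.mem_compl] at hc
          simp only [Finset.mem_insert, Finset.mem_singleton, not_or] at hc'
          exact ⟨c, hc, hc'.1, hc'.2⟩)
        a b hab ha hb
      have heq : lam0 / (1 - j * lam0) / (1 - lam0 / (1 - j * lam0)) =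
          lam0 / (1 - ((j + 1 : ℕ) : ℝ) * lam0) := by
        push_cast
        have e1 : 1 - lam0 / (1 - j * lam0) = (1 - ((j : ℝ) + 1) * lam0) / (1 - j * lam0) := by
          rw [eq_div_iff hden.ne', sub_mul, div_mul_cancel₀ _ hden.ne']; ring
        rw [e1, div_div_div_cancel_right₀ hden.ne']
      rw [heq] at hstep
      exact hstep
  intro κ a b hab ha hb
  have hc2 : 2 ≤ κᶜ.card := by
    have : ({a, b} : Finset I) ⊆ κᶜ := by
      intro x hx
      simp only [Finset.mem_insert, Finset.mem_singleton] at hx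
      rcases hx with rfl | rfl <;> simpa
    calc 2 = ({a, b} : Finset I).card := (Finset.card_pair hab).symm
      _ ≤ _ := Finset.card_le_card this
  obtain ⟨j, hj⟩ := Nat.exists_eq_add_of_le hc2
  have hcardI : κᶜ.card ≤ Fintype.card I := Finset.card_le_univ _
  refine (key j κ (by omega) a b hab ha hb).mono ?_
  have hjI : (j : ℝ) ≤ Fintype.card I := by
    have : j ≤ Fintype.card I := by omega
    exact_mod_cast this
  have hden : 0 < 1 - (Fintype.card I : ℝ) * lam0 := by linarith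
  gcongr

/-- Swap walk bound: vertex versus face. -/
theorem swap_bound (V : Finset I → Submodule ℝ H)
    (hmono : ∀ S T : Finset I, S ⊆ T → V S ≤ V T) (lam : ℝ) (hlam : 0 ≤ lam)
    (hgap : ∀ (κ : Finset I) (a b : I), a ≠ b → a ∉ κ → b ∉ κ → Gap V κ a b lam) (w : I) :
    ∀ S κ : Finset I, w ∉ κ → Disjoint (insert w κ) S → ∀ u ∈ V (insert w κ), u ∈ (V κ)ᗮ →
      ‖(V (κ ∪ S)).starProjection u‖ ≤ S.card * lam * ‖u‖ := by
  intro S
  induction S using Finset.induction_on with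
  | empty =>
    intro κ hw _ u hu hu'
    rw [Finset.union_empty]
    have : (V κ).starProjection u = 0 := by
      rwa [Submodule.starProjection_apply_eq_zero_iff]
    rw [this]; simp
  | insert s S' hs ih =>
    intro κ hw hd u hu hu'
    rw [Finset.disjoint_insert_right] at hd
    obtain ⟨hs', hd'⟩ := hd
    rw [Finset.mem_insert, not_or] at hs'
    set κ' := insert s κ with hκ'
    set u0 := (V κ').starProjection u with hu0
    have hu0m : u0 ∈ V κ' := Submodule.starProjection_apply_mem _ _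
    have horth : u - u0 ∈ (V κ')ᗮ := Submodule.sub_starProjection_mem_orthogonal u
    have hu0orth : u0 ∈ (V κ)ᗮ := by
      intro x hx
      have h1 : ⟪x, u - u0⟫ = 0 := horth x (hmono _ _ (Finset.subset_insert _ _) hx)
      have h2 : ⟪x, u⟫ = 0 := hu' x hx
      rw [inner_sub_right, h2, zero_sub, neg_eq_zero] at h1
      exact h1
    have hinner : ⟪u, u0⟫ = ‖u0‖ ^ 2 := by
      have h1 : ⟪u0, u - u0⟫ = 0 := horth u0 hu0m
      rw [inner_sub_right, sub_eq_zero] at h1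
      rw [real_inner_comm, h1, real_inner_self_eq_norm_sq]
    have hb0 : ‖u0‖ ≤ lam * ‖u‖ := by
      have h1 := hgap κ w s (Ne.symm hs'.1) hw hs'.2 u hu u0 hu0m hu' hu0orth
      rw [hinner] at h1
      by_cases hz : ‖u0‖ = 0
      · rw [hz]; positivity
      · have hpos : 0 < ‖u0‖ := lt_of_le_of_ne (norm_nonneg _) (Ne.symm hz)
        have : ‖u0‖ * ‖u0‖ ≤ (lam * ‖u‖) * ‖u0‖ := by nlinarith
        exact le_of_mul_le_mul_right this hpos
    have hsub : ‖u - u0‖ ≤ ‖u‖ := by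
      have : ‖u - u0‖ ^ 2 = ‖u‖ ^ 2 - ‖u0‖ ^ 2 := by rw [norm_sub_sq_real, hinner]; ring
      nlinarith [norm_nonneg (u - u0), norm_nonneg u, sq_nonneg ‖u0‖]
    have hih := ih κ' (by
        rw [hκ', Finset.mem_insert, not_or]; exact ⟨Ne.symm hs'.1, hw⟩) (by
        rw [hκ', Finset.insert_comm, Finset.disjoint_insert_left]
        exact ⟨hs, hd'⟩) (u - u0) (by
        refine Submodule.sub_mem _ (hmono _ _ ?_ hu) (hmono _ _ (Finset.subset_insert _ _) hu0m)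
        exact Finset.insert_subset_insert _ (Finset.subset_insert _ _)) horth
    have heq : κ ∪ insert s S' = κ' ∪ S' := by
      rw [hκ', Finset.insert_union, Finset.union_insert]
    rw [heq]
    have hP0 : (V (κ' ∪ S')).starProjection u0 = u0 := by
      rw [Submodule.starProjection_eq_self_iff]
      exact hmono _ _ Finset.subset_union_left hu0m
    have hdecomp : (V (κ' ∪ S')).starProjection u =
        u0 + (V (κ' ∪ S')).starProjection (u - u0) := by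
      rw [map_sub, hP0]; abel
    rw [hdecomp, Finset.card_insert_of_notMem hs]
    push_cast
    calc ‖u0 + (V (κ' ∪ S')).starProjection (u - u0)‖
        ≤ ‖u0‖ + ‖(V (κ' ∪ S')).starProjection (u - u0)‖ := norm_add_le _ _
      _ ≤ lam * ‖u‖ + S'.card * lam * ‖u - u0‖ := add_le_add hb0 hih
      _ ≤ lam * ‖u‖ + S'.card * lam * ‖u‖ := by gcongr
      _ = _ := by ring

end Hilbert

end Crest.Agent.R066.LG
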