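import Crest.Agent.R066.Basic

/-! Aux file for task A3 (LatAction.lean): matrices over `F[X]` act on `V F = ℤ →₀ F`. -/

set_option autoImplicit false
open scoped BigOperators
open Polynomial

namespace Crest.Agent.R066.LatA

open Crest.Agent.R066.Lat

variable {F : Type} [Field F]

/-! ### The shift and the standard subspaces -/

theorem shift_apply (a : ℤ) (x : V F) (n : ℤ) : Lat.shift F a x n = x (n - a) := by
  simp only [Lat.shift, Finsupp.domLCongr_apply, Finsupp.domCongr_apply,
    Finsupp.equivMapDomain_apply]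
  simp [sub_eq_add_neg]

theorem shift_single (a n : ℤ) (c : F) :
    Lat.shift F a (Finsupp.single n c) = Finsupp.single (n + a) c := by
  simp [Lat.shift]

theorem shift_shift (a b : ℤ) (x : V F) :
    Lat.shift F a (Lat.shift F b x) = Lat.shift F (a + b) x := by
  ext n
  rw [shift_apply, shift_apply, shift_apply]
  congr 1
  ring

theorem shift_zero (x : V F) : Lat.shift F 0 x = x := by
  ext n; rw [shift_apply, sub_zero]

theorem mem_M {j : ℤ} {x : V F} : x ∈ M F j ↔ ∀ n, n < j → x n = 0 := by
  rw [Lat.M, Finsupp.mem_supported']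
  simp [Set.mem_Ici, not_le]

theorem mem_L0 {j : ℤ} {x : V F} : x ∈ L0 F j ↔ ∀ n, j ≤ n → x n = 0 := by
  rw [Lat.L0, Finsupp.mem_supported']
  simp [Set.mem_Iio, not_lt]

theorem M_anti {i j : ℤ} (h : i ≤ j) : M F j ≤ M F i := by
  intro x hx
  rw [mem_M] at hx ⊢
  exact fun n hn => hx n (lt_of_lt_of_le hn h)

theorem L0_mono {i j : ℤ} (h : i ≤ j) : L0 F i ≤ L0 F j := by
  intro x hx
  rw [mem_L0] at hx ⊢
  exact fun n hn => hx n (h.trans hn)

theorem single_mem_M {j n : ℤ} (h : j ≤ n) (c : F) : (Finsupp.single n c : V F) ∈ M F j := by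
  rw [mem_M]; intro m hm
  rw [Finsupp.single_eq_of_ne]; omega

theorem single_mem_L0 {j n : ℤ} (h : n < j) (c : F) : (Finsupp.single n c : V F) ∈ L0 F j := by
  rw [mem_L0]; intro m hm
  rw [Finsupp.single_eq_of_ne]; omega

theorem exists_mem_M (x : V F) : ∃ j, x ∈ M F j := by
  obtain ⟨a, ha⟩ := x.support.bddBelow
  refine ⟨a, mem_M.2 fun n hn => ?_⟩
  by_contra h
  have := ha (Finset.mem_coe.2 (Finsupp.mem_support_iff.2 h))
  omega

theorem exists_mem_L0 (x : V F) : ∃ j, x ∈ L0 F j := by
  obtain ⟨a, ha⟩ := x.support.bddAbove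
  refine ⟨a + 1, mem_L0.2 fun n hn => ?_⟩
  by_contra h
  have := ha (Finset.mem_coe.2 (Finsupp.mem_support_iff.2 h))
  omega

theorem isCompl_L0_M (j : ℤ) : IsCompl (L0 F j) (M F j) := by
  constructor
  · rw [Submodule.disjoint_def]
    intro x h1 h2
    ext n
    rcases lt_or_ge n j with h | h
    · exact mem_M.1 h2 n h
    · exact mem_L0.1 h1 n h
  · rw [codisjoint_iff, Submodule.eq_top_iff']
    intro x
    rw [Submodule.mem_sup]
    refine ⟨x.filter (· < j), ?_, x.filter (fun n => ¬ n < j), ?_,
      Finsupp.filter_add_filter_not x _⟩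
    · rw [mem_L0]; intro n hn
      rw [Finsupp.filter_apply_neg]; omega
    · rw [mem_M]; intro n hn
      rw [Finsupp.filter_apply_neg]; omega

theorem shift_mem_M {a j : ℤ} {x : V F} (hx : x ∈ M F j) : Lat.shift F a x ∈ M F (j + a) := by
  rw [mem_M] at hx ⊢
  intro n hn
  rw [shift_apply]; exact hx _ (by omega)

theorem shift_mem_L0 {a j : ℤ} {x : V F} (hx : x ∈ L0 F j) : Lat.shift F a x ∈ L0 F (j + a) := by
  rw [mem_L0] at hx ⊢
  intro n hn
  rw [shift_apply]; exact hx _ (by omega)

theorem map_shift_M (a j : ℤ) : (M F j).map (Lat.shift F a).toLinearMap = M F (j + a) := by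
  apply le_antisymm
  · rintro _ ⟨x, hx, rfl⟩
    exact shift_mem_M hx
  · intro x hx
    refine ⟨Lat.shift F (-a) x, ?_, ?_⟩
    · have := shift_mem_M (a := -a) hx
      simpa using this
    · change Lat.shift F a (Lat.shift F (-a) x) = x
      rw [shift_shift, add_neg_cancel, shift_zero]

theorem map_shift_L0 (a j : ℤ) : (L0 F j).map (Lat.shift F a).toLinearMap = L0 F (j + a) := by
  apply le_antisymm
  · rintro _ ⟨x, hx, rfl⟩
    exact shift_mem_L0 hx
  · intro x hx
    refine ⟨Lat.shift F (-a) x, ?_, ?_⟩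
    · have := shift_mem_L0 (a := -a) hx
      simpa using this
    · change Lat.shift F a (Lat.shift F (-a) x) = x
      rw [shift_shift, add_neg_cancel, shift_zero]

theorem tr_M (n : ℕ) (m j : ℤ) : tr n m (M F j) = M F (j + m * n) := map_shift_M _ _

theorem tr_L0 (n : ℕ) (m j : ℤ) : tr n m (L0 F j) = L0 F (j + m * n) := map_shift_L0 _ _

theorem tr_tr (n : ℕ) (a b : ℤ) (L : Submodule F (V F)) : tr n a (tr n b L) = tr n (a + b) L := by
  unfold Lat.tr
  rw [← Submodule.map_comp]
  congr 1
  apply LinearMap.ext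
  intro x
  change Lat.shift F (a * n) (Lat.shift F (b * n) x) = Lat.shift F ((a + b) * n) x
  rw [shift_shift, add_mul]

theorem tr_zero (n : ℕ) (L : Submodule F (V F)) : tr n 0 L = L := by
  unfold Lat.tr
  have : (Lat.shift F (0 * n)).toLinearMap = LinearMap.id := by
    apply LinearMap.ext
    intro x
    change Lat.shift F (0 * n) x = x
    rw [zero_mul, shift_zero]
  rw [this]
  exact Submodule.map_id L

theorem tr_mono (n : ℕ) (m : ℤ) {L L' : Submodule F (V F)} (h : L ≤ L') : tr n m L ≤ tr n m L' :=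
  Submodule.map_mono h

/-- Two linear maps commuting with the shift by `n` which agree on a window of length `n`. -/
theorem ext_window {n : ℕ} (hn : 0 < n) {f g : V F →ₗ[F] V F}
    (hf : ∀ x, f (Lat.shift F n x) = Lat.shift F n (f x))
    (hg : ∀ x, g (Lat.shift F n x) = Lat.shift F n (g x)) (j : ℤ)
    (h : ∀ m, j ≤ m → m < j + n → f (Finsupp.single m 1) = g (Finsupp.single m 1)) : f = g := by
  have hf' : ∀ (q : ℤ) x, f (Lat.shift F (q * n) x) = Lat.shift F (q * n) (f x) := by
    intro q
    induction q using Int.induction_on with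
    | zero => intro x; rw [zero_mul, shift_zero, shift_zero]
    | succ q ih =>
      intro x
      have : ((q : ℤ) + 1) * n = n + q * n := by ring
      rw [this, ← shift_shift, hf, ih, shift_shift]
    | pred q ih =>
      intro x
      apply (Lat.shift F (n : ℤ)).injective
      rw [← hf, shift_shift, shift_shift]
      have : (n : ℤ) + (-(q : ℤ) - 1) * n = -(q : ℤ) * n := by ring
      rw [this, ih]
  have hg' : ∀ (q : ℤ) x, g (Lat.shift F (q * n) x) = Lat.shift F (q * n) (g x) := by
    intro q
    induction q using Int.induction_on with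
    | zero => intro x; rw [zero_mul, shift_zero, shift_zero]
    | succ q ih =>
      intro x
      have : ((q : ℤ) + 1) * n = n + q * n := by ring
      rw [this, ← shift_shift, hg, ih, shift_shift]
    | pred q ih =>
      intro x
      apply (Lat.shift F (n : ℤ)).injective
      rw [← hg, shift_shift, shift_shift]
      have : (n : ℤ) + (-(q : ℤ) - 1) * n = -(q : ℤ) * n := by ring
      rw [this, ih]
  apply Finsupp.lhom_ext'
  intro m
  apply LinearMap.ext_ring
  change f (Finsupp.single m 1) = g (Finsupp.single m 1)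
  have hn' : (0 : ℤ) < n := by exact_mod_cast hn
  have hm : m = (j + (m - j) % n) + ((m - j) / n) * n := by
    have := Int.emod_add_mul_ediv (m - j) n
    linarith
  have h1 := Int.emod_nonneg (m - j) hn'.ne'
  have h2 := Int.emod_lt_of_pos (m - j) hn'
  rw [hm, ← shift_single, hf', hg', h _ (by omega) (by omega)]

end Crest.Agent.R066.LatA
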