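import Crest.Agent.R066.LatAct1

/-! Aux file for task A3: the algebra map `Matrix n n F[X] → End (V F)`. -/

set_option autoImplicit false
open scoped BigOperators
open Polynomial

namespace Crest.Agent.R066.LatA

open Crest.Agent.R066.Lat

variable {F : Type} [Field F] {n : ℕ}

/-- The shift by `n` as an endomorphism. -/
noncomputable def tau (F : Type) [Field F] (n : ℕ) : Module.End F (V F) :=
  (Lat.shift F n).toLinearMap

theorem tau_apply (x : V F) : tau F n x = Lat.shift F n x := rfl

/-- Matrix units. -/
noncomputable def E (a b : Fin n) : Module.End F (V F) :=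
  Finsupp.linearCombination F (fun m : ℤ =>
    if m % n = (b : ℕ) then (Finsupp.single (m + ((a : ℕ) - (b : ℕ) : ℤ)) 1 : V F) else 0)

theorem E_single (a b : Fin n) (m : ℤ) (c : F) :
    E a b (Finsupp.single m c) =
      if m % n = (b : ℕ) then Finsupp.single (m + ((a : ℕ) - (b : ℕ) : ℤ)) c else 0 := by
  rw [E, Finsupp.linearCombination_single]
  split_ifs
  · rw [Finsupp.smul_single, smul_eq_mul, mul_one]
  · rw [smul_zero]

theorem E_comm_tau (a b : Fin n) : Commute (E a b : Module.End F (V F)) (tau F n) := by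
  apply Finsupp.lhom_ext
  intro m c
  change E a b (Lat.shift F n (Finsupp.single m c)) = Lat.shift F n (E a b (Finsupp.single m c))
  rw [shift_single, E_single, E_single, Int.add_emod_right]
  split_ifs
  · rw [shift_single]; congr 1; ring
  · rw [map_zero]

theorem Fin_emod (a : Fin n) (m : ℤ) (b : Fin n) (h : m % n = (b : ℕ)) :
    (m + ((a : ℕ) - (b : ℕ) : ℤ)) % n = (a : ℕ) := by
  have h1 := Int.emod_add_mul_ediv m n
  have h2 : m + ((a : ℕ) - (b : ℕ) : ℤ) = (a : ℕ) + n * (m / n) := by
    rw [h] at h1; linarith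
  rw [h2, Int.add_mul_emod_self_left]
  exact Int.emod_eq_of_lt (by positivity) (by exact_mod_cast a.2)

theorem E_mul_E (a b b' c : Fin n) :
    (E a b * E b' c : Module.End F (V F)) = if b = b' then E a c else 0 := by
  apply Finsupp.lhom_ext
  intro m x
  change E a b (E b' c (Finsupp.single m x)) = _
  rw [E_single]
  by_cases hc : m % n = (c : ℕ)
  · rw [if_pos hc, E_single, Fin_emod b' m c hc]
    by_cases hb : b = b'
    · subst hb
      rw [if_pos rfl, if_pos rfl, E_single, if_pos hc]
      congr 1; ring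
    · have : ¬ (((b' : ℕ) : ℤ) = ((b : ℕ) : ℤ)) := by
        intro h
        exact hb (Fin.ext (by exact_mod_cast h.symm))
      rw [if_neg this, if_neg hb]
      rfl
  · rw [if_neg hc, map_zero]
    by_cases hb : b = b'
    · rw [if_pos hb, E_single, if_neg hc]
    · rw [if_neg hb]; rfl

theorem sum_E [NeZero n] : ∑ a : Fin n, (E a a : Module.End F (V F)) = 1 := by
  apply Finsupp.lhom_ext
  intro m x
  rw [LinearMap.sum_apply]
  have hn : (0 : ℤ) < n := by exact_mod_cast Nat.pos_of_ne_zero (NeZero.ne n)
  have h1 := Int.emod_nonneg m hn.ne'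
  have h2 := Int.emod_lt_of_pos m hn
  let a₀ : Fin n := ⟨(m % n).toNat, by omega⟩
  rw [Finset.sum_eq_single a₀]
  · rw [E_single, if_pos]
    · simp
    · change m % n = ((m % n).toNat : ℤ)
      omega
  · intro b _ hb
    rw [E_single, if_neg]
    intro h
    apply hb
    apply Fin.ext
    change (b : ℕ) = (m % n).toNat
    omega
  · intro h; exact absurd (Finset.mem_univ _) h

theorem aeval_comm {T : Module.End F (V F)} (hT : Commute T (tau F n)) (f : F[X]) :
    Commute T (aeval (tau F n) f) := by
  induction f using Polynomial.induction_on' with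
  | add p q hp hq => rw [map_add]; exact hp.add_right hq
  | monomial d c =>
    rw [aeval_monomial]
    refine Commute.mul_right ?_ (hT.pow_right d)
    exact (Algebra.commutes c T).symm

/-- The algebra map from matrices over `F[X]` to endomorphisms of `V F`. -/
noncomputable def act (A : Matrix (Fin n) (Fin n) F[X]) : Module.End F (V F) :=
  ∑ a, ∑ b, aeval (tau F n) (A a b) * E a b

theorem act_mul (A B : Matrix (Fin n) (Fin n) F[X]) : act (A * B) = act A * act B := by
  have h1 : ∀ a b b' c : Fin n,
      (aeval (tau F n) (A a b) * E a b) * (aeval (tau F n) (B b' c) * E b' c) =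
      if b = b' then aeval (tau F n) (A a b * B b c) * (E a c : Module.End F (V F)) else 0 := by
    intro a b b' c
    have h2 := (aeval_comm (E_comm_tau a b) (B b' c)).eq
    calc (aeval (tau F n) (A a b) * E a b) * (aeval (tau F n) (B b' c) * E b' c)
        = aeval (tau F n) (A a b) * (E a b * aeval (tau F n) (B b' c)) * E b' c := by
          simp only [mul_assoc]
      _ = aeval (tau F n) (A a b) * aeval (tau F n) (B b' c) * (E a b * E b' c) := by
          rw [h2]; simp only [mul_assoc]
      _ = _ := by
          rw [E_mul_E]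
          split_ifs with h
          · subst h; rw [map_mul]
          · rw [mul_zero]
  symm
  calc act A * act B
      = ∑ a, ∑ b, ∑ b', ∑ c, (aeval (tau F n) (A a b) * E a b) *
          (aeval (tau F n) (B b' c) * E b' c) := by
        unfold act
        rw [Finset.sum_mul]
        refine Finset.sum_congr rfl fun a _ => ?_
        rw [Finset.sum_mul]
        refine Finset.sum_congr rfl fun b _ => ?_
        rw [Finset.mul_sum]
        refine Finset.sum_congr rfl fun b' _ => ?_
        rw [Finset.mul_sum]
    _ = ∑ a, ∑ b, ∑ c, aeval (tau F n) (A a b * B b c) * (E a c : Module.End F (V F)) := by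
        refine Finset.sum_congr rfl fun a _ => Finset.sum_congr rfl fun b _ => ?_
        simp only [h1]
        rw [Finset.sum_eq_single b]
        · simp
        · intro b' _ hb'
          refine Finset.sum_eq_zero fun c _ => ?_
          rw [if_neg (fun h => hb' h.symm)]
        · intro h; exact absurd (Finset.mem_univ _) h
    _ = act (A * B) := by
        unfold act
        refine Finset.sum_congr rfl fun a _ => ?_
        rw [Finset.sum_comm]
        refine Finset.sum_congr rfl fun c _ => ?_
        rw [Matrix.mul_apply, map_sum, Finset.sum_mul]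

theorem act_one [NeZero n] : act (1 : Matrix (Fin n) (Fin n) F[X]) = 1 := by
  unfold act
  rw [← sum_E (F := F) (n := n)]
  refine Finset.sum_congr rfl fun a _ => ?_
  rw [Finset.sum_eq_single a]
  · rw [Matrix.one_apply_eq, map_one, one_mul]
  · intro b _ hb
    rw [Matrix.one_apply_ne (fun h => hb h.symm), map_zero, zero_mul]
  · intro h; exact absurd (Finset.mem_univ _) h

theorem act_comm_tau (A : Matrix (Fin n) (Fin n) F[X]) : Commute (act A) (tau F n) := by
  unfold act
  refine Commute.sum_left _ _ _ fun a _ => Commute.sum_left _ _ _ fun b _ => ?_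
  refine Commute.mul_left ?_ (E_comm_tau a b)
  exact (aeval_comm (Commute.refl (tau F n)) (A a b)).symm

theorem act_shift (A : Matrix (Fin n) (Fin n) F[X]) (x : V F) :
    act A (Lat.shift F n x) = Lat.shift F n (act A x) :=
  LinearMap.congr_fun (act_comm_tau A).eq x

theorem tau_pow_single (d : ℕ) (m : ℤ) (c : F) :
    (tau F n ^ d) (Finsupp.single m c) = Finsupp.single (m + n * d) c := by
  induction d with
  | zero => simp
  | succ d ih =>
    rw [pow_succ', Module.End.mul_apply, ih, tau_apply, shift_single]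
    congr 1; push_cast; ring

theorem aeval_single (f : F[X]) (m : ℤ) (c : F) :
    aeval (tau F n) f (Finsupp.single m c) =
      ∑ d ∈ Finset.range (f.natDegree + 1), (Finsupp.single (m + n * d) (f.coeff d * c) : V F) := by
  rw [Polynomial.aeval_eq_sum_range, LinearMap.sum_apply]
  refine Finset.sum_congr rfl fun d _ => ?_
  rw [LinearMap.smul_apply, tau_pow_single, Finsupp.smul_single, smul_eq_mul]

theorem aeval_single_apply (hn : 0 < n) (f : F[X]) (m : ℤ) (c : F) (d : ℕ) :
    aeval (tau F n) f (Finsupp.single m c) (m + n * d) = f.coeff d * c := by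
  rw [aeval_single, Finsupp.finsetSum_apply, Finset.sum_eq_single d]
  · rw [Finsupp.single_eq_same]
  · intro i _ hi
    rw [Finsupp.single_eq_of_ne]
    intro h
    apply hi
    have hn' : (n : ℤ) ≠ 0 := by exact_mod_cast hn.ne'
    have h2 : (n : ℤ) * d = n * i := by linarith
    have := mul_left_cancel₀ hn' h2
    exact_mod_cast this.symm
  · intro h
    rw [Finsupp.single_eq_same]
    rw [Finset.mem_range, not_lt] at h
    rw [Polynomial.coeff_eq_zero_of_natDegree_lt (by omega), zero_mul]

theorem aeval_single_apply_ne (f : F[X]) (m : ℤ) (c : F) (l : ℤ) (h : ∀ d : ℕ, l ≠ m + n * d) :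
    aeval (tau F n) f (Finsupp.single m c) l = 0 := by
  rw [aeval_single, Finsupp.finsetSum_apply]
  refine Finset.sum_eq_zero fun d _ => ?_
  rw [Finsupp.single_eq_of_ne (h d)]

theorem aeval_mem_M (f : F[X]) {i : ℤ} {x : V F} (hx : x ∈ M F i) :
    aeval (tau F n) f x ∈ M F i := by
  induction f using Polynomial.induction_on' with
  | add p q hp hq => rw [map_add, LinearMap.add_apply]; exact add_mem hp hq
  | monomial d c =>
    rw [aeval_monomial, Module.End.mul_apply]
    have : (tau F n ^ d) x ∈ M F i := by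
      induction d with
      | zero => simpa using hx
      | succ d ih =>
        rw [pow_succ', Module.End.mul_apply, tau_apply]
        exact M_anti (by omega) (shift_mem_M ih)
    exact Submodule.smul_mem _ c this

theorem aeval_sub_mem_M (f : F[X]) {i : ℤ} {x : V F} (hx : x ∈ M F i) :
    aeval (tau F n) f x - f.coeff 0 • x ∈ M F (i + n) := by
  conv in aeval (tau F n) f => rw [← Polynomial.divX_mul_X_add f]
  rw [map_add, map_mul, aeval_X, aeval_C, LinearMap.add_apply, Module.End.mul_apply,
    Module.algebraMap_end_apply, add_sub_cancel_right]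
  exact aeval_mem_M _ (by rw [tau_apply]; exact shift_mem_M hx)

/-- The values of `act A` on the basis vectors of the window `[0, n)`. -/
theorem act_single (A : Matrix (Fin n) (Fin n) F[X]) (b : Fin n) (q : ℤ) (c : F) :
    act A (Finsupp.single ((b : ℕ) + n * q : ℤ) c) =
      ∑ a, aeval (tau F n) (A a b) (Finsupp.single ((a : ℕ) + n * q : ℤ) c) := by
  unfold act
  rw [LinearMap.sum_apply]
  refine Finset.sum_congr rfl fun a _ => ?_
  rw [LinearMap.sum_apply, Finset.sum_eq_single b]
  · rw [Module.End.mul_apply, E_single, if_pos]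
    · congr 2; ring
    · rw [Int.add_mul_emod_self_left]
      exact Int.emod_eq_of_lt (by positivity) (by exact_mod_cast b.2)
  · intro b' _ hb'
    rw [Module.End.mul_apply, E_single, if_neg, map_zero]
    rw [Int.add_mul_emod_self_left, Int.emod_eq_of_lt (by positivity) (by exact_mod_cast b.2)]
    intro h
    exact hb' (Fin.ext (by exact_mod_cast h.symm))
  · intro h; exact absurd (Finset.mem_univ _) h

theorem act_single_apply (A : Matrix (Fin n) (Fin n) F[X]) (a b : Fin n) (d : ℕ) :
    act A (Finsupp.single ((b : ℕ) : ℤ) 1) ((a : ℕ) + n * d : ℤ) = (A a b).coeff d := by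
  have hn : 0 < n := a.pos
  have h := act_single A b 0 1
  rw [mul_zero, add_zero] at h
  rw [h, Finsupp.finsetSum_apply, Finset.sum_eq_single a]
  · rw [add_zero, aeval_single_apply hn, mul_one]
  · intro a' _ ha'
    rw [add_zero]
    apply aeval_single_apply_ne
    intro d' h'
    apply ha'
    have h1 : ((a : ℕ) + n * d : ℤ) % n = (a : ℕ) := by
      rw [Int.add_mul_emod_self_left]
      exact Int.emod_eq_of_lt (by positivity) (by exact_mod_cast a.2)
    have h2 : ((a' : ℕ) + n * d' : ℤ) % n = (a' : ℕ) := by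
      rw [Int.add_mul_emod_self_left]
      exact Int.emod_eq_of_lt (by positivity) (by exact_mod_cast a'.2)
    rw [h', h2] at h1
    exact Fin.ext (by exact_mod_cast h1)
  · intro h; exact absurd (Finset.mem_univ _) h

theorem act_injective : Function.Injective (act : Matrix (Fin n) (Fin n) F[X] → Module.End F (V F)) := by
  intro A B h
  ext a b d
  rw [← act_single_apply, ← act_single_apply, h]

theorem exists_eq_add_mul (n : ℕ) [NeZero n] (m : ℤ) : ∃ (b : Fin n) (q : ℤ), m = (b : ℕ) + n * q := by
  have hn : (0 : ℤ) < n := by exact_mod_cast Nat.pos_of_ne_zero (NeZero.ne n)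
  have h1 := Int.emod_nonneg m hn.ne'
  have h2 := Int.emod_lt_of_pos m hn
  refine ⟨⟨(m % n).toNat, by omega⟩, m / n, ?_⟩
  have := Int.emod_add_mul_ediv m n
  simp only
  omega

theorem mem_M_induction {i : ℤ} (T : V F →ₗ[F] V F) (N : Submodule F (V F))
    (h : ∀ m, i ≤ m → ∀ c, T (Finsupp.single m c) ∈ N) {x : V F} (hx : x ∈ M F i) : T x ∈ N := by
  rw [← Finsupp.sum_single x, Finsupp.sum, map_sum]
  refine Submodule.sum_mem _ fun m hm => ?_
  refine h m ?_ _
  by_contra hlt
  exact (Finsupp.mem_support_iff.1 hm) (mem_M.1 hx m (not_le.1 hlt))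

theorem mem_L0_induction {i : ℤ} (T : V F →ₗ[F] V F) (N : Submodule F (V F))
    (h : ∀ m, m < i → ∀ c, T (Finsupp.single m c) ∈ N) {x : V F} (hx : x ∈ L0 F i) : T x ∈ N := by
  rw [← Finsupp.sum_single x, Finsupp.sum, map_sum]
  refine Submodule.sum_mem _ fun m hm => ?_
  refine h m ?_ _
  by_contra hlt
  exact (Finsupp.mem_support_iff.1 hm) (mem_L0.1 hx m (not_lt.1 hlt))

/-- Unipotence of the action. -/
theorem act_sub_mem [NeZero n] (A : Matrix (Fin n) (Fin n) F[X]) (h1 : ∀ i, (A i i).coeff 0 = 1)
    (h2 : ∀ i j, i < j → (A i j).coeff 0 = 0) {i : ℤ} {x : V F} (hx : x ∈ M F i) :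
    act A x - x ∈ M F (i + 1) := by
  refine mem_M_induction (act A - 1 : Module.End F (V F)) (M F (i + 1)) ?_ hx
  intro m hm c
  obtain ⟨b, q, rfl⟩ := exists_eq_add_mul n m
  refine M_anti (show i + 1 ≤ (b : ℕ) + n * q + 1 by omega) ?_
  rw [LinearMap.sub_apply, Module.End.one_apply, act_single]
  have hb : (Finsupp.single ((b : ℕ) + n * q : ℤ) c : V F) =
      ∑ a : Fin n, if a = b then (Finsupp.single ((a : ℕ) + n * q : ℤ) c : V F) else 0 := by
    rw [Finset.sum_ite_eq' Finset.univ b, if_pos (Finset.mem_univ b)]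
  have hsub : (∑ a, aeval (tau F n) (A a b) (Finsupp.single ((a : ℕ) + n * q : ℤ) c)) -
      (Finsupp.single ((b : ℕ) + n * q : ℤ) c : V F) =
      ∑ a : Fin n, (aeval (tau F n) (A a b) (Finsupp.single ((a : ℕ) + n * q : ℤ) c) -
        if a = b then (Finsupp.single ((a : ℕ) + n * q : ℤ) c : V F) else 0) := by
    rw [Finset.sum_sub_distrib, ← hb]
  rw [hsub]
  refine Submodule.sum_mem _ fun a _ => ?_
  have h3 := aeval_sub_mem_M (n := n) (A a b)
    (single_mem_M (F := F) (le_refl ((a : ℕ) + n * q : ℤ)) c)
  have h4 := M_anti (F := F) (show ((b : ℕ) + n * q + 1 : ℤ) ≤ (a : ℕ) + n * q + n by omega) h3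
  rcases lt_trichotomy a b with hab | hab | hab
  · rw [if_neg hab.ne, sub_zero]
    rw [h2 a b hab, zero_smul, sub_zero] at h4
    exact h4
  · subst hab
    rw [if_pos rfl]
    rw [h1 a, one_smul] at h4
    exact h4
  · rw [if_neg hab.ne', sub_zero]
    have h5 : (A a b).coeff 0 • (Finsupp.single ((a : ℕ) + n * q : ℤ) c : V F) ∈
        M F ((b : ℕ) + n * q + 1) := by
      refine Submodule.smul_mem _ _ (single_mem_M ?_ c)
      have : (b : ℕ) < (a : ℕ) := hab
      omega
    have := add_mem h4 h5
    simpa using this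

/-- Every endomorphism commuting with the shift and preserving `M 0` comes from a matrix. -/
theorem exists_act_eq [NeZero n] (T : V F →ₗ[F] V F)
    (hT : ∀ x, T (Lat.shift F n x) = Lat.shift F n (T x)) (h0 : ∀ x ∈ M F 0, T x ∈ M F 0) :
    ∃ A : Matrix (Fin n) (Fin n) F[X], act A = T := by
  have hn : 0 < n := Nat.pos_of_ne_zero (NeZero.ne n)
  have hn' : (n : ℤ) ≠ 0 := by exact_mod_cast hn.ne'
  have hinj : ∀ a : Fin n, Function.Injective (fun d : ℕ => ((a : ℕ) + n * d : ℤ)) := by
    intro a d d' h
    have h2 : (n : ℤ) * d = n * d' := by simpa using h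
    exact_mod_cast mul_left_cancel₀ hn' h2
  let A : Matrix (Fin n) (Fin n) F[X] := fun a b =>
    ∑ d ∈ ((T (Finsupp.single ((b : ℕ) : ℤ) 1)).support.preimage (fun d : ℕ => ((a : ℕ) + n * d : ℤ))
      (hinj a).injOn), Polynomial.monomial d (T (Finsupp.single ((b : ℕ) : ℤ) 1) ((a : ℕ) + n * d : ℤ))
  have hA : ∀ a b d, (A a b).coeff d = T (Finsupp.single ((b : ℕ) : ℤ) 1) ((a : ℕ) + n * d : ℤ) := by
    intro a b d
    simp only [A, Polynomial.finsetSum_coeff, Polynomial.coeff_monomial]
    rw [Finset.sum_ite_eq']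
    split_ifs with h
    · rfl
    · rw [Finset.mem_preimage, Finsupp.notMem_support_iff] at h
      exact h.symm
  refine ⟨A, ext_window hn (act_shift A) hT 0 ?_⟩
  intro m hm0 hm
  obtain ⟨b, q, rfl⟩ := exists_eq_add_mul n m
  have hq : q = 0 := by
    have hb := b.2
    have hb0 : (0 : ℤ) ≤ (b : ℕ) := by positivity
    have h1 : (n : ℤ) * q < n * 1 := by
      have : ((b : ℕ) : ℤ) < n := by exact_mod_cast hb
      omega
    have h2 : (n : ℤ) * (-1) < n * q := by
      have : ((b : ℕ) : ℤ) < n := by exact_mod_cast hb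
      omega
    have hnp : (0 : ℤ) < n := by exact_mod_cast hn
    have h3 := lt_of_mul_lt_mul_left h1 hnp.le
    have h4 := lt_of_mul_lt_mul_left h2 hnp.le
    omega
  subst hq
  rw [mul_zero, add_zero]
  ext l
  rcases lt_or_ge l 0 with hl | hl
  · have h1 : T (Finsupp.single ((b : ℕ) : ℤ) 1) ∈ M F 0 := h0 _ (single_mem_M (by positivity) 1)
    rw [mem_M.1 h1 l hl]
    have h2 := act_single A b 0 1
    rw [mul_zero, add_zero] at h2
    rw [h2, Finsupp.finsetSum_apply]
    refine Finset.sum_eq_zero fun a _ => ?_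
    apply aeval_single_apply_ne
    intro d hd
    have : (0 : ℤ) ≤ n * d := by positivity
    have : (0 : ℤ) ≤ (a : ℕ) := by positivity
    omega
  · obtain ⟨a, q, rfl⟩ := exists_eq_add_mul n l
    have hq : 0 ≤ q := by
      by_contra hq
      have hnp : (0 : ℤ) < n := by exact_mod_cast hn
      have h1 : (n : ℤ) * q ≤ n * (-1) := mul_le_mul_of_nonneg_left (by omega) hnp.le
      have : ((a : ℕ) : ℤ) < n := by exact_mod_cast a.2
      omega
    obtain ⟨d, rfl⟩ := Int.eq_ofNat_of_zero_le hq
    rw [act_single_apply, hA]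

end Crest.Agent.R066.LatA
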