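import Crest.Agent.R066.LatAct2

/-! Aux file for task A3: Birkhoff factorisation for chains of opposite lattices. -/

set_option autoImplicit false
open scoped BigOperators

namespace Crest.Agent.R066.LatA

open Crest.Agent.R066.Lat

variable {F : Type} [Field F] {n : ℕ}

/-- If `u i ∈ e_i + M (i+1)` for all `i`, then `x ↦ ∑ x_i u_i` is unipotent. -/
theorem lin_sub_mem (u : ℤ → V F) (hu : ∀ i, u i - Finsupp.single i 1 ∈ M F (i + 1)) {i : ℤ}
    {x : V F} (hx : x ∈ M F i) : Finsupp.linearCombination F u x - x ∈ M F (i + 1) := by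
  refine mem_M_induction (Finsupp.linearCombination F u - LinearMap.id : V F →ₗ[F] V F)
    (M F (i + 1)) ?_ hx
  intro m hm c
  rw [LinearMap.sub_apply, Finsupp.linearCombination_single, LinearMap.id_apply]
  have : c • u m - Finsupp.single m c = c • (u m - Finsupp.single m 1) := by
    rw [smul_sub, Finsupp.smul_single, smul_eq_mul, mul_one]
  rw [this]
  exact Submodule.smul_mem _ _ (M_anti (by omega) (hu m))

/-- A periodic system of opposite lattices (indexed by the periodic set `P`). -/
structure PSys (n : ℕ) (P : Set ℤ) (W : ℤ → Submodule F (V F)) : Prop where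
  nonempty : P.Nonempty
  addP : ∀ j ∈ P, j + n ∈ P
  subP : ∀ j ∈ P, j - n ∈ P
  compl : ∀ j ∈ P, IsCompl (W j) (M F j)
  mono : ∀ i ∈ P, ∀ j ∈ P, i ≤ j → W i ≤ W j
  shift : ∀ j ∈ P, W (j + n) = (W j).map (Lat.shift F n).toLinearMap
  low : ∀ j ∈ P, ∃ N : ℤ, L0 F N ≤ W j

theorem PSys.exists_gt [NeZero n] {P : Set ℤ} {W : ℤ → Submodule F (V F)} (h : PSys n P W) (m : ℤ) :
    ∃ j ∈ P, m < j ∧ ∀ i ∈ P, m < i → j ≤ i := by
  have hn : (0 : ℤ) < n := by exact_mod_cast Nat.pos_of_ne_zero (NeZero.ne n)
  have hadd : ∀ (q : ℕ) j, j ∈ P → j + n * q ∈ P := by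
    intro q
    induction q with
    | zero => intro j hj; simpa using hj
    | succ q ih =>
      intro j hj
      have := h.addP _ (ih j hj)
      push_cast
      rwa [mul_add, mul_one, ← add_assoc]
  obtain ⟨j₀, hj₀⟩ := h.nonempty
  have hex : ∃ j, j ∈ P ∧ m < j := by
    refine ⟨j₀ + n * ((m - j₀).toNat + 1 : ℕ), hadd _ _ hj₀, ?_⟩
    have h1 : (m - j₀) ≤ ((m - j₀).toNat : ℤ) := Int.self_le_toNat _
    have h2 : (((m - j₀).toNat + 1 : ℕ) : ℤ) ≤ n * ((m - j₀).toNat + 1 : ℕ) := by
      have : (1 : ℤ) ≤ n := hn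
      nlinarith [Int.natCast_nonneg ((m - j₀).toNat + 1)]
    push_cast at h2 ⊢
    linarith
  obtain ⟨j, ⟨hjP, hmj⟩, hmin⟩ := Int.exists_least_of_bdd (P := fun j => j ∈ P ∧ m < j)
    ⟨m, fun z hz => hz.2.le⟩ hex
  exact ⟨j, hjP, hmj, fun i hi hmi => hmin i ⟨hi, hmi⟩⟩

theorem PSys.exists_u [NeZero n] {P : Set ℤ} {W : ℤ → Submodule F (V F)} (h : PSys n P W) (m : ℤ) :
    ∃ u : V F, u - Finsupp.single m 1 ∈ M F (m + 1) ∧ ∀ j ∈ P, m < j → u ∈ W j := by
  obtain ⟨j, hj, hmj, hmin⟩ := h.exists_gt m
  have htop : (Finsupp.single m 1 : V F) ∈ W j ⊔ M F j := by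
    rw [(h.compl j hj).sup_eq_top]; trivial
  obtain ⟨w, hw, y, hy, hwy⟩ := Submodule.mem_sup.1 htop
  refine ⟨w, ?_, fun i hi hmi => h.mono j hj i hi (hmin i hi hmi) hw⟩
  rw [← hwy]
  have : w - (w + y) = -y := by abel
  rw [this]
  exact neg_mem (M_anti (by omega) hy)

/-- Birkhoff factorisation. -/
theorem PSys.birkhoff [NeZero n] {P : Set ℤ} {W : ℤ → Submodule F (V F)} (h : PSys n P W) :
    ∃ T : V F →ₗ[F] V F, Function.Bijective T ∧
      (∀ x, T (Lat.shift F n x) = Lat.shift F n (T x)) ∧
      (∀ i, ∀ x ∈ M F i, T x - x ∈ M F (i + 1)) ∧ (∀ i, ∀ x, T x ∈ M F i → x ∈ M F i) ∧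
      ∀ j ∈ P, (L0 F j).map T = W j := by
  have hn : (0 : ℤ) < n := by exact_mod_cast Nat.pos_of_ne_zero (NeZero.ne n)
  choose u₀ hu₀ hu₀' using h.exists_u
  -- periodic choice
  let u : ℤ → V F := fun m => Lat.shift F (n * (m / n)) (u₀ (m % n))
  have hP : ∀ (q : ℤ) j, j ∈ P → j + n * q ∈ P := by
    intro q
    induction q using Int.induction_on with
    | zero => intro j hj; simpa using hj
    | succ q ih =>
      intro j hj
      have := h.addP _ (ih j hj)
      have e : j + n * ((q : ℤ) + 1) = j + n * q + n := by ring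
      rwa [e]
    | pred q ih =>
      intro j hj
      have := h.subP _ (ih j hj)
      have e : j + n * (-(q : ℤ) - 1) = j + n * -(q : ℤ) - n := by ring
      rwa [e]
  have hWq : ∀ (q : ℤ) j, j ∈ P → ∀ x, x ∈ W j → Lat.shift F (n * q) x ∈ W (j + n * q) := by
    intro q
    induction q using Int.induction_on with
    | zero => intro j hj x hx; simpa [shift_zero] using hx
    | succ q ih =>
      intro j hj x hx
      have e : j + n * ((q : ℤ) + 1) = j + n * q + n := by ring
      rw [e, h.shift _ (hP q j hj)]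
      refine ⟨Lat.shift F (n * q) x, ih j hj x hx, ?_⟩
      change Lat.shift F n (Lat.shift F (n * q) x) = _
      rw [shift_shift]; congr 1; ring_nf
    | pred q ih =>
      intro j hj x hx
      have e : j + n * -(q : ℤ) = j + n * (-(q : ℤ) - 1) + n := by ring
      have h1 := ih j hj x hx
      rw [e, h.shift _ (hP _ j hj)] at h1
      obtain ⟨y, hy, hyx⟩ := h1
      have : y = Lat.shift F (n * (-(q : ℤ) - 1)) x := by
        apply (Lat.shift F (n : ℤ)).injective
        change Lat.shift F n y = _ at hyx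
        rw [hyx, shift_shift]
        congr 1; ring_nf
      rwa [← this]
  have hu : ∀ m, u m - Finsupp.single m 1 ∈ M F (m + 1) := by
    intro m
    have h1 := shift_mem_M (a := n * (m / n)) (hu₀ (m % n))
    rw [map_sub, shift_single] at h1
    have e : m % n + n * (m / n) = m := Int.emod_add_mul_ediv m n
    have e' : m % n + 1 + n * (m / n) = m + 1 := by linarith
    rwa [e, e'] at h1
  have hu' : ∀ m, ∀ j ∈ P, m < j → u m ∈ W j := by
    intro m j hj hmj
    have e : m % n + n * (m / n) = m := Int.emod_add_mul_ediv m n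
    have h1 := hWq (m / n) (j + n * (-(m / n))) (hP _ j hj) (u₀ (m % n))
      (hu₀' _ _ (hP _ j hj) (by linarith))
    have e2 : j + n * (-(m / n)) + n * (m / n) = j := by ring
    rwa [e2] at h1
  have hup : ∀ m, Lat.shift F n (u m) = u (m + n) := by
    intro m
    simp only [u]
    rw [shift_shift, Int.add_emod_right, Int.add_ediv_of_dvd_right (dvd_refl _), Int.ediv_self hn.ne']
    congr 1; congr 1; ring_nf
  let T : V F →ₗ[F] V F := Finsupp.linearCombination F u
  have hT1 : ∀ x, T (Lat.shift F n x) = Lat.shift F n (T x) := by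
    intro x
    induction x using Finsupp.induction_linear with
    | zero => simp
    | add x y hx hy => simp only [map_add, hx, hy]
    | single m c =>
      rw [shift_single]
      change Finsupp.linearCombination F u _ = Lat.shift F n (Finsupp.linearCombination F u _)
      rw [Finsupp.linearCombination_single, Finsupp.linearCombination_single, map_smul, hup]
  have hT2 : ∀ i, ∀ x ∈ M F i, T x - x ∈ M F (i + 1) := fun i x hx => lin_sub_mem u hu hx
  have hTM : ∀ i, ∀ x ∈ M F i, T x ∈ M F i := by
    intro i x hx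
    have := add_mem (M_anti (show i ≤ i + 1 by omega) (hT2 i x hx)) hx
    simpa using this
  have hT3 : ∀ j ∈ P, ∀ x ∈ L0 F j, T x ∈ W j := by
    intro j hj x hx
    refine mem_L0_induction T (W j) ?_ hx
    intro m hm c
    change Finsupp.linearCombination F u _ ∈ _
    rw [Finsupp.linearCombination_single]
    exact Submodule.smul_mem _ _ (hu' m j hj hm)
  -- key surjectivity
  have hkey : ∀ j ∈ P, ∀ (d : ℕ) (i : ℤ), j ≤ i + d → ∀ x ∈ W j, x ∈ M F i →
      ∃ y ∈ L0 F j, y ∈ M F i ∧ T y = x := by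
    intro j hj d
    induction d with
    | zero =>
      intro i hi x hxW hxM
      have h1 : x ∈ M F j := M_anti (by simpa using hi) hxM
      have h2 : x = 0 := by
        have := (h.compl j hj).disjoint.le_bot ⟨hxW, h1⟩
        simpa using this
      exact ⟨0, zero_mem _, zero_mem _, by rw [h2, map_zero]⟩
    | succ d ih =>
      intro i hi x hxW hxM
      by_cases hij : j ≤ i
      · exact ih i (by omega) x hxW hxM
      · push Not at hij
        have hui := hu' i j hj hij
        have h1 : x - x i • u i ∈ W j := sub_mem hxW (Submodule.smul_mem _ _ hui)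
        have h2 : x - x i • u i ∈ M F (i + 1) := by
          have e : x - x i • u i = (x - x i • Finsupp.single i 1) - x i • (u i - Finsupp.single i 1) := by
            rw [smul_sub]; abel
          rw [e]
          refine sub_mem ?_ (Submodule.smul_mem _ _ (hu i))
          rw [mem_M]
          intro l hl
          rw [Finsupp.sub_apply, Finsupp.smul_apply]
          rcases lt_or_eq_of_le (show l ≤ i by omega) with h3 | h3
          · rw [mem_M.1 hxM l h3, Finsupp.single_eq_of_ne (by omega)]; simp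
          · subst h3; rw [Finsupp.single_eq_same]; simp
        obtain ⟨y, hyL, hyM, hyT⟩ := ih (i + 1) (by push_cast at hi ⊢; omega) _ h1 h2
        refine ⟨y + Finsupp.single i (x i), add_mem hyL (single_mem_L0 hij _),
          add_mem (M_anti (by omega) hyM) (single_mem_M le_rfl _), ?_⟩
        rw [map_add, hyT]
        change _ + Finsupp.linearCombination F u _ = _
        rw [Finsupp.linearCombination_single]
        abel
  have hinj : Function.Injective T := by
    rw [injective_iff_map_eq_zero]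
    intro x hx
    by_contra hne
    have hsupp : x.support.Nonempty := Finsupp.support_nonempty_iff.2 hne
    have hmM : x ∈ M F (x.support.min' hsupp) := by
      rw [mem_M]
      intro l hl
      by_contra h1
      have := x.support.min'_le l (Finsupp.mem_support_iff.2 h1)
      omega
    have h1 := hT2 _ x hmM
    rw [hx, zero_sub] at h1
    have h2 := mem_M.1 h1 (x.support.min' hsupp) (by omega)
    rw [Finsupp.neg_apply, neg_eq_zero] at h2
    exact (Finsupp.mem_support_iff.1 (x.support.min'_mem hsupp)) h2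
  -- every x lies in W j for j large
  have hlarge : ∀ x : V F, ∃ j ∈ P, x ∈ W j := by
    intro x
    obtain ⟨j₀, hj₀⟩ := h.nonempty
    obtain ⟨N, hN⟩ := h.low j₀ hj₀
    obtain ⟨b, hb⟩ := exists_mem_L0 x
    let q : ℤ := |b - N|
    refine ⟨j₀ + n * q, hP q j₀ hj₀, ?_⟩
    have h1 : Lat.shift F (n * (-q)) x ∈ W j₀ := by
      apply hN
      have h2 := shift_mem_L0 (a := n * (-q)) hb
      refine L0_mono ?_ h2
      have h3 : b - N ≤ q := le_abs_self _
      have h4 : 0 ≤ q := abs_nonneg _
      have h5 : q ≤ n * q := by nlinarith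
      linarith
    have h2 := hWq q j₀ hj₀ _ h1
    rw [shift_shift] at h2
    have e : (n : ℤ) * q + n * (-q) = 0 := by ring
    rwa [e, shift_zero] at h2
  have hsurj' : ∀ i, ∀ x ∈ M F i, ∃ y ∈ M F i, T y = x := by
    intro i x hx
    obtain ⟨j, hj, hxj⟩ := hlarge x
    obtain ⟨y, -, hyM, hyT⟩ := hkey j hj (j - i).toNat i (by
      have := Int.self_le_toNat (j - i)
      omega) x hxj hx
    exact ⟨y, hyM, hyT⟩
  refine ⟨T, ⟨hinj, ?_⟩, hT1, hT2, ?_, ?_⟩
  · intro x
    obtain ⟨i, hi⟩ := exists_mem_M x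
    obtain ⟨y, -, hy⟩ := hsurj' i x hi
    exact ⟨y, hy⟩
  · intro i x hx
    obtain ⟨y, hyM, hyT⟩ := hsurj' i _ hx
    rwa [← hinj hyT]
  · intro j hj
    apply le_antisymm
    · rintro _ ⟨x, hx, rfl⟩
      exact hT3 j hj x hx
    · intro x hx
      obtain ⟨i, hi⟩ := exists_mem_M x
      obtain ⟨y, hyL, -, hyT⟩ := hkey j hj (j - i).toNat i (by
        have := Int.self_le_toNat (j - i)
        omega) x hx hi
      exact ⟨y, hyL, hyT⟩

end Crest.Agent.R066.LatA
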