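import Crest.Agent.R066.LatAct3
import Crest.Agent.R066.Model

/-! Aux file for task A3: the action of `Uplus` on lattices, stabilisers. -/

set_option autoImplicit false
open scoped BigOperators
open Polynomial
open Module (finrank)

namespace Crest.Agent.R066.LatA

open Crest.Agent.R066.Lat

variable {n p : ℕ} [NeZero n] [Fact p.Prime]

/-- The linear automorphism given by `g ∈ SL_n(F[X])`. -/
noncomputable def actE (g : SLX n p) : V (ZMod p) ≃ₗ[ZMod p] V (ZMod p) :=
  LinearEquiv.ofLinearMap (act g.1) (act (g⁻¹).1)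
    (by
      have : act g.1 * act (g⁻¹).1 = (1 : Module.End (ZMod p) (V (ZMod p))) := by
        rw [← act_mul, ← Matrix.SpecialLinearGroup.coe_mul, mul_inv_cancel,
          Matrix.SpecialLinearGroup.coe_one, act_one]
      exact this)
    (by
      have : act (g⁻¹).1 * act g.1 = (1 : Module.End (ZMod p) (V (ZMod p))) := by
        rw [← act_mul, ← Matrix.SpecialLinearGroup.coe_mul, inv_mul_cancel,
          Matrix.SpecialLinearGroup.coe_one, act_one]
      exact this)

theorem actE_apply (g : SLX n p) (x : V (ZMod p)) : actE g x = act g.1 x := rfl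

theorem actE_symm_apply (g : SLX n p) (x : V (ZMod p)) : (actE g).symm x = act (g⁻¹).1 x := rfl

theorem actE_mul (g h : SLX n p) (x : V (ZMod p)) : actE (g * h) x = actE g (actE h x) := by
  rw [actE_apply, actE_apply, actE_apply, Matrix.SpecialLinearGroup.coe_mul, act_mul]
  rfl

theorem actE_one (x : V (ZMod p)) : actE (1 : SLX n p) x = x := by
  rw [actE_apply, Matrix.SpecialLinearGroup.coe_one, act_one]
  rfl

/-- Action on subspaces. -/
noncomputable def gmap (g : SLX n p) (L : Submodule (ZMod p) (V (ZMod p))) :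
    Submodule (ZMod p) (V (ZMod p)) := L.map (actE g).toLinearMap

theorem mem_gmap {g : SLX n p} {L : Submodule (ZMod p) (V (ZMod p))} {x : V (ZMod p)} :
    x ∈ gmap g L ↔ actE g⁻¹ x ∈ L := by
  constructor
  · rintro ⟨y, hy, rfl⟩
    change actE g⁻¹ (actE g y) ∈ L
    rwa [← actE_mul, inv_mul_cancel, actE_one]
  · intro h
    refine ⟨actE g⁻¹ x, h, ?_⟩
    change actE g (actE g⁻¹ x) = x
    rw [← actE_mul, mul_inv_cancel, actE_one]

theorem gmap_mul (g h : SLX n p) (L : Submodule (ZMod p) (V (ZMod p))) :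
    gmap (g * h) L = gmap g (gmap h L) := by
  ext x
  rw [mem_gmap, mem_gmap, mem_gmap, ← actE_mul, mul_inv_rev]

theorem gmap_one (L : Submodule (ZMod p) (V (ZMod p))) : gmap (1 : SLX n p) L = L := by
  ext x
  rw [mem_gmap, inv_one, actE_one]

theorem gmap_mono (g : SLX n p) {L L' : Submodule (ZMod p) (V (ZMod p))} (h : L ≤ L') :
    gmap g L ≤ gmap g L' := Submodule.map_mono h

theorem actE_sub_mem {g : SLX n p} (hg : g ∈ Uplus n p) {i : ℤ} {x : V (ZMod p)}
    (hx : x ∈ M (ZMod p) i) : actE g x - x ∈ M (ZMod p) (i + 1) := by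
  rw [mem_Uplus] at hg
  exact act_sub_mem g.1 hg.1 hg.2 hx

theorem actE_mem_M {g : SLX n p} (hg : g ∈ Uplus n p) {i : ℤ} {x : V (ZMod p)}
    (hx : x ∈ M (ZMod p) i) : actE g x ∈ M (ZMod p) i := by
  have := add_mem (M_anti (show i ≤ i + 1 by omega) (actE_sub_mem hg hx)) hx
  simpa using this

theorem gmap_M {g : SLX n p} (hg : g ∈ Uplus n p) (i : ℤ) :
    gmap g (M (ZMod p) i) = M (ZMod p) i := by
  apply le_antisymm
  · rintro _ ⟨x, hx, rfl⟩
    exact actE_mem_M hg hx
  · intro x hx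
    rw [mem_gmap]
    exact actE_mem_M (inv_mem hg) hx

theorem actE_shift (g : SLX n p) (q : ℤ) (x : V (ZMod p)) :
    actE g (Lat.shift (ZMod p) (q * n) x) = Lat.shift (ZMod p) (q * n) (actE g x) := by
  have h : ∀ x, actE g (Lat.shift (ZMod p) n x) = Lat.shift (ZMod p) n (actE g x) :=
    act_shift g.1
  induction q using Int.induction_on generalizing x with
  | zero => rw [zero_mul, shift_zero, shift_zero]
  | succ q ih =>
    have : ((q : ℤ) + 1) * n = n + q * n := by ring
    rw [this, ← shift_shift, h, ih, shift_shift]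
  | pred q ih =>
    apply (Lat.shift (ZMod p) (n : ℤ)).injective
    rw [← h, shift_shift, shift_shift]
    have : (n : ℤ) + (-(q : ℤ) - 1) * n = -(q : ℤ) * n := by ring
    rw [this, ih]

theorem tr_gmap (g : SLX n p) (q : ℤ) (L : Submodule (ZMod p) (V (ZMod p))) :
    tr n q (gmap g L) = gmap g (tr n q L) := by
  unfold Lat.tr gmap
  rw [← Submodule.map_comp, ← Submodule.map_comp]
  congr 1
  apply LinearMap.ext
  intro x
  exact (actE_shift g q x).symm

theorem isCompl_gmap {g : SLX n p} (hg : g ∈ Uplus n p) {L : Submodule (ZMod p) (V (ZMod p))} {i : ℤ}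
    (h : IsCompl L (M (ZMod p) i)) : IsCompl (gmap g L) (M (ZMod p) i) := by
  rw [← gmap_M hg i]
  exact (Submodule.orderIsoMapComap (actE g)).isCompl h

theorem type_unique {L : Submodule (ZMod p) (V (ZMod p))} {i j : ℤ}
    (hi : IsCompl L (M (ZMod p) i)) (hj : IsCompl L (M (ZMod p) j)) : i = j := by
  wlog hij : i ≤ j generalizing i j
  · exact (this hj hi (by omega)).symm
  by_contra hne
  have hlt : i < j := lt_of_le_of_ne hij hne
  have h1 : (Finsupp.single i 1 : V (ZMod p)) ∈ L ⊔ M (ZMod p) j := by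
    rw [hj.sup_eq_top]; trivial
  obtain ⟨w, hw, y, hy, hwy⟩ := Submodule.mem_sup.1 h1
  have h2 : w = Finsupp.single i 1 - y := by rw [← hwy]; abel
  have h3 : w ∈ M (ZMod p) i := by
    rw [h2]; exact sub_mem (single_mem_M le_rfl _) (M_anti hij hy)
  have h4 : w = 0 := by
    have := hi.disjoint.le_bot ⟨hw, h3⟩
    simpa using this
  rw [h4, zero_add] at hwy
  rw [hwy] at hy
  have h5 := mem_M.1 hy i hlt
  rw [Finsupp.single_eq_same] at h5
  exact one_ne_zero h5

/-! ### bounds -/

theorem exists_bound (A : Matrix (Fin n) (Fin n) (ZMod p)[X]) : ∃ K : ℕ, ∀ (j : ℤ),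
    ∀ x ∈ L0 (ZMod p) j, act A x ∈ L0 (ZMod p) (j + K) := by
  let D : ℕ := ∑ a, ∑ b, (A a b).natDegree
  have hD : ∀ a b, (A a b).natDegree ≤ D := by
    intro a b
    refine le_trans ?_ (Finset.single_le_sum (f := fun a => ∑ b, (A a b).natDegree)
      (fun _ _ => Nat.zero_le _) (Finset.mem_univ a))
    exact Finset.single_le_sum (f := fun b => (A a b).natDegree)
      (fun _ _ => Nat.zero_le _) (Finset.mem_univ b)
  refine ⟨n + n * D, fun j x hx => ?_⟩
  refine mem_L0_induction (act A) _ ?_ hx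
  intro m hm c
  obtain ⟨b, q, rfl⟩ := exists_eq_add_mul n m
  rw [act_single]
  refine Submodule.sum_mem _ fun a _ => ?_
  rw [aeval_single]
  refine Submodule.sum_mem _ fun d hd => ?_
  apply single_mem_L0
  rw [Finset.mem_range] at hd
  have h1 : (n : ℤ) * d ≤ n * D := by
    have := hD a b
    have : (d : ℤ) ≤ D := by exact_mod_cast (by omega : d ≤ D)
    exact mul_le_mul_of_nonneg_left this (by positivity)
  have h2 : ((a : ℕ) : ℤ) < n := by exact_mod_cast a.2
  have h3 : (0 : ℤ) ≤ (b : ℕ) := by positivity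
  push_cast
  omega

theorem isLat_gmap {g : SLX n p} {j : ℤ} : IsLat n (gmap g (L0 (ZMod p) j)) := by
  refine ⟨?_, ?_⟩
  · rw [tr_gmap, tr_L0]
    exact gmap_mono g (L0_mono (by
      have : (0 : ℤ) ≤ n := by positivity
      linarith))
  · obtain ⟨K, hK⟩ := exists_bound g.1
    obtain ⟨K', hK'⟩ := exists_bound (g⁻¹).1
    refine ⟨(K + K' + j.natAbs), ?_, ?_⟩
    · intro x hx
      rw [mem_gmap]
      refine L0_mono ?_ (hK' _ x hx)
      push_cast
      have := Int.natCast_natAbs j
      have := neg_abs_le j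
      omega
    · rintro _ ⟨x, hx, rfl⟩
      refine L0_mono ?_ (hK _ x hx)
      push_cast
      have := Int.natCast_natAbs j
      have := le_abs_self j
      omega

theorem finrank_L0_inf_M (i j : ℤ) : finrank (ZMod p) ↥(L0 (ZMod p) j ⊓ M (ZMod p) i) =
    (j - i).toNat := by
  have h : L0 (ZMod p) j ⊓ M (ZMod p) i = Finsupp.supported (ZMod p) (ZMod p) (Set.Ico i j) := by
    unfold Lat.L0 Lat.M
    rw [← Finsupp.supported_inter]
    congr 1
    ext l
    simp [Set.mem_Ico, and_comm]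
  rw [h]
  have e := Finsupp.supportedEquivFinsupp (M := ZMod p) (R := ZMod p) (Set.Ico i j)
  rw [e.finrank_eq, Module.finrank_finsupp_self, ← Set.toFinset_card, Set.toFinset_Ico, Int.card_Ico]

theorem hasCharge_gmap {g : SLX n p} (hg : g ∈ Uplus n p) (j : ℤ) :
    HasCharge (gmap g (L0 (ZMod p) j)) j := by
  refine ⟨j, fun i hi => ?_⟩
  unfold Lat.D
  have h1 : gmap g (L0 (ZMod p) j) ⊓ M (ZMod p) i = gmap g (L0 (ZMod p) j ⊓ M (ZMod p) i) := by
    conv_lhs => rw [← gmap_M hg i]
    exact (Submodule.map_inf _ (actE g).injective).symm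
  rw [h1]
  have h2 : finrank (ZMod p) ↥(gmap g (L0 (ZMod p) j ⊓ M (ZMod p) i)) =
      finrank (ZMod p) ↥(L0 (ZMod p) j ⊓ M (ZMod p) i) :=
    LinearEquiv.finrank_map_eq (actE g) _
  rw [h2, finrank_L0_inf_M]
  omega

/-! ### stabilisers -/

omit [NeZero n] in
theorem act_coeff (A : Matrix (Fin n) (Fin n) (ZMod p)[X]) (a b : Fin n) (q : ℤ) (d : ℕ) :
    act A (Finsupp.single ((b : ℕ) + n * q : ℤ) 1) ((a : ℕ) + n * q + n * d : ℤ) =
      (A a b).coeff d := by
  have hn : 0 < n := a.pos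
  rw [act_single, Finsupp.finsetSum_apply, Finset.sum_eq_single a]
  · rw [aeval_single_apply hn, mul_one]
  · intro a' _ ha'
    apply aeval_single_apply_ne
    intro d' h'
    apply ha'
    have h1 : ((a : ℕ) + n * q + n * d : ℤ) % n = (a : ℕ) := by
      rw [Int.add_mul_emod_self_left, Int.add_mul_emod_self_left]
      exact Int.emod_eq_of_lt (by positivity) (by exact_mod_cast a.2)
    have h2 : ((a' : ℕ) + n * q + n * d' : ℤ) % n = (a' : ℕ) := by
      rw [Int.add_mul_emod_self_left, Int.add_mul_emod_self_left]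
      exact Int.emod_eq_of_lt (by positivity) (by exact_mod_cast a'.2)
    rw [h', h2] at h1
    exact Fin.ext (by exact_mod_cast h1)
  · intro h; exact absurd (Finset.mem_univ _) h

theorem Hsub_preserves (hp : p.Prime) {j : Fin n} {g : SLX n p} (hg : g ∈ Hsub n p j) :
    gmap g (L0 (ZMod p) (j : ℕ)) ≤ L0 (ZMod p) (j : ℕ) := by
  obtain ⟨r, hr, -, h2⟩ := (mem_Hsub hp j g).1 hg
  rintro _ ⟨x, hx, rfl⟩
  change act g.1 x ∈ _
  refine mem_L0_induction (act g.1) _ ?_ hx
  intro m hm c
  obtain ⟨b, q, rfl⟩ := exists_eq_add_mul n m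
  rw [act_single, hr]
  refine Submodule.sum_mem _ fun a _ => ?_
  unfold nf
  rw [map_mul, aeval_C, Module.End.mul_apply, map_pow, aeval_X, tau_pow_single,
    Module.algebraMap_end_apply]
  have hnn : (0 : ℤ) < n := by exact_mod_cast Nat.pos_of_ne_zero (NeZero.ne n)
  have ha := a.2
  have hb := b.2
  have hj := j.2
  have hq : q ≤ 0 := by
    by_contra hq
    have : (n : ℤ) * 1 ≤ n * q := mul_le_mul_of_nonneg_left (by omega) hnn.le
    omega
  by_cases hlt : a - j < b - j
  · rw [h2 a b hlt, zero_smul]; exact zero_mem _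
  · refine Submodule.smul_mem _ _ (single_mem_L0 ?_ c)
    rw [fin_sub_lt] at hlt
    simp only [Fin.lt_def, Fin.le_def] at hlt
    push Not at hlt
    simp only [Fin.lt_def]
    rcases (show q = 0 ∨ q = -1 ∨ q ≤ -2 by omega) with h | h | h
    · subst h
      rw [mul_zero, add_zero] at hm ⊢
      split_ifs with h3 <;> push_cast <;> omega
    · subst h
      split_ifs with h3 <;> push_cast <;> omega
    · have : (n : ℤ) * q ≤ n * (-2) := mul_le_mul_of_nonneg_left (by omega) hnn.le
      split_ifs with h3 <;> push_cast <;> omega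

theorem gmap_Hsub (hp : p.Prime) {j : Fin n} {g : SLX n p} (hg : g ∈ Hsub n p j) :
    gmap g (L0 (ZMod p) (j : ℕ)) = L0 (ZMod p) (j : ℕ) := by
  apply le_antisymm (Hsub_preserves hp hg)
  have h := gmap_mono g (Hsub_preserves hp (inv_mem hg))
  rwa [← gmap_mul, mul_inv_cancel, gmap_one] at h

theorem mem_Hsub_of_preserves (hp : p.Prime) {j : Fin n} {g : SLX n p} (hU : g ∈ Uplus n p)
    (hg : gmap g (L0 (ZMod p) (j : ℕ)) ≤ L0 (ZMod p) (j : ℕ)) : g ∈ Hsub n p j := by
  have hnn : (0 : ℤ) < n := by exact_mod_cast Nat.pos_of_ne_zero (NeZero.ne n)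
  -- vanishing of coefficients
  have key : ∀ (a b : Fin n) (q : ℤ) (d : ℕ), ((b : ℕ) + n * q : ℤ) < (j : ℕ) →
      (g.1 a b).coeff d ≠ 0 → ((b : ℕ) + n * q : ℤ) ≤ (a : ℕ) + n * q + n * d ∧
        ((a : ℕ) + n * q + n * d : ℤ) < (j : ℕ) := by
    intro a b q d hbj hne
    rw [← act_coeff (p := p) g.1 a b q d] at hne
    constructor
    · by_contra hlt
      apply hne
      exact mem_M.1 (actE_mem_M hU (single_mem_M (le_refl ((b : ℕ) + n * q : ℤ)) (1 : ZMod p))) _
        (not_le.1 hlt)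
    · by_contra hlt
      apply hne
      have h1 : actE g (Finsupp.single ((b : ℕ) + n * q : ℤ) (1 : ZMod p)) ∈ L0 (ZMod p) (j : ℕ) :=
        hg ⟨_, single_mem_L0 hbj 1, rfl⟩
      exact mem_L0.1 h1 _ (not_lt.1 hlt)
  have key2 : ∀ (a b : Fin n) (d : ℕ), (g.1 a b).coeff d ≠ 0 →
      ((b : ℕ) < (j : ℕ) ∧ d = 0 ∧ (b : ℕ) ≤ a ∧ (a : ℕ) < j) ∨
      ((j : ℕ) ≤ (b : ℕ) ∧ d = 0 ∧ (b : ℕ) ≤ a) ∨ ((j : ℕ) ≤ (b : ℕ) ∧ d = 1 ∧ (a : ℕ) < j) := by
    intro a b d hne
    have ha := a.2
    have hb := b.2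
    rcases lt_or_ge (b : ℕ) (j : ℕ) with hbj | hbj
    · obtain ⟨h3, h4⟩ := key a b 0 d (by rw [mul_zero, add_zero]; exact_mod_cast hbj) hne
      rw [mul_zero, add_zero, add_zero] at h3
      rw [mul_zero, add_zero] at h4
      have hj := j.2
      have h5 : (n : ℤ) * d < n * 1 := by omega
      have h6 := lt_of_mul_lt_mul_left h5 hnn.le
      have h7 : d = 0 := by omega
      subst h7
      simp only [Nat.cast_zero, mul_zero, add_zero] at h3 h4
      left
      refine ⟨hbj, rfl, ?_, ?_⟩ <;> omega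
    · have hj := j.2
      obtain ⟨h3, h4⟩ := key a b (-1) d (by omega) hne
      have h5 : (n : ℤ) * d < n * 2 := by omega
      have h6 := lt_of_mul_lt_mul_left h5 hnn.le
      have h7 : d = 0 ∨ d = 1 := by omega
      rcases h7 with h7 | h7
      · subst h7
        simp only [Nat.cast_zero, mul_zero, add_zero] at h3 h4
        right; left
        refine ⟨hbj, rfl, ?_⟩; omega
      · subst h7
        simp only [Nat.cast_one, mul_one] at h3 h4
        right; right
        refine ⟨hbj, rfl, ?_⟩; omega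
  rw [mem_Hsub hp]
  refine ⟨fun a b => (g.1 a b).coeff (if a < b then 1 else 0), ?_, ?_, ?_⟩
  · ext a b d
    unfold nf
    rw [Polynomial.coeff_C_mul, Polynomial.coeff_X_pow]
    by_cases hd : d = if a < b then 1 else 0
    · rw [if_pos hd, mul_one, hd]
    · rw [if_neg hd, mul_zero]
      by_contra hne
      have h := key2 a b d hne
      apply hd
      simp only [Fin.lt_def]
      split_ifs <;> omega
  · intro a
    have := ((mem_Uplus g).1 hU).1 a
    simpa using this
  · intro a b hab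
    rw [fin_sub_lt] at hab
    simp only [Fin.lt_def, Fin.le_def] at hab
    by_contra hne
    have h := key2 a b _ hne
    simp only [Fin.lt_def] at h
    split_ifs at h <;> omega

/-- From a unipotent automorphism to a matrix. -/
theorem exists_Uplus (T : V (ZMod p) →ₗ[ZMod p] V (ZMod p)) (hbij : Function.Bijective T)
    (hsh : ∀ x, T (Lat.shift (ZMod p) n x) = Lat.shift (ZMod p) n (T x))
    (hT : ∀ i, ∀ x ∈ M (ZMod p) i, T x - x ∈ M (ZMod p) (i + 1))
    (hT' : ∀ i, ∀ x, T x ∈ M (ZMod p) i → x ∈ M (ZMod p) i) :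
    ∃ g ∈ Uplus n p, ∀ x, actE g x = T x := by
  let e : V (ZMod p) ≃ₗ[ZMod p] V (ZMod p) := LinearEquiv.ofBijective T hbij
  have hTM : ∀ i, ∀ x ∈ M (ZMod p) i, T x ∈ M (ZMod p) i := by
    intro i x hx
    have := add_mem (M_anti (show i ≤ i + 1 by omega) (hT i x hx)) hx
    simpa using this
  obtain ⟨A, hA⟩ := exists_act_eq T hsh (hTM 0)
  obtain ⟨B, hB⟩ := exists_act_eq (n := n) (e.symm : V (ZMod p) →ₗ[ZMod p] V (ZMod p))
    (by
      intro x
      change e.symm _ = Lat.shift (ZMod p) n (e.symm x)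
      apply e.injective
      rw [LinearEquiv.apply_symm_apply]
      change _ = T _
      rw [hsh]
      change _ = Lat.shift (ZMod p) n (e (e.symm x))
      rw [LinearEquiv.apply_symm_apply])
    (by
      intro x hx
      apply hT' 0
      change e (e.symm x) ∈ _
      rwa [LinearEquiv.apply_symm_apply])
  have hAB : A * B = 1 := by
    apply act_injective (F := ZMod p)
    rw [act_mul, hA, hB, act_one]
    apply LinearMap.ext
    intro x
    exact e.apply_symm_apply x
  have hcoef : ∀ a b, (A a b).coeff 0 = T (Finsupp.single ((b : ℕ) : ℤ) 1) ((a : ℕ) : ℤ) := by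
    intro a b
    rw [← act_single_apply A a b 0, hA]
    simp
  have h1 : ∀ b : Fin n, ∀ l : ℤ, l ≤ (b : ℕ) → T (Finsupp.single ((b : ℕ) : ℤ) 1) l =
      (Finsupp.single ((b : ℕ) : ℤ) 1 : V (ZMod p)) l := by
    intro b l hl
    have := mem_M.1 (hT _ _ (single_mem_M (le_refl ((b : ℕ) : ℤ)) (1 : ZMod p))) l (by omega)
    rw [Finsupp.sub_apply, sub_eq_zero] at this
    exact this
  have hdiag : ∀ i, (A i i).coeff 0 = 1 := by
    intro i
    rw [hcoef, h1 i _ le_rfl, Finsupp.single_eq_same]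
  have hup : ∀ i j, i < j → (A i j).coeff 0 = 0 := by
    intro i j hij
    have hij' : ((i : ℕ) : ℤ) < (j : ℕ) := by exact_mod_cast hij
    rw [hcoef, h1 j _ hij'.le, Finsupp.single_eq_of_ne (by omega)]
  have hdet0 : A.det.coeff 0 = 1 := by
    have h2 : A.det.coeff 0 = (A.map (Polynomial.constantCoeff)).det := by
      have := RingHom.map_det (Polynomial.constantCoeff : (ZMod p)[X] →+* ZMod p) A
      rw [Polynomial.constantCoeff_apply] at this
      rw [this]; rfl
    rw [h2, Matrix.det_of_isLowerTriangular _ (fun i j h => by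
      change (A i j).coeff 0 = 0
      exact hup i j h)]
    refine Finset.prod_eq_one fun i _ => ?_
    exact hdiag i
  have hdet : A.det = 1 := by
    have h2 : IsUnit A.det := by
      rw [← Matrix.isUnit_iff_isUnit_det]
      exact ⟨⟨A, B, hAB, mul_eq_one_comm.1 hAB⟩, rfl⟩
    obtain ⟨c, -, hc⟩ := Polynomial.isUnit_iff.1 h2
    rw [← hc] at hdet0 ⊢
    rw [Polynomial.coeff_C_zero] at hdet0
    rw [hdet0, map_one]
  refine ⟨⟨A, hdet⟩, ?_, ?_⟩
  · exact (mem_Uplus (⟨A, hdet⟩ : SLX n p)).2 ⟨hdiag, hup⟩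
  · intro x
    change act A x = T x
    rw [hA]

end Crest.Agent.R066.LatA
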