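import Crest.Agent.R066.Basic

/-! Basic API on lattices (owner helper766). -/

set_option autoImplicit false
open scoped BigOperators
open Module (finrank)

namespace Crest.Agent.R066.Lat

variable {F : Type} [Field F]

theorem mem_M {i : ℤ} {v : V F} : v ∈ M F i ↔ ∀ j, j < i → v j = 0 := by
  unfold M
  rw [Finsupp.mem_supported]
  constructor
  · intro h j hj
    by_contra hv
    exact absurd (h (Finsupp.mem_support_iff.mpr hv)) (by simpa using hj)
  · intro h j hj
    by_contra hj'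
    exact (Finsupp.mem_support_iff.mp hj) (h j (by simpa using hj'))

theorem mem_L0 {i : ℤ} {v : V F} : v ∈ L0 F i ↔ ∀ j, i ≤ j → v j = 0 := by
  unfold L0
  rw [Finsupp.mem_supported]
  constructor
  · intro h j hj
    by_contra hv
    exact absurd (h (Finsupp.mem_support_iff.mpr hv)) (by simpa using hj)
  · intro h j hj
    by_contra hj'
    exact (Finsupp.mem_support_iff.mp hj) (h j (by simpa using hj'))

theorem M_anti {i j : ℤ} (h : i ≤ j) : M F j ≤ M F i := by
  intro v hv
  rw [mem_M] at hv ⊢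
  exact fun k hk => hv k (lt_of_lt_of_le hk h)

theorem L0_mono {i j : ℤ} (h : i ≤ j) : L0 F i ≤ L0 F j := by
  intro v hv
  rw [mem_L0] at hv ⊢
  exact fun k hk => hv k (le_trans h hk)

theorem exists_mem_M (v : V F) : ∃ i : ℤ, v ∈ M F i := by
  classical
  rcases v.support.eq_empty_or_nonempty with h | h
  · refine ⟨0, ?_⟩
    rw [mem_M]; intro j _
    by_contra hv
    have := Finsupp.mem_support_iff.mpr hv
    rw [h] at this; simp at this
  · refine ⟨v.support.min' h, ?_⟩
    rw [mem_M]; intro j hj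
    by_contra hv
    exact absurd (Finset.min'_le _ _ (Finsupp.mem_support_iff.mpr hv)) (not_le.mpr hj)

theorem exists_mem_L0 (v : V F) : ∃ i : ℤ, v ∈ L0 F i := by
  classical
  rcases v.support.eq_empty_or_nonempty with h | h
  · refine ⟨0, ?_⟩
    rw [mem_L0]; intro j _
    by_contra hv
    have := Finsupp.mem_support_iff.mpr hv
    rw [h] at this; simp at this
  · refine ⟨v.support.max' h + 1, ?_⟩
    rw [mem_L0]; intro j hj
    by_contra hv
    have := Finset.le_max' _ _ (Finsupp.mem_support_iff.mpr hv)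
    omega

theorem disjoint_L0_M (i : ℤ) : Disjoint (L0 F i) (M F i) := by
  rw [Submodule.disjoint_def]
  intro v h1 h2
  rw [mem_L0] at h1; rw [mem_M] at h2
  ext j
  rcases lt_or_ge j i with h | h
  · exact h2 j h
  · exact h1 j h

theorem isCompl_L0_M (i : ℤ) : IsCompl (L0 F i) (M F i) := by
  classical
  refine ⟨disjoint_L0_M i, ?_⟩
  rw [codisjoint_iff, eq_top_iff]
  intro v _
  rw [Submodule.mem_sup]
  refine ⟨v.filter (· < i), ?_, v.filter (fun j => ¬ j < i), ?_, ?_⟩
  · rw [mem_L0]; intro j hj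
    exact Finsupp.filter_apply_neg _ _ (not_lt.mpr hj)
  · rw [mem_M]; intro j hj
    exact Finsupp.filter_apply_neg _ _ (by simpa using hj)
  · exact Finsupp.filter_add_filter_not v _

/-! ### The shift -/

theorem shift_apply (k : ℤ) (v : V F) (j : ℤ) : shift F k v j = v (j - k) := by
  unfold shift
  simp [Finsupp.domLCongr_apply, Finsupp.domCongr_apply, Finsupp.equivMapDomain_apply, sub_eq_add_neg]

theorem shift_shift (k l : ℤ) (v : V F) : shift F k (shift F l v) = shift F (l + k) v := by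
  ext j
  rw [shift_apply, shift_apply, shift_apply]
  congr 1; ring

theorem shift_zero (v : V F) : shift F 0 v = v := by
  ext j; rw [shift_apply, sub_zero]

theorem mem_tr {n : ℕ} {m : ℤ} {L : Submodule F (V F)} {v : V F} :
    v ∈ tr n m L ↔ shift F (-(m * n)) v ∈ L := by
  unfold tr
  rw [Submodule.mem_map]
  constructor
  · rintro ⟨w, hw, rfl⟩
    have : shift F (-(m * n)) (shift F (m * n) w) = w := by
      rw [shift_shift]; simp [shift_zero]
    simpa [this] using hw
  · intro h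
    refine ⟨_, h, ?_⟩
    show shift F (m * n) (shift F (-(m * n)) v) = v
    rw [shift_shift]; simp [shift_zero]

theorem tr_zero (n : ℕ) (L : Submodule F (V F)) : tr n 0 L = L := by
  ext v; rw [mem_tr]; simp [shift_zero]

theorem tr_tr (n : ℕ) (m m' : ℤ) (L : Submodule F (V F)) : tr n m (tr n m' L) = tr n (m + m') L := by
  ext v; rw [mem_tr, mem_tr, mem_tr, shift_shift]
  have : -(m * (n : ℤ)) + -(m' * n) = -((m + m') * n) := by ring
  rw [this]

theorem tr_mono (n : ℕ) (m : ℤ) {L L' : Submodule F (V F)} (h : L ≤ L') : tr n m L ≤ tr n m L' :=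
  Submodule.map_mono h

theorem tr_le_tr (n : ℕ) (m : ℤ) {L L' : Submodule F (V F)} : tr n m L ≤ tr n m L' ↔ L ≤ L' := by
  refine ⟨fun h => ?_, tr_mono n m⟩
  have := tr_mono n (-m) h
  rwa [tr_tr, tr_tr, neg_add_cancel, tr_zero, tr_zero] at this

theorem tr_M (n : ℕ) (m i : ℤ) : tr n m (M F i) = M F (i + m * n) := by
  ext v; rw [mem_tr, mem_M, mem_M]
  constructor
  · intro h j hj
    have := h (j - m * n) (by linarith)
    rw [shift_apply] at this
    rwa [show j - m * n - -(m * n) = j by ring] at this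
  · intro h j hj
    rw [shift_apply]
    exact h _ (by linarith)

theorem tr_L0 (n : ℕ) (m i : ℤ) : tr n m (L0 F i) = L0 F (i + m * n) := by
  ext v; rw [mem_tr, mem_L0, mem_L0]
  constructor
  · intro h j hj
    have := h (j - m * n) (by linarith)
    rw [shift_apply] at this
    rwa [show j - m * n - -(m * n) = j by ring] at this
  · intro h j hj
    rw [shift_apply]
    exact h _ (by linarith)

theorem tr_inf (n : ℕ) (m : ℤ) (L L' : Submodule F (V F)) : tr n m (L ⊓ L') = tr n m L ⊓ tr n m L' := by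
  ext v; simp only [mem_tr, Submodule.mem_inf]

theorem tr_sup (n : ℕ) (m : ℤ) (L L' : Submodule F (V F)) : tr n m (L ⊔ L') = tr n m L ⊔ tr n m L' := by
  unfold tr; exact Submodule.map_sup _ _ _

theorem tr_injective (n : ℕ) (m : ℤ) : Function.Injective (tr (F := F) n m) := by
  intro L L' h
  have := congrArg (tr n (-m)) h
  rwa [tr_tr, tr_tr, neg_add_cancel, tr_zero, tr_zero] at this

theorem finrank_tr (n : ℕ) (m : ℤ) (L : Submodule F (V F)) : finrank F ↥(tr n m L) = finrank F ↥L := by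
  unfold tr
  exact LinearEquiv.finrank_map_eq (shift F (m * n)) L

theorem D_tr (n : ℕ) (m i : ℤ) (L : Submodule F (V F)) : D (tr n m L) (i + m * n) = D L i := by
  unfold D
  rw [← tr_M, ← tr_inf, finrank_tr]

theorem D_tr' (n : ℕ) (m i : ℤ) (L : Submodule F (V F)) : D (tr n m L) i = D L (i - m * n) := by
  rw [← D_tr n m (i - m * n) L, sub_add_cancel]

/-! ### Finiteness -/

theorem finite_L0_M (i N : ℤ) : FiniteDimensional F ↥(L0 F N ⊓ M F i) := by
  have h : L0 F N ⊓ M F i ≤ Finsupp.supported F F (Set.Ico i N) := by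
    intro v hv
    rw [Submodule.mem_inf, mem_L0, mem_M] at hv
    rw [Finsupp.mem_supported]
    intro j hj
    rw [Finset.mem_coe, Finsupp.mem_support_iff] at hj
    rw [Set.mem_Ico]
    constructor
    · by_contra hc; exact hj (hv.2 j (not_le.mp hc))
    · by_contra hc; exact hj (hv.1 j (not_lt.mp hc))
  have : FiniteDimensional F ↥(Finsupp.supported F F (Set.Ico i N)) := by
    have e := Finsupp.supportedEquivFinsupp (M := F) (R := F) (Set.Ico i N)
    have : Finite ↥(Set.Ico i N) := Set.finite_Ico i N |>.to_subtype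
    exact Module.Finite.equiv e.symm
  exact Submodule.finiteDimensional_of_le h

/-- Bounded above subspaces. -/
theorem finite_inf_M {L : Submodule F (V F)} {N : ℤ} (h : L ≤ L0 F N) (i : ℤ) :
    FiniteDimensional F ↥(L ⊓ M F i) := by
  have := finite_L0_M (F := F) i N
  exact Submodule.finiteDimensional_of_le (inf_le_inf_right (M F i) h)

theorem IsLat.finite {n : ℕ} {L : Submodule F (V F)} (h : IsLat n L) (i : ℤ) :
    FiniteDimensional F ↥(L ⊓ M F i) := by
  obtain ⟨_, N, _, h2⟩ := h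
  exact finite_inf_M h2 i

/-- coefficient functional -/
noncomputable def cf (i : ℤ) : V F →ₗ[F] F := Finsupp.lapply i

theorem M_succ (i : ℤ) (v : V F) : v ∈ M F (i + 1) ↔ v ∈ M F i ∧ v i = 0 := by
  rw [mem_M, mem_M]
  constructor
  · intro h
    exact ⟨fun j hj => h j (by omega), h i (by omega)⟩
  · rintro ⟨h1, h2⟩ j hj
    rcases lt_or_eq_of_le (Int.lt_add_one_iff.mp hj) with h | h
    · exact h1 j h
    · rw [h]; exact h2

/-- The jump set. -/
def Jump (L : Submodule F (V F)) (i : ℤ) : Prop := ∃ v ∈ L, v ∈ M F i ∧ v i ≠ 0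

theorem D_eq_of_not_jump {L : Submodule F (V F)} {i : ℤ} (h : ¬ Jump L i) : D L i = D L (i + 1) := by
  unfold D
  have : L ⊓ M F i = L ⊓ M F (i + 1) := by
    apply le_antisymm
    · intro v hv
      rw [Submodule.mem_inf] at hv ⊢
      refine ⟨hv.1, (M_succ i v).mpr ⟨hv.2, ?_⟩⟩
      by_contra hc
      exact h ⟨v, hv.1, hv.2, hc⟩
    · exact inf_le_inf_left _ (M_anti (by omega))
  rw [this]

theorem finrank_eq_ker_add_one {F : Type*} {W : Type*} [Field F] [AddCommGroup W] [Module F W] [FiniteDimensional F W]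
    (f : W →ₗ[F] F) (hf : ∃ w, f w ≠ 0) : finrank F W = finrank F ↥(LinearMap.ker f) + 1 := by
  have hsurj : LinearMap.range f = ⊤ := by
    obtain ⟨w, hw⟩ := hf
    rw [LinearMap.range_eq_top]
    intro a
    refine ⟨(a * (f w)⁻¹) • w, ?_⟩
    rw [map_smul, smul_eq_mul, mul_assoc, inv_mul_cancel₀ hw, mul_one]
  have h := LinearMap.finrank_range_add_finrank_ker f
  rw [hsurj, finrank_top, Module.finrank_self] at h
  omega

theorem finrank_inf_ker {F : Type*} {W : Type*} [Field F] [AddCommGroup W] [Module F W]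
    (A B : Submodule F W) [FiniteDimensional F ↥A] (φ : W →ₗ[F] F) (hB : B = A ⊓ LinearMap.ker φ)
    (hf : ∃ w ∈ A, φ w ≠ 0) : finrank F ↥A = finrank F ↥B + 1 := by
  have h1 := finrank_eq_ker_add_one (φ.comp A.subtype) (by
    obtain ⟨w, hw, h⟩ := hf
    exact ⟨⟨w, hw⟩, h⟩)
  have h2 : B = (LinearMap.ker (φ.comp A.subtype)).map A.subtype := by
    rw [hB, LinearMap.ker_comp, Submodule.map_comap_subtype]
  have h3 : finrank F ↥B = finrank F ↥(LinearMap.ker (φ.comp A.subtype)) := by
    rw [h2]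
    exact Submodule.finrank_map_subtype_eq _ _
  omega

theorem inf_M_succ (L : Submodule F (V F)) (i : ℤ) : L ⊓ M F (i + 1) = (L ⊓ M F i) ⊓ LinearMap.ker (cf (F := F) i) := by
  ext v
  simp only [Submodule.mem_inf, M_succ, LinearMap.mem_ker]
  show _ ↔ _ ∧ v i = 0
  tauto

theorem D_eq_of_jump {L : Submodule F (V F)} {N : ℤ} (hL : L ≤ L0 F N) {i : ℤ} (h : Jump L i) :
    D L i = D L (i + 1) + 1 := by
  have hfin := finite_inf_M hL i
  obtain ⟨v, h1, h2, h3⟩ := h
  exact finrank_inf_ker _ _ (cf (F := F) i) (inf_M_succ L i) ⟨v, Submodule.mem_inf.mpr ⟨h1, h2⟩, h3⟩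

theorem D_succ_le {L : Submodule F (V F)} {N : ℤ} (hL : L ≤ L0 F N) (i : ℤ) : D L (i + 1) ≤ D L i := by
  by_cases h : Jump L i
  · rw [D_eq_of_jump hL h]; omega
  · rw [D_eq_of_not_jump h]

theorem D_le_succ {L : Submodule F (V F)} {N : ℤ} (hL : L ≤ L0 F N) (i : ℤ) : D L i ≤ D L (i + 1) + 1 := by
  by_cases h : Jump L i
  · rw [D_eq_of_jump hL h]
  · rw [D_eq_of_not_jump h]; omega

theorem D_zero {L : Submodule F (V F)} {N : ℤ} (hL : L ≤ L0 F N) {i : ℤ} (hi : N ≤ i) : D L i = 0 := by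
  unfold D
  have : L ⊓ M F i = ⊥ := by
    rw [eq_bot_iff]
    intro v hv
    rw [Submodule.mem_inf] at hv
    have h1 := mem_L0.mp (hL hv.1)
    have h2 := mem_M.mp hv.2
    rw [Submodule.mem_bot]
    ext j
    rcases lt_or_ge j i with h | h
    · exact h2 j h
    · exact h1 j (le_trans hi h)
  rw [this, finrank_bot]

/-- below `-N` everything jumps -/
theorem jump_of_L0_le {L : Submodule F (V F)} {N : ℤ} (hL : L0 F N ≤ L) {i : ℤ} (hi : i < N) : Jump L i := by
  refine ⟨Finsupp.single i 1, hL ?_, ?_, by simp⟩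
  · rw [mem_L0]; intro j hj
    exact Finsupp.single_eq_of_ne (by omega)
  · rw [mem_M]; intro j hj
    exact Finsupp.single_eq_of_ne (by omega)

theorem D_low {L : Submodule F (V F)} {N N' : ℤ} (hL : L0 F N ≤ L) (hL' : L ≤ L0 F N') (k : ℕ) :
    D L (N - k) = D L N + k := by
  induction k with
  | zero => simp
  | succ k ih =>
    have h : Jump L (N - (k + 1 : ℕ)) := jump_of_L0_le hL (by push_cast; omega)
    rw [D_eq_of_jump hL' h]
    have : N - ((k + 1 : ℕ) : ℤ) + 1 = N - k := by push_cast; ring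
    rw [this, ih]; ring

theorem IsLat.hasCharge {n : ℕ} {L : Submodule F (V F)} (h : IsLat n L) : ∃ c : ℤ, HasCharge L c := by
  obtain ⟨_, N, h1, h2⟩ := h
  refine ⟨D L (-N) - N, -N, fun i hi => ?_⟩
  obtain ⟨k, hk⟩ := Int.eq_ofNat_of_zero_le (show 0 ≤ -(N : ℤ) - i by omega)
  have : i = -(N : ℤ) - k := by omega
  rw [this, D_low h1 h2]; push_cast; ring

theorem HasCharge.unique {L : Submodule F (V F)} {c c' : ℤ} (h : HasCharge L c) (h' : HasCharge L c') : c = c' := by
  obtain ⟨N, h⟩ := h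
  obtain ⟨N', h'⟩ := h'
  have h1 := h (min N N') (min_le_left _ _)
  have h2 := h' (min N N') (min_le_right _ _)
  omega

theorem HasCharge.tr {L : Submodule F (V F)} {c : ℤ} (n : ℕ) (m : ℤ) (h : HasCharge L c) :
    HasCharge (Lat.tr n m L) (c + m * n) := by
  obtain ⟨N, h⟩ := h
  refine ⟨N + m * n, fun i hi => ?_⟩
  rw [D_tr', h (i - m * n) (by linarith)]; ring

theorem IsLat.tr {n : ℕ} {L : Submodule F (V F)} (m : ℤ) (h : IsLat n L) : IsLat n (Lat.tr n m L) := by
  obtain ⟨h0, N, h1, h2⟩ := h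
  refine ⟨?_, N + (m * n).natAbs, ?_, ?_⟩
  · rw [tr_tr, add_comm, ← tr_tr]; exact tr_mono n m h0
  · calc L0 F (-((N + (m * n).natAbs : ℕ) : ℤ)) ≤ L0 F (-(N : ℤ) + m * n) := L0_mono (by push_cast; rw [neg_add]; have := neg_abs_le (m * n : ℤ); omega)
      _ = Lat.tr n m (L0 F (-N)) := (tr_L0 n m _).symm
      _ ≤ _ := tr_mono n m h1
  · calc Lat.tr n m L ≤ Lat.tr n m (L0 F N) := tr_mono n m h2
      _ = L0 F (N + m * n) := tr_L0 n m _
      _ ≤ _ := L0_mono (by push_cast; have := le_abs_self (m * n : ℤ); omega)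

theorem IsLat.le_L0 {n : ℕ} {L : Submodule F (V F)} (h : IsLat n L) : ∃ N : ℤ, L ≤ L0 F N := by
  obtain ⟨_, N, _, h2⟩ := h
  exact ⟨N, h2⟩

/-- c - i ≤ D L i -/
theorem charge_le_D {n : ℕ} {L : Submodule F (V F)} (hL : IsLat n L) {c : ℤ} (hc : HasCharge L c) (i : ℤ) :
    c - i ≤ D L i := by
  obtain ⟨N, hN⟩ := hc
  obtain ⟨N', hN'⟩ := hL.le_L0
  by_cases h : i ≤ N
  · rw [hN i h]
  · push Not at h
    obtain ⟨k, hk⟩ := Int.eq_ofNat_of_zero_le (show 0 ≤ i - N by omega)
    have hi : i = N + k := by omega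
    rw [hi]
    clear hk hi h
    induction k with
    | zero => have := hN N le_rfl; push_cast; simp only [add_zero]; omega
    | succ k ih =>
      have := D_le_succ hN' (N + k)
      have e : N + ((k + 1 : ℕ) : ℤ) = N + k + 1 := by push_cast; ring
      rw [e]; omega

theorem Jump.mono {L L' : Submodule F (V F)} (h : L ≤ L') {i : ℤ} (hj : Jump L i) : Jump L' i := by
  obtain ⟨v, h1, h2⟩ := hj
  exact ⟨v, h h1, h2⟩

theorem D_mono {n : ℕ} {L L' : Submodule F (V F)} (hL' : IsLat n L') (h : L ≤ L') (i : ℤ) : D L i ≤ D L' i := by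
  have := hL'.finite i
  exact Submodule.finrank_mono (inf_le_inf_right _ h)

/-- `D L' - D L` is nonincreasing -/
theorem D_diff_anti {n : ℕ} {L L' : Submodule F (V F)} (hL : IsLat n L) (hL' : IsLat n L') (h : L ≤ L') (i : ℤ) :
    (D L' (i + 1) : ℤ) - D L (i + 1) ≤ (D L' i : ℤ) - D L i := by
  obtain ⟨N, hN⟩ := hL.le_L0
  obtain ⟨N', hN'⟩ := hL'.le_L0
  by_cases h1 : Jump L i
  · rw [D_eq_of_jump hN h1, D_eq_of_jump hN' (h1.mono h)]; push_cast; omega
  · rw [D_eq_of_not_jump h1]
    have := D_succ_le hN' i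
    omega

theorem D_diff_le {n : ℕ} {L L' : Submodule F (V F)} (hL : IsLat n L) (hL' : IsLat n L') (h : L ≤ L')
    {c c' : ℤ} (hc : HasCharge L c) (hc' : HasCharge L' c') (i : ℤ) :
    (D L' i : ℤ) - D L i ≤ c' - c := by
  obtain ⟨N, hN⟩ := hc
  obtain ⟨N', hN'⟩ := hc'
  set M := min N N' with hM
  by_cases hi : i ≤ M
  · rw [hN i (le_trans hi (min_le_left _ _)), hN' i (le_trans hi (min_le_right _ _))]; omega
  · push Not at hi
    obtain ⟨k, hk⟩ := Int.eq_ofNat_of_zero_le (show 0 ≤ i - M by omega)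
    have hi' : i = M + k := by omega
    rw [hi']
    clear hk hi hi'
    induction k with
    | zero =>
      have h1 := hN M (min_le_left _ _)
      have h2 := hN' M (min_le_right _ _)
      push_cast; simp only [add_zero]; omega
    | succ k ih =>
      have := D_diff_anti hL hL' h (M + k)
      have e : M + ((k + 1 : ℕ) : ℤ) = M + k + 1 := by push_cast; ring
      rw [e]; omega

theorem charge_mono {n : ℕ} {L L' : Submodule F (V F)} (hL' : IsLat n L') (h : L ≤ L')
    {c c' : ℤ} (hc : HasCharge L c) (hc' : HasCharge L' c') : c ≤ c' := by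
  obtain ⟨N, hN⟩ := hc
  obtain ⟨N', hN'⟩ := hc'
  have h1 := hN _ (min_le_left N N')
  have h2 := hN' _ (min_le_right N N')
  have := D_mono hL' h (min N N')
  omega

theorem eq_of_le_of_charge {n : ℕ} {L L' : Submodule F (V F)} (hL : IsLat n L) (hL' : IsLat n L') (h : L ≤ L')
    {c c' : ℤ} (hc : HasCharge L c) (hc' : HasCharge L' c') (hcc : c' ≤ c) : L = L' := by
  apply le_antisymm h
  intro v hv
  obtain ⟨i, hi⟩ := exists_mem_M v
  have hf := hL'.finite i
  have h1 : L ⊓ M F i ≤ L' ⊓ M F i := inf_le_inf_right _ h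
  have h2 : finrank F ↥(L' ⊓ M F i) ≤ finrank F ↥(L ⊓ M F i) := by
    have := D_diff_le hL hL' h hc hc' i
    unfold D at this
    omega
  have h3 := Submodule.eq_of_le_of_finrank_le h1 h2
  have : v ∈ L' ⊓ M F i := Submodule.mem_inf.mpr ⟨hv, hi⟩
  rw [← h3] at this
  exact (Submodule.mem_inf.mp this).1

end Crest.Agent.R066.Lat
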