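import Crest.Agent.R066.Chain
import Crest.Agent.R066.Morse
import Crest.Agent.R066.LatApi
import Crest.Agent.R066.ListPrism

/-! Lattices: basic facts and acyclicity of the building `BCx` (task A1). -/

set_option autoImplicit false
set_option linter.unusedSectionVars false
set_option linter.unusedVariables false
open scoped BigOperators
open Module (finrank)

namespace Crest.Agent.R066.Lat

variable {F : Type} [Field F]

theorem tr_le_iff (n : ℕ) (a : ℤ) {L L' : Submodule F (V F)} :
    tr n a L ≤ L' ↔ L ≤ tr n (-a) L' := by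
  constructor
  · intro h
    have := tr_mono n (-a) h
    rwa [tr_tr, neg_add_cancel, tr_zero] at this
  · intro h
    have := tr_mono n a h
    rwa [tr_tr, add_neg_cancel, tr_zero] at this

theorem isLat_L0 (n : ℕ) (j : ℤ) : IsLat n (L0 F j) := by
  refine ⟨?_, j.natAbs, L0_mono ?_, L0_mono ?_⟩
  · rw [tr_L0]; exact L0_mono (by omega)
  · omega
  · omega

theorem IsLat.le_tr {n : ℕ} {L : Submodule F (V F)} (h : IsLat n L) : L ≤ Lat.tr n 1 L := by
  have := (tr_le_iff n (-1) (L := L) (L' := L)).1 h.1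
  simpa using this

theorem IsLat.sup_L0 {n : ℕ} {L : Submodule F (V F)} (h : IsLat n L) (j : ℤ) :
    IsLat n (L ⊔ L0 F j) := by
  obtain ⟨h1, N, h2, h3⟩ := h
  refine ⟨?_, N + j.natAbs, ?_, ?_⟩
  · rw [tr_sup, tr_L0]
    exact sup_le_sup h1 (L0_mono (by omega))
  · exact ((L0_mono (by omega)).trans h2).trans le_sup_left
  · exact sup_le (h3.trans (L0_mono (by omega))) (L0_mono (by omega))

theorem hasCharge_L0 (j : ℤ) : HasCharge (L0 F j) j := by
  refine ⟨j, fun i hi => ?_⟩
  obtain ⟨k, hk⟩ := Int.eq_ofNat_of_zero_le (show 0 ≤ j - i by omega)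
  have e : i = j - k := by omega
  have h1 := D_low (F := F) (L := L0 F j) (N := j) (N' := j) le_rfl le_rfl k
  rw [D_zero le_rfl le_rfl] at h1
  rw [e, h1]; push_cast; ring

open Classical in
/-- the charge of a lattice -/
noncomputable def charge (L : Submodule F (V F)) : ℤ :=
  if h : ∃ c, HasCharge L c then h.choose else 0

theorem charge_spec {n : ℕ} {L : Submodule F (V F)} (hL : IsLat n L) :
    HasCharge L (charge L) := by
  have h := hL.hasCharge
  rw [charge, dif_pos h]
  exact h.choose_spec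

theorem charge_eq {n : ℕ} {L : Submodule F (V F)} (hL : IsLat n L) {c : ℤ} (h : HasCharge L c) :
    charge L = c := (charge_spec hL).unique h

theorem charge_tr {n : ℕ} {L : Submodule F (V F)} (hL : IsLat n L) (a : ℤ) :
    charge (tr n a L) = charge L + a * n := charge_eq (hL.tr a) ((charge_spec hL).tr n a)

theorem charge_le {n : ℕ} {L L' : Submodule F (V F)} (hL : IsLat n L) (hL' : IsLat n L')
    (h : L ≤ L') : charge L ≤ charge L' := charge_mono hL' h (charge_spec hL) (charge_spec hL')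

/-- normalisation: the representative of charge in `[0, n)` -/
noncomputable def nrm (n : ℕ) (L : Submodule F (V F)) : Submodule F (V F) :=
  tr n (-(charge L / n)) L

theorem IsLat.nrm {n : ℕ} {L : Submodule F (V F)} (hL : IsLat n L) : IsLat n (nrm n L) := hL.tr _

theorem charge_nrm {n : ℕ} (hn : 1 ≤ n) {L : Submodule F (V F)} (hL : IsLat n L) :
    0 ≤ charge (nrm n L) ∧ charge (nrm n L) < n := by
  have hn' : (0 : ℤ) < n := by exact_mod_cast hn
  rw [nrm, charge_tr hL]
  have h1 := Int.mul_ediv_add_emod (charge L) n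
  have h2 := Int.emod_nonneg (charge L) hn'.ne'
  have h3 := Int.emod_lt_of_pos (charge L) hn'
  have e : charge L + -(charge L / ↑n) * ↑n = charge L % n := by
    linear_combination -h1
  rw [e]
  exact ⟨h2, h3⟩

theorem nrm_of_mem {n : ℕ} (hn : 1 ≤ n) {L : Submodule F (V F)} (hL : IsLat n L)
    (h : ∃ c : ℤ, 0 ≤ c ∧ c < n ∧ HasCharge L c) : nrm n L = L := by
  obtain ⟨c, h0, h1, hc⟩ := h
  rw [nrm, charge_eq hL hc, Int.ediv_eq_zero_of_lt h0 h1, neg_zero, tr_zero]

theorem adj_symm {n : ℕ} {L L' : Submodule F (V F)} (h : Adj n L L') : Adj n L' L := Or.symm h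

theorem adj_refl {n : ℕ} {L : Submodule F (V F)} (h : IsLat n L) : Adj n L L :=
  Or.inl ⟨le_rfl, h.le_tr⟩

theorem adj_nrm {n : ℕ} (hn : 1 ≤ n) {L L' : Submodule F (V F)} (hL : IsLat n L) (hL' : IsLat n L')
    (h1 : L' ≤ L) (h2 : tr n (-1) L ≤ L') : Adj n (nrm n L) (nrm n L') := by
  have hn' : (0 : ℤ) < n := by exact_mod_cast hn
  have c1 := charge_le hL' hL h1
  have c2 := charge_le (hL.tr (-1)) hL' h2
  rw [charge_tr hL] at c2
  have q1 : charge L' / n ≤ charge L / n := Int.ediv_le_ediv hn' c1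
  have q2 : charge L / n - 1 ≤ charge L' / n := by
    have := Int.ediv_le_ediv hn' c2
    have e : (charge L + -1 * (n : ℤ)) / n = charge L / n - 1 := by
      rw [Int.add_mul_ediv_right _ _ hn'.ne']; ring
    rwa [e] at this
  have h2' : L ≤ tr n 1 L' := by
    have := (tr_le_iff n (-1)).1 h2
    simpa using this
  rcases eq_or_lt_of_le q1 with e | hlt
  · -- same translate
    right
    refine ⟨?_, ?_⟩
    · rw [nrm, nrm, e]; exact tr_mono n _ h1
    · rw [nrm, nrm, e, tr_tr, add_comm, ← tr_tr]; exact tr_mono n _ h2'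
  · have e : charge L' / n = charge L / n - 1 := by omega
    left
    refine ⟨?_, ?_⟩
    · rw [nrm, nrm, e]
      have := tr_mono n (-(charge L / n)) h2'
      rw [tr_tr] at this
      have e2 : -(charge L / (n : ℤ)) + 1 = -(charge L / n - 1) := by ring
      rwa [e2] at this
    · rw [nrm, nrm, e, tr_tr]
      have e2 : 1 + -(charge L / (n : ℤ)) = -(charge L / n - 1) := by ring
      rw [e2]
      exact tr_mono n _ h1

/-! ### acyclicity of the building -/

open Classical in
/-- The building is acyclic. -/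
theorem bcx_exact (n : ℕ) (hn : 1 ≤ n) (i : ℕ) : ExactAt (BCx F n) i := by
  intro z hz hbd
  have hz2 := mem_chains.1 hz
  -- a common bound for all lattices in `z`
  obtain ⟨N, hN⟩ : ∃ N : ℕ, ∀ s ∈ z.support, ∀ L ∈ s, L0 F (-(N : ℤ)) ≤ L ∧ L ≤ L0 F N := by
    have h1 : ∀ L ∈ z.support.biUnion id, ∃ N : ℕ, L0 F (-(N : ℤ)) ≤ L ∧ L ≤ L0 F N := by
      intro L hL
      obtain ⟨s, hs, hLs⟩ := Finset.mem_biUnion.1 hL
      exact ((hz2 s hs).1.1 L hLs).1.2
    choose! N hN using h1
    refine ⟨(z.support.biUnion id).sup N, fun s hs L hL => ?_⟩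
    have hL' : L ∈ z.support.biUnion id := Finset.mem_biUnion.2 ⟨s, hs, hL⟩
    have hle : N L ≤ (z.support.biUnion id).sup N := Finset.le_sup hL'
    obtain ⟨h2, h3⟩ := hN L hL'
    exact ⟨(L0_mono (by omega)).trans h2, h3.trans (L0_mono (by omega))⟩
  refine LP.exact_of_prisms (IsLat n) (fun L L' => L' ≤ L ∧ tr n (-1) L ≤ L') (nrm n) z ?_ hbd ?_
    (fun j L => L ⊔ L0 F (-(N : ℤ) + j)) (2 * N) (L0 F N) (isLat_L0 n _) ?_ ?_ ?_ ?_ ?_ ?_ ?_ ?_
  · -- admissible lists
    rw [LP.mem_AdmCh]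
    intro l hl
    obtain ⟨s, hs, rfl⟩ := LP.mem_support_slL hl
    obtain ⟨⟨h1, h2⟩, h3⟩ := hz2 s hs
    refine ⟨⟨fun L hL => (h1 L (LP.mem_sl.1 hL)).1, ?_⟩, by rw [LP.length_sl, h3]⟩
    refine (LP.sl_pairwise s).imp_of_mem ?_
    intro L L' hL hL' hd
    have hLs := LP.mem_sl.1 hL
    have hLs' := LP.mem_sl.1 hL'
    have h4 := h2 L hLs L' hLs'
    have h5 : L' ≤ L := LP.le_of_dec hd (by
      rcases h4 with h | h
      · exact Or.inl h.1
      · exact Or.inr h.1)
    refine ⟨h5, ?_⟩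
    rw [tr_le_iff, neg_neg]
    rcases h4 with h | h
    · have : L = L' := le_antisymm h.1 h5
      rw [← this]; exact (h1 L hLs).1.le_tr
    · exact h.2
  · intro s hs L hL
    have := (hz2 s hs).1.1 L hL
    exact nrm_of_mem hn this.1 this.2
  · exact ⟨le_rfl, (isLat_L0 n _).1⟩
  · intro s hs L hL
    have := (hN s hs L hL).1
    simpa using this
  · intro s hs L hL
    have := (hN s hs L hL).2
    have e : -(N : ℤ) + ((2 * N : ℕ) : ℤ) = N := by push_cast; ring
    simp only [e]
    exact sup_eq_right.2 this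
  · intro j L hL
    exact hL.sup_L0 _
  · rintro j L L' hL hL' ⟨h1, h2⟩
    refine ⟨sup_le_sup_right h1 _, ?_⟩
    rw [tr_sup, tr_L0]
    exact sup_le_sup h2 (L0_mono (by omega))
  · rintro j L L' hL hL' ⟨h1, h2⟩
    refine ⟨sup_le_sup h1 (L0_mono (by push_cast; omega)), ?_⟩
    rw [tr_sup, tr_L0]
    exact sup_le_sup h2 (L0_mono (by push_cast; omega))
  · intro j L hL
    refine ⟨sup_le_sup_left (L0_mono (by push_cast; omega)) _, ?_⟩
    rw [tr_sup, tr_L0]
    exact sup_le_sup hL.1 (L0_mono (by push_cast; omega))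
  · rintro l ⟨h1, h2⟩
    refine ⟨?_, ?_⟩
    · intro L hL
      rw [List.mem_toFinset] at hL
      obtain ⟨L₁, hL₁, rfl⟩ := List.mem_map.1 hL
      have h3 := h1 L₁ hL₁
      exact ⟨h3.nrm, charge (nrm n L₁), (charge_nrm hn h3).1, (charge_nrm hn h3).2,
        charge_spec h3.nrm⟩
    · intro L hL L' hL'
      rw [List.mem_toFinset] at hL hL'
      obtain ⟨L₁, hL₁, rfl⟩ := List.mem_map.1 hL
      obtain ⟨L₂, hL₂, rfl⟩ := List.mem_map.1 hL'
      have h3 : l.Pairwise (fun L L' => Adj n (nrm n L) (nrm n L')) := by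
        refine h2.imp_of_mem ?_
        rintro A B hA hB ⟨h4, h5⟩
        exact adj_nrm hn (h1 A hA) (h1 B hB) h4 h5
      by_cases e : L₁ = L₂
      · subst e; exact adj_refl (h1 L₁ hL₁).nrm
      · rw [List.pairwise_iff_getElem] at h3
        obtain ⟨a, ha, rfl⟩ := List.mem_iff_getElem.1 hL₁
        obtain ⟨b, hb, rfl⟩ := List.mem_iff_getElem.1 hL₂
        rcases lt_trichotomy a b with h | h | h
        · exact h3 a b ha hb h
        · subst h; exact absurd rfl e
        · exact adj_symm (h3 b a hb ha h)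

end Crest.Agent.R066.Lat
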