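import Crest.Agent.R066.Model
import Crest.Agent.R066.LatBase
import Crest.Agent.R066.LatAct4

/-! `Uplus` acts on the opposite complex, transitively on simplices of each type (task A3):
`XCx` is the coset complex of `(Uplus, HsubU)`. -/

set_option autoImplicit false
open scoped BigOperators

namespace Crest.Agent.R066

namespace LatA

open Crest.Agent.R066.Lat

variable {n p : ℕ} [NeZero n] [Fact p.Prime]

/-- The vertex map from cosets to lattices. -/
noncomputable def vmap (v : CosetVert (HsubU n p)) : Submodule (ZMod p) (V (ZMod p)) :=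
  gmap (v.2.out : ↥(Uplus n p)).1 (L0 (ZMod p) (v.1 : ℕ))

omit [Fact p.Prime] in
theorem mem_HsubU {j : Fin n} {g : ↥(Uplus n p)} : g ∈ HsubU n p j ↔ g.1 ∈ Hsub n p j := by
  unfold HsubU
  exact Subgroup.mem_subgroupOf

theorem vmap_mk (j : Fin n) (g : ↥(Uplus n p)) :
    vmap (⟨j, (g : ↥(Uplus n p) ⧸ HsubU n p j)⟩ : CosetVert (HsubU n p)) =
      gmap g.1 (L0 (ZMod p) (j : ℕ)) := by
  have hp : p.Prime := Fact.out
  unfold vmap
  obtain ⟨h, hh⟩ := QuotientGroup.mk_out_eq_mul (HsubU n p j) g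
  simp only [hh]
  rw [Subgroup.coe_mul, gmap_mul, gmap_Hsub hp (mem_HsubU.1 h.2)]

theorem vmap_inj {v w : CosetVert (HsubU n p)} (h : vmap v = vmap w) : v = w := by
  have hp : p.Prime := Fact.out
  obtain ⟨i, x⟩ := v
  obtain ⟨j, y⟩ := w
  obtain ⟨g, rfl⟩ := QuotientGroup.mk_surjective x
  obtain ⟨g', rfl⟩ := QuotientGroup.mk_surjective y
  rw [vmap_mk, vmap_mk] at h
  have h1 := isCompl_gmap g.2 (isCompl_L0_M (F := ZMod p) (i : ℕ))
  have h2 := isCompl_gmap g'.2 (isCompl_L0_M (F := ZMod p) (j : ℕ))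
  rw [h] at h1
  have hij := type_unique h1 h2
  have hij' : i = j := Fin.ext (by exact_mod_cast hij)
  subst hij'
  congr 1
  rw [QuotientGroup.eq, mem_HsubU]
  apply mem_Hsub_of_preserves hp (g⁻¹ * g').2
  have h3 := congrArg (gmap (g⁻¹).1) h
  rw [← gmap_mul, ← gmap_mul] at h3
  have e1 : (g⁻¹).1 * g.1 = (1 : SLX n p) := by
    rw [← Subgroup.coe_mul, inv_mul_cancel, Subgroup.coe_one]
  rw [e1, gmap_one] at h3
  rw [Subgroup.coe_mul, ← h3]

theorem adj_std {g : SLX n p} {i j : ℤ} (hij : i ≤ j) (hjn : j ≤ i + n) :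
    Adj n (gmap g (L0 (ZMod p) i)) (gmap g (L0 (ZMod p) j)) := by
  left
  refine ⟨gmap_mono g (L0_mono hij), ?_⟩
  rw [tr_gmap, tr_L0]
  exact gmap_mono g (L0_mono (by linarith))

open Classical in
theorem image_mem_XCx (s : Finset (CosetVert (HsubU n p))) (hs : s ∈ cosetCx (HsubU n p)) :
    s.image vmap ∈ XCx (ZMod p) n := by
  obtain ⟨g, hg⟩ := hs
  have h : ∀ v ∈ s, vmap v = gmap g.1 (L0 (ZMod p) (v.1 : ℕ)) := by
    intro v hv
    obtain ⟨j, x⟩ := v
    have := hg _ hv
    simp only at this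
    subst this
    exact vmap_mk j g
  refine ⟨⟨?_, ?_⟩, ?_⟩
  · intro L hL
    obtain ⟨v, hv, rfl⟩ := Finset.mem_image.1 hL
    rw [h v hv]
    refine ⟨isLat_gmap, (v.1 : ℕ), by positivity, by exact_mod_cast v.1.2, hasCharge_gmap g.2 _⟩
  · intro L hL L' hL'
    obtain ⟨v, hv, rfl⟩ := Finset.mem_image.1 hL
    obtain ⟨w, hw, rfl⟩ := Finset.mem_image.1 hL'
    rw [h v hv, h w hw]
    have hvn := v.1.2
    have hwn := w.1.2
    rcases le_total ((v.1 : ℕ) : ℤ) (w.1 : ℕ) with hle | hle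
    · exact adj_std hle (by omega)
    · exact Or.symm (adj_std hle (by omega))
  · intro L hL
    obtain ⟨v, hv, rfl⟩ := Finset.mem_image.1 hL
    rw [h v hv]
    exact ⟨(v.1 : ℕ), by positivity, by exact_mod_cast v.1.2,
      isCompl_gmap g.2 (isCompl_L0_M _)⟩

theorem eq_of_compl {L L' : Submodule (ZMod p) (V (ZMod p))} {c c' : ℤ} (hle : L' ≤ L)
    (hc : c ≤ c') (h : IsCompl L (M (ZMod p) c)) (h' : IsCompl L' (M (ZMod p) c')) : L = L' := by
  apply le_antisymm _ hle
  intro x hx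
  have h1 : x ∈ L' ⊔ M (ZMod p) c' := by rw [h'.sup_eq_top]; trivial
  obtain ⟨w, hw, y, hy, rfl⟩ := Submodule.mem_sup.1 h1
  have h2 : y ∈ L := by
    have := sub_mem hx (hle hw)
    simpa using this
  have h3 : y = 0 := by
    have := h.disjoint.le_bot ⟨h2, M_anti hc hy⟩
    simpa using this
  rw [h3, add_zero]; exact hw

open Classical in
theorem exists_coset (t : Finset (Submodule (ZMod p) (V (ZMod p)))) (ht : t ∈ XCx (ZMod p) n) :
    ∃ s ∈ cosetCx (HsubU n p), s.image vmap = t := by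
  obtain ⟨⟨hlat, hadj⟩, hopp⟩ := ht
  rcases t.eq_empty_or_nonempty with rfl | hne
  · exact ⟨∅, ⟨1, by simp⟩, by simp⟩
  have hnn : (0 : ℤ) < n := by exact_mod_cast Nat.pos_of_ne_zero (NeZero.ne n)
  choose! c hc0 hcn hc using hopp
  -- the lattice of a given type
  have hmono : ∀ L ∈ t, ∀ L' ∈ t, c L ≤ c L' → L ≤ L' := by
    intro L hL L' hL' hcc
    rcases hadj L hL L' hL' with h | h
    · exact h.1
    · exact (eq_of_compl h.1 hcc (hc L hL) (hc L' hL')).le
  have hup : ∀ L ∈ t, ∀ L' ∈ t, L ≤ tr n 1 L' := by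
    intro L hL L' hL'
    rcases hadj L hL L' hL' with h | h
    · have h1 := tr_mono n 1 (hlat L' hL').1.1
      rw [tr_tr, add_neg_cancel, tr_zero] at h1
      exact h.1.trans h1
    · exact h.2
  let S : Set ℤ := {r | ∃ L ∈ t, c L = r}
  have hSex : ∀ r ∈ S, ∃ L ∈ t, c L = r := fun r hr => hr
  choose! W₀ hW₀t hW₀c using hSex
  have hW₀ : ∀ L ∈ t, W₀ (c L) = L := by
    intro L hL
    have hr : c L ∈ S := ⟨L, hL, rfl⟩
    apply le_antisymm
    · exact hmono _ (hW₀t _ hr) _ hL (hW₀c _ hr).le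
    · exact hmono _ hL _ (hW₀t _ hr) (hW₀c _ hr).ge
  have hSb : ∀ r ∈ S, 0 ≤ r ∧ r < n := by
    rintro r ⟨L, hL, rfl⟩
    exact ⟨hc0 L hL, hcn L hL⟩
  let Pset : Set ℤ := {m | m % n ∈ S}
  let W : ℤ → Submodule (ZMod p) (V (ZMod p)) := fun m => tr n (m / n) (W₀ (m % n))
  have hPS : PSys n Pset W := by
    refine ⟨?_, ?_, ?_, ?_, ?_, ?_, ?_⟩
    · obtain ⟨L, hL⟩ := hne
      refine ⟨c L, ?_⟩
      change c L % n ∈ S
      rw [Int.emod_eq_of_lt (hc0 L hL) (hcn L hL)]
      exact ⟨L, hL, rfl⟩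
    · intro j hj
      change (j + n) % n ∈ S
      rw [Int.add_emod_right]; exact hj
    · intro j hj
      change (j - n) % n ∈ S
      rw [Int.sub_emod_right]; exact hj
    · intro j hj
      have h1 : IsCompl (W₀ (j % n)) (M (ZMod p) (j % n)) := by
        have := hc _ (hW₀t _ hj)
        rwa [hW₀c _ hj] at this
      have h2 : M (ZMod p) j = tr n (j / n) (M (ZMod p) (j % n)) := by
        rw [tr_M]; congr 1
        have := Int.emod_add_mul_ediv j n
        rw [mul_comm]; omega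
      rw [h2]
      exact (Submodule.orderIsoMapComap (Lat.shift (ZMod p) (j / n * n))).isCompl h1
    · intro i hi j hj hij
      change tr n (i / n) (W₀ (i % n)) ≤ tr n (j / n) (W₀ (j % n))
      have hi' := hSb _ hi
      have hj' := hSb _ hj
      have e1 := Int.emod_add_mul_ediv i n
      have e2 := Int.emod_add_mul_ediv j n
      have hq : i / n ≤ j / n := Int.ediv_le_ediv hnn hij
      rcases hq.eq_or_lt with h | h
      · rw [h]
        apply tr_mono
        apply hmono _ (hW₀t _ hi) _ (hW₀t _ hj)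
        rw [hW₀c _ hi, hW₀c _ hj]
        rw [h] at e1
        omega
      · have h3 : ∀ d : ℕ, W₀ (i % n) ≤ tr n (1 + d) (W₀ (j % n)) := by
          intro d
          induction d with
          | zero =>
            rw [Nat.cast_zero, add_zero]
            exact hup _ (hW₀t _ hi) _ (hW₀t _ hj)
          | succ d ih =>
            refine ih.trans ?_
            have h4 := tr_mono n (1 + d) (hup _ (hW₀t _ hj) _ (hW₀t _ hj))
            rw [tr_tr] at h4
            push_cast
            rwa [show (1 : ℤ) + (d + 1) = 1 + d + 1 by ring]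
        have h5 := tr_mono n (i / n) (h3 (j / n - i / n - 1).toNat)
        rw [tr_tr] at h5
        have e3 : i / n + (1 + ((j / n - i / n - 1).toNat : ℤ)) = j / n := by omega
        rwa [e3] at h5
    · intro j _
      change tr n ((j + n) / n) (W₀ ((j + n) % n)) = _
      rw [Int.add_emod_right, Int.add_ediv_of_dvd_right (dvd_refl _), Int.ediv_self hnn.ne']
      have : (tr n (j / n) (W₀ (j % n))).map (Lat.shift (ZMod p) n).toLinearMap =
          tr n 1 (tr n (j / n) (W₀ (j % n))) := by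
        unfold Lat.tr
        rw [one_mul]
      rw [this, tr_tr, add_comm]
    · intro j hj
      obtain ⟨N, hN, -⟩ := (hlat _ (hW₀t _ hj)).1.2
      refine ⟨-(N : ℤ) + (j / n) * n, ?_⟩
      rw [← tr_L0]
      exact tr_mono n _ hN
  obtain ⟨T, hbij, hsh, hT, hT', hTP⟩ := hPS.birkhoff
  obtain ⟨g, hg, hgT⟩ := exists_Uplus T hbij hsh hT hT'
  have hgT' : (actE g).toLinearMap = T := LinearMap.ext hgT
  have hgL : ∀ L ∈ t, gmap g (L0 (ZMod p) (c L)) = L := by
    intro L hL
    have h1 : c L ∈ Pset := by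
      change c L % n ∈ S
      rw [Int.emod_eq_of_lt (hc0 L hL) (hcn L hL)]
      exact ⟨L, hL, rfl⟩
    have h2 := hTP _ h1
    unfold gmap
    rw [hgT', h2]
    change tr n (c L / n) (W₀ (c L % n)) = L
    rw [Int.emod_eq_of_lt (hc0 L hL) (hcn L hL), Int.ediv_eq_zero_of_lt (hc0 L hL) (hcn L hL),
      tr_zero, hW₀ L hL]
  let vt : Submodule (ZMod p) (V (ZMod p)) → CosetVert (HsubU n p) := fun L =>
    ⟨Fin.ofNat n (c L).toNat, ((⟨g, hg⟩ : ↥(Uplus n p)) : ↥(Uplus n p) ⧸ HsubU n p _)⟩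
  refine ⟨t.image vt, ⟨⟨g, hg⟩, ?_⟩, ?_⟩
  · intro v hv
    obtain ⟨L, hL, rfl⟩ := Finset.mem_image.1 hv
    rfl
  · rw [Finset.image_image]
    conv_rhs => rw [← Finset.image_id (s := t)]
    refine Finset.image_congr fun L hL => ?_
    change vmap (vt L) = L
    rw [vmap_mk]
    have h1 : ((Fin.ofNat n (c L).toNat : ℕ) : ℤ) = c L := by
      have h2 : (c L).toNat < n := by
        have := hcn L hL; have := hc0 L hL; omega
      rw [Fin.ofNat_eq_cast, Fin.val_natCast, Nat.mod_eq_of_lt h2]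
      exact Int.toNat_of_nonneg (hc0 L hL)
    rw [h1]
    exact hgL L hL

end LatA

open Classical in
theorem coset_exact_of_xcx (n p : ℕ) [NeZero n] (hp : p.Prime) (m : ℕ)
    (h : haveI := Fact.mk hp; ExactAt (Lat.XCx (ZMod p) n) m) : ExactAt (cosetCx (HsubU n p)) m := by
  have := Fact.mk hp
  refine (exactAt_of_iso (K := cosetCx (HsubU n p)) (K' := Lat.XCx (ZMod p) n) LatA.vmap
    (fun s _ t _ v _ w _ hvw => LatA.vmap_inj hvw) ?_ ?_ m).2 h
  · intro s hs
    convert LatA.image_mem_XCx s hs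
  · intro t ht
    obtain ⟨s, hs, hst⟩ := LatA.exists_coset t ht
    refine ⟨s, hs, ?_⟩
    convert hst

end Crest.Agent.R066
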