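import Crest.Agent.R066.LatProf
import Crest.Agent.R066.ConeFill
import Crest.Agent.R066.Chain

/-! Task A2b: the generic link of a nonempty simplex of the building is highly acyclic
(it is isomorphic to `GenCx Fl Wl` in the quotient `tr 1 L⋆ / L⋆`, then `cone_exists`). -/

set_option autoImplicit false
set_option linter.unusedVariables false
open scoped BigOperators
open Module (finrank)

namespace Crest.Agent.R066.Lat.Lk

/-! ### Subquotients `T / A` -/
section Quot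

variable {F E : Type} [Field F] [AddCommGroup E] [Module F E]

theorem mem_so {A T : Submodule F E} {v : ↥T} : v ∈ A.submoduleOf T ↔ (v : E) ∈ A := Iff.rfl

/-- The quotient `T / A`. -/
abbrev QT (A T : Submodule F E) : Type := ↥T ⧸ (A.submoduleOf T)

/-- The image of `X ⊓ T` in `T / A`. -/
noncomputable def qm (A T X : Submodule F E) : Submodule F (QT A T) :=
  (X.submoduleOf T).map (A.submoduleOf T).mkQ

/-- The preimage of `W ≤ T / A`. -/
noncomputable def lft (A T : Submodule F E) (W : Submodule F (QT A T)) : Submodule F E :=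
  (W.comap (A.submoduleOf T).mkQ).map T.subtype

theorem mem_qm {A T X : Submodule F E} {q : QT A T} :
    q ∈ qm A T X ↔ ∃ v : ↥T, (v : E) ∈ X ∧ (A.submoduleOf T).mkQ v = q := by
  unfold qm
  rw [Submodule.mem_map]
  constructor
  · rintro ⟨v, hv, rfl⟩
    exact ⟨v, mem_so.mp hv, rfl⟩
  · rintro ⟨v, hv, rfl⟩
    exact ⟨v, mem_so.mpr hv, rfl⟩

theorem mkQ_mem_qm {A T X : Submodule F E} (hA : A ≤ X) (v : ↥T) :
    (A.submoduleOf T).mkQ v ∈ qm A T X ↔ (v : E) ∈ X := by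
  rw [mem_qm]
  constructor
  · rintro ⟨w, hw, h⟩
    rw [Submodule.mkQ_apply, Submodule.mkQ_apply, Submodule.Quotient.eq, mem_so] at h
    have h1 : (v : E) = (w : E) - ((w - v : ↥T) : E) := by
      rw [Submodule.coe_sub]; abel
    rw [h1]
    exact X.sub_mem hw (hA h)
  · intro h
    exact ⟨v, h, rfl⟩

theorem mem_lft {A T : Submodule F E} {W : Submodule F (QT A T)} {v : E} :
    v ∈ lft A T W ↔ ∃ h : v ∈ T, (A.submoduleOf T).mkQ ⟨v, h⟩ ∈ W := by
  unfold lft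
  rw [Submodule.mem_map]
  constructor
  · rintro ⟨v, hv, rfl⟩
    exact ⟨v.2, hv⟩
  · rintro ⟨h, hv⟩
    exact ⟨⟨v, h⟩, hv, rfl⟩

theorem lft_le (A T : Submodule F E) (W : Submodule F (QT A T)) : lft A T W ≤ T := by
  intro v hv
  rw [mem_lft] at hv
  exact hv.1

theorem le_lft {A T : Submodule F E} (hAT : A ≤ T) (W : Submodule F (QT A T)) : A ≤ lft A T W := by
  intro v hv
  rw [mem_lft]
  refine ⟨hAT hv, ?_⟩
  have : (A.submoduleOf T).mkQ ⟨v, hAT hv⟩ = 0 := by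
    rw [Submodule.mkQ_apply, Submodule.Quotient.mk_eq_zero, mem_so]
    exact hv
  rw [this]
  exact W.zero_mem

theorem qm_lft {A T : Submodule F E} (hAT : A ≤ T) (W : Submodule F (QT A T)) :
    qm A T (lft A T W) = W := by
  ext q
  obtain ⟨v, rfl⟩ := Submodule.mkQ_surjective _ q
  rw [mkQ_mem_qm (le_lft hAT W), mem_lft]
  constructor
  · rintro ⟨_, h⟩; exact h
  · intro h; exact ⟨v.2, h⟩

theorem lft_qm {A T X : Submodule F E} (hA : A ≤ X) (hX : X ≤ T) : lft A T (qm A T X) = X := by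
  ext v
  rw [mem_lft]
  constructor
  · rintro ⟨h, h1⟩
    exact (mkQ_mem_qm hA _).mp h1
  · intro h
    exact ⟨hX h, (mkQ_mem_qm hA _).mpr h⟩

theorem qm_mono {A T X Y : Submodule F E} (h : X ≤ Y) : qm A T X ≤ qm A T Y := by
  intro q hq
  rw [mem_qm] at hq ⊢
  obtain ⟨v, hv, rfl⟩ := hq
  exact ⟨v, h hv, rfl⟩

theorem qm_le_qm {A T X Y : Submodule F E} (hX : X ≤ T) (hY : A ≤ Y) :
    qm A T X ≤ qm A T Y ↔ X ≤ Y := by
  refine ⟨fun h v hv => ?_, qm_mono⟩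
  have h1 : (A.submoduleOf T).mkQ ⟨v, hX hv⟩ ∈ qm A T X := mem_qm.mpr ⟨⟨v, hX hv⟩, hv, rfl⟩
  exact (mkQ_mem_qm hY _).mp (h h1)

theorem qm_inj {A T X Y : Submodule F E} (hX : X ≤ T) (hY : Y ≤ T) (hX' : A ≤ X) (hY' : A ≤ Y)
    (h : qm A T X = qm A T Y) : X = Y :=
  le_antisymm ((qm_le_qm hX hY').mp h.le) ((qm_le_qm hY hX').mp h.ge)

theorem lft_mono {A T : Submodule F E} {W W' : Submodule F (QT A T)} (h : W ≤ W') :
    lft A T W ≤ lft A T W' := by
  intro v hv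
  rw [mem_lft] at hv ⊢
  exact ⟨hv.1, h hv.2⟩

theorem qm_bot (A T : Submodule F E) : qm A T A = ⊥ := by
  rw [eq_bot_iff]
  intro q hq
  rw [mem_qm] at hq
  obtain ⟨v, hv, rfl⟩ := hq
  rw [Submodule.mem_bot, Submodule.mkQ_apply, Submodule.Quotient.mk_eq_zero, mem_so]
  exact hv

theorem qm_top (A T : Submodule F E) : qm A T T = ⊤ := by
  rw [eq_top_iff]
  intro q _
  obtain ⟨v, rfl⟩ := Submodule.mkQ_surjective _ q
  rw [mem_qm]
  exact ⟨v, v.2, rfl⟩

theorem qm_inf {A T X : Submodule F E} (hA : A ≤ X) (Y : Submodule F E) :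
    qm A T Y ⊓ qm A T X = qm A T (X ⊓ Y) := by
  apply le_antisymm
  · intro q hq
    obtain ⟨h1, h2⟩ := Submodule.mem_inf.mp hq
    rw [mem_qm] at h1
    obtain ⟨v, hv, rfl⟩ := h1
    rw [mkQ_mem_qm hA] at h2
    exact mem_qm.mpr ⟨v, Submodule.mem_inf.mpr ⟨h2, hv⟩, rfl⟩
  · exact le_inf (qm_mono inf_le_right) (qm_mono inf_le_left)

theorem finrank_qm {A T Y : Submodule F E} (hY : Y ≤ T) [FiniteDimensional F ↥Y] :
    finrank F ↥(qm A T Y) + finrank F ↥(A ⊓ Y) = finrank F ↥Y := by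
  set f : ↥Y →ₗ[F] QT A T := (A.submoduleOf T).mkQ.comp (Submodule.inclusion hY) with hf
  have h1 : LinearMap.range f = qm A T Y := by
    ext q
    rw [LinearMap.mem_range, mem_qm]
    constructor
    · rintro ⟨v, rfl⟩
      exact ⟨⟨v, hY v.2⟩, v.2, rfl⟩
    · rintro ⟨v, hv, rfl⟩
      exact ⟨⟨v, hv⟩, rfl⟩
  have h2 : (LinearMap.ker f).map Y.subtype = A ⊓ Y := by
    ext v
    rw [Submodule.mem_map, Submodule.mem_inf]
    constructor
    · rintro ⟨w, hw, rfl⟩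
      rw [LinearMap.mem_ker, hf, LinearMap.comp_apply, Submodule.mkQ_apply,
        Submodule.Quotient.mk_eq_zero, mem_so] at hw
      exact ⟨hw, w.2⟩
    · rintro ⟨h, h'⟩
      refine ⟨⟨v, h'⟩, ?_, rfl⟩
      rw [LinearMap.mem_ker, hf, LinearMap.comp_apply, Submodule.mkQ_apply,
        Submodule.Quotient.mk_eq_zero, mem_so]
      exact h
  have h3 : finrank F ↥(A ⊓ Y) = finrank F ↥(LinearMap.ker f) := by
    rw [← h2]
    exact Submodule.finrank_map_subtype_eq _ _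
  have h4 := LinearMap.finrank_range_add_finrank_ker f
  rw [h1] at h4
  omega

theorem finite_of_qm {A T Y : Submodule F E} [FiniteDimensional F ↥(T ⊓ Y)] (h : qm A T Y = ⊤) :
    FiniteDimensional F (QT A T) := by
  set f : ↥(T ⊓ Y) →ₗ[F] QT A T :=
    (A.submoduleOf T).mkQ.comp (Submodule.inclusion (inf_le_left : T ⊓ Y ≤ T)) with hf
  have hs : Function.Surjective f := by
    intro q
    have hq : q ∈ qm A T Y := by rw [h]; trivial
    rw [mem_qm] at hq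
    obtain ⟨v, hv, rfl⟩ := hq
    exact ⟨⟨v, Submodule.mem_inf.mpr ⟨v.2, hv⟩⟩, rfl⟩
  exact Module.Finite.of_surjective f hs

end Quot

/-! ### Lattices between `Ls` and `tr n 1 Ls` -/
section LatFacts

variable {F : Type} [Field F]

theorem tr_le_tr_of_le {n : ℕ} {L : Submodule F (V F)} (h : IsLat n L) {m m' : ℤ} (hm : m ≤ m') :
    tr n m L ≤ tr n m' L := by
  obtain ⟨k, hk⟩ := Int.eq_ofNat_of_zero_le (show 0 ≤ m' - m by omega)
  obtain rfl : m' = m + k := by omega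
  clear hk hm
  induction k with
  | zero => simp
  | succ k ih =>
    refine ih.trans ?_
    have h1 := tr_mono n (m + ((k+1 : ℕ) : ℤ)) h.1
    rwa [tr_tr, show m + ((k+1:ℕ):ℤ) + -1 = m + k by push_cast; ring] at h1

theorem le_tr_one {n : ℕ} {L : Submodule F (V F)} (h : IsLat n L) : L ≤ tr n 1 L := by
  have := tr_le_tr_of_le h (show (0:ℤ) ≤ 1 by norm_num)
  rwa [tr_zero] at this

theorem tr_neg_one_tr_one {n : ℕ} (L : Submodule F (V F)) : tr n (-1) (tr n 1 L) = L := by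
  rw [tr_tr, neg_add_cancel, tr_zero]

theorem tr_one_tr_neg_one {n : ℕ} (L : Submodule F (V F)) : tr n 1 (tr n (-1) L) = L := by
  rw [tr_tr, add_neg_cancel, tr_zero]

theorem isLat_of_between {n : ℕ} {Ls X : Submodule F (V F)} (h : IsLat n Ls) (h1 : Ls ≤ X)
    (h2 : X ≤ tr n 1 Ls) : IsLat n X := by
  refine ⟨?_, ?_⟩
  · calc tr n (-1) X ≤ tr n (-1) (tr n 1 Ls) := tr_mono _ _ h2
      _ = Ls := tr_neg_one_tr_one Ls
      _ ≤ X := h1
  · obtain ⟨_, N', _, hN'⟩ := h.tr 1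
    obtain ⟨_, N, hN, _⟩ := h
    refine ⟨max N N', (L0_mono ?_).trans (hN.trans h1), (h2.trans hN').trans (L0_mono ?_)⟩
    · have : (N : ℤ) ≤ ((max N N' : ℕ) : ℤ) := by exact_mod_cast le_max_left _ _
      omega
    · exact_mod_cast le_max_right _ _

theorem finrank_qm_inf {n : ℕ} {Ls T X : Submodule F (V F)} (hT : IsLat n T) (h1 : Ls ≤ X)
    (h2 : X ≤ T) (i : ℤ) :
    finrank F ↥(qm Ls T (M F i) ⊓ qm Ls T X) + D Ls i = D X i := by
  rw [qm_inf h1]
  have hfin : FiniteDimensional F ↥(X ⊓ M F i) := by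
    have := hT.finite i
    exact Submodule.finiteDimensional_of_le (inf_le_inf_right (M F i) h2)
  have := finrank_qm (A := Ls) (T := T) (Y := X ⊓ M F i) (inf_le_left.trans h2)
  have e : Ls ⊓ (X ⊓ M F i) = Ls ⊓ M F i := by rw [← inf_assoc, inf_eq_left.mpr h1]
  rw [e] at this
  exact this

theorem qm_M_top {Ls T : Submodule F (V F)} {i : ℤ} (h : L0 F i ≤ Ls) (hLT : Ls ≤ T) :
    qm Ls T (M F i) = ⊤ := by
  rw [eq_top_iff]
  intro q _
  obtain ⟨v, rfl⟩ := Submodule.mkQ_surjective _ q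
  have : (v : V F) ∈ L0 F i ⊔ M F i := by rw [(isCompl_L0_M i).sup_eq_top]; trivial
  obtain ⟨a, ha, b, hb, hab⟩ := Submodule.mem_sup.mp this
  have hb1 : b = v - a := by rw [← hab]; abel
  have hb' : b ∈ T := by rw [hb1]; exact T.sub_mem v.2 (hLT (h ha))
  rw [mem_qm]
  refine ⟨⟨b, hb'⟩, hb, ?_⟩
  rw [Submodule.mkQ_apply, Submodule.mkQ_apply, Submodule.Quotient.eq, mem_so]
  have : ((⟨b, hb'⟩ - v : ↥T) : V F) = -a := by
    rw [Submodule.coe_sub]
    show b - (v : V F) = -a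
    rw [hb1]; abel
  rw [this]
  exact Ls.neg_mem (h ha)

theorem finrank_qm_charge {n : ℕ} {Ls T X : Submodule F (V F)} (hLs : IsLat n Ls) (hT : IsLat n T)
    (h1 : Ls ≤ X) (h2 : X ≤ T) {c c' : ℤ} (hc : HasCharge Ls c) (hc' : HasCharge X c') :
    (finrank F ↥(qm Ls T X) : ℤ) = c' - c := by
  obtain ⟨N1, hN1⟩ := hc
  obtain ⟨N2, hN2⟩ := hc'
  obtain ⟨_, N3, hN3, _⟩ := hLs
  set i : ℤ := min (min N1 N2) (-(N3 : ℤ)) with hi
  have e1 := hN1 i (by omega)
  have e2 := hN2 i (by omega)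
  have e3 : qm Ls T (M F i) = ⊤ := qm_M_top ((L0_mono (by omega)).trans hN3) (h1.trans h2)
  have e4 := finrank_qm_inf hT h1 h2 i
  rw [e3, top_inf_eq] at e4
  omega

theorem finite_QT {n : ℕ} {Ls T : Submodule F (V F)} (hLs : IsLat n Ls) (hT : IsLat n T)
    (hLT : Ls ≤ T) : FiniteDimensional F (QT Ls T) := by
  obtain ⟨_, N, hN, _⟩ := hLs
  have h1 := qm_M_top (T := T) hN hLT
  have hfin := hT.finite (-(N : ℤ))
  exact finite_of_qm (Y := M F (-(N : ℤ))) h1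

/-! ### The flag -/

/-- The flag induced by the filtration `M` on `T / Ls`. -/
noncomputable def flg (Ls T : Submodule F (V F)) (u : ℕ) : Submodule F (QT Ls T) :=
  ⨆ (i : ℤ) (_ : finrank F ↥(qm Ls T (M F i)) ≤ u), qm Ls T (M F i)

theorem flg_mono (Ls T : Submodule F (V F)) : Monotone (flg Ls T) := by
  intro u v huv
  unfold flg
  exact iSup_mono fun i => iSup_mono' fun h => ⟨h.trans huv, le_rfl⟩

theorem finrank_M {n : ℕ} {Ls T : Submodule F (V F)} (hT : IsLat n T) (hLT : Ls ≤ T) (i : ℤ) :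
    finrank F ↥(qm Ls T (M F i)) + D Ls i = D T i := by
  have := finrank_qm_inf hT hLT le_rfl i
  rwa [qm_top, inf_top_eq] at this

theorem flg_eq {n : ℕ} {Ls T : Submodule F (V F)} (hLs : IsLat n Ls) (hT : IsLat n T) (hLT : Ls ≤ T)
    (i : ℤ) : flg Ls T (finrank F ↥(qm Ls T (M F i))) = qm Ls T (M F i) := by
  have := finite_QT hLs hT hLT
  apply le_antisymm
  · refine iSup₂_le fun j hj => ?_
    rcases le_total i j with h | h
    · exact qm_mono (M_anti h)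
    · have h1 : qm Ls T (M F i) ≤ qm Ls T (M F j) := qm_mono (M_anti h)
      exact (Submodule.eq_of_le_of_finrank_le h1 hj).ge
  · exact le_iSup₂_of_le i le_rfl le_rfl

theorem exists_M_finrank {n : ℕ} {Ls T : Submodule F (V F)} (hLs : IsLat n Ls) (hT : IsLat n T)
    (hLT : Ls ≤ T) {N : ℕ} (hN : finrank F (QT Ls T) = N) {u : ℕ} (hu : u ≤ N) :
    ∃ i : ℤ, finrank F ↥(qm Ls T (M F i)) = u := by
  obtain ⟨_, N0, hN0, _⟩ := id hLs
  obtain ⟨N1, hN1⟩ := hT.le_L0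
  obtain ⟨N2, hN2⟩ := hLs.le_L0
  have key : ∀ k : ℕ, u ≤ finrank F ↥(qm Ls T (M F (N1 - k))) →
      ∃ i : ℤ, finrank F ↥(qm Ls T (M F i)) = u := by
    intro k
    induction k with
    | zero =>
      intro h
      refine ⟨N1, ?_⟩
      have h1 := finrank_M hT hLT N1
      rw [D_zero hN1 le_rfl] at h1
      have e0 : N1 - ((0 : ℕ) : ℤ) = N1 := by simp
      rw [e0] at h
      omega
    | succ k ih =>
      intro h
      by_cases h' : u ≤ finrank F ↥(qm Ls T (M F (N1 - k)))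
      · exact ih h'
      · refine ⟨N1 - ((k + 1 : ℕ) : ℤ), ?_⟩
        push Not at h'
        have h1 := finrank_M hT hLT (N1 - k)
        have h2 := finrank_M hT hLT (N1 - ((k + 1 : ℕ) : ℤ))
        have h3 := D_le_succ hN1 (N1 - ((k + 1 : ℕ) : ℤ))
        have h4 := D_succ_le hN2 (N1 - ((k + 1 : ℕ) : ℤ))
        have e : N1 - ((k + 1 : ℕ) : ℤ) + 1 = N1 - k := by push_cast; ring
        rw [e] at h3 h4
        omega
  have htop : ∀ i : ℤ, i ≤ -(N0 : ℤ) → finrank F ↥(qm Ls T (M F i)) = N := by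
    intro i hi
    rw [qm_M_top ((L0_mono hi).trans hN0) hLT, finrank_top, hN]
  obtain ⟨k, hk⟩ : ∃ k : ℕ, N1 - (k : ℤ) ≤ -(N0 : ℤ) :=
    ⟨(N1 + N0).toNat, by have := Int.self_le_toNat (N1 + N0); omega⟩
  exact key k (by rw [htop _ hk]; exact hu)

theorem finrank_flg {n : ℕ} {Ls T : Submodule F (V F)} (hLs : IsLat n Ls) (hT : IsLat n T)
    (hLT : Ls ≤ T) {N : ℕ} (hN : finrank F (QT Ls T) = N) {u : ℕ} (hu : u ≤ N) :
    finrank F ↥(flg Ls T u) = u := by
  obtain ⟨i, hi⟩ := exists_M_finrank hLs hT hLT hN hu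
  have := flg_eq hLs hT hLT i
  rw [hi] at this
  rw [this, hi]

theorem flg_exists {n : ℕ} {Ls T : Submodule F (V F)} (hLs : IsLat n Ls) (hT : IsLat n T)
    (hLT : Ls ≤ T) (u : ℕ) : ∃ i : ℤ, flg Ls T u = qm Ls T (M F i) := by
  rcases le_total u (finrank F (QT Ls T)) with h | h
  · obtain ⟨i, hi⟩ := exists_M_finrank hLs hT hLT rfl h
    exact ⟨i, by rw [← hi]; exact flg_eq hLs hT hLT i⟩
  · obtain ⟨_, N0, hN0, _⟩ := id hLs
    have h1 := qm_M_top (T := T) hN0 hLT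
    refine ⟨-(N0 : ℤ), ?_⟩
    rw [h1, eq_top_iff, ← h1]
    exact le_iSup₂_of_le (-(N0 : ℤ)) (by rw [h1, finrank_top]; exact h) le_rfl

/-- Genericity in terms of the dimension functions. -/
theorem gen_iff {n : ℕ} {Ls T A B W : Submodule F (V F)} (hLs : IsLat n Ls) (hT : IsLat n T)
    (h0 : Ls ≤ A) (h1 : A ≤ W) (h2 : W ≤ B) (h3 : B ≤ T) {c b w : ℤ} (hc : HasCharge Ls c)
    (hb : HasCharge B b) (hw : HasCharge W w) :
    Gen (flg Ls T) (qm Ls T A) (qm Ls T B) (qm Ls T W) ↔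
      ∀ i : ℤ, (D W i : ℤ) = max (D A i : ℤ) (D B i - (b - w)) := by
  have hLW := h0.trans h1
  have hLB := hLW.trans h2
  have hWT := h2.trans h3
  have hAT := h1.trans hWT
  have hLT := h0.trans hAT
  have eB := finrank_qm_charge hLs hT hLB h3 hc hb
  have eW := finrank_qm_charge hLs hT hLW hWT hc hw
  have hfin := finite_QT hLs hT hLT
  have hBW : finrank F ↥(qm Ls T W) ≤ finrank F ↥(qm Ls T B) := Submodule.finrank_mono (qm_mono h2)
  have key : ∀ i : ℤ, (finrank F ↥(qm Ls T (M F i) ⊓ qm Ls T W) =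
      max (finrank F ↥(qm Ls T (M F i) ⊓ qm Ls T A))
        (finrank F ↥(qm Ls T (M F i) ⊓ qm Ls T B) - (finrank F ↥(qm Ls T B) - finrank F ↥(qm Ls T W)))) ↔
      (D W i : ℤ) = max (D A i : ℤ) (D B i - (b - w)) := by
    intro i
    have e1 := finrank_qm_inf hT hLW hWT i
    have e2 := finrank_qm_inf hT h0 hAT i
    have e3 := finrank_qm_inf hT hLB h3 i
    omega
  unfold Gen
  constructor
  · rintro ⟨_, _, h⟩ i
    rw [← key]
    have := h (finrank F ↥(qm Ls T (M F i)))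
    rwa [flg_eq hLs hT hLT i] at this
  · intro h
    refine ⟨qm_mono h1, qm_mono h2, fun u => ?_⟩
    obtain ⟨i, hi⟩ := flg_exists hLs hT hLT u
    rw [hi, key]
    exact h i

/-! ### Profiles -/

theorem PP_shift {n : ℕ} {σ : Finset (Submodule F (V F))} {j i : ℤ} {r : ℕ} :
    PP n σ (j + n) (i + n) r ↔ PP n σ j i r := by
  unfold PP
  rw [show j + (n : ℤ) - (i + n) = j - i by ring]
  refine or_congr Iff.rfl (exists_congr fun L => and_congr Iff.rfl (exists_congr fun c => ?_))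
  constructor
  · rintro ⟨m, h1, h2⟩
    refine ⟨m - 1, h1, ?_⟩
    have e : D (tr n m L) (i + n) = D (tr n (m - 1) L) i := by
      rw [D_tr', D_tr']; congr 1; ring
    rw [e] at h2
    rwa [show c + (m - 1) * (n : ℤ) - j = c + m * n - (j + n) by ring]
  · rintro ⟨m, h1, h2⟩
    refine ⟨m + 1, h1, ?_⟩
    have e : D (tr n (m + 1) L) (i + n) = D (tr n m L) i := by
      rw [D_tr', D_tr']; congr 1; ring
    rw [e]
    rwa [show c + (m + 1) * (n : ℤ) - (j + n) = c + m * n - j by ring]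

theorem prof_shift {n : ℕ} {σ : Finset (Submodule F (V F))} {L : Submodule F (V F)} {c : ℤ} :
    (∀ (i : ℤ) (r : ℕ), (r ≤ D (tr n 1 L) i ↔ PP n σ (c + n) i r)) ↔
      ∀ (i : ℤ) (r : ℕ), (r ≤ D L i ↔ PP n σ c i r) := by
  constructor
  · intro h i r
    have := h (i + n) r
    rw [PP_shift] at this
    rw [← this]
    have e := D_tr n 1 i L
    rw [one_mul] at e
    rw [e]
  · intro h i r
    have := h (i - n) r
    have e2 : PP n σ (c + n) i r ↔ PP n σ c (i - n) r := by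
      rw [← PP_shift (j := c) (i := i - n), sub_add_cancel]
    rw [e2, ← this]
    have e := D_tr' n 1 i L
    rw [one_mul] at e
    rw [e]

theorem PP_iff {n : ℕ} {σ : Finset (Submodule F (V F))} {Ls : Submodule F (V F)} (hLs : Ls ∈ σ)
    (hlat : ∀ X ∈ σ, IsLat n X) (hbt : ∀ X ∈ σ, Ls ≤ X ∧ X ≤ tr n 1 Ls) {A B : Submodule F (V F)}
    (hA : A ∈ σ ∨ A = tr n 1 Ls) (hB : B ∈ σ ∨ B = tr n 1 Ls)
    (hnb : ∀ X, X ∈ σ ∨ X = tr n 1 Ls → X ≤ A ∨ B ≤ X)
    {a b w : ℤ} (ha : HasCharge A a) (hb : HasCharge B b) (haw : a ≤ w) (hwb : w ≤ b) (i : ℤ) (r : ℕ) :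
    PP n σ w i r ↔ r ≤ D A i ∨ (r : ℤ) + (b - w) ≤ D B i := by
  have hLsT : Ls ≤ tr n 1 Ls := le_tr_one (hlat Ls hLs)
  have hbt' : ∀ X, X ∈ σ ∨ X = tr n 1 Ls → Ls ≤ X ∧ X ≤ tr n 1 Ls := by
    rintro X (h | rfl)
    · exact hbt X h
    · exact ⟨hLsT, le_rfl⟩
  have hlat' : ∀ X, X ∈ σ ∨ X = tr n 1 Ls → IsLat n X := by
    rintro X (h | rfl)
    · exact hlat X h
    · exact (hlat Ls hLs).tr 1
  have hmem : ∀ X, X ∈ σ ∨ X = tr n 1 Ls → ∀ x, HasCharge X x →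
      ∃ L ∈ σ, ∃ c m : ℤ, HasCharge L c ∧ x = c + m * n ∧ X = tr n m L := by
    rintro X (h | rfl) x hx
    · exact ⟨X, h, x, 0, hx, by ring, (tr_zero n X).symm⟩
    · obtain ⟨c, hc⟩ := (hlat Ls hLs).hasCharge
      refine ⟨Ls, hLs, c, 1, hc, ?_, rfl⟩
      exact hx.unique (hc.tr n 1)
  unfold PP
  constructor
  · rintro (h | ⟨L, hL, c, m, hc, h⟩)
    · by_cases hr : (r : ℤ) ≤ 0
      · left; omega
      · right
        have := charge_le_D (hlat' B hB) hb i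
        omega
    · have hX : tr n m L ≤ A ∨ B ≤ tr n m L := by
        rcases lt_trichotomy m 0 with hm | rfl | hm
        · left
          calc tr n m L ≤ tr n (-1) L := tr_le_tr_of_le (hlat L hL) (by omega)
            _ ≤ tr n (-1) (tr n 1 Ls) := tr_mono _ _ (hbt L hL).2
            _ = Ls := tr_neg_one_tr_one Ls
            _ ≤ A := (hbt' A hA).1
        · rw [tr_zero]; exact hnb L (Or.inl hL)
        · right
          calc B ≤ tr n 1 Ls := (hbt' B hB).2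
            _ ≤ tr n 1 L := tr_mono _ _ (hbt L hL).1
            _ ≤ tr n m L := tr_le_tr_of_le (hlat L hL) (by omega)
      rcases hX with hX | hX
      · left
        have := D_mono (hlat' A hA) hX i
        have h0 : (0 : ℤ) ≤ max (c + m * n - w) 0 := le_max_right _ _
        omega
      · right
        have h1 := D_diff_le (hlat' B hB) ((hlat L hL).tr m) hX hb (hc.tr n m) i
        have h0 : c + m * n - w ≤ max (c + m * n - w) 0 := le_max_left _ _
        generalize c + m * (n : ℤ) = x at *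
        omega
  · rintro (h | h)
    · right
      obtain ⟨L, hL, c, m, hc, hx, rfl⟩ := hmem A hA a ha
      refine ⟨L, hL, c, m, hc, ?_⟩
      rw [← hx]
      omega
    · right
      obtain ⟨L, hL, c, m, hc, hx, rfl⟩ := hmem B hB b hb
      refine ⟨L, hL, c, m, hc, ?_⟩
      rw [← hx]
      omega

/-- The main translation: genericity of `W` in its gap of the periodic chain. -/
theorem prof_iff {n : ℕ} {σ : Finset (Submodule F (V F))} {Ls : Submodule F (V F)} (hLs : Ls ∈ σ)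
    (hlat : ∀ X ∈ σ, IsLat n X) (hbt : ∀ X ∈ σ, Ls ≤ X ∧ X ≤ tr n 1 Ls) {A B W : Submodule F (V F)}
    (hA : A ∈ σ ∨ A = tr n 1 Ls) (hB : B ∈ σ ∨ B = tr n 1 Ls)
    (hnb : ∀ X, X ∈ σ ∨ X = tr n 1 Ls → X ≤ A ∨ B ≤ X)
    {w : ℤ} (hw : HasCharge W w) (hAW : A ≤ W) (hWB : W ≤ B) :
    Gen (flg Ls (tr n 1 Ls)) (qm Ls (tr n 1 Ls) A) (qm Ls (tr n 1 Ls) B) (qm Ls (tr n 1 Ls) W) ↔
      ∀ (i : ℤ) (r : ℕ), (r ≤ D W i ↔ PP n σ w i r) := by
  have hLsT : Ls ≤ tr n 1 Ls := le_tr_one (hlat Ls hLs)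
  have hbt' : ∀ X, X ∈ σ ∨ X = tr n 1 Ls → Ls ≤ X ∧ X ≤ tr n 1 Ls := by
    rintro X (h | rfl)
    · exact hbt X h
    · exact ⟨hLsT, le_rfl⟩
  have hlat' : ∀ X, X ∈ σ ∨ X = tr n 1 Ls → IsLat n X := by
    rintro X (h | rfl)
    · exact hlat X h
    · exact (hlat Ls hLs).tr 1
  have hWlat : IsLat n W := isLat_of_between (hlat Ls hLs) ((hbt' A hA).1.trans hAW) (hWB.trans (hbt' B hB).2)
  obtain ⟨c, hc⟩ := (hlat Ls hLs).hasCharge
  obtain ⟨a, ha⟩ := (hlat' A hA).hasCharge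
  obtain ⟨b, hb⟩ := (hlat' B hB).hasCharge
  have haw := charge_mono hWlat hAW ha hw
  have hwb := charge_mono (hlat' B hB) hWB hw hb
  rw [gen_iff (hlat Ls hLs) ((hlat Ls hLs).tr 1) (hbt' A hA).1 hAW hWB (hbt' B hB).2 hc hb hw]
  constructor
  · intro h i r
    rw [PP_iff hLs hlat hbt hA hB hnb ha hb haw hwb i r]
    have := h i
    omega
  · intro h i
    have h1 := fun r => (h i r).trans (PP_iff hLs hlat hbt hA hB hnb ha hb haw hwb i r)
    have h2 := (h1 (D W i)).mp le_rfl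
    have h3 := (h1 (D A i)).mpr (Or.inl le_rfl)
    have h4 : (D B i : ℤ) - (b - w) ≤ D W i := by
      by_cases h5 : 0 ≤ (D B i : ℤ) - (b - w)
      · have h6 := (h1 ((D B i : ℤ) - (b - w)).toNat).mpr (Or.inr (by omega))
        omega
      · omega
    omega

/-! ### Walls -/

open Classical in
/-- The walls: the images of the vertices of `σ` and of `tr n 1 Ls`. -/
noncomputable def Wls (n : ℕ) (σ : Finset (Submodule F (V F))) (Ls : Submodule F (V F)) :
    Finset (Submodule F (QT Ls (tr n 1 Ls))) :=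
  (insert (tr n 1 Ls) σ).image (qm Ls (tr n 1 Ls))

theorem mem_Wls {n : ℕ} {σ : Finset (Submodule F (V F))} {Ls : Submodule F (V F)}
    {X : Submodule F (QT Ls (tr n 1 Ls))} :
    X ∈ Wls n σ Ls ↔ ∃ Y, (Y ∈ σ ∨ Y = tr n 1 Ls) ∧ qm Ls (tr n 1 Ls) Y = X := by
  unfold Wls
  rw [Finset.mem_image]
  refine exists_congr fun Y => and_congr ?_ Iff.rfl
  rw [Finset.mem_insert]
  exact or_comm

theorem gap_iff {n : ℕ} {σ : Finset (Submodule F (V F))} {Ls : Submodule F (V F)} (hLs : Ls ∈ σ)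
    (hlat : ∀ X ∈ σ, IsLat n X) (hbt : ∀ X ∈ σ, Ls ≤ X ∧ X ≤ tr n 1 Ls)
    (hch : ∀ X ∈ σ, ∀ Y ∈ σ, X ≤ Y ∨ Y ≤ X)
    {W : Submodule F (V F)} {w : ℤ} (hw : HasCharge W w) (h1 : Ls ≤ W) (h2 : W ≤ tr n 1 Ls)
    (hcomp : ∀ X ∈ σ, X ≤ W ∨ W ≤ X) (hWσ : W ∉ σ) (hWT : W ≠ tr n 1 Ls) :
    (∃ A ∈ Wls n σ Ls, ∃ B ∈ Wls n σ Ls, A < qm Ls (tr n 1 Ls) W ∧ qm Ls (tr n 1 Ls) W < B ∧
       (∀ X ∈ Wls n σ Ls, X ≤ A ∨ B ≤ X) ∧
        Gen (flg Ls (tr n 1 Ls)) A B (qm Ls (tr n 1 Ls) W)) ↔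
    ∀ (i : ℤ) (r : ℕ), (r ≤ D W i ↔ PP n σ w i r) := by
  classical
  have hLsT : Ls ≤ tr n 1 Ls := le_tr_one (hlat Ls hLs)
  have hbt' : ∀ X, X ∈ σ ∨ X = tr n 1 Ls → Ls ≤ X ∧ X ≤ tr n 1 Ls := by
    rintro X (h | rfl)
    · exact hbt X h
    · exact ⟨hLsT, le_rfl⟩
  have hch' : ∀ X, X ∈ σ ∨ X = tr n 1 Ls → ∀ Y, Y ∈ σ ∨ Y = tr n 1 Ls → X ≤ Y ∨ Y ≤ X := by
    rintro X (h | rfl) Y (h' | rfl)
    · exact hch X h Y h'
    · exact Or.inl (hbt X h).2
    · exact Or.inr (hbt Y h').2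
    · exact Or.inl le_rfl
  have hcomp' : ∀ X, X ∈ σ ∨ X = tr n 1 Ls → X ≤ W ∨ W ≤ X := by
    rintro X (h | rfl)
    · exact hcomp X h
    · exact Or.inr h2
  have hne' : ∀ X, X ∈ σ ∨ X = tr n 1 Ls → X ≠ W := by
    rintro X (h | rfl) rfl
    · exact hWσ h
    · exact hWT rfl
  constructor
  · rintro ⟨A0, hA0, B0, hB0, hAW, hWB, hnb, hgen⟩
    obtain ⟨A, hA, rfl⟩ := mem_Wls.mp hA0
    obtain ⟨B, hB, rfl⟩ := mem_Wls.mp hB0
    refine (prof_iff hLs hlat hbt hA hB ?_ hw ?_ ?_).mp hgen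
    · intro X hX
      rcases hnb _ (mem_Wls.mpr ⟨X, hX, rfl⟩) with h | h
      · exact Or.inl ((qm_le_qm (hbt' X hX).2 (hbt' A hA).1).mp h)
      · exact Or.inr ((qm_le_qm (hbt' B hB).2 (hbt' X hX).1).mp h)
    · exact (qm_le_qm (hbt' A hA).2 h1).mp hAW.le
    · exact (qm_le_qm h2 (hbt' B hB).1).mp hWB.le
  · intro h
    obtain ⟨A, hA⟩ : ∃ A, Maximal (· ∈ (insert (tr n 1 Ls) σ).filter (· ≤ W)) A := by
      apply Finset.exists_maximal
      exact ⟨Ls, Finset.mem_filter.mpr ⟨Finset.mem_insert_of_mem hLs, h1⟩⟩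
    obtain ⟨B, hB⟩ : ∃ B, Minimal (· ∈ (insert (tr n 1 Ls) σ).filter (W ≤ ·)) B := by
      apply Finset.exists_minimal
      exact ⟨tr n 1 Ls, Finset.mem_filter.mpr ⟨Finset.mem_insert_self _ _, h2⟩⟩
    obtain ⟨hA1, hA2⟩ := hA
    obtain ⟨hB1, hB2⟩ := hB
    simp only [Finset.mem_filter, Finset.mem_insert] at hA1 hA2 hB1 hB2
    have hA3 : A ∈ σ ∨ A = tr n 1 Ls := hA1.1.symm
    have hB3 : B ∈ σ ∨ B = tr n 1 Ls := hB1.1.symm
    have hnb : ∀ X, X ∈ σ ∨ X = tr n 1 Ls → X ≤ A ∨ B ≤ X := by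
      intro X hX
      rcases hcomp' X hX with hXW | hXW
      · left
        rcases hch' X hX A hA3 with h' | h'
        · exact h'
        · exact hA2 ⟨hX.symm, hXW⟩ h'
      · right
        rcases hch' X hX B hB3 with h' | h'
        · exact hB2 ⟨hX.symm, hXW⟩ h'
        · exact h'
    refine ⟨_, mem_Wls.mpr ⟨A, hA3, rfl⟩, _, mem_Wls.mpr ⟨B, hB3, rfl⟩, ?_, ?_, ?_, ?_⟩
    · refine lt_of_le_of_ne (qm_mono hA1.2) fun e => ?_
      exact hne' A hA3 (qm_inj (hbt' A hA3).2 h2 (hbt' A hA3).1 h1 e)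
    · refine lt_of_le_of_ne (qm_mono hB1.2) fun e => ?_
      exact hne' B hB3 (qm_inj (hbt' B hB3).2 h2 (hbt' B hB3).1 h1 e.symm)
    · intro X0 hX0
      obtain ⟨X, hX, rfl⟩ := mem_Wls.mp hX0
      rcases hnb X hX with h' | h'
      · exact Or.inl (qm_mono h')
      · exact Or.inr (qm_mono h')
    · exact (prof_iff hLs hlat hbt hA3 hB3 hnb hw hA1.2 hB1.2).mpr h

/-! ### The normalised representative above `Ls` -/

theorem adj_le {n : ℕ} {X Y : Submodule F (V F)} (hX : IsLat n X) (hY : IsLat n Y) (h : Adj n X Y)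
    {x y : ℤ} (hx : HasCharge X x) (hy : HasCharge Y y) (hxy : x ≤ y) : X ≤ Y ∧ Y ≤ tr n 1 X := by
  rcases h with h | ⟨h1, h2⟩
  · exact h
  · have := eq_of_le_of_charge hY hX h1 hy hx hxy
    subst this
    exact ⟨le_rfl, le_tr_one hX⟩

theorem Adj.symm {n : ℕ} {X Y : Submodule F (V F)} (h : Adj n X Y) : Adj n Y X := Or.symm h

open Classical in
/-- The representative of `L` between `Ls` and `tr n 1 Ls`. -/
noncomputable def up (n : ℕ) (Ls L : Submodule F (V F)) : Submodule F (V F) :=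
  if Ls ≤ L then L else tr n 1 L

theorem up_spec {n : ℕ} {Ls L : Submodule F (V F)} (hLs : IsLat n Ls) (hL : IsLat n L)
    (h : Adj n Ls L) {c l : ℤ} (hc : HasCharge Ls c) (hl : HasCharge L l) :
    (c ≤ l ∧ Ls ≤ L ∧ L ≤ tr n 1 Ls ∧ up n Ls L = L) ∨
    (l < c ∧ Ls ≤ tr n 1 L ∧ tr n 1 L ≤ tr n 1 Ls ∧ up n Ls L = tr n 1 L) := by
  rcases le_or_gt c l with hcl | hcl
  · left
    obtain ⟨h1, h2⟩ := adj_le hLs hL h hc hl hcl
    exact ⟨hcl, h1, h2, if_pos h1⟩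
  · right
    obtain ⟨h1, h2⟩ := adj_le hL hLs h.symm hl hc hcl.le
    refine ⟨hcl, h2, tr_mono _ _ h1, if_neg fun h3 => ?_⟩
    have := charge_mono hL h3 hc hl
    omega

theorem up_between {n : ℕ} {Ls L : Submodule F (V F)} (hLs : IsLat n Ls) (hL : IsLat n L)
    (h : Adj n Ls L) {c l : ℤ} (hc : HasCharge Ls c) (hl : HasCharge L l) :
    Ls ≤ up n Ls L ∧ up n Ls L ≤ tr n 1 Ls := by
  rcases up_spec hLs hL h hc hl with ⟨_, h1, h2, e⟩ | ⟨_, h1, h2, e⟩ <;> rw [e] <;> exact ⟨h1, h2⟩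

theorem up_comp {n : ℕ} {Ls L L' : Submodule F (V F)} (hLs : IsLat n Ls) (hL : IsLat n L)
    (hL' : IsLat n L') (h : Adj n Ls L) (h' : Adj n Ls L') (h'' : Adj n L L') {c l l' : ℤ}
    (hc : HasCharge Ls c) (hl : HasCharge L l) (hl' : HasCharge L' l') :
    up n Ls L ≤ up n Ls L' ∨ up n Ls L' ≤ up n Ls L := by
  rcases up_spec hLs hL h hc hl with ⟨a1, h1, h2, e⟩ | ⟨a1, h1, h2, e⟩ <;>
    rcases up_spec hLs hL' h' hc hl' with ⟨a2, h3, h4, e'⟩ | ⟨a2, h3, h4, e'⟩ <;> rw [e, e']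
  · rcases h'' with h'' | h''
    · exact Or.inl h''.1
    · exact Or.inr h''.1
  · exact Or.inl (adj_le hL' hL h''.symm hl' hl (by omega)).2
  · exact Or.inr (adj_le hL hL' h'' hl hl' (by omega)).2
  · rcases h'' with h'' | h''
    · exact Or.inl (tr_mono _ _ h''.1)
    · exact Or.inr (tr_mono _ _ h''.1)

open Classical in
/-- Inverse normalisation: the representative with charge in `[0, n)`. -/
noncomputable def dn (n : ℕ) (W : Submodule F (V F)) : Submodule F (V F) :=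
  if ∃ w : ℤ, HasCharge W w ∧ w < n then W else tr n (-1) W

theorem dn_spec {n : ℕ} {W : Submodule F (V F)} {w : ℤ} (hw : HasCharge W w) :
    (w < n ∧ dn n W = W) ∨ ((n : ℤ) ≤ w ∧ dn n W = tr n (-1) W) := by
  rcases lt_or_ge w n with h | h
  · exact Or.inl ⟨h, if_pos ⟨w, hw, h⟩⟩
  · refine Or.inr ⟨h, if_neg ?_⟩
    rintro ⟨w', hw', h'⟩
    have := hw.unique hw'
    omega

theorem dn_adj {n : ℕ} {Ls X Y : Submodule F (V F)} (hYl : IsLat n Y) (hX : Ls ≤ X)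
    (hY : Y ≤ tr n 1 Ls) (h : X ≤ Y) {x y : ℤ} (hx : HasCharge X x) (hy : HasCharge Y y) :
    Adj n (dn n X) (dn n Y) := by
  have hXY : Y ≤ tr n 1 X := hY.trans (tr_mono _ _ hX)
  have hxy := charge_mono hYl h hx hy
  rcases dn_spec (n := n) hx with ⟨a1, e1⟩ | ⟨a1, e1⟩ <;>
    rcases dn_spec (n := n) hy with ⟨a2, e2⟩ | ⟨a2, e2⟩ <;> rw [e1, e2]
  · exact Or.inl ⟨h, hXY⟩
  · refine Or.inr ⟨?_, ?_⟩
    · have := tr_mono n (-1) hXY
      rwa [tr_neg_one_tr_one] at this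
    · rwa [tr_one_tr_neg_one]
  · omega
  · refine Or.inl ⟨tr_mono _ _ h, ?_⟩
    have := tr_mono n (-1) hXY
    rw [tr_neg_one_tr_one] at this
    rwa [tr_one_tr_neg_one]

/-! ### Bookkeeping -/

theorem charge_range {n : ℕ} {s : Finset (Submodule F (V F))} (hs : s ∈ BCx F n) {L : Submodule F (V F)}
    (hL : L ∈ s) {l : ℤ} (hl : HasCharge L l) : 0 ≤ l ∧ l < n := by
  obtain ⟨_, c, h1, h2, h3⟩ := hs.1 L hL
  have := hl.unique h3
  omega

/-- A vertex of the link (simplex side). -/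
theorem mem_gen_of_link {n : ℕ} {σ : Finset (Submodule F (V F))} {Ls : Submodule F (V F)} {c : ℤ}
    (hLs : Ls ∈ σ) (hc : HasCharge Ls c) (hmin : ∀ X ∈ σ, ∀ x, HasCharge X x → c ≤ x)
    {τ : Finset (Submodule F (V F))} (hτ : τ ∈ BCx F n) (hστ : σ ⊆ τ) {L : Submodule F (V F)}
    (hL : L ∈ τ) (hLσ : L ∉ σ)
    (hprof : ∀ c : ℤ, HasCharge L c → ∀ (i : ℤ) (r : ℕ), (r ≤ D L i ↔ PP n σ c i r)) :
    (∃ A ∈ Wls n σ Ls, ∃ B ∈ Wls n σ Ls, A < qm Ls (tr n 1 Ls) (up n Ls L) ∧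
       qm Ls (tr n 1 Ls) (up n Ls L) < B ∧
       (∀ X ∈ Wls n σ Ls, X ≤ A ∨ B ≤ X) ∧
        Gen (flg Ls (tr n 1 Ls)) A B (qm Ls (tr n 1 Ls) (up n Ls L))) := by
  have hlatτ : ∀ X ∈ τ, IsLat n X := fun X hX => (hτ.1 X hX).1
  have hlat : ∀ X ∈ σ, IsLat n X := fun X hX => hlatτ X (hστ hX)
  have hLsl := hlat Ls hLs
  have hLl := hlatτ L hL
  obtain ⟨l, hl⟩ := hLl.hasCharge
  have hcr := charge_range hτ (hστ hLs) hc
  have hlr := charge_range hτ hL hl
  have hbt : ∀ X ∈ σ, Ls ≤ X ∧ X ≤ tr n 1 Ls := by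
    intro X hX
    obtain ⟨x, hx⟩ := (hlat X hX).hasCharge
    exact adj_le hLsl (hlat X hX) (hτ.2 _ (hστ hLs) _ (hστ hX)) hc hx (hmin X hX x hx)
  have hch : ∀ X ∈ σ, ∀ Y ∈ σ, X ≤ Y ∨ Y ≤ X := by
    intro X hX Y hY
    rcases hτ.2 _ (hστ hX) _ (hστ hY) with h | h
    · exact Or.inl h.1
    · exact Or.inr h.1
  have hadj := hτ.2 _ (hστ hLs) _ hL
  have hb := up_between hLsl hLl hadj hc hl
  have hcomp : ∀ X ∈ σ, X ≤ up n Ls L ∨ up n Ls L ≤ X := by
    intro X hX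
    obtain ⟨x, hx⟩ := (hlat X hX).hasCharge
    have hX' := hτ.2 _ (hστ hLs) _ (hστ hX)
    have e : up n Ls X = X := if_pos (hbt X hX).1
    have := up_comp hLsl (hlat X hX) hLl hX' hadj (hτ.2 _ (hστ hX) _ hL) hc hx hl
    rwa [e] at this
  have hTc : HasCharge (tr n 1 Ls) (c + n) := by
    have := hc.tr n 1
    rwa [one_mul] at this
  have hTL : HasCharge (tr n 1 L) (l + n) := by
    have := hl.tr n 1
    rwa [one_mul] at this
  rcases up_spec hLsl hLl hadj hc hl with ⟨a1, h1, h2, e⟩ | ⟨a1, h1, h2, e⟩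
  · refine (gap_iff hLs hlat hbt hch (by rw [e]; exact hl) hb.1 hb.2 hcomp ?_ ?_).mpr ?_
    · rw [e]; exact hLσ
    · rw [e]
      rintro rfl
      have := hl.unique hTc
      omega
    · rw [e]; exact hprof l hl
  · refine (gap_iff hLs hlat hbt hch (w := l + n) (by rw [e]; exact hTL) hb.1 hb.2 hcomp ?_ ?_).mpr ?_
    · rw [e]
      intro h
      have := charge_range hτ (hστ h) hTL
      omega
    · rw [e]
      intro h
      rw [h] at hTL
      have := hTL.unique hTc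
      omega
    · rw [e]; exact prof_shift.mpr (hprof l hl)

end LatFacts

end Crest.Agent.R066.Lat.Lk

namespace Crest.Agent.R066.Lat

open Lk

open Classical in
theorem link_exact (n : ℕ) (hn : 1 ≤ n) : ∃ q₀ : ℕ, ∀ (F : Type) [Field F] [Fintype F],
    q₀ ≤ Fintype.card F → ∀ σ ∈ BCx F n, σ.Nonempty → ∀ i, i + σ.card + 1 ≤ n →
      ExactAt (LinkC F n σ) i := by
  obtain ⟨R, q0, H⟩ := cone_exists n
  refine ⟨q0, fun F _ _ hq σ hσ hne i hi => ?_⟩
  -- the vertex of smallest charge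
  have hlat : ∀ X ∈ σ, IsLat n X := fun X hX => (hσ.1 X hX).1
  have hch0 : ∀ X ∈ σ, ∃ c : ℤ, HasCharge X c := fun X hX => (hlat X hX).hasCharge
  choose! ch hch1 using hch0
  obtain ⟨Ls, hLs, hmin0⟩ := Finset.exists_min_image σ ch hne
  have hc := hch1 Ls hLs
  set c := ch Ls with hcdef
  have hmin : ∀ X ∈ σ, ∀ x, HasCharge X x → c ≤ x := by
    intro X hX x hx
    rw [hx.unique (hch1 X hX)]
    exact hmin0 X hX
  have hLsl := hlat Ls hLs
  have hcr := charge_range hσ hLs hc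
  have hLsT : Ls ≤ tr n 1 Ls := le_tr_one hLsl
  have hTl : IsLat n (tr n 1 Ls) := hLsl.tr 1
  have hTc : HasCharge (tr n 1 Ls) (c + n) := by
    have := hc.tr n 1
    rwa [one_mul] at this
  have hbt : ∀ X ∈ σ, Ls ≤ X ∧ X ≤ tr n 1 Ls := by
    intro X hX
    obtain ⟨x, hx⟩ := (hlat X hX).hasCharge
    exact adj_le hLsl (hlat X hX) (hσ.2 _ hLs _ hX) hc hx (hmin X hX x hx)
  have hbt' : ∀ X, X ∈ σ ∨ X = tr n 1 Ls → Ls ≤ X ∧ X ≤ tr n 1 Ls := by
    rintro X (h | rfl)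
    · exact hbt X h
    · exact ⟨hLsT, le_rfl⟩
  have hch : ∀ X ∈ σ, ∀ Y ∈ σ, X ≤ Y ∨ Y ≤ X := by
    intro X hX Y hY
    rcases hσ.2 _ hX _ hY with h | h
    · exact Or.inl h.1
    · exact Or.inr h.1
  have hfin : FiniteDimensional F (QT Ls (tr n 1 Ls)) := finite_QT hLsl hTl hLsT
  have hrank : finrank F (QT Ls (tr n 1 Ls)) = n := by
    have h1 := finrank_qm_charge hLsl hTl hLsT le_rfl hc hTc
    rw [qm_top, finrank_top] at h1
    omega
  have hTσ : tr n 1 Ls ∉ σ := by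
    intro h
    have := charge_range hσ h hTc
    omega
  have hcard : (Wls n σ Ls).card = σ.card + 1 := by
    unfold Wls
    rw [Finset.card_image_of_injOn, Finset.card_insert_of_notMem hTσ]
    intro X hX Y hY e
    have hX' : X ∈ σ ∨ X = tr n 1 Ls := by
      rw [Finset.mem_coe, Finset.mem_insert] at hX; exact hX.symm
    have hY' : Y ∈ σ ∨ Y = tr n 1 Ls := by
      rw [Finset.mem_coe, Finset.mem_insert] at hY; exact hY.symm
    exact qm_inj (hbt' X hX').2 (hbt' Y hY').2 (hbt' X hX').1 (hbt' Y hY').1 e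
  obtain ⟨κ, hκ⟩ := H F hq (QT Ls (tr n 1 Ls)) hrank (flg Ls (tr n 1 Ls)) (flg_mono _ _)
    (fun u hu => finrank_flg hLsl hTl hLsT hrank hu) (Wls n σ Ls)
    (mem_Wls.mpr ⟨Ls, Or.inl hLs, qm_bot _ _⟩) (mem_Wls.mpr ⟨_, Or.inr rfl, qm_top _ _⟩) (by
      intro A0 hA0 B0 hB0
      obtain ⟨A, hA, rfl⟩ := mem_Wls.mp hA0
      obtain ⟨B, hB, rfl⟩ := mem_Wls.mp hB0
      have : A ≤ B ∨ B ≤ A := by
        rcases hA with hA | rfl <;> rcases hB with hB | rfl
        · exact hch A hA B hB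
        · exact Or.inl (hbt A hA).2
        · exact Or.inr (hbt B hB).2
        · exact Or.inl le_rfl
      exact this.imp qm_mono qm_mono)
  have hGex : ExactAt (GenCx (flg Ls (tr n 1 Ls)) (Wls n σ Ls)) i := by
    refine exactAt_of_coneOp ?_ i κ ?_
    · intro s hs t ht
      exact ⟨fun W hW => hs.1 W (ht hW), fun W hW W' hW' => hs.2 W (ht hW) W' (ht hW')⟩
    · intro s hs hsi
      have := hκ s hs (by rw [hcard]; omega)
      exact ⟨this.1, this.2.1⟩
  refine (exactAt_of_iso (fun L => qm Ls (tr n 1 Ls) (up n Ls L)) ?_ ?_ ?_ i).mpr hGex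
  · -- injectivity
    rintro s hs t ht L hL L' hL' e
    have hsB := hs.2.1
    have htB := ht.2.1
    have hLs1 : L ∈ s ∪ σ := Finset.mem_union_left _ hL
    have hLs2 : L' ∈ t ∪ σ := Finset.mem_union_left _ hL'
    have hLl := (hsB.1 L hLs1).1
    have hLl' := (htB.1 L' hLs2).1
    obtain ⟨l, hl⟩ := hLl.hasCharge
    obtain ⟨l', hl'⟩ := hLl'.hasCharge
    have hr := charge_range hsB hLs1 hl
    have hr' := charge_range htB hLs2 hl'
    have hadj := hsB.2 Ls (Finset.mem_union_right _ hLs) L hLs1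
    have hadj' := htB.2 Ls (Finset.mem_union_right _ hLs) L' hLs2
    have hb := up_between hLsl hLl hadj hc hl
    have hb' := up_between hLsl hLl' hadj' hc hl'
    have e2 : up n Ls L = up n Ls L' := qm_inj hb.2 hb'.2 hb.1 hb'.1 e
    have hTL : HasCharge (tr n 1 L) (l + n) := by
      have := hl.tr n 1
      rwa [one_mul] at this
    have hTL' : HasCharge (tr n 1 L') (l' + n) := by
      have := hl'.tr n 1
      rwa [one_mul] at this
    rcases up_spec hLsl hLl hadj hc hl with ⟨a1, _, _, e3⟩ | ⟨a1, _, _, e3⟩ <;>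
      rcases up_spec hLsl hLl' hadj' hc hl' with ⟨a2, _, _, e4⟩ | ⟨a2, _, _, e4⟩ <;>
      rw [e3, e4] at e2
    · exact e2
    · rw [← e2] at hTL'
      have := hl.unique hTL'
      omega
    · rw [e2] at hTL
      have := hl'.unique hTL
      omega
    · exact tr_injective n 1 e2
  · -- image
    intro s hs
    have hsB := hs.2.1
    constructor
    · intro W hW
      obtain ⟨L, hL, rfl⟩ := Finset.mem_image.mp hW
      exact mem_gen_of_link hLs hc hmin hsB Finset.subset_union_right (Finset.mem_union_left _ hL)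
        (Finset.disjoint_left.mp hs.1 hL) (hs.2.2 L hL)
    · intro W hW W' hW'
      obtain ⟨L, hL, rfl⟩ := Finset.mem_image.mp hW
      obtain ⟨L', hL', rfl⟩ := Finset.mem_image.mp hW'
      have h1 : L ∈ s ∪ σ := Finset.mem_union_left _ hL
      have h2 : L' ∈ s ∪ σ := Finset.mem_union_left _ hL'
      have h3 : Ls ∈ s ∪ σ := Finset.mem_union_right _ hLs
      obtain ⟨l, hl⟩ := (hsB.1 L h1).1.hasCharge
      obtain ⟨l', hl'⟩ := (hsB.1 L' h2).1.hasCharge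
      exact (up_comp hLsl (hsB.1 L h1).1 (hsB.1 L' h2).1 (hsB.2 _ h3 _ h1) (hsB.2 _ h3 _ h2)
        (hsB.2 _ h1 _ h2) hc hl hl').imp qm_mono qm_mono
  · -- surjectivity
    intro t ht
    set ψ : Submodule F (QT Ls (tr n 1 Ls)) → Submodule F (V F) :=
      fun W => dn n (lft Ls (tr n 1 Ls) W) with hψ
    -- facts about one subspace
    have hW1 : ∀ W ∈ t, ∃ w : ℤ, HasCharge (lft Ls (tr n 1 Ls) W) w ∧ c ≤ w ∧ w < c + n ∧
        IsLat n (lft Ls (tr n 1 Ls) W) := by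
      intro W hW
      have hl1 := le_lft hLsT W
      have hl2 := lft_le Ls (tr n 1 Ls) W
      have hlW : IsLat n (lft Ls (tr n 1 Ls) W) := isLat_of_between hLsl hl1 hl2
      obtain ⟨w, hw⟩ := hlW.hasCharge
      refine ⟨w, hw, charge_mono hlW hl1 hc hw, ?_, hlW⟩
      obtain ⟨A, hA, B, hB, hAW, hWB, -, -⟩ := ht.1 W hW
      by_contra hcon
      push Not at hcon
      have h4 := eq_of_le_of_charge hlW hTl hl2 hw hTc hcon
      have h5 : W = ⊤ := by rw [← qm_lft hLsT W, h4, qm_top]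
      rw [h5] at hWB
      exact not_top_lt hWB
    have hφψ : ∀ W ∈ t, qm Ls (tr n 1 Ls) (up n Ls (ψ W)) = W := by
      intro W hW
      obtain ⟨w, hw, h1, h2, hlW⟩ := hW1 W hW
      rcases dn_spec (n := n) hw with ⟨a1, e1⟩ | ⟨a1, e1⟩
      · have : up n Ls (ψ W) = lft Ls (tr n 1 Ls) W := by
          show up n Ls (dn n _) = _
          rw [e1]
          exact if_pos (le_lft hLsT W)
        rw [this, qm_lft hLsT]
      · have : up n Ls (ψ W) = lft Ls (tr n 1 Ls) W := by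
          show up n Ls (dn n _) = _
          rw [e1]
          have h3 : ¬ Ls ≤ tr n (-1) (lft Ls (tr n 1 Ls) W) := by
            intro h3
            have := charge_mono (hlW.tr (-1)) h3 hc (hw.tr n (-1))
            omega
          unfold up
          rw [if_neg h3, tr_one_tr_neg_one]
        rw [this, qm_lft hLsT]
    have himg : (t.image ψ).image (fun L => qm Ls (tr n 1 Ls) (up n Ls L)) = t := by
      rw [Finset.image_image]
      conv_rhs => rw [← Finset.image_id (s := t)]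
      exact Finset.image_congr fun W hW => hφψ W hW
    -- membership of a wall
    have hwall : ∀ X ∈ σ, qm Ls (tr n 1 Ls) X ∉ t := by
      intro X hX h
      obtain ⟨A, hA, B, hB, hAW, hWB, hnb, -⟩ := ht.1 _ h
      rcases hnb _ (mem_Wls.mpr ⟨X, Or.inl hX, rfl⟩) with h' | h'
      · exact absurd hAW (not_lt_of_ge h')
      · exact absurd hWB (not_lt_of_ge h')
    have hcompW : ∀ W ∈ t, ∀ X, X ∈ σ ∨ X = tr n 1 Ls →
        X ≤ lft Ls (tr n 1 Ls) W ∨ lft Ls (tr n 1 Ls) W ≤ X := by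
      intro W hW X hX
      obtain ⟨A, hA, B, hB, hAW, hWB, hnb, -⟩ := ht.1 _ hW
      rcases hnb _ (mem_Wls.mpr ⟨X, hX, rfl⟩) with h' | h'
      · left
        rw [← qm_le_qm (hbt' X hX).2 (le_lft hLsT W), qm_lft hLsT]
        exact h'.trans hAW.le
      · right
        rw [← qm_le_qm (lft_le Ls (tr n 1 Ls) W) (hbt' X hX).1, qm_lft hLsT]
        exact hWB.le.trans h'
    have hdnσ : ∀ X ∈ σ, dn n X = X := by
      intro X hX
      have := charge_range hσ hX (hch1 X hX)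
      rcases dn_spec (n := n) (hch1 X hX) with ⟨_, e⟩ | ⟨h, _⟩
      · exact e
      · omega
    refine ⟨t.image ψ, ⟨?_, ⟨?_, ?_⟩, ?_⟩, himg⟩
    · -- disjoint
      rw [Finset.disjoint_left]
      intro L hL hLσ
      obtain ⟨W, hW, rfl⟩ := Finset.mem_image.mp hL
      have h1 := hφψ W hW
      have e : up n Ls (ψ W) = ψ W := if_pos (hbt _ hLσ).1
      rw [e] at h1
      apply hwall _ hLσ
      rw [h1]
      exact hW
    · intro L hL
      rcases Finset.mem_union.mp hL with hL | hL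
      · obtain ⟨W, hW, rfl⟩ := Finset.mem_image.mp hL
        obtain ⟨w, hw, h1, h2, hlW⟩ := hW1 W hW
        rcases dn_spec (n := n) hw with ⟨a1, e1⟩ | ⟨a1, e1⟩
        · show IsLat n (dn n _) ∧ ∃ c, _ ∧ _ ∧ HasCharge (dn n _) c
          rw [e1]
          exact ⟨hlW, w, by omega, a1, hw⟩
        · show IsLat n (dn n _) ∧ ∃ c, _ ∧ _ ∧ HasCharge (dn n _) c
          rw [e1]
          exact ⟨hlW.tr (-1), w + -1 * n, by omega, by omega, hw.tr n (-1)⟩
      · exact hσ.1 L hL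
    · -- adjacency
      have hall : ∀ L ∈ t.image ψ ∪ σ, ∃ X, Ls ≤ X ∧ X ≤ tr n 1 Ls ∧ IsLat n X ∧ dn n X = L ∧
          (X ∈ σ ∨ ∃ W ∈ t, X = lft Ls (tr n 1 Ls) W) := by
        intro L hL
        rcases Finset.mem_union.mp hL with hL | hL
        · obtain ⟨W, hW, rfl⟩ := Finset.mem_image.mp hL
          obtain ⟨w, hw, h1, h2, hlW⟩ := hW1 W hW
          exact ⟨_, le_lft hLsT W, lft_le _ _ W, hlW, rfl, Or.inr ⟨W, hW, rfl⟩⟩
        · exact ⟨L, (hbt L hL).1, (hbt L hL).2, hlat L hL, hdnσ L hL, Or.inl hL⟩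
      intro L hL L' hL'
      obtain ⟨X, h1, h2, h3, rfl, h4⟩ := hall L hL
      obtain ⟨Y, k1, k2, k3, rfl, k4⟩ := hall L' hL'
      have hXY : X ≤ Y ∨ Y ≤ X := by
        rcases h4 with h4 | ⟨W, hW, rfl⟩ <;> rcases k4 with k4 | ⟨W', hW', rfl⟩
        · exact hch X h4 Y k4
        · exact hcompW W' hW' X (Or.inl h4)
        · exact (hcompW W hW Y (Or.inl k4)).symm
        · exact (ht.2 W hW W' hW').imp lft_mono lft_mono
      obtain ⟨x, hx⟩ := h3.hasCharge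
      obtain ⟨y, hy⟩ := k3.hasCharge
      rcases hXY with h | h
      · exact dn_adj k3 h1 k2 h hx hy
      · exact Adj.symm (dn_adj h3 k1 h2 h hy hx)
    · -- profiles
      intro L hL l hl
      obtain ⟨W, hW, rfl⟩ := Finset.mem_image.mp hL
      obtain ⟨w, hw, h1, h2, hlW⟩ := hW1 W hW
      have hgap := (gap_iff hLs hlat hbt hch hw (le_lft hLsT W) (lft_le _ _ W)
        (fun X hX => hcompW W hW X (Or.inl hX))
        (fun h => hwall _ h (by rw [qm_lft hLsT]; exact hW))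
        (fun h => by rw [h] at hw; have := hw.unique hTc; omega)).mp
        (by rw [qm_lft hLsT]; exact ht.1 W hW)
      rcases dn_spec (n := n) hw with ⟨a1, e1⟩ | ⟨a1, e1⟩
      · have e2 : ψ W = lft Ls (tr n 1 Ls) W := e1
        rw [e2] at hl ⊢
        rw [hl.unique hw]
        exact hgap
      · have e2 : ψ W = tr n (-1) (lft Ls (tr n 1 Ls) W) := e1
        rw [e2] at hl ⊢
        rw [← prof_shift, tr_one_tr_neg_one]
        have := hl.unique (hw.tr n (-1))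
        rw [show l + (n : ℤ) = w by omega]
        exact hgap

end Crest.Agent.R066.Lat
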