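import Crest.Agent.R066.LatBase
import Crest.Agent.R066.LatLink
import Crest.Agent.R066.Morse

/-! The opposite complex is highly acyclic (task A2). -/

set_option autoImplicit false
open scoped BigOperators
open Module (finrank)

namespace Crest.Agent.R066.Lat

variable {F : Type} [Field F]

theorem isCx_BCx (n : ℕ) : IsCx (BCx F n) := by
  intro s hs t ht
  exact ⟨fun L hL => hs.1 L (ht hL), fun L hL L' hL' => hs.2 L (ht hL) L' (ht hL')⟩

theorem isCx_XCx (n : ℕ) : IsCx (XCx F n) := by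
  intro s hs t ht
  exact ⟨isCx_BCx n s hs.1 t ht, fun L hL => hs.2 L (ht hL)⟩

open Classical in
/-- The critical face. -/
noncomputable def crit (n : ℕ) (τ : Finset (Submodule F (V F))) : Finset (Submodule F (V F)) :=
  τ.filter (fun L => ∃ c : ℤ, HasCharge L c ∧ Desc n τ c)

theorem mem_crit {n : ℕ} {τ : Finset (Submodule F (V F))} {L : Submodule F (V F)} :
    L ∈ crit n τ ↔ L ∈ τ ∧ ∃ c : ℤ, HasCharge L c ∧ Desc n τ c := by
  classical
  unfold crit
  rw [Finset.mem_filter]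

theorem crit_subset (n : ℕ) (τ : Finset (Submodule F (V F))) : crit n τ ⊆ τ := by
  intro L hL
  exact (mem_crit.mp hL).1

/-- The set counted by the height. -/
def badSet (n : ℕ) (τ : Finset (Submodule F (V F))) : Set (ℤ × ℤ × ℕ) :=
  {x | 0 ≤ x.1 ∧ x.1 < n ∧ PP n τ x.1 x.2.1 x.2.2 ∧ max (x.1 - x.2.1) 0 < (x.2.2 : ℤ)}

/-- The height. -/
noncomputable def ht (n : ℕ) (τ : Finset (Submodule F (V F))) : ℕ := (badSet n τ).ncard

theorem badSet_finite {n : ℕ} {τ : Finset (Submodule F (V F))} (hτ : τ ∈ BCx F n) : (badSet n τ).Finite := by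
  obtain ⟨B, hB⟩ := PP_bound (n := n) (σ := τ) (fun L hL => (hτ.1 L hL).1)
  refine Set.Finite.subset (((Set.finite_Ico (0 : ℤ) n).prod
    ((Set.finite_Icc (-(B : ℤ)) (n + B)).prod (Set.finite_Iic B)))) ?_
  rintro ⟨j, i, r⟩ ⟨h1, h2, h3, h4⟩
  obtain ⟨h5, h6⟩ := hB _ _ _ h3 h4
  simp only at h1 h2 h3 h4 h5 h6
  rw [abs_le] at h6
  refine ⟨⟨h1, h2⟩, ⟨?_, ?_⟩, ?_⟩
  · simp only; omega
  · simp only; omega
  · simp only [Set.mem_Iic]; exact_mod_cast h5

/-- All descents of `τ` come from the critical face. -/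
theorem desc_crit {n : ℕ} {τ : Finset (Submodule F (V F))} {j : ℤ} (h : Desc n τ j) :
    ∃ L ∈ crit n τ, ∃ c m : ℤ, HasCharge L c ∧ j = c + m * n := by
  obtain ⟨L, hL, c, m, hc, rfl⟩ := h.charge
  refine ⟨L, mem_crit.mpr ⟨hL, c, hc, ?_⟩, c, m, hc, rfl⟩
  have := h.period (-m)
  rwa [show c + m * (n : ℤ) + -m * n = c by ring] at this

theorem PP_congr_of_crit {n : ℕ} {τ τ' : Finset (Submodule F (V F))} (hτ : τ ∈ BCx F n)
    (h1 : crit n τ ⊆ τ') (h2 : τ' ⊆ τ) (j i : ℤ) (r : ℕ) : PP n τ' j i r ↔ PP n τ j i r := by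
  refine ⟨fun h => h.mono h2, fun h => PP_of_desc hτ h2 (fun j hj => ?_) h⟩
  obtain ⟨L, hL, c, m, hc, hj'⟩ := desc_crit hj
  exact ⟨L, h1 hL, c, m, hc, hj'⟩

theorem Desc_congr {n : ℕ} {τ τ' : Finset (Submodule F (V F))}
    (h : ∀ (j i : ℤ) (r : ℕ), PP n τ' j i r ↔ PP n τ j i r) (j : ℤ) : Desc n τ' j ↔ Desc n τ j := by
  unfold Desc
  simp only [h]

theorem ht_congr {n : ℕ} {τ τ' : Finset (Submodule F (V F))}
    (h : ∀ (j i : ℤ) (r : ℕ), PP n τ' j i r ↔ PP n τ j i r) : ht n τ' = ht n τ := by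
  unfold ht badSet
  simp only [h]

theorem crit_of_xcx {n : ℕ} {τ : Finset (Submodule F (V F))} (h : τ ∈ XCx F n) : crit n τ = ∅ := by
  rw [Finset.eq_empty_iff_forall_notMem]
  intro L hL
  obtain ⟨_, c, _, i, r, h1, h2, h3⟩ := mem_crit.mp hL
  have h2' : ¬ ((r : ℤ) ≤ max (c - 1 - i) 0) := fun h => h2 (Or.inl h)
  have h3' : ¬ (((r + 1 : ℕ) : ℤ) ≤ max (c + 1 - i) 0) := fun h => h3 (Or.inl h)
  have hstd : (r : ℤ) ≤ max (c - i) 0 := by
    rcases h1 with h1 | ⟨L', hL', c', m, hc', h4⟩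
    · exact h1
    · obtain ⟨c'', _, _, h5⟩ := h.2 L' hL'
      have hlat := (h.1.1 L' hL').1
      have h6 : c'' = c' := (hasCharge_of_isCompl hlat h5).unique hc'
      rw [D_tr', D_of_isCompl hlat h5, h6] at h4
      omega
  push_cast at h3'
  omega

theorem xcx_of_crit {n : ℕ} {τ : Finset (Submodule F (V F))} (hτ : τ ∈ BCx F n) (h : crit n τ = ∅) :
    τ ∈ XCx F n := by
  refine ⟨hτ, fun L hL => ?_⟩
  obtain ⟨hlat, c, h0, h1, hc⟩ := hτ.1 L hL
  refine ⟨c, h0, h1, isCompl_of_D hlat fun i => ?_⟩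
  have h2 := PP_congr_of_crit hτ (τ' := ∅) (by rw [h]) (Finset.empty_subset _)
  have h3 : PP n τ c i (D L i) := by
    have := (PP_charge hτ hL hc 0 i (D L i)).mpr (by rw [tr_zero])
    simpa using this
  rw [← h2] at h3
  rcases h3 with h3 | ⟨L', hL', _⟩
  · have := charge_le_D hlat hc i
    omega
  · simp at hL'

theorem charge_eq_of_period {n : ℕ} {c c' m : ℤ} (h0 : 0 ≤ c) (h1 : c < n) (h0' : 0 ≤ c') (h1' : c' < n)
    (h : c = c' + m * n) : c = c' := by
  have hm : m = 0 := by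
    by_contra hm
    rcases lt_or_gt_of_ne hm with hm | hm
    · have : m * (n : ℤ) ≤ -1 * n := by
        apply mul_le_mul_of_nonneg_right (by omega); omega
      omega
    · have : 1 * (n : ℤ) ≤ m * n := by
        apply mul_le_mul_of_nonneg_right (by omega); omega
      omega
  rw [hm] at h; linarith

/-- two members of a simplex whose charges agree modulo `n` are equal -/
theorem eq_of_charge_period {n : ℕ} {τ : Finset (Submodule F (V F))} (hτ : τ ∈ BCx F n)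
    {L L' : Submodule F (V F)} (hL : L ∈ τ) (hL' : L' ∈ τ) {c c' m : ℤ} (hc : HasCharge L c)
    (hc' : HasCharge L' c') (h : c = c' + m * n) : L = L' := by
  obtain ⟨hlat, d, h0, h1, hd⟩ := hτ.1 L hL
  obtain ⟨hlat', d', h0', h1', hd'⟩ := hτ.1 L' hL'
  rw [hd.unique hc] at h0 h1
  rw [hd'.unique hc'] at h0' h1'
  have := charge_eq_of_period h0 h1 h0' h1' h
  rw [← this] at hc'
  exact eq_of_adj_of_charge hlat hlat' (hτ.2 L hL L' hL') hc hc'

open Classical in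
theorem crit_h2 {n : ℕ} {τ : Finset (Submodule F (V F))} (hτ : τ ∈ BCx F n) (hτ0 : τ ∉ XCx F n)
    (τ' : Finset (Submodule F (V F))) (h1 : crit n τ ⊆ τ') (h2 : τ' ⊆ τ) :
    τ' ∉ XCx F n ∧ crit n τ' = crit n τ ∧ ht n τ' = ht n τ := by
  have hPP := PP_congr_of_crit hτ h1 h2
  have hcrit : crit n τ' = crit n τ := by
    ext L
    rw [mem_crit]
    constructor
    · rintro ⟨hL, c, hc, hd⟩
      exact mem_crit.mpr ⟨h2 hL, c, hc, (Desc_congr hPP c).mp hd⟩
    · intro hL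
      obtain ⟨_, c, hc, hd⟩ := mem_crit.mp hL
      exact ⟨h1 hL, c, hc, (Desc_congr hPP c).mpr hd⟩
  refine ⟨fun h => hτ0 ?_, hcrit, ht_congr hPP⟩
  apply xcx_of_crit hτ
  rw [← hcrit]
  exact crit_of_xcx h

theorem crit_h3 {n : ℕ} {τ : Finset (Submodule F (V F))} (hτ : τ ∈ BCx F n)
    (τ' : Finset (Submodule F (V F))) (h1 : τ' ⊆ τ) (h2 : ¬ crit n τ ⊆ τ') : ht n τ' < ht n τ := by
  obtain ⟨L, hL, hL'⟩ := Finset.not_subset.mp h2
  obtain ⟨hLτ, c, hc, i, r, hp1, hp2, hp3⟩ := mem_crit.mp hL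
  obtain ⟨_, d, h0, hn, hd⟩ := hτ.1 L hLτ
  rw [hd.unique hc] at h0 hn
  have hnot : ¬ PP n τ' c i r := by
    intro hp
    obtain ⟨L', hL'τ', c', m', hc', he⟩ := charge_of_desc hp (fun h => hp2 (h.mono h1)) (fun h => hp3 (h.mono h1))
    have := eq_of_charge_period hτ hLτ (h1 hL'τ') hc hc' he
    rw [this] at hL'
    exact hL' hL'τ'
  apply Set.ncard_lt_ncard _ (badSet_finite hτ)
  rw [Set.ssubset_iff_of_subset]
  · refine ⟨(c, i, r), ⟨h0, hn, hp1, ?_⟩, ?_⟩
    · by_contra hcon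
      exact hnot (Or.inl (not_lt.mp hcon))
    · rintro ⟨_, _, h5, _⟩
      exact hnot h5
  · rintro ⟨j, i, r⟩ ⟨h3, h4, h5, h6⟩
    exact ⟨h3, h4, h5.mono h1, h6⟩

open Classical in
theorem link_eq {n : ℕ} {σ : Finset (Submodule F (V F))} (hσ0 : σ ∉ XCx F n) (hσ : σ ∈ BCx F n)
    (hs : crit n σ = σ) :
    {ρ | Disjoint ρ σ ∧ ρ ∪ σ ∈ BCx F n ∧ ρ ∪ σ ∉ XCx F n ∧ crit n (ρ ∪ σ) = σ} = LinkC F n σ := by
  ext ρ
  constructor
  · rintro ⟨h1, h2, _, h4⟩
    refine ⟨h1, h2, fun L hL c hc i r => ?_⟩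
    have hPP := PP_congr_of_crit h2 (τ' := σ) (by rw [h4]) Finset.subset_union_right
    rw [hPP]
    have := PP_charge h2 (Finset.mem_union_left σ hL) hc 0 i r
    rw [tr_zero, zero_mul, add_zero] at this
    exact this.symm
  · rintro ⟨h1, h2, h3⟩
    have hPP : ∀ (j i : ℤ) (r : ℕ), PP n (ρ ∪ σ) j i r ↔ PP n σ j i r := by
      intro j i r
      refine ⟨?_, fun h => h.mono Finset.subset_union_right⟩
      rintro (h | ⟨L, hL, c, m, hc, h4⟩)
      · exact Or.inl h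
      · rcases Finset.mem_union.mp hL with hL | hL
        · rw [D_tr'] at h4
          obtain ⟨R, hR⟩ := Int.eq_ofNat_of_zero_le (show 0 ≤ (r : ℤ) + max (c + m * n - j) 0 by
            have := le_max_right (c + m * n - j) 0; omega)
          rw [hR] at h4
          have h5 := (h3 L hL c hc (i - m * n) R).mp (by exact_mod_cast h4)
          have h6 := h5.period m
          rw [sub_add_cancel] at h6
          exact h6.move (le_of_eq hR)
        · exact Or.inr ⟨L, hL, c, m, hc, h4⟩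
    have hcrit : crit n (ρ ∪ σ) = σ := by
      ext L
      rw [mem_crit]
      constructor
      · rintro ⟨hL, c, hc, hd⟩
        rw [Desc_congr hPP] at hd
        obtain ⟨L', hL', c', m', hc', he⟩ := hd.charge
        have := eq_of_charge_period h2 hL (Finset.mem_union_right ρ hL') hc hc' he
        rwa [this]
      · intro hL
        refine ⟨Finset.mem_union_right ρ hL, ?_⟩
        rw [← hs] at hL
        obtain ⟨_, c, hc, hd⟩ := mem_crit.mp hL
        exact ⟨c, hc, (Desc_congr hPP c).mpr hd⟩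
    refine ⟨h1, h2, fun h => ?_, hcrit⟩
    have := crit_of_xcx h
    rw [hcrit] at this
    apply hσ0
    apply xcx_of_crit hσ
    rw [hs, this]

open Classical in
theorem xcx_exact (n : ℕ) (hn : 1 ≤ n) : ∃ q₀ : ℕ, ∀ (F : Type) [Field F] [Fintype F],
    q₀ ≤ Fintype.card F → ∀ m, m + 2 ≤ n → ExactAt (XCx F n) m := by
  obtain ⟨q₀, hq⟩ := link_exact n hn
  refine ⟨q₀, fun F _ _ hF m hm => ?_⟩
  have hpush := relative_push (K := BCx F n) (K₀ := XCx F n) (isCx_BCx n) (isCx_XCx n) (fun s hs => hs.1)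
    (crit n) (ht n) (n - 1)
    (fun τ hτ hτ0 => by
      refine ⟨?_, crit_subset n τ⟩
      rw [Finset.nonempty_iff_ne_empty]
      intro h
      exact hτ0 (xcx_of_crit hτ h))
    (fun τ hτ hτ0 τ' h1 h2 => crit_h2 hτ hτ0 τ' h1 h2)
    (fun τ hτ hτ0 τ' h1 h2 => Or.inr (crit_h3 hτ τ' h1 h2))
    (fun σ hσ hσ0 hs i hi => by
      rw [link_eq hσ0 hσ hs]
      refine hq F hF σ hσ ?_ i (by omega)
      rw [Finset.nonempty_iff_ne_empty]
      intro h
      rw [← hs] at h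
      exact hσ0 (xcx_of_crit hσ h))
  exact exactAt_down (isCx_BCx n) (fun s hs => hs.1) m (hpush (m + 1) (by omega)) (bcx_exact n hn m)

end Crest.Agent.R066.Lat
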