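import Crest.Agent.R066.LatApi

/-! Generic dimension profile of a simplex of the building (A2, owner helper766). -/

set_option autoImplicit false
open scoped BigOperators
open Module (finrank)

namespace Crest.Agent.R066.Lat

variable {F : Type} [Field F]

/-- `PP n σ j i r`: the generic dimension function `d_j(i)` of the periodic chain spanned by `σ` is `≥ r`. -/
def PP (n : ℕ) (σ : Finset (Submodule F (V F))) (j i : ℤ) (r : ℕ) : Prop :=
  (r : ℤ) ≤ max (j - i) 0 ∨
    ∃ L ∈ σ, ∃ c m : ℤ, HasCharge L c ∧ (r : ℤ) + max (c + m * n - j) 0 ≤ D (tr n m L) i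

/-- The simplices `ρ` in the link of `σ` all of whose vertices are generic with respect to `σ`. -/
def LinkC (F : Type) [Field F] [DecidableEq (Submodule F (V F))] (n : ℕ) (σ : Finset (Submodule F (V F))) :
    Set (Finset (Submodule F (V F))) :=
  {ρ | Disjoint ρ σ ∧ ρ ∪ σ ∈ BCx F n ∧
    ∀ L ∈ ρ, ∀ c : ℤ, HasCharge L c → ∀ (i : ℤ) (r : ℕ), (r ≤ D L i ↔ PP n σ c i r)}

/-! ### Complements -/

theorem jump_of_isCompl {L : Submodule F (V F)} {c : ℤ} (h : IsCompl L (M F c)) {i : ℤ} (hi : i < c) :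
    Jump L i := by
  have h1 : Finsupp.single i (1 : F) ∈ L ⊔ M F c := by
    rw [h.sup_eq_top]; trivial
  obtain ⟨l, hl, m, hm, hlm⟩ := Submodule.mem_sup.mp h1
  have e : l = Finsupp.single i (1 : F) - m := by rw [← hlm]; abel
  refine ⟨l, hl, ?_, ?_⟩
  · rw [mem_M] at hm ⊢
    intro j hj
    rw [e, Finsupp.sub_apply, hm j (by omega), Finsupp.single_eq_of_ne (by omega), sub_zero]
  · rw [mem_M] at hm
    rw [e, Finsupp.sub_apply, hm i hi, Finsupp.single_eq_same, sub_zero]
    exact one_ne_zero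

theorem D_of_isCompl {n : ℕ} {L : Submodule F (V F)} (hL : IsLat n L) {c : ℤ} (h : IsCompl L (M F c)) (i : ℤ) :
    (D L i : ℤ) = max (c - i) 0 := by
  obtain ⟨N, hN⟩ := hL.le_L0
  have h0 : ∀ i, c ≤ i → D L i = 0 := by
    intro i hi
    unfold D
    have : L ⊓ M F i = ⊥ := by
      rw [eq_bot_iff]
      exact (inf_le_inf_left L (M_anti hi)).trans h.inf_eq_bot.le
    rw [this, finrank_bot]
  have h1 : ∀ k : ℕ, D L (c - k) = k := by
    intro k
    induction k with
    | zero => simpa using h0 c le_rfl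
    | succ k ih =>
      rw [D_eq_of_jump hN (jump_of_isCompl h (by push_cast; omega))]
      have : c - ((k + 1 : ℕ) : ℤ) + 1 = c - k := by push_cast; ring
      rw [this, ih]
  rcases le_or_gt c i with hi | hi
  · rw [h0 i hi, max_eq_right (by omega)]; rfl
  · obtain ⟨k, hk⟩ := Int.eq_ofNat_of_zero_le (show 0 ≤ c - i by omega)
    have : i = c - k := by omega
    rw [this, h1, max_eq_left (by omega)]; ring

theorem hasCharge_of_isCompl {n : ℕ} {L : Submodule F (V F)} (hL : IsLat n L) {c : ℤ} (h : IsCompl L (M F c)) :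
    HasCharge L c := by
  refine ⟨c, fun i hi => ?_⟩
  rw [D_of_isCompl hL h, max_eq_left (by omega)]

theorem isCompl_of_D {n : ℕ} {L : Submodule F (V F)} (hL : IsLat n L) {c : ℤ}
    (h : ∀ i : ℤ, (D L i : ℤ) = max (c - i) 0) : IsCompl L (M F c) := by
  obtain ⟨N, hN⟩ := hL.le_L0
  constructor
  · rw [disjoint_iff]
    have h0 := h c
    have hf := hL.finite c
    have : finrank F ↥(L ⊓ M F c) = 0 := by
      unfold D at h0
      rw [sub_self, max_self] at h0
      exact_mod_cast h0
    exact Submodule.finrank_eq_zero.mp this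
  · rw [codisjoint_iff, eq_top_iff]
    have key : ∀ k : ℕ, M F (c - k) ≤ L ⊔ M F c := by
      intro k
      induction k with
      | zero => simp
      | succ k ih =>
        intro v hv
        have hj : Jump L (c - ((k + 1 : ℕ) : ℤ)) := by
          by_contra hn
          have h1 := D_eq_of_not_jump hn
          have h2 := h (c - ((k + 1 : ℕ) : ℤ))
          have h3 := h (c - ((k + 1 : ℕ) : ℤ) + 1)
          rw [h1, h3] at h2
          push_cast at h2
          rw [max_eq_left (by omega), max_eq_left (by omega)] at h2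
          omega
        obtain ⟨w, hw1, hw2, hw3⟩ := hj
        set i : ℤ := c - ((k + 1 : ℕ) : ℤ) with hi
        have h4 : v - (v i / w i) • w ∈ M F (c - k) := by
          have : (c - k : ℤ) = i + 1 := by rw [hi]; push_cast; ring
          rw [this, M_succ]
          refine ⟨Submodule.sub_mem _ hv (Submodule.smul_mem _ _ hw2), ?_⟩
          rw [Finsupp.sub_apply, Finsupp.smul_apply, smul_eq_mul, div_mul_cancel₀ _ hw3, sub_self]
        have h5 : v = (v - (v i / w i) • w) + (v i / w i) • w := by abel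
        rw [h5]
        exact Submodule.add_mem _ (ih h4) (Submodule.smul_mem _ _ (Submodule.mem_sup_left hw1))
    intro v _
    obtain ⟨i, hi⟩ := exists_mem_M v
    rcases le_or_gt c i with hc | hc
    · exact Submodule.mem_sup_right (M_anti hc hi)
    · obtain ⟨k, hk⟩ := Int.eq_ofNat_of_zero_le (show 0 ≤ c - i by omega)
      have : i = c - k := by omega
      rw [this] at hi
      exact key k hi

/-! ### Order in a simplex -/

theorem IsLat.le_tr_one {n : ℕ} {L : Submodule F (V F)} (h : IsLat n L) : L ≤ Lat.tr n 1 L := by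
  have := tr_mono n 1 h.1
  rwa [tr_tr, show (1 : ℤ) + -1 = 0 by norm_num, tr_zero] at this

theorem IsLat.tr_le_tr_left {n : ℕ} {L : Submodule F (V F)} (h : IsLat n L) {m m' : ℤ} (hm : m ≤ m') :
    Lat.tr n m L ≤ Lat.tr n m' L := by
  obtain ⟨k, hk⟩ := Int.eq_ofNat_of_zero_le (show 0 ≤ m' - m by omega)
  have : m' = m + k := by omega
  rw [this]
  clear hk this
  induction k with
  | zero => simp
  | succ k ih =>
    refine ih.trans ?_
    have e : m + ((k + 1 : ℕ) : ℤ) = (m + k) + 1 := by push_cast; ring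
    rw [e, ← tr_tr n (m + k) 1 L]
    exact tr_mono n _ h.le_tr_one

theorem comparable {n : ℕ} {L L' : Submodule F (V F)} (hL : IsLat n L) (hL' : IsLat n L') (h : Adj n L L')
    (m m' : ℤ) : tr n m L ≤ tr n m' L' ∨ tr n m' L' ≤ tr n m L := by
  rcases h with ⟨h1, h2⟩ | ⟨h1, h2⟩
  · rcases le_or_gt m m' with hm | hm
    · exact Or.inl ((hL.tr_le_tr_left hm).trans (tr_mono n m' h1))
    · refine Or.inr ((tr_mono n m' h2).trans ?_)
      rw [tr_tr]
      exact hL.tr_le_tr_left (by omega)
  · rcases le_or_gt m' m with hm | hm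
    · exact Or.inr ((hL'.tr_le_tr_left hm).trans (tr_mono n m h1))
    · refine Or.inl ((tr_mono n m h2).trans ?_)
      rw [tr_tr]
      exact hL'.tr_le_tr_left (by omega)

theorem eq_of_adj_of_charge {n : ℕ} {L L' : Submodule F (V F)} (hL : IsLat n L) (hL' : IsLat n L')
    (h : Adj n L L') {c : ℤ} (hc : HasCharge L c) (hc' : HasCharge L' c) : L = L' := by
  have := comparable hL hL' h 0 0
  rw [tr_zero, tr_zero] at this
  rcases this with h1 | h1
  · exact eq_of_le_of_charge hL hL' h1 hc hc' le_rfl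
  · exact (eq_of_le_of_charge hL' hL h1 hc' hc le_rfl).symm

/-! ### The profile -/

section PP

variable {n : ℕ} {σ τ : Finset (Submodule F (V F))}

theorem PP.mono (h : σ ⊆ τ) {j i : ℤ} {r : ℕ} (hp : PP n σ j i r) : PP n τ j i r := by
  rcases hp with h1 | ⟨L, hL, c, m, h1, h2⟩
  · exact Or.inl h1
  · exact Or.inr ⟨L, h hL, c, m, h1, h2⟩

/-- moving from charge `x` to charge `j` -/
theorem PP.move {x j i : ℤ} {r R : ℕ} (hR : (r : ℤ) + max (x - j) 0 ≤ R) (hp : PP n σ x i R) : PP n σ j i r := by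
  rcases hp with h1 | ⟨L, hL, c, m, h1, h2⟩
  · left
    omega
  · right
    exact ⟨L, hL, c, m, h1, by omega⟩

theorem PP.period {j i : ℤ} {r : ℕ} (k : ℤ) (hp : PP n σ j i r) : PP n σ (j + k * n) (i + k * n) r := by
  rcases hp with h1 | ⟨L, hL, c, m, h1, h2⟩
  · left
    have : j + k * n - (i + k * n) = j - i := by ring
    rwa [this]
  · right
    refine ⟨L, hL, c, m + k, h1, ?_⟩
    rw [D_tr'] at h2 ⊢
    have e1 : c + (m + k) * n - (j + k * n) = c + m * n - j := by ring
    have e2 : i + k * n - (m + k) * n = i - m * n := by ring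
    rwa [e1, e2]

theorem PP_period {j i : ℤ} {r : ℕ} (k : ℤ) : PP n σ (j + k * n) (i + k * n) r ↔ PP n σ j i r := by
  refine ⟨fun h => ?_, PP.period k⟩
  have := h.period (-k)
  have e1 : j + k * n + -k * n = j := by ring
  have e2 : i + k * n + -k * n = i := by ring
  rwa [e1, e2] at this

/-- Descents. -/
def Desc (n : ℕ) (σ : Finset (Submodule F (V F))) (j : ℤ) : Prop :=
  ∃ (i : ℤ) (r : ℕ), PP n σ j i r ∧ ¬ PP n σ (j - 1) i r ∧ ¬ PP n σ (j + 1) i (r + 1)

theorem Desc.period {j : ℤ} (k : ℤ) (h : Desc n σ j) : Desc n σ (j + k * n) := by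
  obtain ⟨i, r, h1, h2, h3⟩ := h
  refine ⟨i + k * n, r, h1.period k, ?_, ?_⟩
  · intro h
    apply h2
    rw [← PP_period k]
    have : j - 1 + k * n = j + k * n - 1 := by ring
    rwa [this]
  · intro h
    apply h3
    rw [← PP_period k]
    have : j + 1 + k * n = j + k * n + 1 := by ring
    rwa [this]

/-- (F1), pointwise version. -/
theorem charge_of_desc {τ : Finset (Submodule F (V F))} {j i : ℤ} {r : ℕ} (h1 : PP n τ j i r)
    (h2 : ¬ PP n τ (j - 1) i r) (h3 : ¬ PP n τ (j + 1) i (r + 1)) :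
    ∃ L ∈ τ, ∃ c m : ℤ, HasCharge L c ∧ j = c + m * n := by
  rcases h1 with h1 | ⟨L, hL, c, m, hc, hd⟩
  · exfalso
    have h2' : ¬ ((r : ℤ) ≤ max (j - 1 - i) 0) := fun h => h2 (Or.inl h)
    have h3' : ¬ (((r + 1 : ℕ) : ℤ) ≤ max (j + 1 - i) 0) := fun h => h3 (Or.inl h)
    omega
  · refine ⟨L, hL, c, m, hc, ?_⟩
    have h2' : ¬ ((r : ℤ) + max (c + m * n - (j - 1)) 0 ≤ D (tr n m L) i) :=
      fun h => h2 (Or.inr ⟨L, hL, c, m, hc, h⟩)
    have h3' : ¬ (((r + 1 : ℕ) : ℤ) + max (c + m * n - (j + 1)) 0 ≤ D (tr n m L) i) :=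
      fun h => h3 (Or.inr ⟨L, hL, c, m, hc, h⟩)
    omega

theorem Desc.charge {j : ℤ} (h : Desc n σ j) : ∃ L ∈ σ, ∃ c m : ℤ, HasCharge L c ∧ j = c + m * n := by
  obtain ⟨i, r, h1, h2, h3⟩ := h
  exact charge_of_desc h1 h2 h3

/-- At the charge of a member of the periodic chain the profile is the dimension function. -/
theorem PP_charge (hσ : σ ∈ BCx F n) {L : Submodule F (V F)} (hL : L ∈ σ) {c : ℤ} (hc : HasCharge L c)
    (m i : ℤ) (r : ℕ) : PP n σ (c + m * n) i r ↔ r ≤ D (tr n m L) i := by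
  have hLl : IsLat n L := (hσ.1 L hL).1
  constructor
  · rintro (h1 | ⟨L', hL', c', m', hc', h2⟩)
    · have := charge_le_D (hLl.tr m) (hc.tr n m) i
      omega
    · have hL'l : IsLat n L' := (hσ.1 L' hL').1
      rcases comparable hLl hL'l (hσ.2 L hL L' hL') m m' with h | h
      · have := D_diff_le (hLl.tr m) (hL'l.tr m') h (hc.tr n m) (hc'.tr n m') i
        omega
      · have := D_mono (hLl.tr m) h i
        omega
  · intro h
    right
    exact ⟨L, hL, c, m, hc, by rw [sub_self, max_self]; omega⟩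

theorem lat_bound {L : Submodule F (V F)} (hL : IsLat n L) {c : ℤ} (hc : HasCharge L c) :
    ∃ B : ℕ, ∀ j i : ℤ, ∀ r : ℕ, (r : ℤ) + max (c - j) 0 ≤ D L i → max (j - i) 0 < (r : ℤ) →
      (r : ℤ) ≤ B ∧ |j - i| ≤ B := by
  obtain ⟨_, N, h1, h2⟩ := hL
  have hlow : ∀ k : ℕ, (D L (-(N : ℤ) - k) : ℤ) = c - (-(N : ℤ) - k) := by
    obtain ⟨M, hM⟩ := hc
    -- compare with a very negative index
    intro k
    obtain ⟨l, hl⟩ : ∃ l : ℕ, -(N : ℤ) - l ≤ M := ⟨(-(N : ℤ) - M).toNat, by omega⟩
    have e1 := hM _ hl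
    rw [D_low h1 h2] at e1 ⊢
    push_cast at e1 ⊢
    omega
  set K := D L (-(N : ℤ)) with hK
  have hmid : ∀ k : ℕ, D L (-(N : ℤ) + k) ≤ K := by
    intro k
    induction k with
    | zero => simp [hK]
    | succ k ih =>
      have := D_succ_le h2 (-(N : ℤ) + k)
      have e : -(N : ℤ) + ((k + 1 : ℕ) : ℤ) = -(N : ℤ) + k + 1 := by push_cast; ring
      rw [e]; omega
  refine ⟨K + N + c.natAbs, fun j i r hr hr' => ?_⟩
  have hstd : max (c - i) 0 < (D L i : ℤ) := by omega
  have hi1 : i < N := by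
    by_contra hcon
    rw [D_zero h2 (not_lt.mp hcon)] at hstd
    have := le_max_right (c - i) 0
    push_cast at hstd
    omega
  have hi2 : -(N : ℤ) < i := by
    by_contra hcon
    obtain ⟨k, hk⟩ := Int.eq_ofNat_of_zero_le (show 0 ≤ -(N : ℤ) - i by omega)
    have : i = -(N : ℤ) - k := by omega
    have h3 := hlow k
    rw [← this] at h3
    have := le_max_left (c - i) 0
    omega
  have hDK : D L i ≤ K := by
    obtain ⟨k, hk⟩ := Int.eq_ofNat_of_zero_le (show 0 ≤ i + N by omega)
    have : i = -(N : ℤ) + k := by omega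
    rw [this]; exact hmid k
  push_cast
  constructor
  · have := le_max_right (c - j) 0
    have := abs_nonneg c
    omega
  · rw [abs_le]
    have := neg_abs_le c
    have := le_abs_self c
    constructor
    · have := le_max_left (c - j) 0
      omega
    · have := le_max_left (j - i) 0
      have := le_max_right (c - j) 0
      omega

theorem PP_bound (hσ : ∀ L ∈ σ, IsLat n L) :
    ∃ B : ℕ, ∀ j i : ℤ, ∀ r : ℕ, PP n σ j i r → max (j - i) 0 < (r : ℤ) → (r : ℤ) ≤ B ∧ |j - i| ≤ B := by
  have h : ∀ L : Submodule F (V F), ∃ B : ℕ, L ∈ σ → ∀ c, HasCharge L c → ∀ j i : ℤ, ∀ r : ℕ,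
      (r : ℤ) + max (c - j) 0 ≤ D L i → max (j - i) 0 < (r : ℤ) → (r : ℤ) ≤ B ∧ |j - i| ≤ B := by
    intro L
    by_cases hL : L ∈ σ
    · obtain ⟨c, hc⟩ := (hσ L hL).hasCharge
      obtain ⟨B, hB⟩ := lat_bound (hσ L hL) hc
      refine ⟨B, fun _ c' hc' => ?_⟩
      rw [hc'.unique hc]
      exact hB
    · exact ⟨0, fun h => absurd h hL⟩
  choose B hB using h
  refine ⟨σ.sup B, fun j i r hp hr => ?_⟩
  rcases hp with h1 | ⟨L, hL, c, m, hc, h2⟩
  · omega
  · rw [D_tr'] at h2
    have e1 : c + m * n - j = c - (j - m * n) := by ring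
    rw [e1] at h2
    have e2 : j - m * n - (i - m * n) = j - i := by ring
    have h3 := hB L hL c hc (j - m * n) (i - m * n) r h2 (by rw [e2]; exact hr)
    rw [e2] at h3
    have h4 : B L ≤ σ.sup B := Finset.le_sup hL
    constructor
    · refine h3.1.trans ?_
      exact_mod_cast h4
    · refine h3.2.trans ?_
      exact_mod_cast h4

/-- (F2) -/
theorem PP_of_desc (hσ : σ ∈ BCx F n) {σ' : Finset (Submodule F (V F))} (hsub : σ' ⊆ σ)
    (hd : ∀ j, Desc n σ j → ∃ L ∈ σ', ∃ c m : ℤ, HasCharge L c ∧ j = c + m * n)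
    {j i : ℤ} {r : ℕ} (h : PP n σ j i r) : PP n σ' j i r := by
  by_contra hcon
  obtain ⟨B, hB⟩ := PP_bound (n := n) (σ := σ) (fun L hL => (hσ.1 L hL).1)
  have key : ∀ k : ℕ, ∀ j : ℤ, ∀ r : ℕ, 3 * (B : ℤ) + |i| < 2 * r - j + k → PP n σ j i r → PP n σ' j i r := by
    intro k
    induction k with
    | zero =>
      intro j r hk hp
      by_contra hq
      have hr : max (j - i) 0 < (r : ℤ) := by
        by_contra hc
        exact hq (Or.inl (not_lt.mp hc))
      obtain ⟨h1, h2⟩ := hB j i r hp hr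
      have h3 := neg_abs_le (j - i)
      have h4 := neg_abs_le i
      push_cast at hk
      omega
    | succ k ih =>
      intro j r hk hp
      by_contra hq
      have hr : max (j - i) 0 < (r : ℤ) := by
        by_contra hc
        exact hq (Or.inl (not_lt.mp hc))
      by_cases hdj : Desc n σ j
      · obtain ⟨L, hL, c, m, hc, rfl⟩ := hd j hdj
        rw [PP_charge hσ (hsub hL) hc] at hp
        apply hq
        right
        exact ⟨L, hL, c, m, hc, by rw [sub_self, max_self]; omega⟩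
      · have h5 : PP n σ (j - 1) i r ∨ PP n σ (j + 1) i (r + 1) := by
          by_contra h6
          push Not at h6
          exact hdj ⟨i, r, hp, h6.1, h6.2⟩
        rcases h5 with h5 | h5
        · have := ih (j - 1) r (by push_cast at hk ⊢; omega) h5
          exact hq (this.move (by rw [max_eq_right (by omega)]; omega))
        · have := ih (j + 1) (r + 1) (by push_cast at hk ⊢; omega) h5
          exact hq (this.move (by rw [max_eq_left (by omega)]; push_cast; omega))
  refine hcon (key (3 * B + i.natAbs + 1 + j.natAbs) j r ?_ h)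
  push_cast
  have := neg_abs_le j
  have := le_abs_self j
  omega

end PP

end Crest.Agent.R066.Lat
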