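import Crest.Agent.R066.Basic
import Crest.Agent.R066.LGCosystolic
import Crest.Agent.R066.LGMix

/-! Local-to-global (helper741). -/

set_option autoImplicit false
open scoped BigOperators

namespace Crest.Agent.R066

namespace LG

section bridge

variable {I : Type*} [DecidableEq I] {G : Type*} [Group G]

/-- The coset system of a family of subgroups. -/
def sys (P : I → Subgroup G) : CosetSystem G I where
  K := PJ P
  K_empty := by simp [PJ]
  K_union S T := by
    unfold PJ
    rw [Finset.iInf_union]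

theorem isCoch_iff (P : I → Subgroup G) (T : Finset I) (m : ℕ) (f : Finset I → G → ZMod 2) :
    IsCoch P T m f ↔ IsCochain (sys P) T m f := by
  unfold IsCoch IsCochain
  constructor
  · intro h S hS hd g hg k hk
    refine h S hS hd.symm g hg k ?_
    rw [Finset.union_comm]
    exact hk
  · intro h S hS hd g hg k hk
    refine h S hS hd.symm g hg k ?_
    rw [Finset.union_comm]
    exact hk

theorem wt_eq [Fintype I] [Fintype G] (P : I → Subgroup G) (T : Finset I) (m : ℕ)
    (f : Finset I → G → ZMod 2) : wt P T m f = cnt (sys P) T m f := by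
  classical
  unfold wt cnt faces
  refine Finset.sum_congr (Finset.ext fun J => by simp [disjoint_comm]) fun S _ => ?_
  unfold supp
  congr 1

variable [Fintype I] [Fintype G]

theorem linkExp_of (P : I → Subgroup G) (T : Finset I) (m : ℕ) (β β' : ℝ) (hβ : β' ≤ β)
    (h : R066.LinkExp P T m β) : LG.LinkExp (sys P) T m β' := by
  intro f hf
  obtain ⟨b, hb, hle⟩ := h f ((isCoch_iff P T m f).mpr hf)
  refine ⟨b, (isCoch_iff P T (m - 1) b).mp hb, ?_⟩
  rw [← wt_eq, ← wt_eq]
  refine (mul_le_mul_of_nonneg_right hβ (by positivity)).trans hle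

/-- Link expansion on the empty face. -/
theorem linkExp_zero (X : CosetSystem G I) (T : Finset I) (hT : T.card < Fintype.card I)
    (β : ℝ) (hβ1 : β ≤ 1) : LG.LinkExp X T 0 β := by
  classical
  intro f _
  refine ⟨0, ?_, ?_⟩
  · intro S _ _ g _ k _; rfl
  · rw [cob_zero, add_zero]
    have h0 : cnt X T 0 f = supp (X.K T) (f ∅) := by
      unfold cnt; rw [faces_zero, Finset.sum_singleton]
    obtain ⟨s, hs⟩ : ∃ s, s ∉ T := by
      by_contra hcon
      push Not at hcon
      have : T = Finset.univ := Finset.eq_univ_iff_forall.mpr hcon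
      rw [this, Finset.card_univ] at hT
      exact lt_irrefl _ hT
    have h1 : supp (X.K T) (f ∅) ≤ cnt X T (0 + 1) (cob f) := by
      have hc : supp (X.K T) (f ∅) = supp (X.K T) (cob f {s}) := by
        congr 1
        funext g
        simp [cob]
      rw [hc]
      unfold cnt
      refine Finset.single_le_sum (f := fun S => supp (X.K T) (cob f S))
        (fun _ _ => Nat.zero_le _) ?_
      simp [faces, hs]
    rw [h0]
    have h1' : (supp (X.K T) (f ∅) : ℝ) ≤ (cnt X T (0 + 1) (cob f) : ℝ) := by exact_mod_cast h1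
    have h2 : (0 : ℝ) ≤ (supp (X.K T) (f ∅) : ℝ) := by positivity
    nlinarith

open Classical in
theorem sum_filter_mem (H : Subgroup G) (F : G → ℝ) :
    ∑ g ∈ Finset.univ.filter (fun g : G => g ∈ H), F g = ∑ k : H, F (k : G) :=
  Finset.sum_subtype _ (by simp) F

open Classical in
theorem pairGap_of_mix (P : I → Subgroup G) (κ : Finset I) (a b : I) (lam : ℝ) (hlam : 0 ≤ lam)
    (h : R066.Mix P κ a b lam) : PairGap (sys P) κ a b lam := by
  refine pairGap_of_local (sys P) κ a b lam hlam ?_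
  intro u v hu hv hu0 _
  let φ : G → ℝ := fun g => if hg : g ∈ (sys P).K κ then u ⟨g, hg⟩ else 0
  let ψ : G → ℝ := fun g => if hg : g ∈ (sys P).K κ then v ⟨g, hg⟩ else 0
  have eφ : ∀ k : (sys P).K κ, φ (k : G) = u k := fun k => by
    simp only [φ]; rw [dif_pos k.2]
  have eψ : ∀ k : (sys P).K κ, ψ (k : G) = v k := fun k => by
    simp only [ψ]; rw [dif_pos k.2]
  have hle : ∀ c : I, (sys P).K (insert c κ) ≤ (sys P).K κ := fun c =>
    (sys P).K_mono (Finset.subset_insert _ _)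
  have key := h φ ψ (by
      intro g hg k hk
      have hk' : k ∈ (sys P).K κ := hle a hk
      have hgk : g * k ∈ (sys P).K κ := mul_mem hg hk'
      have := hu ⟨g, hg⟩ ⟨k, hk'⟩ hk
      rw [← eφ, ← eφ] at this
      exact this) (by
      intro g hg k hk
      have hk' : k ∈ (sys P).K κ := hle b hk
      have := hv ⟨g, hg⟩ ⟨k, hk'⟩ hk
      rw [← eψ, ← eψ] at this
      exact this) (by
      have := sum_filter_mem ((sys P).K κ) φ
      rw [Finset.sum_congr rfl (fun k _ => eφ k), hu0] at this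
      exact this)
  have e1 := sum_filter_mem ((sys P).K κ) (fun g => φ g * ψ g)
  have e2 := sum_filter_mem ((sys P).K κ) (fun g => φ g ^ 2)
  have e3 := sum_filter_mem ((sys P).K κ) (fun g => ψ g ^ 2)
  simp only [eφ, eψ] at e1 e2 e3
  have key' : (∑ k : (sys P).K κ, u k * v k) ^ 2 ≤
      lam ^ 2 * (∑ k : (sys P).K κ, u k ^ 2) * (∑ k : (sys P).K κ, v k ^ 2) := by
    rw [← e1, ← e2, ← e3]; exact key
  have hA : (0 : ℝ) ≤ ∑ k : (sys P).K κ, u k ^ 2 := Finset.sum_nonneg fun _ _ => sq_nonneg _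
  have hB : (0 : ℝ) ≤ ∑ k : (sys P).K κ, v k ^ 2 := Finset.sum_nonneg fun _ _ => sq_nonneg _
  refine le_trans (le_abs_self _) (abs_le_of_sq_le_sq ?_ (by positivity)) |>.trans (le_refl _)
  rw [mul_pow, mul_pow, Real.sq_sqrt hA, Real.sq_sqrt hB]
  exact key'

open Classical in
theorem mix_of_gap (P : I → Subgroup G) (κ : Finset I) (a b : I) (lam : ℝ) (hlam : 0 ≤ lam)
    (h : Gap (invSub (sys P)) κ a b lam) : R066.Mix P κ a b lam := by
  intro φ ψ hφ hψ hφ0
  set X := sys P with hX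
  let u : EuclideanSpace ℝ G := WithLp.toLp 2 (fun g => if g ∈ X.K κ then φ g else 0)
  let v : EuclideanSpace ℝ G := WithLp.toLp 2 (fun g => if g ∈ X.K κ then ψ g else 0)
  have hle : ∀ c : I, X.K (insert c κ) ≤ X.K κ := fun c => X.K_mono (Finset.subset_insert _ _)
  have hum : u ∈ invSub X (insert a κ) := by
    intro g k hk
    have hk' := hle a hk
    show (if g * k ∈ X.K κ then φ (g * k) else 0) = (if g ∈ X.K κ then φ g else 0)
    by_cases hg : g ∈ X.K κ
    · rw [if_pos hg, if_pos (mul_mem hg hk')]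
      exact hφ g hg k hk
    · rw [if_neg hg, if_neg (fun hh => hg ((Subgroup.mul_mem_cancel_right _ hk').mp hh))]
  have hvm : v ∈ invSub X (insert b κ) := by
    intro g k hk
    have hk' := hle b hk
    show (if g * k ∈ X.K κ then ψ (g * k) else 0) = (if g ∈ X.K κ then ψ g else 0)
    by_cases hg : g ∈ X.K κ
    · rw [if_pos hg, if_pos (mul_mem hg hk')]
      exact hψ g hg k hk
    · rw [if_neg hg, if_neg (fun hh => hg ((Subgroup.mul_mem_cancel_right _ hk').mp hh))]
  have huo : u ∈ (invSub X κ)ᗮ := by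
    intro w hw
    rw [inner_eq_sum]
    have h1 : ∀ g, w g * u g = if g ∈ X.K κ then w 1 * φ g else 0 := by
      intro g
      show w g * (if g ∈ X.K κ then φ g else 0) = _
      by_cases hg : g ∈ X.K κ
      · rw [if_pos hg, if_pos hg]
        have := hw 1 g hg
        rw [one_mul] at this
        rw [this]
      · rw [if_neg hg, if_neg hg, mul_zero]
    rw [Finset.sum_congr rfl (fun g _ => h1 g), ← Finset.sum_filter, ← Finset.mul_sum]
    have : (∑ g ∈ Finset.univ.filter (fun g : G => g ∈ X.K κ), φ g) = 0 := hφ0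
    rw [this, mul_zero]
  have s1 : @inner ℝ _ _ u v = ∑ g ∈ Finset.univ.filter (fun g : G => g ∈ X.K κ), φ g * ψ g := by
    rw [inner_eq_sum, Finset.sum_filter]
    refine Finset.sum_congr rfl fun g _ => ?_
    show (if g ∈ X.K κ then φ g else 0) * (if g ∈ X.K κ then ψ g else 0) = _
    by_cases hg : g ∈ X.K κ
    · simp [hg]
    · simp [hg]
  have s2 : ‖u‖ ^ 2 = ∑ g ∈ Finset.univ.filter (fun g : G => g ∈ X.K κ), φ g ^ 2 := by
    rw [norm_eq_sqrt, Real.sq_sqrt (Finset.sum_nonneg fun _ _ => sq_nonneg _), Finset.sum_filter]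
    refine Finset.sum_congr rfl fun g _ => ?_
    show (if g ∈ X.K κ then φ g else 0) ^ 2 = _
    by_cases hg : g ∈ X.K κ
    · simp [hg]
    · simp [hg]
  have s3 : ‖v‖ ^ 2 = ∑ g ∈ Finset.univ.filter (fun g : G => g ∈ X.K κ), ψ g ^ 2 := by
    rw [norm_eq_sqrt, Real.sq_sqrt (Finset.sum_nonneg fun _ _ => sq_nonneg _), Finset.sum_filter]
    refine Finset.sum_congr rfl fun g _ => ?_
    show (if g ∈ X.K κ then ψ g else 0) ^ 2 = _
    by_cases hg : g ∈ X.K κ
    · simp [hg]
    · simp [hg]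
  -- project `v`
  set Q := (invSub X κ).starProjection with hQ
  have hQv : Q v ∈ invSub X κ := Submodule.starProjection_apply_mem _ _
  have hvo : v - Q v ∈ (invSub X κ)ᗮ := Submodule.sub_starProjection_mem_orthogonal v
  have hvm' : v - Q v ∈ invSub X (insert b κ) :=
    Submodule.sub_mem _ hvm (invSub_mono X _ _ (Finset.subset_insert _ _) hQv)
  have hvn : ‖v - Q v‖ ≤ ‖v‖ := by
    have e0 : @inner ℝ _ _ v (Q v) = ‖Q v‖ ^ 2 := by
      have h1 : @inner ℝ _ _ (Q v) (v - Q v) = (0 : ℝ) := hvo (Q v) hQv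
      rw [inner_sub_right, sub_eq_zero] at h1
      rw [real_inner_comm, h1, real_inner_self_eq_norm_sq]
    have : ‖v - Q v‖ ^ 2 = ‖v‖ ^ 2 - ‖Q v‖ ^ 2 := by rw [norm_sub_sq_real, e0]; ring
    nlinarith [norm_nonneg (v - Q v), norm_nonneg v, sq_nonneg ‖Q v‖]
  have huQ : @inner ℝ _ _ u (v - Q v) = @inner ℝ _ _ u v := by
    have : @inner ℝ _ _ u (Q v) = (0 : ℝ) := by rw [real_inner_comm]; exact huo (Q v) hQv
    rw [inner_sub_right, this, sub_zero]
  have g1 := h u hum (v - Q v) hvm' huo hvo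
  have g2 := h (-u) (Submodule.neg_mem _ hum) (v - Q v) hvm' (Submodule.neg_mem _ huo) hvo
  rw [huQ] at g1
  rw [inner_neg_left, norm_neg, huQ] at g2
  have g3 : lam * ‖u‖ * ‖v - Q v‖ ≤ lam * ‖u‖ * ‖v‖ := by gcongr
  have habs : |@inner ℝ _ _ u v| ≤ lam * ‖u‖ * ‖v‖ := by
    rw [abs_le]; constructor <;> linarith
  have hsq : (@inner ℝ _ _ u v) ^ 2 ≤ (lam * ‖u‖ * ‖v‖) ^ 2 := by
    rw [← sq_abs (@inner ℝ _ _ u v)]
    exact pow_le_pow_left₀ (abs_nonneg _) habs 2
  rw [mul_pow, mul_pow, s1, s2, s3] at hsq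
  exact hsq

/-- Generation, in function form. -/
theorem inf_of_gen (P : I → Subgroup G)
    (hgen : ∀ J₀ : Finset I, J₀.card + 2 ≤ Fintype.card I → ∀ φ : G → ℝ,
        (∀ i ∉ J₀, ∀ g ∈ PJ P J₀, ∀ h ∈ PJ P (insert i J₀), φ (g * h) = φ g) →
          ∀ g ∈ PJ P J₀, φ g = φ 1) :
    ∀ (j : ℕ) (κ : Finset I), κᶜ.card = j → ∀ a b : I, a ≠ b → a ∉ κ → b ∉ κ →
      invSub (sys P) (insert a κ) ⊓ invSub (sys P) (insert b κ) ≤ invSub (sys P) κ := by
  intro j
  induction j with
  | zero =>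
    intro κ hκ a b _ ha _
    rw [Finset.card_eq_zero, Finset.compl_eq_empty_iff] at hκ
    rw [hκ] at ha
    exact absurd (Finset.mem_univ a) ha
  | succ j ih =>
    intro κ hκ a b hab ha hb u hu
    have hcard : κ.card + 2 ≤ Fintype.card I := by
      have h1 : ({a, b} : Finset I) ⊆ κᶜ := by
        intro x hx
        simp only [Finset.mem_insert, Finset.mem_singleton] at hx
        rcases hx with rfl | rfl <;> simpa
      have h2 := Finset.card_le_card h1
      rw [Finset.card_pair hab, Finset.card_compl] at h2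
      omega
    intro g k hk
    have h := hgen κ hcard (fun x => u (g * x)) ?_ k hk
    · simpa using h
    · intro i hi x _ y hy
      have hinv : u ∈ invSub (sys P) (insert i κ) := by
        by_cases hia : i = a
        · rw [hia]; exact hu.1
        by_cases hib : i = b
        · rw [hib]; exact hu.2
        refine ih (insert i κ) ?_ a b hab ?_ ?_ ⟨?_, ?_⟩
        · rw [Finset.compl_insert, Finset.card_erase_of_mem (by simpa using hi), hκ]; rfl
        · rw [Finset.mem_insert, not_or]; exact ⟨fun h => hia h.symm, ha⟩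
        · rw [Finset.mem_insert, not_or]; exact ⟨fun h => hib h.symm, hb⟩
        · exact invSub_mono _ _ _ (Finset.insert_subset_insert _ (Finset.subset_insert _ _)) hu.1
        · exact invSub_mono _ _ _ (Finset.insert_subset_insert _ (Finset.subset_insert _ _)) hu.2
      have := hinv (g * x) y hy
      simp only
      rw [← mul_assoc]
      exact this

end bridge

end LG

/-- Trickle-down: rank two mixing + vanishing in cardinality one for all links gives mixing everywhere. -/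
theorem trickle (n : ℕ) (lam : ℝ) (hlam : 0 < lam) : ∃ ε : ℝ, 0 < ε ∧
    ∀ (I : Type) [DecidableEq I] [Fintype I], Fintype.card I = n →
    ∀ (G : Type) [Group G] [Fintype G] (P : I → Subgroup G),
      (∀ J₀ : Finset I, J₀.card + 2 ≤ n → ∀ φ : G → ℝ,
        (∀ i ∉ J₀, ∀ g ∈ PJ P J₀, ∀ h ∈ PJ P (insert i J₀), φ (g * h) = φ g) → ∀ g ∈ PJ P J₀, φ g = φ 1) →
      (∀ J₀ : Finset I, J₀.card + 2 = n → ∀ a ∉ J₀, ∀ b ∉ J₀, a ≠ b → Mix P J₀ a b ε) →
      ∀ J₀ : Finset I, J₀.card + 2 ≤ n → ∀ a ∉ J₀, ∀ b ∉ J₀, a ≠ b → Mix P J₀ a b lam := by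
  set ε : ℝ := min (1 / (2 * ((n : ℝ) + 1))) (lam / 2) with hε
  have hε0 : 0 < ε := lt_min (by positivity) (by positivity)
  have hnε : (n : ℝ) * ε ≤ 1 / 2 := by
    have h1 : ε ≤ 1 / (2 * ((n : ℝ) + 1)) := min_le_left _ _
    have h2 : (n : ℝ) * ε ≤ n * (1 / (2 * ((n : ℝ) + 1))) := by gcongr
    refine h2.trans ?_
    rw [mul_one_div, div_le_div_iff₀ (by positivity) (by norm_num)]
    linarith
  refine ⟨ε, hε0, ?_⟩
  intro I _ _ hI G _ _ P hgen hbase J₀ hJ₀ a ha b hb hab
  refine LG.mix_of_gap P J₀ a b lam hlam.le ?_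
  have hinf := fun (κ : Finset I) (a b : I) (hab : a ≠ b) (ha : a ∉ κ) (hb : b ∉ κ) =>
    LG.inf_of_gen P (by rw [hI]; exact hgen) _ κ rfl a b hab ha hb
  have hgap := LG.gap_all (LG.invSub (LG.sys P)) (LG.invSub_mono (LG.sys P)) hinf ε hε0.le
    (by rw [hI]; linarith)
    (fun κ a b hab ha hb hc => LG.gap_of_pairGap (LG.sys P) κ a b ε
      (LG.pairGap_of_mix P κ a b ε hε0.le (hbase κ (by
        rw [Finset.card_compl, hI] at hc
        have := Finset.card_le_univ κ
        rw [hI] at this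
        omega) a ha b hb hab))) J₀ a b hab ha hb
  refine hgap.mono ?_
  rw [hI]
  have hd : (0 : ℝ) < 1 - n * ε := by linarith
  rw [div_le_iff₀ hd]
  have h1 : ε ≤ lam / 2 := min_le_right _ _
  nlinarith

/-- Local-to-global theorem for cosystolic/coboundary expansion. -/
theorem local_to_global (n d : ℕ) (hn : d + 2 ≤ n) (β : ℝ) (hβ : 0 < β) : ∃ lam : ℝ, 0 < lam ∧
    ∀ D₀ : ℕ, ∃ C₁ : ℝ, 0 < C₁ ∧
    ∀ (I : Type) [DecidableEq I] [Fintype I], Fintype.card I = n →
    ∀ (G : Type) [Group G] [Fintype G] (P : I → Subgroup G),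
      (∀ i, Nat.card (P i) ≤ D₀) →
      (∀ J₀ : Finset I, J₀.Nonempty → ∀ m : ℕ, 1 ≤ m → m + J₀.card ≤ d + 1 → LinkExp P J₀ m β) →
      (∀ J₀ : Finset I, J₀.card + 2 ≤ n → ∀ a ∉ J₀, ∀ b ∉ J₀, a ≠ b → Mix P J₀ a b lam) →
      (∀ m : ℕ, 1 ≤ m → m ≤ d → Van P m) →
      ∀ m : ℕ, 1 ≤ m → m ≤ d → ∀ f : Finset I → G → ZMod 2, IsCoch P ∅ m f →
        ∃ b : Finset I → G → ZMod 2, IsCoch P ∅ (m - 1) b ∧
          (wt P ∅ m (f + cob b) : ℝ) ≤ C₁ * (wt P ∅ (m + 1) (cob f) : ℝ) := by
  classical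
  set β' : ℝ := min β 1 with hβ'
  have hβ'0 : 0 < β' := lt_min hβ one_pos
  have hn0 : (0 : ℝ) < n := by
    have : 0 < n := by omega
    exact_mod_cast this
  set ε : ℝ := β' / (2 * (n * 4 ^ n)) with hε
  have hε0 : 0 < ε := by positivity
  set ρ : ℝ := min (ε / 2) 1 with hρ
  have hρ0 : 0 < ρ := lt_min (by positivity) one_pos
  have hρ1 : ρ ≤ 1 := min_le_right _ _
  have hρε : ρ ≤ ε / 2 := min_le_left _ _
  set lam : ℝ := ε / 2 * Real.sqrt (ρ ^ n) / n with hlam
  have hsq : 0 < Real.sqrt (ρ ^ n) := Real.sqrt_pos.mpr (by positivity)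
  have hlam0 : 0 < lam := by positivity
  refine ⟨lam, hlam0, ?_⟩
  intro D₀
  refine ⟨2 ^ n * D₀ + 2 ^ n / ρ ^ n, by positivity, ?_⟩
  intro I _ _ hI G _ _ P hD₀ hLE hMix hVan m hm1 hmd f hf
  set X := LG.sys P with hX
  have hgap : ∀ (κ : Finset I) (a b : I), a ≠ b → a ∉ κ → b ∉ κ →
      LG.Gap (LG.invSub X) κ a b lam := by
    intro κ a b hab ha hb
    refine LG.gap_of_pairGap X κ a b lam (LG.pairGap_of_mix P κ a b lam hlam0.le
      (hMix κ ?_ a ha b hb hab))
    have h1 : ({a, b} : Finset I) ⊆ κᶜ := by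
      intro x hx
      simp only [Finset.mem_insert, Finset.mem_singleton] at hx
      rcases hx with rfl | rfl <;> simpa
    have h2 := Finset.card_le_card h1
    rw [Finset.card_pair hab, Finset.card_compl, hI] at h2
    omega
  have hMix' := LG.mix_of_gaps X lam hlam0.le hgap
  rw [hI] at hMix'
  have hnlam : (n : ℝ) * lam = ε / 2 * Real.sqrt (ρ ^ n) := by
    rw [hlam]; field_simp
  let η : ℕ → ℝ := fun r => ρ ^ (n - r)
  have hk : ∀ T : Finset I, T.Nonempty → Fintype.card (X.K T) ≤ D₀ := by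
    rintro T ⟨i, hi⟩
    have hle : X.K T ≤ P i := by
      show PJ P T ≤ P i
      unfold PJ
      exact iInf₂_le i hi
    have h1 : Nat.card (X.K T) ≤ Nat.card (P i) := by
      exact Nat.card_le_card_of_injective (Subgroup.inclusion hle)
        (Subgroup.inclusion_injective hle)
    rw [Nat.card_eq_fintype_card] at h1
    exact h1.trans (hD₀ i)
  have hcos := LG.cosystolic X m D₀ β' (n * lam) ε η hk hβ'0 (by positivity)
    (fun r => by simp only [η]; positivity)
    (by simp only [η]; exact pow_le_one₀ hρ0.le hρ1)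
    hε0.le
    (by
      intro T hT hTm
      by_cases h0 : m + 1 - T.card = 0
      · rw [h0]
        exact LG.linkExp_zero X T (by rw [hI]; omega) β' (min_le_right _ _)
      · exact LG.linkExp_of P T _ β β' (min_le_left _ _) (hLE T hT _ (by omega) (by omega)))
    hMix'
    (by
      intro r hr
      simp only [η]
      have hr' : n - r = (n - (r + 1)) + 1 := by omega
      have hp : 0 < ρ ^ (n - (r + 1)) := by positivity
      have e1 : ρ ^ (n - r) / ρ ^ (n - (r + 1)) = ρ := by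
        rw [hr', pow_succ, mul_comm, mul_div_assoc, div_self hp.ne', mul_one]
      have e2 : Real.sqrt (ρ ^ n) ≤ Real.sqrt (ρ ^ (n - (r + 1))) :=
        Real.sqrt_le_sqrt (pow_le_pow_of_le_one hρ0.le hρ1 (by omega))
      have hs : 0 < Real.sqrt (ρ ^ (n - (r + 1))) := Real.sqrt_pos.mpr hp
      have e3 : (n : ℝ) * lam / Real.sqrt (ρ ^ (n - (r + 1))) ≤ ε / 2 := by
        rw [div_le_iff₀ hs, hnlam]
        gcongr
      rw [e1]; linarith)
    (by
      rw [hI, hε]
      have : (0 : ℝ) < n * 4 ^ n := by positivity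
      apply le_of_eq
      field_simp)
    f ((LG.isCoch_iff P ∅ m f).mp hf)
  obtain ⟨z, hz1, hz2, hz3⟩ := hcos
  obtain ⟨b, hb1, hb2⟩ := hVan m hm1 hmd z ((LG.isCoch_iff P ∅ m z).mpr hz1) hz2
  refine ⟨b, hb1, ?_⟩
  have e1 : wt P ∅ m (f + cob b) = LG.cnt X ∅ m (f + z) := by
    rw [LG.wt_eq]
    unfold LG.cnt
    refine Finset.sum_congr rfl fun S hS => ?_
    simp only [LG.faces, Finset.mem_filter, Finset.mem_univ, true_and] at hS
    congr 1
    funext g
    simp only [Pi.add_apply]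
    rw [hb2 S hS.1 g]
  rw [e1]
  have e2 : wt P ∅ (m + 1) (cob f) = LG.cnt X ∅ (m + 1) (LG.cob f) := LG.wt_eq P ∅ (m + 1) (cob f)
  rw [e2]
  have e3 : η 0 = ρ ^ n := by simp [η]
  rw [hI, e3] at hz3
  exact hz3

end Crest.Agent.R066
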