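import Crest.Agent.R066.Basic

/-! Transport of link properties along `LocallyU` (task T7a). -/

set_option autoImplicit false
open scoped BigOperators

namespace Crest.Agent.R066

namespace Transp

theorem mem_PJ {I : Type*} {G : Type*} [Group G] {P : I → Subgroup G} {J : Finset I} {g : G} :
    g ∈ PJ P J ↔ ∀ i ∈ J, g ∈ P i := by
  simp [PJ, Subgroup.mem_iInf]

section general

variable {I I' : Type} [DecidableEq I] [DecidableEq I'] {G G' : Type} [Group G] [Group G']
  (P : I → Subgroup G) (P' : I' → Subgroup G') (J₀ : Finset I) (J₀' : Finset I')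
  (e : I' ≃ I) (φ : G' →* G)

/-- the transport hypothesis -/
structure Iso : Prop where
  inj : Function.Injective φ
  img : J₀'.image e = J₀
  mem : ∀ (J' : Finset I') (x : G),
    x ∈ PJ P (J'.image e ∪ J₀) ↔ ∃ u ∈ PJ P' (J' ∪ J₀'), φ u = x

variable {P P' J₀ J₀' e φ} (T : Iso P P' J₀ J₀' e φ)

include T

theorem Iso.mem0 (x : G) : x ∈ PJ P J₀ ↔ ∃ u ∈ PJ P' J₀', φ u = x := by
  have := T.mem ∅ x
  simpa using this

theorem Iso.mem_u (J' : Finset I') (u : G') :
    φ u ∈ PJ P (J'.image e ∪ J₀) ↔ u ∈ PJ P' (J' ∪ J₀') := by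
  rw [T.mem]
  constructor
  · rintro ⟨v, hv, h⟩
    rwa [← T.inj h]
  · intro h
    exact ⟨u, h, rfl⟩

theorem Iso.mem_u0 (u : G') : φ u ∈ PJ P J₀ ↔ u ∈ PJ P' J₀' := by
  have := T.mem_u ∅ u
  simpa using this

theorem Iso.disj (J' : Finset I') : Disjoint (J'.image e) J₀ ↔ Disjoint J' J₀' := by
  rw [← T.img, Finset.disjoint_image e.injective]

theorem Iso.wt_eq [Fintype I] [Fintype I'] [Fintype G] [Fintype G'] (m : ℕ)
    (F : Finset I → G → ZMod 2) :
    wt P J₀ m F = wt P' J₀' m (fun J' u => F (J'.image e) (φ u)) := by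
  classical
  unfold wt
  symm
  refine Finset.sum_nbij' (fun J' => J'.image e) (fun J => J.image e.symm) ?_ ?_ ?_ ?_ ?_
  · intro J' hJ'
    simp only [Finset.mem_filter, Finset.mem_univ, true_and] at hJ' ⊢
    refine ⟨?_, ?_⟩
    · rw [Finset.card_image_of_injective _ e.injective]; exact hJ'.1
    · exact (T.disj J').2 hJ'.2
  · intro J hJ
    simp only [Finset.mem_filter, Finset.mem_univ, true_and] at hJ ⊢
    refine ⟨?_, ?_⟩
    · rw [Finset.card_image_of_injective _ e.symm.injective]; exact hJ.1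
    · rw [← T.disj, Finset.image_image]; simpa using hJ.2
  · intro J' _
    simp [Finset.image_image]
  · intro J _
    simp [Finset.image_image]
  · intro J' _
    have : (Finset.univ.filter (fun g : G => g ∈ PJ P J₀ ∧ F (J'.image e) g ≠ 0)) =
        (Finset.univ.filter (fun u : G' => u ∈ PJ P' J₀' ∧ F (J'.image e) (φ u) ≠ 0)).image φ := by
      ext g
      simp only [Finset.mem_filter, Finset.mem_univ, true_and, Finset.mem_image]
      constructor
      · rintro ⟨h1, h2⟩
        obtain ⟨u, hu, rfl⟩ := (T.mem0 g).1 h1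
        exact ⟨u, ⟨hu, h2⟩, rfl⟩
      · rintro ⟨u, ⟨h1, h2⟩, rfl⟩
        exact ⟨(T.mem_u0 u).2 h1, h2⟩
    rw [this, Finset.card_image_of_injective _ T.inj]

theorem Iso.linkExp [Fintype I] [Fintype I'] [Fintype G] [Fintype G'] (m : ℕ) (β : ℝ)
    (h : LinkExp P' J₀' m β) : LinkExp P J₀ m β := by
  classical
  intro f hf
  obtain ⟨b', hb', hle⟩ := h (fun J' u => f (J'.image e) (φ u)) (by
    intro J' hJ' hd g hg k hk
    show f (J'.image e) (φ (g * k)) = _
    rw [map_mul]
    exact hf _ (by rw [Finset.card_image_of_injective _ e.injective]; exact hJ')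
      ((T.disj J').2 hd) _ ((T.mem_u0 g).2 hg) _ ((T.mem_u J' k).2 hk))
  let b : Finset I → G → ZMod 2 := fun J g =>
    if hg : ∃ u, φ u = g then b' (J.image e.symm) hg.choose else 0
  have hb : ∀ J u, b J (φ u) = b' (J.image e.symm) u := by
    intro J u
    have hg : ∃ v, φ v = φ u := ⟨u, rfl⟩
    show (if hg : ∃ v, φ v = φ u then b' (J.image e.symm) hg.choose else 0) = _
    rw [dif_pos hg, T.inj hg.choose_spec]
  have hcob : ∀ J' u, cob b (J'.image e) (φ u) = cob b' J' u := by
    intro J' u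
    unfold cob
    rw [Finset.sum_image (fun x _ y _ h => e.injective h)]
    refine Finset.sum_congr rfl fun i _ => ?_
    rw [hb, ← Finset.image_erase e.injective, Finset.image_image]
    simp
  refine ⟨b, ?_, ?_⟩
  · intro J hJ hd g hg k hk
    obtain ⟨u, hu, rfl⟩ := (T.mem0 g).1 hg
    have hJe : J = (J.image e.symm).image e := by rw [Finset.image_image]; simp
    rw [hJe] at hk
    obtain ⟨v, hv, rfl⟩ := (T.mem _ k).1 hk
    rw [← map_mul, hb, hb]
    refine hb' _ ?_ ?_ u hu v hv
    · rw [Finset.card_image_of_injective _ e.symm.injective]; exact hJ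
    · rw [← T.disj, ← hJe]; exact hd
  · rw [T.wt_eq, T.wt_eq]
    have h1 : (fun J' u => (f + cob b) (Finset.image e J') (φ u)) =
        (fun J' u => f (J'.image e) (φ u)) + cob b' := by
      funext J' u
      show f (J'.image e) (φ u) + cob b (J'.image e) (φ u) = _
      rw [hcob]
      rfl
    have h2 : (fun J' u => cob f (Finset.image e J') (φ u)) =
        cob (fun J' u => f (J'.image e) (φ u)) := by
      funext J' u
      unfold cob
      rw [Finset.sum_image (fun x _ y _ h => e.injective h)]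
      refine Finset.sum_congr rfl fun i _ => ?_
      rw [← Finset.image_erase e.injective]
    rw [h1, h2]
    exact hle

theorem Iso.sum_eq [Fintype G] [Fintype G'] [DecidablePred (fun g : G => g ∈ PJ P J₀)]
    [DecidablePred (fun g : G' => g ∈ PJ P' J₀')] (ψ : G → ℝ) :
    ∑ g ∈ Finset.univ.filter (fun g : G => g ∈ PJ P J₀), ψ g =
      ∑ u ∈ Finset.univ.filter (fun g : G' => g ∈ PJ P' J₀'), ψ (φ u) := by
  classical
  have : (Finset.univ.filter (fun g : G => g ∈ PJ P J₀)) =
        (Finset.univ.filter (fun u : G' => u ∈ PJ P' J₀')).image φ := by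
    ext g
    simp only [Finset.mem_filter, Finset.mem_univ, true_and, Finset.mem_image]
    exact T.mem0 g
  rw [this, Finset.sum_image (fun x _ y _ h => T.inj h)]

theorem Iso.mem_u_insert (a' : I') (u : G') :
    φ u ∈ PJ P (insert (e a') J₀) ↔ u ∈ PJ P' (insert a' J₀') := by
  have := T.mem_u {a'} u
  rwa [Finset.image_singleton, ← Finset.insert_eq, ← Finset.insert_eq] at this

theorem Iso.mix [Fintype G] [Fintype G'] (a' b' : I') (lam : ℝ)
    (h : Mix P' J₀' a' b' lam) : Mix P J₀ (e a') (e b') lam := by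
  classical
  intro f g hf hg h0
  have := h (fun u => f (φ u)) (fun u => g (φ u)) (by
    intro u hu k hk
    show f (φ (u * k)) = _
    rw [map_mul]
    exact hf _ ((T.mem_u0 u).2 hu) _ ((T.mem_u_insert a' k).2 hk)) (by
    intro u hu k hk
    show g (φ (u * k)) = _
    rw [map_mul]
    exact hg _ ((T.mem_u0 u).2 hu) _ ((T.mem_u_insert b' k).2 hk)) (by
    rw [← h0, T.sum_eq])
  rw [T.sum_eq (fun x => f x * g x), T.sum_eq (fun x => f x ^ 2), T.sum_eq (fun x => g x ^ 2)]
  convert this

end general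

theorem iso_of_locallyU (n p : ℕ) [NeZero n] (G : Type) [Group G]
    (P : Fin n → Subgroup G) (hloc : LocallyU p P) (J₀ : Finset (Fin n)) (j : Fin n)
    (hj : j ∈ J₀) : ∃ φ : U n p →* G,
      Iso P (Bsub n p) J₀ (J₀.image (fun i => i - j)) (Equiv.addRight j) φ := by
  obtain ⟨φ, hinj, hrange, hmap⟩ := hloc j
  refine ⟨φ, hinj, ?_, ?_⟩
  · rw [Finset.image_image]
    have : ((Equiv.addRight j : Fin n ≃ Fin n) ∘ fun i => i - j) = id := by
      funext i
      simp
    rw [this, Finset.image_id]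
  · intro J' x
    have hx : ∀ x c, x ∈ (Bsub n p c).map φ ↔ x ∈ P j ∧ x ∈ P (j + c) := by
      intro x c
      rw [hmap c, Subgroup.mem_inf]
    constructor
    · intro h
      rw [mem_PJ] at h
      have hj' : x ∈ P j := h j (Finset.mem_union_right _ hj)
      have hr : x ∈ φ.range := by rw [hrange]; exact hj'
      obtain ⟨u, hu⟩ := hr
      refine ⟨u, ?_, hu⟩
      rw [mem_PJ]
      intro c hc
      have h1 : x ∈ P (j + c) := by
        apply h
        rw [Finset.mem_union] at hc ⊢
        rcases hc with hc | hc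
        · left
          rw [Finset.mem_image]
          exact ⟨c, hc, by simp [add_comm]⟩
        · right
          rw [Finset.mem_image] at hc
          obtain ⟨i, hi, rfl⟩ := hc
          simpa using hi
      obtain ⟨v, hv, hvx⟩ := Subgroup.mem_map.1 ((hx x c).2 ⟨hj', h1⟩)
      have : v = u := hinj (hvx.trans hu.symm)
      rwa [← this]
    · rintro ⟨u, hu, rfl⟩
      rw [mem_PJ] at hu ⊢
      intro i hi
      have hc : i - j ∈ J' ∪ J₀.image (fun i => i - j) := by
        rw [Finset.mem_union] at hi ⊢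
        rcases hi with hi | hi
        · left
          rw [Finset.mem_image] at hi
          obtain ⟨c, hc, rfl⟩ := hi
          simpa using hc
        · right
          exact Finset.mem_image_of_mem _ hi
      have h1 := ((hx (φ u) (i - j)).1 (Subgroup.mem_map_of_mem φ (hu _ hc))).2
      rwa [add_sub_cancel] at h1

end Transp

theorem linkExp_transport (n p : ℕ) [NeZero n] [Fintype (U n p)] (G : Type) [Group G] [Fintype G]
    (P : Fin n → Subgroup G) (hloc : LocallyU p P) (β : ℝ) (J₀ : Finset (Fin n)) (j : Fin n) (hj : j ∈ J₀)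
    (m : ℕ) (h : LinkExp (Bsub n p) (J₀.image (fun i => i - j)) m β) : LinkExp P J₀ m β := by
  obtain ⟨φ, T⟩ := Transp.iso_of_locallyU n p G P hloc J₀ j hj
  exact T.linkExp m β h

theorem mix_transport (n p : ℕ) [NeZero n] [Fintype (U n p)] (G : Type) [Group G] [Fintype G]
    (P : Fin n → Subgroup G) (hloc : LocallyU p P) (lam : ℝ) (J₀ : Finset (Fin n)) (j : Fin n) (hj : j ∈ J₀)
    (a b : Fin n) (h : Mix (Bsub n p) (J₀.image (fun i => i - j)) (a - j) (b - j) lam) : Mix P J₀ a b lam := by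
  obtain ⟨φ, T⟩ := Transp.iso_of_locallyU n p G P hloc J₀ j hj
  have := T.mix (a - j) (b - j) lam h
  simpa using this

namespace Transp

section const

variable {I : Type} [DecidableEq I]

open Classical in
/-- level set cochain -/
noncomputable def lev {G : Type} (φ : G → ℝ) (c : ℝ) : Finset I → G → ZMod 2 :=
  fun _ g => if φ g = c then 1 else 0

theorem cob_lev {G : Type} (φ : G → ℝ) (c : ℝ) (J : Finset I) (hJ : J.card = 2) (g : G) :
    cob (lev φ c) J g = 0 := by
  unfold cob lev
  rw [Finset.sum_const, hJ, two_nsmul]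
  exact CharTwo.add_self_eq_zero _

theorem isCoch_lev [Fintype I] {G : Type} [Group G] (P : I → Subgroup G) (J₀ : Finset I)
    (φ : G → ℝ) (c : ℝ)
    (hφ : ∀ i ∉ J₀, ∀ g ∈ PJ P J₀, ∀ h ∈ PJ P (insert i J₀), φ (g * h) = φ g) :
    IsCoch P J₀ 1 (lev φ c) := by
  intro J hJ hd g hg k hk
  obtain ⟨i, rfl⟩ := Finset.card_eq_one.1 hJ
  rw [Finset.disjoint_singleton_left] at hd
  rw [← Finset.insert_eq] at hk
  unfold lev
  rw [hφ i hd g hg k hk]

theorem lev_const [Fintype I] {G : Type} [Group G] (P : I → Subgroup G) (J₀ : Finset I)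
    (φ : G → ℝ) (i : I) (b : Finset I → G → ZMod 2) (hb : IsCoch P J₀ 0 b)
    (h : ∀ g ∈ PJ P J₀, lev φ (φ 1) {i} g = cob b {i} g) :
    ∀ g ∈ PJ P J₀, φ g = φ 1 := by
  intro g hg
  have h1 := h g hg
  have h2 := h 1 (one_mem _)
  have hc : ∀ x, cob b {i} x = b ∅ x := by
    intro x
    unfold cob
    simp
  have h3 : b ∅ (1 * g) = b ∅ 1 := by
    refine hb ∅ rfl (Finset.disjoint_empty_left _) 1 (one_mem _) g ?_
    rwa [Finset.empty_union]
  rw [one_mul] at h3
  rw [hc, h3, ← hc, ← h2] at h1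
  unfold lev at h1
  rw [if_pos rfl] at h1
  by_contra hne
  rw [if_neg hne] at h1
  exact zero_ne_one h1

end const

end Transp

open Transp

/-- Expansion in cardinality one implies that functions invariant under all vertex stabilisers are constant. -/
theorem const_of_linkExp {I : Type} [DecidableEq I] [Fintype I] {G : Type} [Group G] [Fintype G]
    (P : I → Subgroup G) (J₀ : Finset I) (hJ : J₀.card + 2 ≤ Fintype.card I) (β : ℝ) (hβ : 0 < β)
    (h : LinkExp P J₀ 1 β) (φ : G → ℝ)
    (hφ : ∀ i ∉ J₀, ∀ g ∈ PJ P J₀, ∀ h ∈ PJ P (insert i J₀), φ (g * h) = φ g) :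
    ∀ g ∈ PJ P J₀, φ g = φ 1 := by
  classical
  obtain ⟨i, hi⟩ : ∃ i, i ∉ J₀ := by
    by_contra hc
    push Not at hc
    have : J₀ = Finset.univ := Finset.eq_univ_iff_forall.2 hc
    rw [this, Finset.card_univ] at hJ
    omega
  obtain ⟨b, hb, hle⟩ := h (lev φ (φ 1)) (isCoch_lev P J₀ φ (φ 1) hφ)
  have h0 : wt P J₀ 2 (cob (lev φ (φ 1))) = 0 := by
    unfold wt
    refine Finset.sum_eq_zero fun J hJ' => ?_
    simp only [Finset.mem_filter, Finset.mem_univ, true_and] at hJ'
    rw [Finset.card_eq_zero, Finset.filter_eq_empty_iff]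
    rintro g _ ⟨_, h2⟩
    exact h2 (cob_lev φ (φ 1) J hJ'.1 g)
  have h1 : wt P J₀ 1 (lev φ (φ 1) + cob b) = 0 := by
    have h2 : β * (wt P J₀ 1 (lev φ (φ 1) + cob b) : ℝ) ≤ 0 := by
      have := hle
      rw [show (1 + 1 : ℕ) = 2 from rfl, h0] at this
      simpa using this
    have h3 : (wt P J₀ 1 (lev φ (φ 1) + cob b) : ℝ) ≤ 0 := by
      by_contra hc
      push Not at hc
      have := mul_pos hβ hc
      linarith
    exact_mod_cast le_antisymm h3 (Nat.cast_nonneg _)
  refine lev_const P J₀ φ i b hb fun g hg => ?_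
  unfold wt at h1
  rw [Finset.sum_eq_zero_iff] at h1
  have h2 := h1 {i} (by simp [hi])
  rw [Finset.card_eq_zero, Finset.filter_eq_empty_iff] at h2
  have h3 := h2 (Finset.mem_univ g)
  push Not at h3
  have h4 : lev φ (φ 1) {i} g + cob b {i} g = 0 := h3 hg
  exact CharTwo.add_eq_zero.1 h4

/-- Same for the global case, from `Van P 1`. -/
theorem const_of_van {I : Type} [DecidableEq I] [Fintype I] {G : Type} [Group G] [Fintype G]
    (P : I → Subgroup G) (hJ : 2 ≤ Fintype.card I)
    (h : Van P 1) (φ : G → ℝ)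
    (hφ : ∀ i, ∀ g : G, ∀ h ∈ P i, φ (g * h) = φ g) :
    ∀ g : G, φ g = φ 1 := by
  have hne : Nonempty I := Fintype.card_pos_iff.1 (by omega)
  obtain ⟨i⟩ := hne
  obtain ⟨b, hb, hle⟩ := h (lev φ (φ 1)) (isCoch_lev P ∅ φ (φ 1) (by
    intro i _ g _ k hk
    rw [mem_PJ] at hk
    exact hφ i g k (hk i (by simp)))) (fun J hJ g => cob_lev φ (φ 1) J hJ g)
  intro g
  exact lev_const P ∅ φ i b hb (fun g _ => hle {i} (by simp) g) g (by rw [mem_PJ]; simp)

end Crest.Agent.R066
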