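import Crest.Agent.R066.Basic

/-! Links in the unitriangular local model: coordinate subspaces, action, transitivity (task T3). -/

set_option autoImplicit false
open scoped BigOperators
open Module (finrank)

namespace Crest.Agent.R066

/-- The preserved flag: `Fl u = span {e_a : a ≥ n - u}`. -/
def stdFl (n p : ℕ) (u : ℕ) : Submodule (ZMod p) (Fin n → ZMod p) where
  carrier := {v | ∀ a : Fin n, (a : ℕ) + u < n → v a = 0}
  zero_mem' := by intro a _; rfl
  add_mem' := by
    intro x y hx hy a ha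
    simp [hx a ha, hy a ha]
  smul_mem' := by
    intro c x hx a ha
    simp [hx a ha]

/-- The opposite flag: `V⁰ c = span {e_a : a < c}`. -/
def stdV (n p : ℕ) (c : ℕ) : Submodule (ZMod p) (Fin n → ZMod p) where
  carrier := {v | ∀ a : Fin n, c ≤ (a : ℕ) → v a = 0}
  zero_mem' := by intro a _; rfl
  add_mem' := by
    intro x y hx hy a ha
    simp [hx a ha, hy a ha]
  smul_mem' := by
    intro c x hx a ha
    simp [hx a ha]

/-- Action of `U n p` on subspaces. -/
noncomputable def uAct (n p : ℕ) (g : U n p) (W : Submodule (ZMod p) (Fin n → ZMod p)) :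
    Submodule (ZMod p) (Fin n → ZMod p) := W.map (Matrix.mulVecLin g.1.1)

open Classical in
/-- Walls of the link of `J₀ ∋ 0`. -/
noncomputable def uWalls (n p : ℕ) (J₀ : Finset (Fin n)) : Finset (Submodule (ZMod p) (Fin n → ZMod p)) :=
  insert ⊤ (J₀.image (fun c : Fin n => stdV n p c))

/-! ### Coordinate subspaces -/

/-- Coordinate subspace. -/
def coordSub (n p : ℕ) (S : Finset (Fin n)) : Submodule (ZMod p) (Fin n → ZMod p) where
  carrier := {v | ∀ a, a ∉ S → v a = 0}
  zero_mem' := by intro a _; rfl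
  add_mem' := by
    intro x y hx hy a ha
    simp [hx a ha, hy a ha]
  smul_mem' := by
    intro c x hx a ha
    simp [hx a ha]

theorem mem_coordSub {n p : ℕ} {S : Finset (Fin n)} {v : Fin n → ZMod p} :
    v ∈ coordSub n p S ↔ ∀ a, a ∉ S → v a = 0 := Iff.rfl

theorem mem_stdV {n p c : ℕ} {v : Fin n → ZMod p} :
    v ∈ stdV n p c ↔ ∀ a : Fin n, c ≤ (a : ℕ) → v a = 0 := Iff.rfl

theorem mem_stdFl {n p u : ℕ} {v : Fin n → ZMod p} :
    v ∈ stdFl n p u ↔ ∀ a : Fin n, (a : ℕ) + u < n → v a = 0 := Iff.rfl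

/-- Coordinates. -/
def coordEquiv (n p : ℕ) (S : Finset (Fin n)) :
    coordSub n p S ≃ₗ[ZMod p] (S → ZMod p) where
  toFun v i := v.1 i
  map_add' := by intro x y; rfl
  map_smul' := by intro c x; rfl
  invFun f := ⟨fun a => if h : a ∈ S then f ⟨a, h⟩ else 0, by
    intro a ha
    simp [ha]⟩
  left_inv := by
    rintro ⟨v, hv⟩
    ext a
    by_cases h : a ∈ S
    · simp [h]
    · simp [h, hv a h]
  right_inv := by
    intro f
    ext ⟨a, ha⟩
    simp [ha]

theorem finrank_coordSub (n p : ℕ) [Fact p.Prime] (S : Finset (Fin n)) :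
    finrank (ZMod p) (coordSub n p S) = S.card := by
  rw [(coordEquiv n p S).finrank_eq, Module.finrank_pi]
  simp

theorem coordSub_inf (n p : ℕ) (S T : Finset (Fin n)) :
    coordSub n p S ⊓ coordSub n p T = coordSub n p (S ∩ T) := by
  ext v
  simp only [Submodule.mem_inf, mem_coordSub, Finset.mem_inter]
  constructor
  · rintro ⟨h1, h2⟩ a ha
    by_cases h : a ∈ S
    · exact h2 a (fun h' => ha ⟨h, h'⟩)
    · exact h1 a h
  · intro h
    exact ⟨fun a ha => h a (fun h' => ha h'.1), fun a ha => h a (fun h' => ha h'.2)⟩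

theorem stdV_eq (n p c : ℕ) :
    stdV n p c = coordSub n p (Finset.univ.filter (fun a : Fin n => (a : ℕ) < c)) := by
  ext v
  simp [mem_stdV, mem_coordSub]

theorem stdFl_eq (n p u : ℕ) :
    stdFl n p u = coordSub n p (Finset.univ.filter (fun a : Fin n => n ≤ (a : ℕ) + u)) := by
  ext v
  simp [mem_stdFl, mem_coordSub]

theorem card_filter_Ico (n x y : ℕ) (hy : y ≤ n) :
    (Finset.univ.filter (fun a : Fin n => x ≤ (a : ℕ) ∧ (a : ℕ) < y)).card = y - x := by
  rw [← Nat.card_Ico]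
  apply Finset.card_bij (fun (a : Fin n) _ => (a : ℕ))
  · intro a ha
    simp at ha ⊢
    exact ha
  · intro a _ b _ h
    exact Fin.ext h
  · intro b hb
    simp at hb
    exact ⟨⟨b, by omega⟩, by simp; omega, rfl⟩

theorem finrank_stdV (n p c : ℕ) [Fact p.Prime] (hc : c ≤ n) :
    finrank (ZMod p) (stdV n p c) = c := by
  rw [stdV_eq, finrank_coordSub]
  have := card_filter_Ico n 0 c hc
  simpa using this

theorem finrank_stdFl (n p u : ℕ) [Fact p.Prime] (hu : u ≤ n) :
    finrank (ZMod p) (stdFl n p u) = u := by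
  rw [stdFl_eq, finrank_coordSub]
  have := card_filter_Ico n (n - u) n le_rfl
  rw [show n - (n - u) = u by omega] at this
  rw [← this]
  congr 1
  ext a
  have h2 := a.2
  simp only [Finset.mem_filter, Finset.mem_univ, true_and]
  omega

theorem finrank_stdFl_inf_stdV (n p u c : ℕ) [Fact p.Prime] (hc : c ≤ n) :
    finrank (ZMod p) ↥(stdFl n p u ⊓ stdV n p c) = c - (n - u) := by
  rw [stdFl_eq, stdV_eq, coordSub_inf, finrank_coordSub]
  rw [← card_filter_Ico n (n - u) c hc]
  congr 1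
  ext a
  simp only [Finset.mem_inter, Finset.mem_filter, Finset.mem_univ, true_and]
  omega

theorem stdFl_mono (n p : ℕ) : Monotone (stdFl n p) := by
  intro u u' h v hv a ha
  exact hv a (by omega)

theorem stdV_mono (n p : ℕ) : Monotone (stdV n p) := by
  intro c c' h v hv a ha
  exact hv a (by omega)

theorem stdV_zero (n p : ℕ) : stdV n p 0 = ⊥ := by
  rw [eq_bot_iff]
  intro v hv
  rw [Submodule.mem_bot]
  ext a
  exact hv a (Nat.zero_le _)

theorem stdV_top (n p : ℕ) : stdV n p n = ⊤ := by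
  rw [eq_top_iff]
  intro v _ a ha
  exact absurd a.2 (by omega)

theorem stdV_inj (n p : ℕ) [Fact p.Prime] {c c' : ℕ} (hc : c ≤ n) (hc' : c' ≤ n)
    (h : stdV n p c = stdV n p c') : c = c' := by
  rw [← finrank_stdV n p c hc, h, finrank_stdV n p c' hc']

/-! ### The action -/

theorem uAct_one (n p : ℕ) (W : Submodule (ZMod p) (Fin n → ZMod p)) : uAct n p 1 W = W := by
  unfold uAct
  have : Matrix.mulVecLin ((1 : U n p).1.1) = LinearMap.id := by
    show Matrix.mulVecLin (1 : Matrix (Fin n) (Fin n) (ZMod p)) = _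
    exact Matrix.mulVecLin_one
  rw [this, Submodule.map_id]

theorem uAct_mul (n p : ℕ) (g h : U n p) (W : Submodule (ZMod p) (Fin n → ZMod p)) :
    uAct n p (g * h) W = uAct n p g (uAct n p h W) := by
  unfold uAct
  have : Matrix.mulVecLin ((g * h : U n p).1.1) =
      (Matrix.mulVecLin g.1.1).comp (Matrix.mulVecLin h.1.1) := by
    show Matrix.mulVecLin (g.1.1 * h.1.1) = _
    exact Matrix.mulVecLin_mul _ _
  rw [this, Submodule.map_comp]

theorem mulVec_injective {n p : ℕ} (g : U n p) : Function.Injective (Matrix.mulVecLin g.1.1) := by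
  intro x y h
  have h1 : ((g⁻¹ : U n p).1.1).mulVec (g.1.1.mulVec x) = ((g⁻¹ : U n p).1.1).mulVec (g.1.1.mulVec y) := by
    have : g.1.1.mulVec x = g.1.1.mulVec y := h
    rw [this]
  rw [Matrix.mulVec_mulVec, Matrix.mulVec_mulVec] at h1
  have h2 : (g⁻¹ : U n p).1.1 * g.1.1 = 1 := by
    have : (g⁻¹ * g : U n p) = 1 := inv_mul_cancel g
    have h3 := congrArg (fun x : U n p => x.1.1) this
    exact h3
  rw [h2, Matrix.one_mulVec, Matrix.one_mulVec] at h1
  exact h1

theorem finrank_uAct {n p : ℕ} [Fact p.Prime] (g : U n p) (W : Submodule (ZMod p) (Fin n → ZMod p)) :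
    finrank (ZMod p) (uAct n p g W) = finrank (ZMod p) W :=
  (Submodule.equivMapOfInjective _ (mulVec_injective g) W).finrank_eq.symm

theorem uAct_inf {n p : ℕ} (g : U n p) (W W' : Submodule (ZMod p) (Fin n → ZMod p)) :
    uAct n p g (W ⊓ W') = uAct n p g W ⊓ uAct n p g W' :=
  Submodule.map_inf _ (mulVec_injective g)

theorem uAct_mono {n p : ℕ} (g : U n p) : Monotone (uAct n p g) := by
  intro W W' h
  exact Submodule.map_mono h

theorem uAct_le_iff {n p : ℕ} (g : U n p) (W W' : Submodule (ZMod p) (Fin n → ZMod p)) :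
    uAct n p g W ≤ uAct n p g W' ↔ W ≤ W' := by
  constructor
  · intro h
    have := uAct_mono g⁻¹ h
    rwa [← uAct_mul, ← uAct_mul, inv_mul_cancel, uAct_one, uAct_one] at this
  · intro h
    exact uAct_mono g h

theorem uAct_lt_iff {n p : ℕ} (g : U n p) (W W' : Submodule (ZMod p) (Fin n → ZMod p)) :
    uAct n p g W < uAct n p g W' ↔ W < W' := by
  rw [lt_iff_le_not_ge, lt_iff_le_not_ge, uAct_le_iff, uAct_le_iff]

theorem uAct_stdFl {n p : ℕ} [Fact p.Prime] (g : U n p) (u : ℕ) :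
    uAct n p g (stdFl n p u) = stdFl n p u := by
  apply Submodule.eq_of_le_of_finrank_eq
  · rintro _ ⟨v, hv, rfl⟩ a ha
    show g.1.1.mulVec v a = 0
    rw [Matrix.mulVec, dotProduct]
    apply Finset.sum_eq_zero
    intro b _
    rcases lt_or_ge a b with h | h
    · rw [g.2.2 a b h, zero_mul]
    · have : (b : ℕ) ≤ a := h
      rw [hv b (by omega), mul_zero]
  · exact finrank_uAct g _

theorem uAct_stdV_of_mem {n p : ℕ} [Fact p.Prime] (g : U n p) (c : Fin n) (hg : g ∈ Bsub n p c) :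
    uAct n p g (stdV n p c) = stdV n p c := by
  apply Submodule.eq_of_le_of_finrank_eq
  · rintro _ ⟨v, hv, rfl⟩ a ha
    show g.1.1.mulVec v a = 0
    rw [Matrix.mulVec, dotProduct]
    apply Finset.sum_eq_zero
    intro b _
    rcases lt_or_ge b c with h | h
    · rw [hg a b h ha, zero_mul]
    · rw [hv b h, mul_zero]
  · exact finrank_uAct g _

theorem mulVec_single_mem {n p : ℕ} (g : U n p) (b : Fin n) (W : Submodule (ZMod p) (Fin n → ZMod p))
    (h : Pi.single b (1 : ZMod p) ∈ W) : (fun a => g.1.1 a b) ∈ uAct n p g W := by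
  refine ⟨_, h, ?_⟩
  ext a
  show g.1.1.mulVec _ a = _
  simp

theorem single_mem_stdV {n p : ℕ} (b : Fin n) (c : ℕ) (h : (b : ℕ) < c) :
    Pi.single b (1 : ZMod p) ∈ stdV n p c := by
  intro a ha
  rw [Pi.single_eq_of_ne]
  rintro rfl
  omega

theorem mem_of_uAct_stdV {n p : ℕ} (g : U n p) (c : Fin n) (hg : uAct n p g (stdV n p c) = stdV n p c) :
    g ∈ Bsub n p c := by
  intro a b hb ha
  have h1 := mulVec_single_mem g b _ (single_mem_stdV (p := p) b (c : ℕ) hb)
  rw [hg] at h1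
  exact h1 a ha

theorem uAct_stdV_iff {n p : ℕ} [Fact p.Prime] (g : U n p) (c : Fin n) :
    uAct n p g (stdV n p c) = stdV n p c ↔ g ∈ Bsub n p c :=
  ⟨mem_of_uAct_stdV g c, uAct_stdV_of_mem g c⟩

theorem uAct_top {n p : ℕ} [Fact p.Prime] (g : U n p) : uAct n p g ⊤ = ⊤ := by
  apply Submodule.eq_of_le_of_finrank_eq le_top
  exact finrank_uAct g _

theorem mem_PJ {I G : Type*} [Group G] {P : I → Subgroup G} {J : Finset I} {g : G} :
    g ∈ PJ P J ↔ ∀ i ∈ J, g ∈ P i := by
  simp [PJ, Subgroup.mem_iInf]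

theorem uAct_wall {n p : ℕ} [Fact p.Prime] {J₀ : Finset (Fin n)} {g : U n p}
    (hg : g ∈ PJ (Bsub n p) J₀) {X : Submodule (ZMod p) (Fin n → ZMod p)} (hX : X ∈ uWalls n p J₀) :
    uAct n p g X = X := by
  classical
  unfold uWalls at hX
  rw [Finset.mem_insert, Finset.mem_image] at hX
  rcases hX with rfl | ⟨c, hc, rfl⟩
  · exact uAct_top g
  · exact uAct_stdV_of_mem g c (mem_PJ.mp hg c hc)

/-- Every wall is some `stdV c`. -/
theorem wall_cases {n p : ℕ} {J₀ : Finset (Fin n)} {X : Submodule (ZMod p) (Fin n → ZMod p)}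
    (hX : X ∈ uWalls n p J₀) : ∃ c : ℕ, c ≤ n ∧ X = stdV n p c ∧ ∀ i : Fin n, (i : ℕ) = c → i ∈ J₀ := by
  classical
  unfold uWalls at hX
  rw [Finset.mem_insert, Finset.mem_image] at hX
  rcases hX with rfl | ⟨c, hc, rfl⟩
  · exact ⟨n, le_rfl, (stdV_top n p).symm, fun i hi => absurd i.2 (by omega)⟩
  · refine ⟨c, c.2.le, rfl, fun i hi => ?_⟩
    have : i = c := Fin.ext hi
    rwa [this]

theorem gen_act {n p : ℕ} [Fact p.Prime] (g : U n p) {A B W : Submodule (ZMod p) (Fin n → ZMod p)}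
    (hA : uAct n p g A = A) (hB : uAct n p g B = B) (h : Gen (stdFl n p) A B W) :
    Gen (stdFl n p) A B (uAct n p g W) := by
  obtain ⟨h1, h2, h3⟩ := h
  refine ⟨?_, ?_, fun u => ?_⟩
  · rw [← hA]; exact uAct_mono g h1
  · rw [← hB]; exact uAct_mono g h2
  · rw [finrank_uAct, ← h3 u, ← finrank_uAct g (stdFl n p u ⊓ W), uAct_inf, uAct_stdFl]

open Classical in
theorem genCx_act {n p : ℕ} [Fact p.Prime] {J₀ : Finset (Fin n)} {g : U n p}
    (hg : g ∈ PJ (Bsub n p) J₀) {s : Finset (Submodule (ZMod p) (Fin n → ZMod p))}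
    (hs : s ∈ GenCx (stdFl n p) (uWalls n p J₀)) :
    s.image (uAct n p g) ∈ GenCx (stdFl n p) (uWalls n p J₀) := by
  obtain ⟨h1, h2⟩ := hs
  constructor
  · intro W' hW'
    rw [Finset.mem_image] at hW'
    obtain ⟨W, hW, rfl⟩ := hW'
    obtain ⟨A, hA, B, hB, hAW, hWB, hX, hG⟩ := h1 W hW
    refine ⟨A, hA, B, hB, ?_, ?_, hX, ?_⟩
    · rw [← uAct_wall hg hA]; exact (uAct_lt_iff g _ _).mpr hAW
    · rw [← uAct_wall hg hB]; exact (uAct_lt_iff g _ _).mpr hWB
    · exact gen_act g (uAct_wall hg hA) (uAct_wall hg hB) hG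
  · intro W hW W' hW'
    rw [Finset.mem_image] at hW hW'
    obtain ⟨X, hX, rfl⟩ := hW
    obtain ⟨X', hX', rfl⟩ := hW'
    rw [uAct_le_iff, uAct_le_iff]
    exact h2 X hX X' hX'

theorem stdV_lt {n p : ℕ} [Fact p.Prime] {c c' : ℕ} (h : c < c') (hc' : c' ≤ n) :
    stdV n p c < stdV n p c' := by
  refine lt_of_le_of_ne (stdV_mono n p h.le) (fun h' => ?_)
  have := stdV_inj n p (by omega) hc' h'
  omega

theorem gen_stdV {n p : ℕ} [Fact p.Prime] {c x c' : ℕ} (h1 : c ≤ x) (h2 : x ≤ c') (hc' : c' ≤ n) :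
    Gen (stdFl n p) (stdV n p c) (stdV n p c') (stdV n p x) := by
  refine ⟨stdV_mono n p h1, stdV_mono n p h2, fun u => ?_⟩
  rw [finrank_stdFl_inf_stdV n p u x (by omega), finrank_stdFl_inf_stdV n p u c (by omega),
    finrank_stdFl_inf_stdV n p u c' hc', finrank_stdV n p c' hc', finrank_stdV n p x (by omega)]
  omega

theorem stdV_mem_uWalls {n p : ℕ} {J₀ : Finset (Fin n)} {i : Fin n} (hi : i ∈ J₀) :
    stdV n p i ∈ uWalls n p J₀ := by
  classical
  unfold uWalls
  rw [Finset.mem_insert, Finset.mem_image]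
  exact Or.inr ⟨i, hi, rfl⟩

theorem top_mem_uWalls {n p : ℕ} {J₀ : Finset (Fin n)} : (⊤ : Submodule (ZMod p) (Fin n → ZMod p)) ∈ uWalls n p J₀ := by
  classical
  unfold uWalls
  exact Finset.mem_insert_self _ _

theorem bot_mem_uWalls {n p : ℕ} [NeZero n] {J₀ : Finset (Fin n)} (h0 : (0 : Fin n) ∈ J₀) :
    (⊥ : Submodule (ZMod p) (Fin n → ZMod p)) ∈ uWalls n p J₀ := by
  have := stdV_mem_uWalls (p := p) h0
  rwa [Fin.val_zero, stdV_zero] at this

open Classical in
theorem card_uWalls_le {n p : ℕ} {J₀ : Finset (Fin n)} : (uWalls n p J₀).card ≤ J₀.card + 1 := by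
  unfold uWalls
  exact (Finset.card_insert_le _ _).trans (by gcongr; exact Finset.card_image_le)

theorem uWalls_total {n p : ℕ} {J₀ : Finset (Fin n)} : ∀ A ∈ uWalls n p J₀, ∀ B ∈ uWalls n p J₀, A ≤ B ∨ B ≤ A := by
  intro A hA B hB
  obtain ⟨c, _, rfl, _⟩ := wall_cases hA
  obtain ⟨c', _, rfl, _⟩ := wall_cases hB
  rcases le_total c c' with h | h
  · exact Or.inl (stdV_mono n p h)
  · exact Or.inr (stdV_mono n p h)

/-- The standard simplices. -/
theorem std_mem_genCx {n p : ℕ} [NeZero n] [Fact p.Prime] {J₀ : Finset (Fin n)} (h0 : (0 : Fin n) ∈ J₀)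
    (J : Finset (Fin n)) (hJ : Disjoint J J₀) [DecidableEq (Submodule (ZMod p) (Fin n → ZMod p))] :
    J.image (fun c : Fin n => stdV n p c) ∈ GenCx (stdFl n p) (uWalls n p J₀) := by
  constructor
  · intro W hW
    rw [Finset.mem_image] at hW
    obtain ⟨x, hx, rfl⟩ := hW
    have hx0 : x ∉ J₀ := Finset.disjoint_left.mp hJ hx
    -- the largest member of `J₀` below `x`
    have hne : (J₀.filter (fun i => i < x)).Nonempty := by
      refine ⟨0, ?_⟩
      rw [Finset.mem_filter]
      refine ⟨h0, ?_⟩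
      rw [Fin.pos_iff_ne_zero]
      rintro rfl
      exact hx0 h0
    obtain ⟨c, hc, hcmax⟩ := (J₀.filter (fun i => i < x)).exists_max_image id hne
    rw [Finset.mem_filter] at hc
    obtain ⟨hc0, hcx⟩ := hc
    have hcmax' : ∀ i ∈ J₀, i < x → i ≤ c := fun i hi hix =>
      hcmax i (Finset.mem_filter.mpr ⟨hi, hix⟩)
    by_cases hne' : (J₀.filter (fun i => x < i)).Nonempty
    · obtain ⟨c', hc', hcmin⟩ := (J₀.filter (fun i => x < i)).exists_min_image id hne'
      rw [Finset.mem_filter] at hc'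
      obtain ⟨hc0', hcx'⟩ := hc'
      have hcmin' : ∀ i ∈ J₀, x < i → c' ≤ i := fun i hi hix =>
        hcmin i (Finset.mem_filter.mpr ⟨hi, hix⟩)
      refine ⟨stdV n p c, stdV_mem_uWalls hc0, stdV n p c', stdV_mem_uWalls hc0', stdV_lt hcx x.2.le,
        stdV_lt hcx' c'.2.le, ?_, gen_stdV hcx.le hcx'.le c'.2.le⟩
      intro X hX
      obtain ⟨y, hy, rfl, hy'⟩ := wall_cases hX
      by_cases hyn : y = n
      · right; apply stdV_mono; have := c'.2; omega
      · have hyJ := hy' ⟨y, by omega⟩ rfl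
        rcases lt_trichotomy (⟨y, by omega⟩ : Fin n) x with h | h | h
        · left; exact stdV_mono n p (hcmax' _ hyJ h)
        · exact absurd (h ▸ hyJ) hx0
        · right; exact stdV_mono n p (hcmin' _ hyJ h)
    · rw [Finset.not_nonempty_iff_eq_empty, Finset.filter_eq_empty_iff] at hne'
      refine ⟨stdV n p c, stdV_mem_uWalls hc0, ⊤, top_mem_uWalls, stdV_lt hcx x.2.le, ?_, ?_, ?_⟩
      · rw [← stdV_top n p]; exact stdV_lt x.2 le_rfl
      · intro X hX
        obtain ⟨y, hy, rfl, hy'⟩ := wall_cases hX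
        by_cases hyn : y = n
        · right; rw [← stdV_top n p]; apply stdV_mono; omega
        · have hyJ := hy' ⟨y, by omega⟩ rfl
          rcases lt_trichotomy (⟨y, by omega⟩ : Fin n) x with h | h | h
          · left; exact stdV_mono n p (hcmax' _ hyJ h)
          · exact absurd (h ▸ hyJ) hx0
          · exact absurd h (hne' hyJ)
      · rw [← stdV_top n p]; exact gen_stdV (le_of_lt hcx) x.2.le le_rfl
  · intro W hW W' hW'
    rw [Finset.mem_image] at hW hW'
    obtain ⟨x, hx, rfl⟩ := hW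
    obtain ⟨x', hx', rfl⟩ := hW'
    rcases le_total x x' with h | h
    · exact Or.inl (stdV_mono n p h)
    · exact Or.inr (stdV_mono n p h)

/-! ### Transitivity -/

/-- A generic subspace is opposite to the flag. -/
theorem gen_opp {n p : ℕ} [Fact p.Prime] {c c' : ℕ} (hc' : c' ≤ n)
    {W : Submodule (ZMod p) (Fin n → ZMod p)}
    (h : Gen (stdFl n p) (stdV n p c) (stdV n p c') W) (hcc : c ≤ c') :
    stdFl n p (n - finrank (ZMod p) W) ⊓ W = ⊥ := by
  obtain ⟨h1, h2, h3⟩ := h
  have hw1 : c ≤ finrank (ZMod p) W := by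
    have := Submodule.finrank_mono h1
    rwa [finrank_stdV n p c (by omega)] at this
  have hw2 : finrank (ZMod p) W ≤ c' := by
    have := Submodule.finrank_mono h2
    rwa [finrank_stdV n p c' hc'] at this
  have h4 := h3 (n - finrank (ZMod p) W)
  rw [finrank_stdFl_inf_stdV n p _ c (by omega), finrank_stdFl_inf_stdV n p _ c' hc',
    finrank_stdV n p c' hc'] at h4
  have h5 : finrank (ZMod p) ↥(stdFl n p (n - finrank (ZMod p) W) ⊓ W) = 0 := by
    rw [h4]; omega
  exact Submodule.finrank_eq_zero.mp h5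

/-- The opposite flag is complementary. -/
theorem isCompl_of_opp {n p : ℕ} [Fact p.Prime]
    {W : Submodule (ZMod p) (Fin n → ZMod p)}
    (h : stdFl n p (n - finrank (ZMod p) W) ⊓ W = ⊥) :
    W ⊔ stdFl n p (n - finrank (ZMod p) W) = ⊤ := by
  apply Submodule.eq_top_of_finrank_eq
  have h1 := Submodule.finrank_sup_add_finrank_inf_eq W (stdFl n p (n - finrank (ZMod p) W))
  rw [inf_comm, h, finrank_bot, finrank_stdFl n p _ (by omega)] at h1
  have h2 : finrank (ZMod p) W ≤ finrank (ZMod p) (Fin n → ZMod p) := Submodule.finrank_le W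
  rw [Module.finrank_fin_fun] at h2 ⊢
  omega

theorem stdV_opp {n p : ℕ} [Fact p.Prime] (c : ℕ) (hc : c ≤ n) :
    stdFl n p (n - finrank (ZMod p) (stdV n p c)) ⊓ stdV n p c = ⊥ := by
  apply Submodule.finrank_eq_zero.mp
  rw [finrank_stdFl_inf_stdV n p _ c hc, finrank_stdV n p c hc]
  omega

/-- LU argument: a finite chain of subspaces opposite to the flag, containing `⊤`, is a translate of a
standard one. -/
theorem exists_lu {n p : ℕ} [Fact p.Prime] (T : Finset (Submodule (ZMod p) (Fin n → ZMod p)))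
    (hT : ∀ W ∈ T, ∀ W' ∈ T, W ≤ W' ∨ W' ≤ W) (htop : ⊤ ∈ T)
    (hopp : ∀ W ∈ T, stdFl n p (n - finrank (ZMod p) W) ⊓ W = ⊥) :
    ∃ g : U n p, ∀ W ∈ T, uAct n p g (stdV n p (finrank (ZMod p) W)) = W := by
  classical
  -- the smallest member of dimension `> b`
  have hX : ∀ b : Fin n, ∃ X : Submodule (ZMod p) (Fin n → ZMod p), X ∈ T ∧
      (b : ℕ) < finrank (ZMod p) X ∧
      ∀ Y : Submodule (ZMod p) (Fin n → ZMod p), Y ∈ T → (b : ℕ) < finrank (ZMod p) Y → X ≤ Y := by
    intro b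
    have hne : (T.filter (fun Y : Submodule (ZMod p) (Fin n → ZMod p) => (b : ℕ) < finrank (ZMod p) Y)).Nonempty := by
      refine ⟨⊤, Finset.mem_filter.mpr ⟨htop, ?_⟩⟩
      rw [finrank_top, Module.finrank_fin_fun]
      exact b.2
    obtain ⟨X, hX, hmin⟩ := (T.filter (fun Y : Submodule (ZMod p) (Fin n → ZMod p) => (b : ℕ) < finrank (ZMod p) Y)).exists_min_image
      (fun Y : Submodule (ZMod p) (Fin n → ZMod p) => finrank (ZMod p) Y) hne
    rw [Finset.mem_filter] at hX
    refine ⟨X, hX.1, hX.2, fun Y hY hbY => ?_⟩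
    rcases hT X hX.1 Y hY with h | h
    · exact h
    · have h1 := hmin Y (Finset.mem_filter.mpr ⟨hY, hbY⟩)
      have h2 := Submodule.eq_of_le_of_finrank_le h h1
      exact h2.symm.le
  choose X hXT hXb hXmin using hX
  -- columns
  have hcol : ∀ b : Fin n, ∃ x ∈ X b, ∃ y ∈ stdFl n p (n - finrank (ZMod p) (X b)),
      x + y = Pi.single b (1 : ZMod p) := by
    intro b
    have h1 := isCompl_of_opp (hopp (X b) (hXT b))
    have h2 : Pi.single b (1 : ZMod p) ∈ X b ⊔ stdFl n p (n - finrank (ZMod p) (X b)) := by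
      rw [h1]; trivial
    exact Submodule.mem_sup.mp h2
  choose x hx y hy hxy using hcol
  have hfin : ∀ b, finrank (ZMod p) (X b) ≤ n := by
    intro b
    have h2 : finrank (ZMod p) (X b) ≤ finrank (ZMod p) (Fin n → ZMod p) := Submodule.finrank_le _
    rwa [Module.finrank_fin_fun] at h2
  have hy0 : ∀ b a : Fin n, a ≤ b → y b a = 0 := by
    intro b a hab
    apply hy b a
    have h1 := hXb b
    have h2 := hfin b
    have h3 : (a : ℕ) ≤ b := hab
    omega
  have hxa : ∀ b a : Fin n, a ≤ b → x b a = (Pi.single b (1 : ZMod p) : Fin n → ZMod p) a := by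
    intro b a hab
    rw [← hxy b, Pi.add_apply, hy0 b a hab, add_zero]
  let M : Matrix (Fin n) (Fin n) (ZMod p) := fun a b => x b a
  have hM1 : ∀ a, M a a = 1 := by
    intro a
    show x a a = 1
    rw [hxa a a le_rfl, Pi.single_eq_same]
  have hM2 : ∀ a b, a < b → M a b = 0 := by
    intro a b h
    show x b a = 0
    rw [hxa b a h.le, Pi.single_eq_of_ne h.ne]
  have hdet : M.det = 1 := by
    rw [Matrix.det_of_isLowerTriangular M (fun a b h => hM2 a b h)]
    simp [hM1]
  let g : U n p := ⟨⟨M, hdet⟩, hM1, hM2⟩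
  refine ⟨g, fun W hW => ?_⟩
  have hWn : finrank (ZMod p) W ≤ n := by
    have h2 : finrank (ZMod p) W ≤ finrank (ZMod p) (Fin n → ZMod p) := Submodule.finrank_le _
    rwa [Module.finrank_fin_fun] at h2
  apply Submodule.eq_of_le_of_finrank_eq
  · rintro _ ⟨v, hv, rfl⟩
    have : Matrix.mulVecLin g.1.1 v = ∑ b, v b • x b := by
      ext a
      show M.mulVec v a = _
      rw [Matrix.mulVec, dotProduct, Finset.sum_apply]
      apply Finset.sum_congr rfl
      intro b _
      show x b a * v b = (v b • x b) a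
      rw [Pi.smul_apply, smul_eq_mul, mul_comm]
    rw [this]
    apply Submodule.sum_mem
    intro b _
    by_cases hb : (b : ℕ) < finrank (ZMod p) W
    · exact W.smul_mem _ (hXmin b W hW hb (hx b))
    · rw [hv b (by omega), zero_smul]
      exact W.zero_mem
  · rw [finrank_uAct, finrank_stdV n p _ hWn]

end Crest.Agent.R066
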