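import Crest.Agent.R066.Basic

/-! Rank two mixing in the unitriangular local model (task T4). -/

set_option autoImplicit false
set_option linter.unusedSectionVars false
set_option linter.unusedSimpArgs false
open scoped BigOperators

namespace Crest.Agent.R066

namespace UnipMixAux

/-! ### Affine plane incidence bound -/

section Plane

variable {F : Type*} [Field F] [Fintype F] [DecidableEq F]

theorem sum_shift (h : F → ℝ) (c : F) : ∑ w : F, h (w + c) = ∑ w : F, h w :=
  Fintype.sum_equiv (Equiv.addRight c) _ _ (fun _ => rfl)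

theorem sum_pair (g1 g2 : F → ℝ) {x x' : F} (hx : x ≠ x') :
    ∑ y : F, ∑ w : F, g1 (w + y * x) * g2 (w + y * x') = (∑ u : F, g1 u) * ∑ v : F, g2 v := by
  have hne : x - x' ≠ 0 := sub_ne_zero.2 hx
  rw [Finset.sum_mul_sum, ← Fintype.sum_prod_type', ← Fintype.sum_prod_type']
  refine Fintype.sum_equiv
    { toFun := fun q : F × F => (q.2 + q.1 * x, q.2 + q.1 * x')
      invFun := fun q : F × F => ((q.1 - q.2) / (x - x'), q.1 - (q.1 - q.2) / (x - x') * x)
      left_inv := ?_
      right_inv := ?_ } _ _ ?_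
  · rintro ⟨y, w⟩
    have : (w + y * x - (w + y * x')) / (x - x') = y := by field_simp; ring
    simp only [this, Prod.mk.injEq, true_and]
    ring
  · rintro ⟨u, v⟩
    simp only [Prod.mk.injEq]
    constructor
    · ring
    · field_simp
      ring
  · rintro ⟨y, w⟩
    rfl

theorem plane_lines (f : F → F → ℝ) (hf : ∑ x : F, ∑ z : F, f x z = 0) :
    ∑ y : F, ∑ w : F, (∑ x : F, f x (w + y * x)) ^ 2 ≤
      (Fintype.card F : ℝ) * ∑ x : F, ∑ z : F, f x z ^ 2 := by
  have h1 : ∑ y : F, ∑ w : F, (∑ x : F, f x (w + y * x)) ^ 2 =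
      ∑ x : F, ∑ x' : F, ∑ y : F, ∑ w : F, f x (w + y * x) * f x' (w + y * x') := by
    simp_rw [sq, Finset.sum_mul_sum]
    rw [Finset.sum_congr rfl (fun y _ => Finset.sum_comm)]
    rw [Finset.sum_comm]
    refine Finset.sum_congr rfl fun x _ => ?_
    rw [Finset.sum_congr rfl (fun y _ => Finset.sum_comm)]
    rw [Finset.sum_comm]
  have h2 : ∀ x x' : F, ∑ y : F, ∑ w : F, f x (w + y * x) * f x' (w + y * x') =
      (∑ z : F, f x z) * (∑ z : F, f x' z) +
        (if x = x' then (Fintype.card F : ℝ) * (∑ z : F, f x z ^ 2) - (∑ z : F, f x z) ^ 2 else 0) := by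
    intro x x'
    by_cases h : x = x'
    · subst h
      rw [if_pos rfl]
      have : ∀ y : F, ∑ w : F, f x (w + y * x) * f x (w + y * x) = ∑ z : F, f x z ^ 2 := by
        intro y
        rw [sum_shift (fun w => f x w * f x w) (y * x)]
        exact Finset.sum_congr rfl fun z _ => (sq _).symm
      rw [Finset.sum_congr rfl (fun y _ => this y)]
      rw [Finset.sum_const, Finset.card_univ, nsmul_eq_mul]
      ring
    · rw [if_neg h, add_zero]
      exact sum_pair (f x) (f x') h
  rw [h1]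
  simp_rw [h2, Finset.sum_add_distrib]
  rw [← Finset.sum_mul_sum, hf, zero_mul, zero_add]
  simp only [Finset.sum_ite_eq, Finset.mem_univ, if_true]
  rw [Finset.sum_sub_distrib, ← Finset.mul_sum]
  have : 0 ≤ ∑ x : F, (∑ z : F, f x z) ^ 2 := Finset.sum_nonneg fun x _ => sq_nonneg _
  linarith

/-- The bound used for the Heisenberg group. -/
theorem plane_bound (f k : F → F → ℝ) (hf : ∑ x : F, ∑ z : F, f x z = 0) :
    (∑ x : F, ∑ y : F, ∑ z : F, f x z * k y (z - y * x)) ^ 2 ≤
      (Fintype.card F : ℝ) * (∑ x : F, ∑ z : F, f x z ^ 2) * (∑ y : F, ∑ w : F, k y w ^ 2) := by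
  have h1 : ∑ x : F, ∑ y : F, ∑ z : F, f x z * k y (z - y * x) =
      ∑ y : F, ∑ w : F, k y w * ∑ x : F, f x (w + y * x) := by
    rw [Finset.sum_comm]
    refine Finset.sum_congr rfl fun y _ => ?_
    simp_rw [Finset.mul_sum]
    rw [Finset.sum_comm]
    conv_rhs => rw [Finset.sum_comm]
    rw [Finset.sum_comm]
    refine Finset.sum_congr rfl fun x _ => ?_
    rw [← sum_shift (fun z => f x z * k y (z - y * x)) (y * x)]
    refine Finset.sum_congr rfl fun w _ => ?_
    rw [add_sub_cancel_right, mul_comm]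
  rw [h1]
  have h2 := Finset.sum_mul_sq_le_sq_mul_sq (Finset.univ : Finset (F × F))
    (fun q => k q.1 q.2) (fun q => ∑ x : F, f x (q.2 + q.1 * x))
  rw [Fintype.sum_prod_type, Fintype.sum_prod_type, Fintype.sum_prod_type] at h2
  refine h2.trans ?_
  have h3 := plane_lines f hf
  have h4 : 0 ≤ ∑ y : F, ∑ w : F, k y w ^ 2 :=
    Finset.sum_nonneg fun y _ => Finset.sum_nonneg fun w _ => sq_nonneg _
  calc (∑ y : F, ∑ w : F, k y w ^ 2) * ∑ y : F, ∑ w : F, (∑ x : F, f x (w + y * x)) ^ 2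
      ≤ (∑ y : F, ∑ w : F, k y w ^ 2) * ((Fintype.card F : ℝ) * ∑ x : F, ∑ z : F, f x z ^ 2) :=
        mul_le_mul_of_nonneg_left h3 h4
    _ = _ := by ring

end Plane

/-! ### Symmetry of mixing -/

section Symm

variable {I : Type*} [DecidableEq I] {G : Type*} [Group G]

open Classical in
theorem mix_symm [Fintype G] (P : I → Subgroup G) (J₀ : Finset I) (a b : I) (lam : ℝ)
    (h : Mix P J₀ a b lam) : Mix P J₀ b a lam := by
  intro φ ψ hφ hψ h0
  set S := Finset.univ.filter (fun g : G => g ∈ PJ P J₀) with hS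
  have hne : (S.card : ℝ) ≠ 0 := by
    have : (1 : G) ∈ S := by simp [hS, (PJ P J₀).one_mem]
    exact_mod_cast (Finset.card_pos.2 ⟨1, this⟩).ne'
  set m : ℝ := (∑ g ∈ S, ψ g) / S.card with hm
  have hmm : (S.card : ℝ) * m = ∑ g ∈ S, ψ g := by rw [hm]; field_simp
  have h1 := h (fun g => ψ g - m) φ (fun g hg k hk => by simp only [hψ g hg k hk]) hφ ?_
  · have h2 : ∑ g ∈ S, (ψ g - m) * φ g = ∑ g ∈ S, φ g * ψ g := by
      have : ∑ g ∈ S, (ψ g - m) * φ g = ∑ g ∈ S, φ g * ψ g - m * ∑ g ∈ S, φ g := by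
        rw [Finset.mul_sum, ← Finset.sum_sub_distrib]
        exact Finset.sum_congr rfl fun g _ => by ring
      rw [this, h0, mul_zero, sub_zero]
    have h3 : ∑ g ∈ S, (ψ g - m) ^ 2 ≤ ∑ g ∈ S, ψ g ^ 2 := by
      have : ∑ g ∈ S, (ψ g - m) ^ 2 = ∑ g ∈ S, ψ g ^ 2 - S.card * m ^ 2 := by
        have e : ∀ g ∈ S, (ψ g - m) ^ 2 = ψ g ^ 2 - 2 * m * ψ g + m ^ 2 := fun g _ => by ring
        rw [Finset.sum_congr rfl e, Finset.sum_add_distrib, Finset.sum_sub_distrib,
          ← Finset.mul_sum, ← hmm, Finset.sum_const, nsmul_eq_mul]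
        ring
      rw [this]
      have : 0 ≤ (S.card : ℝ) * m ^ 2 := by positivity
      linarith
    rw [h2] at h1
    refine h1.trans ?_
    have h4 : 0 ≤ ∑ g ∈ S, φ g ^ 2 := Finset.sum_nonneg fun g _ => sq_nonneg _
    have h5 : 0 ≤ lam ^ 2 := sq_nonneg _
    calc lam ^ 2 * (∑ g ∈ S, (ψ g - m) ^ 2) * ∑ g ∈ S, φ g ^ 2
        ≤ lam ^ 2 * (∑ g ∈ S, ψ g ^ 2) * ∑ g ∈ S, φ g ^ 2 := by gcongr
      _ = lam ^ 2 * (∑ g ∈ S, φ g ^ 2) * ∑ g ∈ S, ψ g ^ 2 := by ring
  · rw [Finset.sum_sub_distrib, Finset.sum_const, nsmul_eq_mul, hmm, sub_self]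

end Symm

/-! ### Matrices -/

section Mats

open Matrix

variable {n p : ℕ}

/-- Constructor for elements of `U n p`. -/
def mkU (M : Matrix (Fin n) (Fin n) (ZMod p)) (h1 : ∀ i, M i i = 1) (h2 : ∀ i j, i < j → M i j = 0) :
    U n p :=
  ⟨⟨M, by
    rw [Matrix.det_of_isLowerTriangular M (fun i j h => h2 i j (OrderDual.toDual_lt_toDual.mp h))]
    simp [h1]⟩, h1, h2⟩

theorem mkU_coe (M : Matrix (Fin n) (Fin n) (ZMod p)) (h1 : ∀ i, M i i = 1)
    (h2 : ∀ i j, i < j → M i j = 0) : (mkU M h1 h2).1.1 = M := rfl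

theorem U_ext {g h : U n p} (H : g.1.1 = h.1.1) : g = h := Subtype.ext (Subtype.ext H)

theorem U_mul_coe (g h : U n p) : (g * h).1.1 = g.1.1 * h.1.1 := rfl

theorem mem_PJ_Bsub (J : Finset (Fin n)) (g : U n p) :
    g ∈ PJ (Bsub n p) J ↔ ∀ c ∈ J, ∀ i j : Fin n, j < c → c ≤ i → g.1.1 i j = 0 := by
  unfold PJ
  simp only [Subgroup.mem_iInf]
  rfl

/-- The matrix with entries `x` at `(a,a')`, `y` at `(b,b')`, `z` at `(b,a')`. -/
def EM (a' a b' b : Fin n) (x y z : ZMod p) : Matrix (Fin n) (Fin n) (ZMod p) :=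
  1 + single a a' x + single b b' y + single b a' z

theorem EM_apply (a' a b' b : Fin n) (x y z : ZMod p) (i j : Fin n) :
    EM a' a b' b x y z i j = (if i = j then 1 else 0) + (if a = i ∧ a' = j then x else 0) +
      (if b = i ∧ b' = j then y else 0) + (if b = i ∧ a' = j then z else 0) := by
  simp [EM, Matrix.one_apply, Matrix.single_apply]

/-- Heisenberg multiplication. -/
theorem EM_mul_adj {a' a b : Fin n} (h1 : a' < a) (h2 : a < b) (x y z x' y' z' : ZMod p) :
    EM a' a a b x y z * EM a' a a b x' y' z' =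
      EM a' a a b (x + x') (y + y') (z + z' + y * x') := by
  have e1 : a ≠ a' := h1.ne'
  have e1' : a' ≠ a := h1.ne
  have e2 : b ≠ a := h2.ne'
  have e2' : a ≠ b := h2.ne
  have e3 : b ≠ a' := (h1.trans h2).ne'
  have e3' : a' ≠ b := (h1.trans h2).ne
  unfold EM
  simp only [add_mul, mul_add, one_mul, mul_one, single_mul_single_same,
    single_mul_single_of_ne _ _ _ _ e1', single_mul_single_of_ne _ _ _ _ e1,
    single_mul_single_of_ne _ _ _ _ e2', single_mul_single_of_ne _ _ _ _ e3',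
    single_mul_single_of_ne _ _ _ _ e2, single_mul_single_of_ne _ _ _ _ e3, add_zero, zero_add,
    single_add]
  abel

/-- Commuting case. -/
theorem EM_mul_far {a' a b' b : Fin n} (h1 : a' < a) (h2 : a < b') (h3 : b' < b)
    (x y x' y' : ZMod p) :
    EM a' a b' b x y 0 * EM a' a b' b x' y' 0 = EM a' a b' b (x + x') (y + y') 0 := by
  have e1' : a' ≠ a := h1.ne
  have e2 : b' ≠ a := h2.ne'
  have e3 : b' ≠ b := h3.ne
  have e4 : a' ≠ b := (h1.trans (h2.trans h3)).ne
  unfold EM
  simp only [add_mul, mul_add, one_mul, mul_one,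
    single_mul_single_of_ne _ _ _ _ e1', single_mul_single_of_ne _ _ _ _ e2,
    single_mul_single_of_ne _ _ _ _ e3, single_mul_single_of_ne _ _ _ _ e4, add_zero, zero_add,
    single_add, single_zero]
  abel

theorem EM_diag {a' a b' b : Fin n} (h1 : a' < a) (h2 : a' < b) (h3 : b' < b) (x y z : ZMod p)
    (i : Fin n) : EM a' a b' b x y z i i = 1 := by
  rw [EM_apply, if_pos rfl, if_neg, if_neg, if_neg]
  · simp
  · rintro ⟨rfl, h⟩; exact h2.ne h
  · rintro ⟨rfl, h⟩; exact h3.ne h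
  · rintro ⟨rfl, h⟩; exact h1.ne h

theorem EM_upper {a' a b' b : Fin n} (h1 : a' < a) (h2 : a' < b) (h3 : b' < b) (x y z : ZMod p)
    (i j : Fin n) (h : i < j) : EM a' a b' b x y z i j = 0 := by
  rw [EM_apply, if_neg h.ne, if_neg, if_neg, if_neg]
  · simp
  · rintro ⟨rfl, rfl⟩; exact absurd h2 (not_lt.2 h.le)
  · rintro ⟨rfl, rfl⟩; exact absurd h3 (not_lt.2 h.le)
  · rintro ⟨rfl, rfl⟩; exact absurd h1 (not_lt.2 h.le)

theorem EM_zero {a' a b' b : Fin n} (x y z : ZMod p)
    (i j : Fin n) (h : i ≠ j) (hx : a = i → a' = j → x = 0) (hy : b = i → b' = j → y = 0)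
    (hz : b = i → a' = j → z = 0) : EM a' a b' b x y z i j = 0 := by
  rw [EM_apply, if_neg h]
  have e1 : (if a = i ∧ a' = j then x else 0) = 0 := by
    split_ifs with h'
    · exact hx h'.1 h'.2
    · rfl
  have e2 : (if b = i ∧ b' = j then y else 0) = 0 := by
    split_ifs with h'
    · exact hy h'.1 h'.2
    · rfl
  have e3 : (if b = i ∧ a' = j then z else 0) = 0 := by
    split_ifs with h'
    · exact hz h'.1 h'.2
    · rfl
  rw [e1, e2, e3]; simp

/-- The adjacent case. -/
theorem mix_adj (hp : p.Prime) [Fintype (U n p)] (J₀ : Finset (Fin n))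
    {a' a b : Fin n} (h1 : a'.val + 1 = a.val) (h2 : a.val + 1 = b.val) (ha : a ∉ J₀) (hb : b ∉ J₀)
    (hJ : ∀ c, c ≠ a → c ≠ b → c ∈ J₀) : Mix (Bsub n p) J₀ a b (1 / Real.sqrt p) := by
  classical
  have : Fact p.Prime := ⟨hp⟩
  have l1 : a' < a := by rw [Fin.lt_def]; omega
  have l2 : a < b := by rw [Fin.lt_def]; omega
  have l3 : a' < b := l1.trans l2
  let E : ZMod p → ZMod p → ZMod p → U n p := fun x y z =>
    mkU (EM a' a a b x y z) (EM_diag l1 l3 l2 x y z) (EM_upper l1 l3 l2 x y z)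
  have hE : ∀ x y z, (E x y z).1.1 = EM a' a a b x y z := fun x y z => rfl
  have hmul : ∀ x y z x' y' z', E x y z * E x' y' z' = E (x + x') (y + y') (z + z' + y * x') := by
    intro x y z x' y' z'
    apply U_ext
    rw [U_mul_coe, hE, hE, hE, EM_mul_adj l1 l2]
  -- membership
  have hmem : ∀ x y z, E x y z ∈ PJ (Bsub n p) J₀ := by
    intro x y z
    rw [mem_PJ_Bsub]
    intro c hc i j hj hi
    have hca : c ≠ a := fun h => ha (h ▸ hc)
    have hcb : c ≠ b := fun h => hb (h ▸ hc)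
    rw [hE]
    rw [Fin.lt_def] at hj
    rw [Fin.le_def] at hi
    have hca' : c.val ≠ a.val := fun h => hca (Fin.ext h)
    have hcb' : c.val ≠ b.val := fun h => hcb (Fin.ext h)
    refine EM_zero x y z i j (fun h => ?_) ?_ ?_ ?_
    · subst h; omega
    · rintro rfl rfl; omega
    · rintro rfl rfl; omega
    · rintro rfl rfl; omega
  have hmema : ∀ y, E 0 y 0 ∈ PJ (Bsub n p) (insert a J₀) := by
    intro y
    rw [mem_PJ_Bsub]
    intro c hc i j hj hi
    rcases Finset.mem_insert.1 hc with rfl | hc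
    · rw [hE]
      rw [Fin.lt_def] at hj
      rw [Fin.le_def] at hi
      refine EM_zero 0 y 0 i j (fun h => ?_) (fun _ _ => rfl) ?_ (fun _ _ => rfl)
      · subst h; omega
      · rintro rfl rfl; omega
    · exact (mem_PJ_Bsub J₀ _).1 (hmem 0 y 0) c hc i j hj hi
  have hmemb : ∀ x, E x 0 0 ∈ PJ (Bsub n p) (insert b J₀) := by
    intro x
    rw [mem_PJ_Bsub]
    intro c hc i j hj hi
    rcases Finset.mem_insert.1 hc with rfl | hc
    · rw [hE]
      rw [Fin.lt_def] at hj
      rw [Fin.le_def] at hi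
      refine EM_zero x 0 0 i j (fun h => ?_) ?_ (fun _ _ => rfl) (fun _ _ => rfl)
      · subst h; omega
      · rintro rfl rfl; omega
    · exact (mem_PJ_Bsub J₀ _).1 (hmem x 0 0) c hc i j hj hi
  -- surjectivity
  have hsurj : ∀ g ∈ PJ (Bsub n p) J₀, E (g.1.1 a a') (g.1.1 b a) (g.1.1 b a') = g := by
    intro g hg
    rw [mem_PJ_Bsub] at hg
    apply U_ext
    rw [hE]
    ext i j
    rcases lt_trichotomy i j with h | h | h
    · rw [EM_upper l1 l3 l2 _ _ _ i j h, g.2.2 i j h]
    · subst h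
      rw [EM_diag l1 l3 l2, g.2.1]
    · by_cases c1 : i = a ∧ j = a'
      · obtain ⟨rfl, rfl⟩ := c1
        rw [EM_apply, if_neg h.ne', if_pos ⟨rfl, rfl⟩, if_neg, if_neg]
        · simp
        · rintro ⟨h', -⟩; exact l2.ne' h'
        · rintro ⟨h', -⟩; exact l2.ne' h'
      · by_cases c2 : i = b ∧ j = a
        · obtain ⟨rfl, rfl⟩ := c2
          rw [EM_apply, if_neg h.ne', if_neg, if_pos ⟨rfl, rfl⟩, if_neg]
          · simp
          · rintro ⟨-, h'⟩; exact l1.ne h'
          · rintro ⟨h', -⟩; exact l2.ne h'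
        · by_cases c3 : i = b ∧ j = a'
          · obtain ⟨rfl, rfl⟩ := c3
            rw [EM_apply, if_neg h.ne', if_neg, if_neg, if_pos ⟨rfl, rfl⟩]
            · simp
            · rintro ⟨-, h'⟩; exact l1.ne' h'
            · rintro ⟨h', -⟩; exact l2.ne h'
          · rw [EM_zero _ _ _ i j h.ne']
            · -- some cut in `J₀` separates
              symm
              rw [Fin.lt_def] at h
              by_cases hi : i = a
              · -- j < a - 1
                have hj : j.val + 1 < a.val := by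
                  by_contra hcon
                  exact c1 ⟨hi, Fin.ext (by rw [hi] at h; omega)⟩
                refine hg ⟨j.val + 1, by omega⟩ (hJ _ ?_ ?_) i j ?_ ?_
                · intro h'; rw [Fin.ext_iff] at h'; simp at h'; omega
                · intro h'; rw [Fin.ext_iff] at h'; simp at h'; omega
                · rw [Fin.lt_def]; simp
                · rw [Fin.le_def]; simp; omega
              · by_cases hib : i = b
                · have hj1 : j.val ≠ a.val := fun h' => c2 ⟨hib, Fin.ext h'⟩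
                  have hj2 : j.val ≠ a'.val := fun h' => c3 ⟨hib, Fin.ext h'⟩
                  rw [hib] at h
                  refine hg ⟨j.val + 1, by omega⟩ (hJ _ ?_ ?_) i j ?_ ?_
                  · intro h'; rw [Fin.ext_iff] at h'; simp at h'; omega
                  · intro h'; rw [Fin.ext_iff] at h'; simp at h'; omega
                  · rw [Fin.lt_def]; simp
                  · rw [Fin.le_def]; simp; rw [hib]; omega
                · exact hg i (hJ i hi hib) i j (by rw [Fin.lt_def]; exact h) le_rfl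
            · intro h3 h4; exact absurd ⟨h3.symm, h4.symm⟩ c1
            · intro h3 h4; exact absurd ⟨h3.symm, h4.symm⟩ c2
            · intro h3 h4; exact absurd ⟨h3.symm, h4.symm⟩ c3
  -- coordinates of `E`
  have hx : ∀ x y z, (E x y z).1.1 a a' = x := by
    intro x y z
    rw [hE, EM_apply, if_neg l1.ne', if_pos ⟨rfl, rfl⟩, if_neg, if_neg]
    · simp
    · rintro ⟨h', -⟩; exact l2.ne' h'
    · rintro ⟨h', -⟩; exact l2.ne' h'
  have hy : ∀ x y z, (E x y z).1.1 b a = y := by
    intro x y z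
    rw [hE, EM_apply, if_neg l2.ne', if_neg, if_pos ⟨rfl, rfl⟩, if_neg]
    · simp
    · rintro ⟨-, h'⟩; exact l1.ne h'
    · rintro ⟨h', -⟩; exact l2.ne h'
  have hz : ∀ x y z, (E x y z).1.1 b a' = z := by
    intro x y z
    rw [hE, EM_apply, if_neg l3.ne', if_neg, if_neg, if_pos ⟨rfl, rfl⟩]
    · simp
    · rintro ⟨-, h'⟩; exact l1.ne' h'
    · rintro ⟨h', -⟩; exact l2.ne h'
  -- sums over the group
  have hsum : ∀ F : U n p → ℝ, ∑ g ∈ Finset.univ.filter (fun g : U n p => g ∈ PJ (Bsub n p) J₀), F g =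
      ∑ x : ZMod p, ∑ y : ZMod p, ∑ z : ZMod p, F (E x y z) := by
    intro F
    have e : ∑ x : ZMod p, ∑ y : ZMod p, ∑ z : ZMod p, F (E x y z) =
        ∑ q : ZMod p × ZMod p × ZMod p, F (E q.1 q.2.1 q.2.2) := by
      rw [Fintype.sum_prod_type]
      exact Finset.sum_congr rfl fun x _ => by rw [Fintype.sum_prod_type]
    rw [e]
    refine Finset.sum_nbij' (fun g => (g.1.1 a a', g.1.1 b a, g.1.1 b a'))
      (fun q => E q.1 q.2.1 q.2.2) ?_ ?_ ?_ ?_ ?_
    · intro g _; exact Finset.mem_univ _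
    · intro q _
      rw [Finset.mem_filter]
      exact ⟨Finset.mem_univ _, hmem _ _ _⟩
    · intro g hg
      exact hsurj g (Finset.mem_filter.1 hg).2
    · rintro ⟨x, y, z⟩ _
      simp only [hx, hy, hz]
    · intro g hg
      simp only
      rw [hsurj g (Finset.mem_filter.1 hg).2]
  intro φ ψ hφ hψ hs
  have hpc : Fintype.card (ZMod p) = p := ZMod.card p
  have hp0 : (0 : ℝ) < p := by exact_mod_cast hp.pos
  have f1 : ∀ x y z, φ (E x y z) = φ (E x 0 z) := by
    intro x y z
    have := hφ (E x 0 z) (hmem _ _ _) (E 0 y 0) (hmema y)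
    rw [hmul] at this
    simpa using this
  have f2 : ∀ x y z, ψ (E x y z) = ψ (E 0 y (z - y * x)) := by
    intro x y z
    have := hψ (E 0 y (z - y * x)) (hmem _ _ _) (E x 0 0) (hmemb x)
    rw [hmul] at this
    simpa using this
  rw [hsum] at hs
  rw [hsum, hsum, hsum]
  have g1 : ∑ x : ZMod p, ∑ z : ZMod p, φ (E x 0 z) = 0 := by
    have : ∑ x : ZMod p, ∑ y : ZMod p, ∑ z : ZMod p, φ (E x y z) =
        (p : ℝ) * ∑ x : ZMod p, ∑ z : ZMod p, φ (E x 0 z) := by
      rw [Finset.mul_sum]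
      refine Finset.sum_congr rfl fun x _ => ?_
      rw [Finset.sum_congr rfl (fun y _ => Finset.sum_congr rfl (fun z _ => f1 x y z)),
        Finset.sum_const, Finset.card_univ, hpc, nsmul_eq_mul]
    rw [this] at hs
    exact (mul_eq_zero.1 hs).resolve_left hp0.ne'
  have g2 : ∑ x : ZMod p, ∑ y : ZMod p, ∑ z : ZMod p, φ (E x y z) ^ 2 =
      (p : ℝ) * ∑ x : ZMod p, ∑ z : ZMod p, φ (E x 0 z) ^ 2 := by
    rw [Finset.mul_sum]
    refine Finset.sum_congr rfl fun x _ => ?_
    rw [Finset.sum_congr rfl (fun y _ => Finset.sum_congr rfl (fun z _ => by rw [f1 x y z])),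
      Finset.sum_const, Finset.card_univ, hpc, nsmul_eq_mul]
  have g3 : ∑ x : ZMod p, ∑ y : ZMod p, ∑ z : ZMod p, ψ (E x y z) ^ 2 =
      (p : ℝ) * ∑ y : ZMod p, ∑ w : ZMod p, ψ (E 0 y w) ^ 2 := by
    have : ∀ x : ZMod p, ∑ y : ZMod p, ∑ z : ZMod p, ψ (E x y z) ^ 2 =
        ∑ y : ZMod p, ∑ w : ZMod p, ψ (E 0 y w) ^ 2 := by
      intro x
      refine Finset.sum_congr rfl fun y _ => ?_
      rw [← sum_shift (fun w => ψ (E 0 y w) ^ 2) (-(y * x))]
      refine Finset.sum_congr rfl fun z _ => ?_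
      rw [f2 x y z, sub_eq_add_neg]
    rw [Finset.sum_congr rfl (fun x _ => this x), Finset.sum_const, Finset.card_univ, hpc,
      nsmul_eq_mul]
  have g4 : ∑ x : ZMod p, ∑ y : ZMod p, ∑ z : ZMod p, φ (E x y z) * ψ (E x y z) =
      ∑ x : ZMod p, ∑ y : ZMod p, ∑ z : ZMod p, φ (E x 0 z) * ψ (E 0 y (z - y * x)) := by
    refine Finset.sum_congr rfl fun x _ => Finset.sum_congr rfl fun y _ =>
      Finset.sum_congr rfl fun z _ => ?_
    rw [f1 x y z, f2 x y z]
  rw [g2, g3, g4]
  have h3 := plane_bound (fun x z => φ (E x 0 z)) (fun y w => ψ (E 0 y w)) g1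
  rw [hpc] at h3
  refine h3.trans (le_of_eq ?_)
  rw [div_pow, one_pow, Real.sq_sqrt hp0.le]
  field_simp

/-- The commuting case. -/
theorem mix_far (hp : p.Prime) [Fintype (U n p)] (J₀ : Finset (Fin n))
    {a' a b' b : Fin n} (h1 : a'.val + 1 = a.val) (h2 : a.val < b'.val) (h3 : b'.val + 1 = b.val)
    (ha : a ∉ J₀) (hb : b ∉ J₀)
    (hJ : ∀ c, c ≠ a → c ≠ b → c ∈ J₀) : Mix (Bsub n p) J₀ a b (1 / Real.sqrt p) := by
  classical
  have : Fact p.Prime := ⟨hp⟩
  have l1 : a' < a := by rw [Fin.lt_def]; omega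
  have l2 : a < b' := by rw [Fin.lt_def]; omega
  have l3 : b' < b := by rw [Fin.lt_def]; omega
  have l4 : a' < b := l1.trans (l2.trans l3)
  let E : ZMod p → ZMod p → U n p := fun x y =>
    mkU (EM a' a b' b x y 0) (EM_diag l1 l4 l3 x y 0) (EM_upper l1 l4 l3 x y 0)
  have hE : ∀ x y, (E x y).1.1 = EM a' a b' b x y 0 := fun x y => rfl
  have hmul : ∀ x y x' y', E x y * E x' y' = E (x + x') (y + y') := by
    intro x y x' y'
    apply U_ext
    rw [U_mul_coe, hE, hE, hE, EM_mul_far l1 l2 l3]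
  -- membership
  have hmem : ∀ x y, E x y ∈ PJ (Bsub n p) J₀ := by
    intro x y
    rw [mem_PJ_Bsub]
    intro c hc i j hj hi
    have hca : c ≠ a := fun h => ha (h ▸ hc)
    have hcb : c ≠ b := fun h => hb (h ▸ hc)
    rw [hE]
    rw [Fin.lt_def] at hj
    rw [Fin.le_def] at hi
    have hca' : c.val ≠ a.val := fun h => hca (Fin.ext h)
    have hcb' : c.val ≠ b.val := fun h => hcb (Fin.ext h)
    refine EM_zero x y 0 i j (fun h => ?_) ?_ ?_ (fun _ _ => rfl)
    · subst h; omega
    · rintro rfl rfl; omega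
    · rintro rfl rfl; omega
  have hmema : ∀ y, E 0 y ∈ PJ (Bsub n p) (insert a J₀) := by
    intro y
    rw [mem_PJ_Bsub]
    intro c hc i j hj hi
    rcases Finset.mem_insert.1 hc with rfl | hc
    · rw [hE]
      rw [Fin.lt_def] at hj
      rw [Fin.le_def] at hi
      refine EM_zero 0 y 0 i j (fun h => ?_) (fun _ _ => rfl) ?_ (fun _ _ => rfl)
      · subst h; omega
      · rintro rfl rfl; omega
    · exact (mem_PJ_Bsub J₀ _).1 (hmem 0 y) c hc i j hj hi
  have hmemb : ∀ x, E x 0 ∈ PJ (Bsub n p) (insert b J₀) := by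
    intro x
    rw [mem_PJ_Bsub]
    intro c hc i j hj hi
    rcases Finset.mem_insert.1 hc with rfl | hc
    · rw [hE]
      rw [Fin.lt_def] at hj
      rw [Fin.le_def] at hi
      refine EM_zero x 0 0 i j (fun h => ?_) ?_ (fun _ _ => rfl) (fun _ _ => rfl)
      · subst h; omega
      · rintro rfl rfl; omega
    · exact (mem_PJ_Bsub J₀ _).1 (hmem x 0) c hc i j hj hi
  -- surjectivity
  have hsurj : ∀ g ∈ PJ (Bsub n p) J₀, E (g.1.1 a a') (g.1.1 b b') = g := by
    intro g hg
    rw [mem_PJ_Bsub] at hg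
    apply U_ext
    rw [hE]
    ext i j
    rcases lt_trichotomy i j with h | h | h
    · rw [EM_upper l1 l4 l3 _ _ _ i j h, g.2.2 i j h]
    · subst h
      rw [EM_diag l1 l4 l3, g.2.1]
    · by_cases c1 : i = a ∧ j = a'
      · obtain ⟨rfl, rfl⟩ := c1
        rw [EM_apply, if_neg h.ne', if_pos ⟨rfl, rfl⟩, if_neg]
        · simp
        · rintro ⟨h', -⟩; exact (l2.trans l3).ne' h'
      · by_cases c2 : i = b ∧ j = b'
        · obtain ⟨rfl, rfl⟩ := c2
          rw [EM_apply, if_neg h.ne', if_neg, if_pos ⟨rfl, rfl⟩]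
          · simp
          · rintro ⟨h', -⟩; exact (l2.trans l3).ne h'
        · rw [EM_zero _ _ _ i j h.ne']
          · -- some cut in `J₀` separates
            symm
            rw [Fin.lt_def] at h
            by_cases hi : i = a
            · -- j < a - 1
              have hj : j.val + 1 < a.val := by
                by_contra hcon
                exact c1 ⟨hi, Fin.ext (by rw [hi] at h; omega)⟩
              refine hg ⟨j.val + 1, by omega⟩ (hJ _ ?_ ?_) i j ?_ ?_
              · intro h'; rw [Fin.ext_iff] at h'; simp at h'; omega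
              · intro h'; rw [Fin.ext_iff] at h'; simp at h'; omega
              · rw [Fin.lt_def]; simp
              · rw [Fin.le_def]; simp; omega
            · by_cases hib : i = b
              · have hj1 : j.val ≠ b'.val := fun h' => c2 ⟨hib, Fin.ext h'⟩
                rw [hib] at h
                -- the cut in front of `b'`
                refine hg b' (hJ _ l2.ne' l3.ne) i j ?_ ?_
                · rw [Fin.lt_def]; omega
                · rw [Fin.le_def, hib]; omega
              · exact hg i (hJ i hi hib) i j (by rw [Fin.lt_def]; exact h) le_rfl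
          · intro h3 h4; exact absurd ⟨h3.symm, h4.symm⟩ c1
          · intro h3 h4; exact absurd ⟨h3.symm, h4.symm⟩ c2
          · intro _ _; rfl
  -- coordinates of `E`
  have hx : ∀ x y, (E x y).1.1 a a' = x := by
    intro x y
    rw [hE, EM_apply, if_neg l1.ne', if_pos ⟨rfl, rfl⟩, if_neg]
    · simp
    · rintro ⟨h', -⟩; exact (l2.trans l3).ne' h'
  have hy : ∀ x y, (E x y).1.1 b b' = y := by
    intro x y
    rw [hE, EM_apply, if_neg l3.ne', if_neg, if_pos ⟨rfl, rfl⟩]
    · simp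
    · rintro ⟨h', -⟩; exact (l2.trans l3).ne h'
  -- sums over the group
  have hsum : ∀ F : U n p → ℝ, ∑ g ∈ Finset.univ.filter (fun g : U n p => g ∈ PJ (Bsub n p) J₀), F g =
      ∑ x : ZMod p, ∑ y : ZMod p, F (E x y) := by
    intro F
    rw [← Fintype.sum_prod_type' (f := fun x y => F (E x y))]
    refine Finset.sum_nbij' (fun g => (g.1.1 a a', g.1.1 b b'))
      (fun q => E q.1 q.2) ?_ ?_ ?_ ?_ ?_
    · intro g _; exact Finset.mem_univ _
    · intro q _
      rw [Finset.mem_filter]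
      exact ⟨Finset.mem_univ _, hmem _ _⟩
    · intro g hg
      exact hsurj g (Finset.mem_filter.1 hg).2
    · rintro ⟨x, y⟩ _
      simp only [hx, hy]
    · intro g hg
      simp only
      rw [hsurj g (Finset.mem_filter.1 hg).2]
  intro φ ψ hφ hψ hs
  have hpc : Fintype.card (ZMod p) = p := ZMod.card p
  have hp0 : (0 : ℝ) < p := by exact_mod_cast hp.pos
  have f1 : ∀ x y, φ (E x y) = φ (E x 0) := by
    intro x y
    have := hφ (E x 0) (hmem _ _) (E 0 y) (hmema y)
    rw [hmul] at this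
    simpa using this
  have f2 : ∀ x y, ψ (E x y) = ψ (E 0 y) := by
    intro x y
    have := hψ (E 0 y) (hmem _ _) (E x 0) (hmemb x)
    rw [hmul] at this
    simpa using this
  rw [hsum] at hs
  have g1 : ∑ x : ZMod p, φ (E x 0) = 0 := by
    have : ∑ x : ZMod p, ∑ y : ZMod p, φ (E x y) = (p : ℝ) * ∑ x : ZMod p, φ (E x 0) := by
      rw [Finset.mul_sum]
      refine Finset.sum_congr rfl fun x _ => ?_
      rw [Finset.sum_congr rfl (fun y _ => f1 x y),
        Finset.sum_const, Finset.card_univ, hpc, nsmul_eq_mul]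
    rw [this] at hs
    exact (mul_eq_zero.1 hs).resolve_left hp0.ne'
  have g4 : ∑ g ∈ Finset.univ.filter (fun g : U n p => g ∈ PJ (Bsub n p) J₀), φ g * ψ g = 0 := by
    rw [hsum]
    have : ∑ x : ZMod p, ∑ y : ZMod p, φ (E x y) * ψ (E x y) =
        (∑ x : ZMod p, φ (E x 0)) * ∑ y : ZMod p, ψ (E 0 y) := by
      rw [Finset.sum_mul_sum]
      refine Finset.sum_congr rfl fun x _ => Finset.sum_congr rfl fun y _ => ?_
      rw [f1 x y, f2 x y]
    rw [this, g1, zero_mul]
  rw [g4]
  have h4 : 0 ≤ ∑ g ∈ Finset.univ.filter (fun g : U n p => g ∈ PJ (Bsub n p) J₀), φ g ^ 2 :=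
    Finset.sum_nonneg fun g _ => sq_nonneg _
  have h5 : 0 ≤ ∑ g ∈ Finset.univ.filter (fun g : U n p => g ∈ PJ (Bsub n p) J₀), ψ g ^ 2 :=
    Finset.sum_nonneg fun g _ => sq_nonneg _
  have h6 : 0 ≤ (1 / Real.sqrt p) ^ 2 := sq_nonneg _
  have : (0 : ℝ) ^ 2 = 0 := by norm_num
  rw [this]
  exact mul_nonneg (mul_nonneg h6 h4) h5

end Mats

end UnipMixAux

open UnipMixAux in
theorem unip_mix (n p : ℕ) [NeZero n] (hp : p.Prime) [Fintype (U n p)] (J₀ : Finset (Fin n))
    (h0 : (0 : Fin n) ∈ J₀) (hcard : J₀.card + 2 = n) (a b : Fin n) (ha : a ∉ J₀) (hb : b ∉ J₀)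
    (hab : a ≠ b) : Mix (Bsub n p) J₀ a b (1 / Real.sqrt p) := by
  have hJ : ∀ c, c ≠ a → c ≠ b → c ∈ J₀ := by
    have h1 : (insert a (insert b J₀)).card = n := by
      rw [Finset.card_insert_of_notMem, Finset.card_insert_of_notMem hb]
      · omega
      · rw [Finset.mem_insert]
        rintro (h | h)
        · exact hab h
        · exact ha h
    have h2 : insert a (insert b J₀) = Finset.univ := by
      rw [← Finset.card_eq_iff_eq_univ, h1, Fintype.card_fin]
    intro c hca hcb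
    have h3 : c ∈ insert a (insert b J₀) := by rw [h2]; exact Finset.mem_univ c
    rw [Finset.mem_insert, Finset.mem_insert] at h3
    rcases h3 with h3 | h3 | h3
    · exact absurd h3 hca
    · exact absurd h3 hcb
    · exact h3
  have key : ∀ a b : Fin n, a ∉ J₀ → b ∉ J₀ → a < b → (∀ c, c ≠ a → c ≠ b → c ∈ J₀) →
      Mix (Bsub n p) J₀ a b (1 / Real.sqrt p) := by
    intro a b ha hb hlt hJ
    have ha0 : a.val ≠ 0 := by
      intro h
      apply ha
      have : a = 0 := Fin.ext (by rw [h]; simp)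
      rw [this]; exact h0
    rw [Fin.lt_def] at hlt
    by_cases hadj : a.val + 1 = b.val
    · exact mix_adj hp J₀ (a' := ⟨a.val - 1, by omega⟩) (by simp; omega) hadj ha hb hJ
    · exact mix_far hp J₀ (a' := ⟨a.val - 1, by omega⟩) (b' := ⟨b.val - 1, by omega⟩)
        (by simp; omega) (by simp; omega) (by simp; omega) ha hb hJ
  rcases lt_or_gt_of_ne hab with h | h
  · exact key a b ha hb h hJ
  · exact mix_symm _ _ _ _ _ (key b a hb ha h (fun c h1 h2 => hJ c h2 h1))

end Crest.Agent.R066
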