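import Crest.Agent.R066.EFin

/-! Vanishing of the cohomology of the finite quotients. -/

set_option autoImplicit false
set_option linter.unusedSectionVars false

namespace Crest.Agent.R066

open Polynomial E

open Classical in
/-- Main vanishing theorem. `R m` may be any (huge) function of `m`: the number of types `n` is free. -/
theorem van_of_exact : ∃ R : ℕ → ℕ, ∀ (N p : ℕ) (_ : p.Prime) (_ : p ≠ 2)
    (_ : ∀ n : ℕ, n ≤ N → ∀ [NeZero n], ∀ m, m + 2 ≤ n → ExactAt (cosetCx (HsubU n p)) m)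
    (n k m : ℕ) [NeZero n] (_ : n ≤ N) (_ : 2 ≤ k) (_ : 1 ≤ m) (_ : R m ≤ n),
    Van (Pk n p k) m := by
  refine ⟨fun m => rkE m + m + 2, ?_⟩
  intro N p hp hp2 hex n k m _ hn hk hm hmn
  have := Fact.mk hp
  simp only at hmn
  have hNP := acy_NP hp hp2 k hk N hex m n (by omega) hn
  have hinj : Function.Injective
      (Matrix.SpecialLinearGroup.toLin' : SLX n p →*
        ((Fin n → (ZMod p)[X]) ≃ₗ[(ZMod p)[X]] (Fin n → (ZMod p)[X]))) :=
    Matrix.SpecialLinearGroup.toLin'_injective
  have e : ↥((Gam n p k).subgroupOf (Uplus n p)) ≃*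
      ↥(NP (Fin n → (ZMod p)[X]) (Ideal.span {(X : (ZMod p)[X]) ^ k})) := by
    let φ : ↥((Gam n p k).subgroupOf (Uplus n p)) →*
        ↥(NP (Fin n → (ZMod p)[X]) (Ideal.span {(X : (ZMod p)[X]) ^ k})) :=
      { toFun := fun g => ⟨Matrix.SpecialLinearGroup.toLin' g.1.1, (mem_Gam_iff_NP k _).mp g.2⟩
        map_one' := by
          apply Subtype.ext
          exact map_one _
        map_mul' := fun g h => by
          apply Subtype.ext
          exact map_mul _ _ _ }
    refine MulEquiv.ofBijective φ ⟨?_, ?_⟩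
    · intro g h e
      have := congrArg Subtype.val e
      exact Subtype.ext (Subtype.ext (hinj this))
    · rintro ⟨g, hg⟩
      obtain ⟨A, hA, rfl⟩ := exists_of_mem_NP hp k (by omega) g hg
      exact ⟨⟨⟨A, Gam_le_Uplus k (by omega) hA⟩, hA⟩, rfl⟩
  have hacy : Acy ↥((Gam n p k).subgroupOf (Uplus n p)) m := Acy.of_equiv e hNP
  exact van_of_ex (HsubU n p) ((Gam n p k).subgroupOf (Uplus n p)) m hm
    (fun J => PJ_Pk hp k hk J)
    (ex_XT_of_acy (HsubU n p) (odd_HsubU hp hp2) _ m
      (fun b hb => XT.fex_of_exactAt _ b (hex n hn b (by omega))) hm hacy)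

end Crest.Agent.R066
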