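import Crest.Agent.R066.LocalGlobal
import Crest.Agent.R066.UnipLink
import Crest.Agent.R066.UnipMix
import Crest.Agent.R066.Transport
import Crest.Agent.R066.Model
import Crest.Agent.R066.LatMorse
import Crest.Agent.R066.LatAction
import Crest.Agent.R066.Vanish
import Crest.Agent.R066.Assemble

/-! Final assembly (task T8). -/

set_option autoImplicit false
open scoped BigOperators

namespace Crest.Agent.R066

theorem Mix.mono {I : Type} [DecidableEq I] {G : Type} [Group G] [Fintype G] {P : I → Subgroup G} {J₀ : Finset I}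
    {a b : I} {lam lam' : ℝ} (h0 : 0 ≤ lam) (h : lam ≤ lam') (hm : Mix P J₀ a b lam) : Mix P J₀ a b lam' := by
  classical
  intro φ ψ h1 h2 h3
  refine (hm φ ψ h1 h2 h3).trans ?_
  have h4 : lam ^ 2 ≤ lam' ^ 2 := pow_le_pow_left₀ h0 h 2
  have h5 : 0 ≤ ∑ g ∈ Finset.univ.filter (fun g : G => g ∈ PJ P J₀), φ g ^ 2 :=
    Finset.sum_nonneg fun g _ => sq_nonneg _
  have h6 : 0 ≤ ∑ g ∈ Finset.univ.filter (fun g : G => g ∈ PJ P J₀), ψ g ^ 2 :=
    Finset.sum_nonneg fun g _ => sq_nonneg _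
  exact mul_le_mul_of_nonneg_right (mul_le_mul_of_nonneg_right h4 h5) h6

theorem main (d : ℕ) (hd : 3 ≤ d) :
    ∃ D : ℕ, ∃ ε : ℝ, 0 < ε ∧ ∀ N : ℕ, ∃ n : ℕ, ∃ T : Finset (Finset (Fin n)), N ≤ n ∧
      (∀ τ ∈ T, τ.card = d + 1) ∧
      (∀ v : Fin n, 1 ≤ Crest.CombinatoricsR.Cochain.vertexDegree T v ∧ Crest.CombinatoricsR.Cochain.vertexDegree T v ≤ D) ∧
      (Crest.CombinatoricsR.Cochain.skeleton T).Connected ∧
      ∀ i : ℕ, i < d → ∀ f : Finset (Fin n) → ZMod 2,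
        ∃ b : Finset (Fin n) → ZMod 2, Crest.CombinatoricsR.Cochain.IsCoboundaryClass i b ∧
          ε * Crest.CombinatoricsR.Cochain.cochainNorm d T i (f - b) ≤ Crest.CombinatoricsR.Cochain.cochainNorm d T (i + 1) (Crest.CombinatoricsR.Cochain.coboundary i f) := by
  classical
  obtain ⟨R, hR⟩ := van_of_exact
  obtain ⟨n, hn3, hRn⟩ : ∃ n : ℕ, d + 3 ≤ n ∧ ∀ m, m ≤ d → R m ≤ n := by
    refine ⟨d + 3 + ∑ m ∈ Finset.range (d + 1), R m, Nat.le_add_right _ _, fun m hm => ?_⟩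
    have : R m ≤ ∑ m ∈ Finset.range (d + 1), R m :=
      Finset.single_le_sum (f := R) (fun _ _ => Nat.zero_le _) (Finset.mem_range.2 (by omega))
    omega
  have : NeZero n := ⟨by omega⟩
  obtain ⟨β, hβ, q₁, hq₁⟩ := unip_linkExp n
  obtain ⟨lam, hlam, hlg⟩ := local_to_global n d (by omega) β hβ
  obtain ⟨ε, hε, htr⟩ := trickle n lam hlam
  have hx : ∀ n' : ℕ, ∃ q : ℕ, ∀ (F : Type) [Field F] [Fintype F], q ≤ Fintype.card F → 1 ≤ n' →
      ∀ m, m + 2 ≤ n' → ExactAt (Lat.XCx F n') m := by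
    intro n'
    by_cases h : 1 ≤ n'
    · obtain ⟨q, hq⟩ := Lat.xcx_exact n' h
      exact ⟨q, fun F _ _ hF _ => hq F hF⟩
    · exact ⟨0, fun F _ _ _ h' => absurd h' h⟩
  choose q₂ hq₂ using hx
  obtain ⟨p, hpge, hp⟩ := Nat.exists_infinite_primes
    (3 + q₁ + ∑ n' ∈ Finset.range (n + 1), q₂ n' + ⌈(1 / ε) ^ 2⌉₊)
  have hp2 : p ≠ 2 := by omega
  have : Fact p.Prime := ⟨hp⟩
  have hp0 : (0 : ℝ) < p := by exact_mod_cast hp.pos
  have hsqrt : 1 / Real.sqrt p ≤ ε := by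
    have h1 : (1 / ε) ^ 2 ≤ (p : ℝ) := (Nat.le_ceil _).trans (by exact_mod_cast (by omega : ⌈(1 / ε) ^ 2⌉₊ ≤ p))
    have h2 : 1 / ε ≤ Real.sqrt p := Real.le_sqrt_of_sq_le h1
    rw [div_le_iff₀ (Real.sqrt_pos.2 hp0)]
    rw [div_le_iff₀ hε] at h2
    linarith [mul_comm ε (Real.sqrt p)]
  have hex : ∀ n' : ℕ, n' ≤ n → ∀ [NeZero n'], ∀ m, m + 2 ≤ n' → ExactAt (cosetCx (HsubU n' p)) m := by
    intro n' hn' inst m hm
    apply coset_exact_of_xcx n' p hp m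
    refine hq₂ n' (ZMod p) ?_ (by omega) m hm
    rw [ZMod.card]
    have : q₂ n' ≤ ∑ n' ∈ Finset.range (n + 1), q₂ n' :=
      Finset.single_le_sum (f := q₂) (fun _ _ => Nat.zero_le _) (Finset.mem_range.2 (by omega))
    omega
  have hfU : Fintype (U n p) := Fintype.ofFinite _
  obtain ⟨C₁, hC₁, hlg'⟩ := hlg (Nat.card (U n p))
  obtain ⟨D, ε', hε', hass⟩ := assemble d n (by omega) (by omega) (Nat.card (U n p)) C₁ hC₁
  refine ⟨D, ε', hε', fun N => ?_⟩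
  set D₀ := Nat.card (U n p) with hD₀
  obtain ⟨k, hk2, hkN⟩ : ∃ k : ℕ, 2 ≤ k ∧ D₀ * N < Nat.card (Gk n p k) := by
    refine ⟨D₀ * N + 2, by omega, ?_⟩
    have h1 := card_Gk (n := n) hp (by omega) (D₀ * N + 2) (by omega)
    have h2 : D₀ * N + 2 - 1 < p ^ (D₀ * N + 2 - 1) := Nat.lt_pow_self hp.one_lt
    omega
  have hfin := finite_Gk (n := n) hp k
  have hfG : Fintype (Gk n p k) := Fintype.ofFinite _
  have hloc := locallyU_Pk (n := n) hp k hk2
  have hcard : ∀ i, Nat.card (Pk n p k i) ≤ D₀ := by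
    intro i
    obtain ⟨φ, hφ, hr, _⟩ := hloc i
    rw [← hr, hD₀]
    exact (Nat.card_congr (MonoidHom.ofInjective hφ).toEquiv.symm).le
  have hlink : ∀ J₀ : Finset (Fin n), J₀.Nonempty → ∀ m : ℕ, 1 ≤ m → m + J₀.card + 1 ≤ n →
      LinkExp (Pk n p k) J₀ m β := by
    intro J₀ hJ m hm1 hm2
    obtain ⟨j, hj⟩ := hJ
    apply linkExp_transport n p (Gk n p k) (Pk n p k) hloc β J₀ j hj m
    refine hq₁ p hp (by omega) _ ?_ m hm1 ?_
    · exact Finset.mem_image.2 ⟨j, hj, sub_self j⟩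
    · rw [Finset.card_image_of_injective _ (sub_left_injective)]
      exact hm2
  have hvan : ∀ m : ℕ, 1 ≤ m → m ≤ d → Van (Pk n p k) m :=
    fun m h1 h2 => hR n p hp hp2 hex n k m le_rfl hk2 h1 (hRn m h2)
  have hmix2 : ∀ J₀ : Finset (Fin n), J₀.card + 2 = n → ∀ a ∉ J₀, ∀ b ∉ J₀, a ≠ b →
      Mix (Pk n p k) J₀ a b ε := by
    intro J₀ hJ a ha b hb hab
    have hne : J₀.Nonempty := by
      rw [← Finset.card_pos]; omega
    obtain ⟨j, hj⟩ := hne
    apply mix_transport n p (Gk n p k) (Pk n p k) hloc ε J₀ j hj a b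
    have hinj : Function.Injective (fun i : Fin n => i - j) := sub_left_injective
    refine Mix.mono (by positivity) hsqrt (unip_mix n p hp _ ?_ ?_ _ _ ?_ ?_ ?_)
    · exact Finset.mem_image.2 ⟨j, hj, sub_self j⟩
    · rw [Finset.card_image_of_injective _ hinj]
      exact hJ
    · intro h
      obtain ⟨i, hi, hia⟩ := Finset.mem_image.1 h
      exact ha (hinj hia ▸ hi)
    · intro h
      obtain ⟨i, hi, hib⟩ := Finset.mem_image.1 h
      exact hb (hinj hib ▸ hi)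
    · intro h
      exact hab (hinj h)
  have hconst : ∀ J₀ : Finset (Fin n), J₀.card + 2 ≤ n → ∀ φ : Gk n p k → ℝ,
      (∀ i ∉ J₀, ∀ g ∈ PJ (Pk n p k) J₀, ∀ h ∈ PJ (Pk n p k) (insert i J₀), φ (g * h) = φ g) →
      ∀ g ∈ PJ (Pk n p k) J₀, φ g = φ 1 := by
    intro J₀ hJ φ hφ
    rcases J₀.eq_empty_or_nonempty with rfl | hne
    · intro g _
      refine const_of_van (Pk n p k) (by rw [Fintype.card_fin]; omega) (hvan 1 le_rfl (by omega)) φ ?_ g
      intro i g h hh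
      refine hφ i (by simp) g (by simp [PJ]) h ?_
      simpa [PJ] using hh
    · exact const_of_linkExp (Pk n p k) J₀ (by rw [Fintype.card_fin]; exact hJ) β hβ
        (hlink J₀ hne 1 le_rfl (by omega)) φ hφ
  have hmix := htr (Fin n) (Fintype.card_fin n) (Gk n p k) (Pk n p k) hconst hmix2
  have hexp := hlg' (Fin n) (Fintype.card_fin n) (Gk n p k) (Pk n p k) hcard
    (fun J₀ hJ m h1 h2 => hlink J₀ hJ m h1 (by omega)) hmix hvan
  obtain ⟨N', T, h1, h2, h3, h4, h5⟩ := hass (Gk n p k) (Pk n p k) hcard hexp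
  refine ⟨N', T, ?_, h2, h3, h4, h5⟩
  have h6 : D₀ * N < D₀ * N' := lt_of_lt_of_le hkN h1
  exact (Nat.lt_of_mul_lt_mul_left h6).le

end Crest.Agent.R066
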