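import Crest.Agent.R066.TransvU

/-!
# Row 66, part (E): packaged facts on transvections and stabilisers (interface of helper261)
-/

set_option autoImplicit false

namespace Crest.Agent.R066

open Module

section Pack

variable {R : Type*} [CommRing R] {P : Type*} [AddCommGroup P] [Module R P]

/-- (V1) -/
theorem transv_pack_left (p : ℕ) (hp : (p : R) = 0) (I : Ideal R) (a : Frame R P) (u : P)
    (hu : a.φ u = 0) :
    ∃ K Wt : Subgroup (P ≃ₗ[R] P), K ≤ NP P I ∧ (∀ g ∈ NP P I, g • a = a → g ∈ K) ∧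
      transv a.φ u hu ∈ Wt ∧ (∀ k ∈ K, ∀ w ∈ Wt, k * w * k⁻¹ ∈ Wt) ∧
      (∀ x ∈ Wt, ∀ k ∈ K, x * k * x⁻¹ ∈ K) ∧ (∀ x ∈ Wt, ∀ y ∈ Wt, x * y = y * x) ∧
      (∀ x ∈ Wt, x ^ p = 1) := by
  let K : Subgroup (P ≃ₗ[R] P) :=
    { carrier := {g | g ∈ NP P I ∧ ∀ x, a.φ (g x) = a.φ x}
      one_mem' := ⟨(NP P I).one_mem, fun x => rfl⟩
      mul_mem' := by
        rintro g h ⟨hg1, hg2⟩ ⟨hh1, hh2⟩
        exact ⟨mul_mem hg1 hh1, fun x => by rw [LinearEquiv.mul_apply, hg2, hh2]⟩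
      inv_mem' := by
        rintro g ⟨hg1, hg2⟩
        exact ⟨inv_mem hg1, fun x => by rw [← hg2, app_inv]⟩ }
  refine ⟨K, W1 a, fun g hg => hg.1, ?_, transv_mem_W1 a u hu, ?_, ?_, fun x hx y hy =>
    W1_comm hx hy, fun x hx => W1_pow_char p hp hx⟩
  · intro g hg ha
    exact ⟨hg, (smul_eq_iff.1 ha).2⟩
  · rintro k ⟨hk1, hk2⟩ _ ⟨w, hw, rfl⟩
    rw [conj_transv]
    have h1 : a.φ (k w) = 0 := by rw [hk2, hw]
    refine ⟨k w, h1, transv_ext _ _ fun x => ?_⟩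
    change a.φ (k⁻¹ x) • k w = _
    rw [← hk2, app_inv]
  · rintro x ⟨w, hw, rfl⟩ k ⟨hk1, hk2⟩
    have hx : ∀ y, a.φ (transv a.φ w hw y) = a.φ y := by
      intro y
      rw [transv_apply, map_add, map_smul, hw, smul_zero, add_zero]
    refine ⟨(NP_normal (P := P) I).conj_mem k hk1 _, fun y => ?_⟩
    rw [LinearEquiv.mul_apply, LinearEquiv.mul_apply, hx, hk2, ← hx, app_inv]

/-- (V2) -/
theorem transv_pack_right (p : ℕ) (hp : (p : R) = 0) (I : Ideal R) (a : Frame R P) (ψ : Dual R P)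
    (hψ : ψ a.v = 0) :
    ∃ K Wt : Subgroup (P ≃ₗ[R] P), K ≤ NP P I ∧ (∀ g ∈ NP P I, g • a = a → g ∈ K) ∧
      transv ψ a.v hψ ∈ Wt ∧ (∀ k ∈ K, ∀ w ∈ Wt, k * w * k⁻¹ ∈ Wt) ∧
      (∀ x ∈ Wt, ∀ k ∈ K, x * k * x⁻¹ ∈ K) ∧ (∀ x ∈ Wt, ∀ y ∈ Wt, x * y = y * x) ∧
      (∀ x ∈ Wt, x ^ p = 1) := by
  let K : Subgroup (P ≃ₗ[R] P) :=
    { carrier := {g | g ∈ NP P I ∧ g a.v = a.v}
      one_mem' := ⟨(NP P I).one_mem, rfl⟩
      mul_mem' := by
        rintro g h ⟨hg1, hg2⟩ ⟨hh1, hh2⟩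
        exact ⟨mul_mem hg1 hh1, by rw [LinearEquiv.mul_apply, hh2, hg2]⟩
      inv_mem' := by
        rintro g ⟨hg1, hg2⟩
        refine ⟨inv_mem hg1, ?_⟩
        conv_lhs => rw [← hg2]
        rw [inv_app] }
  refine ⟨K, W2 a, fun g hg => hg.1, ?_, transv_mem_W2 a ψ hψ, ?_, ?_, fun x hx y hy =>
    W2_comm hx hy, fun x hx => W2_pow_char p hp hx⟩
  · intro g hg ha
    exact ⟨hg, (smul_eq_iff.1 ha).1⟩
  · rintro k ⟨hk1, hk2⟩ _ ⟨χ, hχ, rfl⟩
    rw [conj_transv]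
    have hk3 : k⁻¹ a.v = a.v := by
      conv_lhs => rw [← hk2]
      rw [inv_app]
    have h1 : (χ ∘ₗ ((k⁻¹ : P ≃ₗ[R] P) : P →ₗ[R] P)) a.v = 0 := by
      change χ (k⁻¹ a.v) = 0
      rw [hk3, hχ]
    refine ⟨_, h1, transv_ext _ _ fun x => ?_⟩
    rw [hk2]
  · rintro x ⟨χ, hχ, rfl⟩ k ⟨hk1, hk2⟩
    have hx : transv χ a.v hχ a.v = a.v := by
      rw [transv_apply, hχ, zero_smul, add_zero]
    have hx' : (transv χ a.v hχ)⁻¹ a.v = a.v := by
      have := inv_app (transv χ a.v hχ) a.v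
      rwa [hx] at this
    refine ⟨(NP_normal (P := P) I).conj_mem k hk1 _, ?_⟩
    rw [LinearEquiv.mul_apply, LinearEquiv.mul_apply, hx', hk2, hx]

/-- (V3) The group generated by the transvections attached to a frame. -/
noncomputable def FF (a : Frame R P) : Subgroup (P ≃ₗ[R] P) :=
  Subgroup.closure ({g | ∃ u, ∃ hu : a.φ u = 0, g = transv a.φ u hu} ∪
    {g | ∃ ψ : Dual R P, ∃ hψ : ψ a.v = 0, g = transv ψ a.v hψ})

theorem FF_eq_FG (a : Frame R P) : FF a = FG a := by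
  apply le_antisymm
  · rw [FF, Subgroup.closure_le]
    rintro g (hg | hg)
    · exact W1_le_FG a hg
    · exact W2_le_FG a hg
  · refine sup_le (fun g hg => ?_) (fun g hg => ?_)
    · exact Subgroup.subset_closure (Or.inl hg)
    · exact Subgroup.subset_closure (Or.inr hg)

theorem FF_eq [IsDomain R] [IsPrincipalIdealRing R] [Module.Free R P] [Module.Finite R P]
    (h : 5 ≤ finrank R P) (a b : Frame R P) : FF a = FF b := by
  rw [FF_eq_FG, FF_eq_FG, FG_eq h]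

/-- (V4) Elementary matrices. -/
theorem elem_mem_FF [IsDomain R] [IsPrincipalIdealRing R] {n : ℕ} (hn : 5 ≤ n)
    (a : Frame R (Fin n → R)) (i j : Fin n) (hij : i ≠ j) (r : R) :
    transv (r • (LinearMap.proj j : (Fin n → R) →ₗ[R] R)) (Pi.single i 1) (by
      simp [Pi.single_eq_of_ne hij.symm]) ∈ FF a := by
  have h5 : 5 ≤ finrank R (Fin n → R) := by
    rw [finrank_fintype_fun_eq_card, Fintype.card_fin]; exact hn
  rw [FF_eq_FG, FG_eq h5 a (stdFrame R j)]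
  apply W1_le_FG
  have h0 : (stdFrame R j).φ (r • Pi.single i 1) = 0 := by
    simp [stdFrame, coord, Pi.single_eq_of_ne hij.symm]
  refine ⟨r • Pi.single i 1, h0, transv_ext _ _ fun x => ?_⟩
  rw [LinearMap.smul_apply, smul_smul, smul_eq_mul, mul_comm]
  rfl

/-- Conjugation by a linear equivalence. -/
def conjEquiv {Q : Type*} [AddCommGroup Q] [Module R Q] (e : P ≃ₗ[R] Q) :
    (P ≃ₗ[R] P) ≃* (Q ≃ₗ[R] Q) where
  toFun g := (e.symm.trans g).trans e
  invFun g := (e.trans g).trans e.symm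
  left_inv g := by ext x; simp
  right_inv g := by ext x; simp
  map_mul' g h := by ext x; simp [LinearEquiv.mul_apply]

theorem conjEquiv_apply {Q : Type*} [AddCommGroup Q] [Module R Q] (e : P ≃ₗ[R] Q)
    (g : P ≃ₗ[R] P) (x : Q) : conjEquiv e g x = e (g (e.symm x)) := rfl

theorem conjEquiv_mem {Q : Type*} [AddCommGroup Q] [Module R Q] (e : P ≃ₗ[R] Q) {I : Ideal R}
    {g : P ≃ₗ[R] P} (hg : g ∈ NP P I) : conjEquiv e g ∈ NP Q I := by
  intro x
  have h := map_mem_smul_top (e : P →ₗ[R] Q) (hg (e.symm x))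
  have h2 : (e : P →ₗ[R] Q) (g (e.symm x) - e.symm x) = conjEquiv e g x - x := by
    rw [conjEquiv_apply, map_sub]
    change e _ - e (e.symm x) = _
    rw [e.apply_symm_apply]
  rwa [h2] at h

/-- The congruence subgroups of isomorphic modules are isomorphic. -/
def NPcongr {Q : Type*} [AddCommGroup Q] [Module R Q] (e : P ≃ₗ[R] Q) (I : Ideal R) :
    NP P I ≃* NP Q I where
  toFun g := ⟨conjEquiv e g, conjEquiv_mem e g.2⟩
  invFun g := ⟨conjEquiv e.symm g, conjEquiv_mem e.symm g.2⟩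
  left_inv g := by
    apply Subtype.ext
    ext x
    simp [conjEquiv_apply]
  right_inv g := by
    apply Subtype.ext
    ext x
    simp [conjEquiv_apply]
  map_mul' g h := by
    apply Subtype.ext
    exact map_mul (conjEquiv e) _ _

/-- (V5) The stabiliser of an orthogonal family of `s` frames is the congruence subgroup of rank
`n - s`. -/
noncomputable def stabEquivPi [IsDomain R] [IsPrincipalIdealRing R] [Module.Free R P]
    [Module.Finite R P] (I : Ideal R) {s : ℕ} (σ : Fin s → Frame R P)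
    (hσ : Pairwise fun i j => Perp (σ i) (σ j)) :
    stabNP I σ ≃* NP (Fin (finrank R P - s) → R) I :=
  (stabEquiv I σ hσ).symm.trans (NPcongr (LinearEquiv.ofFinrankEq (kerAll σ)
    (Fin (finrank R P - s) → R) (by
      have := finrank_kerAll σ hσ
      rw [Fintype.card_fin] at this
      rw [finrank_fintype_fun_eq_card, Fintype.card_fin]
      omega)) I)

end Pack

end Crest.Agent.R066
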