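import Crest.Agent.R066.Transv
import Crest.Agent.R066.Basic

/-!
# Row 66, part (E5): unitriangular matrices and the subgroups `Hsub` lie in the group generated
by transvections; `Gam` is the congruence subgroup `NP`.
-/

set_option autoImplicit false

namespace Crest.Agent.R066

open Module Matrix

section Tri

variable {R : Type*} [CommRing R] {n : ℕ}

/-- The coordinate functional. -/
def coord (R : Type*) [CommRing R] {n : ℕ} (i : Fin n) : Dual R (Fin n → R) := LinearMap.proj i

/-- The standard frame. -/
def stdFrame (R : Type*) [CommRing R] {n : ℕ} (i : Fin n) : Frame R (Fin n → R) :=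
  ⟨Pi.single i 1, coord R i, by simp [coord]⟩

theorem equiv_ext {g h : (Fin n → R) ≃ₗ[R] (Fin n → R)}
    (H : ∀ j, g (Pi.single j 1) = h (Pi.single j 1)) : g = h := by
  apply LinearEquiv.toLinearMap_injective
  apply LinearMap.pi_ext'
  intro j
  ext1
  exact H j

theorem equiv_apply_of_fix {g : (Fin n → R) ≃ₗ[R] (Fin n → R)} (w : Fin n → R)
    (H : ∀ j, w j ≠ 0 → g (Pi.single j 1) = Pi.single j 1) : g w = w := by
  have h1 : w = ∑ j, w j • (Pi.single j 1 : Fin n → R) := by
    ext i
    simp [Finset.sum_apply, Pi.single_apply]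
  conv_lhs => rw [h1]
  conv_rhs => rw [h1]
  rw [map_sum]
  refine Finset.sum_congr rfl fun j _ => ?_
  rw [map_smul]
  by_cases hj : w j = 0
  · rw [hj, zero_smul, zero_smul]
  · rw [H j hj]

/-- A subgroup containing the transvections `1 + w ⊗ e_j^*` contains all unitriangular
automorphisms, for any ordering `ρ` of the coordinates. -/
theorem unitri_mem (F : Subgroup ((Fin n → R) ≃ₗ[R] (Fin n → R)))
    (hF : ∀ j : Fin n, W1 (stdFrame R j) ≤ F) (ρ : Fin n → ℕ)
    (g : (Fin n → R) ≃ₗ[R] (Fin n → R)) (h1 : ∀ j, g (Pi.single j 1) j = 1)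
    (h2 : ∀ i j, i ≠ j → ρ i ≤ ρ j → g (Pi.single j 1) i = 0) : g ∈ F := by
  classical
  -- induction on a bound `k` such that `g` fixes all basis vectors of rank `≥ k`
  have key : ∀ (m k : ℕ) (g : (Fin n → R) ≃ₗ[R] (Fin n → R)),
      (Finset.univ.filter fun j : Fin n => ρ j < k).card ≤ m →
      (∀ j, g (Pi.single j 1) j = 1) → (∀ i j, i ≠ j → ρ i ≤ ρ j → g (Pi.single j 1) i = 0) →
      (∀ j, k ≤ ρ j → g (Pi.single j 1) = Pi.single j 1) → g ∈ F := by
    intro _ k
    induction k with
    | zero =>
      intro g _ _ _ h3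
      have : g = 1 := equiv_ext fun j => h3 j (Nat.zero_le _)
      rw [this]
      exact F.one_mem
    | succ k ih =>
      -- treat the columns of rank `k` one after the other
      intro g hm h1 h2 h3
      have inner : ∀ (s : Finset (Fin n)) (g : (Fin n → R) ≃ₗ[R] (Fin n → R)),
          (∀ j, g (Pi.single j 1) j = 1) →
          (∀ i j, i ≠ j → ρ i ≤ ρ j → g (Pi.single j 1) i = 0) →
          (∀ j, k + 1 ≤ ρ j → g (Pi.single j 1) = Pi.single j 1) →
          (∀ j, ρ j = k → j ∉ s → g (Pi.single j 1) = Pi.single j 1) → g ∈ F := by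
        intro s
        induction s using Finset.induction_on with
        | empty =>
          intro g h1 h2 h3 h4
          refine ih g ?_ h1 h2 fun j hj => ?_
          · exact (Finset.card_le_card (fun j hj => by
              simp only [Finset.mem_filter, Finset.mem_univ, true_and] at hj ⊢
              omega)).trans hm
          · rcases Nat.eq_or_lt_of_le hj with h | h
            · exact h4 j h.symm (Finset.notMem_empty j)
            · exact h3 j h
        | insert j0 s hj0 ihs =>
          intro g h1 h2 h3 h4
          by_cases hρ : ρ j0 = k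
          swap
          · refine ihs g h1 h2 h3 fun j hj hjs => h4 j hj ?_
            rw [Finset.mem_insert, not_or]
            exact ⟨fun e => hρ (e ▸ hj), hjs⟩
          let w : Fin n → R := g (Pi.single j0 1) - Pi.single j0 1
          have hw0 : coord R j0 w = 0 := by
            simp [coord, w, h1]
          have hwi : ∀ i, w i ≠ 0 → k + 1 ≤ ρ i := by
            intro i hi
            by_contra hcon
            apply hi
            by_cases hij : i = j0
            · rw [hij]; exact hw0
            · have := h2 i j0 hij (by omega)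
              simp [w, this, hij]
          let T := transv (stdFrame R j0).φ w hw0
          have hTF : T ∈ F := hF j0 (transv_mem_W1 (stdFrame R j0) w hw0)
          have hTinv : T⁻¹ = transv (stdFrame R j0).φ (-w) (by rw [map_neg]; exact neg_eq_zero.2 hw0) :=
            transv_inv _ _ _
          have hgw : g w = w := equiv_apply_of_fix w fun j hj => h3 j (hwi j hj)
          have hne : ∀ j, j ≠ j0 → (g * T⁻¹) (Pi.single j 1) = g (Pi.single j 1) := by
            intro j hj
            rw [LinearEquiv.mul_apply, hTinv, transv_apply]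
            have : (stdFrame R j0).φ (Pi.single j 1) = 0 := by
              simp [stdFrame, coord, hj.symm]
            rw [this, zero_smul, add_zero]
          have heq : (g * T⁻¹) (Pi.single j0 1) = Pi.single j0 1 := by
            rw [LinearEquiv.mul_apply, hTinv, transv_apply]
            have : (stdFrame R j0).φ (Pi.single j0 1) = 1 := (stdFrame R j0).h
            rw [this, one_smul, map_add, map_neg, hgw]
            simp [w]
          have hmem : g * T⁻¹ ∈ F := by
            refine ihs (g * T⁻¹) ?_ ?_ ?_ ?_
            · intro j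
              by_cases hj : j = j0
              · rw [hj, heq]; simp
              · rw [hne j hj, h1]
            · intro i j hij hle
              by_cases hj : j = j0
              · rw [hj, heq, Pi.single_eq_of_ne]
                exact hj ▸ hij
              · rw [hne j hj, h2 i j hij hle]
            · intro j hj
              rw [hne j (by rintro rfl; omega), h3 j hj]
            · intro j hj hjs
              by_cases hjj : j = j0
              · rw [hjj, heq]
              · rw [hne j hjj]
                exact h4 j hj (by rw [Finset.mem_insert, not_or]; exact ⟨hjj, hjs⟩)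
          have := F.mul_mem hmem hTF
          rwa [inv_mul_cancel_right] at this
      exact inner Finset.univ g h1 h2 h3 fun j _ hj => absurd (Finset.mem_univ j) hj
  refine key n (Finset.univ.sup ρ + 1) g ?_ h1 h2 fun j hj => ?_
  · exact (Finset.card_le_univ _).trans (by simp)
  · have := Finset.le_sup (f := ρ) (Finset.mem_univ j)
    omega

end Tri

section Mat

variable {R : Type*} [CommRing R] {n : ℕ}

theorem toLin'_single (A : SpecialLinearGroup (Fin n) R) (i j : Fin n) :
    SpecialLinearGroup.toLin' A (Pi.single j 1) i = A.1 i j := by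
  rw [SpecialLinearGroup.toLin'_apply, Matrix.toLin'_apply, Matrix.mulVec_single_one]
  rfl

theorem mem_smul_top_pi {I : Ideal R} {w : Fin n → R} :
    w ∈ I • (⊤ : Submodule R (Fin n → R)) ↔ ∀ i, w i ∈ I := by
  constructor
  · intro h i
    exact dual_mem_of_mem_smul_top (coord R i) h
  · intro h
    have h1 : w = ∑ j, w j • (Pi.single j 1 : Fin n → R) := by
      ext i
      simp [Finset.sum_apply, Pi.single_apply]
    rw [h1]
    exact sum_mem fun i _ => smul_mem_smul_top (h i) _

theorem mem_ker_map_iff {I : Ideal R} {A : SpecialLinearGroup (Fin n) R} :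
    A ∈ (SpecialLinearGroup.map (Ideal.Quotient.mk I)).ker ↔
      ∀ i j, A.1 i j - (1 : Matrix (Fin n) (Fin n) R) i j ∈ I := by
  rw [MonoidHom.mem_ker]
  refine (Matrix.SpecialLinearGroup.ext_iff _ _).trans ?_
  refine forall_congr' fun i => forall_congr' fun j => ?_
  rw [← Ideal.Quotient.eq_zero_iff_mem, map_sub, sub_eq_zero]
  have : (Ideal.Quotient.mk I) ((1 : Matrix (Fin n) (Fin n) R) i j)
      = (1 : Matrix (Fin n) (Fin n) (R ⧸ I)) i j := by
    rw [Matrix.one_apply, Matrix.one_apply]
    split_ifs
    · exact map_one _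
    · exact map_zero _
  rw [this]
  rfl

/-- The congruence subgroup in terms of matrices. -/
theorem toLin'_mem_NP_iff {I : Ideal R} {A : SpecialLinearGroup (Fin n) R} :
    SpecialLinearGroup.toLin' A ∈ NP (Fin n → R) I ↔
      A ∈ (SpecialLinearGroup.map (Ideal.Quotient.mk I)).ker := by
  rw [mem_ker_map_iff, mem_NP]
  constructor
  · intro h i j
    have := mem_smul_top_pi.1 (h (Pi.single j 1)) i
    rw [Pi.sub_apply, toLin'_single] at this
    convert this using 2
    rw [Matrix.one_apply, Pi.single_apply]
  · intro h x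
    rw [mem_smul_top_pi]
    intro i
    have h1 : (SpecialLinearGroup.toLin' A x - x) i
        = ∑ j, (A.1 i j - (1 : Matrix (Fin n) (Fin n) R) i j) * x j := by
      rw [SpecialLinearGroup.toLin'_apply, Matrix.toLin'_apply, Pi.sub_apply]
      simp only [sub_mul, Finset.sum_sub_distrib]
      congr 1
      simp [Matrix.one_apply]
    rw [h1]
    exact sum_mem fun j _ => Ideal.mul_mem_right _ _ (h i j)

end Mat

section Global

open Polynomial

variable {n p : ℕ} [Fact p.Prime] [NeZero n]

omit [NeZero n] in
theorem finrank_pi_poly : finrank (ZMod p)[X] (Fin n → (ZMod p)[X]) = n := by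
  rw [finrank_fintype_fun_eq_card, Fintype.card_fin]

omit [NeZero n] in
/-- `Gam` is the congruence subgroup. -/
theorem mem_Gam_iff_NP (k : ℕ) (A : SLX n p) :
    A ∈ Gam n p k ↔ SpecialLinearGroup.toLin' A ∈
      NP (Fin n → (ZMod p)[X]) (Ideal.span {(X : (ZMod p)[X]) ^ k}) := by
  rw [toLin'_mem_NP_iff]; rfl

/-- The finite groups `Hsub` consist of products of transvections. -/
theorem Hsub_le_FG (hn : 5 ≤ n) (a : Frame (ZMod p)[X] (Fin n → (ZMod p)[X])) (j : Fin n) :
    Hsub n p j ≤ (FG a).comap SpecialLinearGroup.toLin' := by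
  rw [Hsub, Subgroup.closure_le]
  rintro A ⟨u, hu⟩
  change SpecialLinearGroup.toLin' A ∈ FG a
  have h5 : 5 ≤ finrank (ZMod p)[X] (Fin n → (ZMod p)[X]) := by
    rw [finrank_pi_poly]; exact hn
  refine unitri_mem (FG a) (fun i => ?_) (fun i => ((i - j : Fin n) : ℕ)) _ ?_ ?_
  · rw [FG_eq h5 a (stdFrame _ i)]
    exact W1_le_FG _
  · intro i
    rw [toLin'_single, hu]
    simp only [phiMat]
    rw [u.2.1 (i - j)]
    simp
  · intro i l hil hle
    rw [toLin'_single, hu]
    simp only [phiMat]
    have hne : i - j ≠ l - j := fun e => hil (sub_left_injective e)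
    have hlt : i - j < l - j := lt_of_le_of_ne hle hne
    rw [u.2.2 _ _ hlt]
    simp

end Global

section Generation

variable {I : Type*} {G : Type*} [Group G]

/-- If the coset complex is connected then the subgroups generate the group. -/
theorem iSup_eq_top_of_exactAt (P : I → Subgroup G) [DecidableEq (CosetVert P)] (i0 : I)
    (h : ExactAt (cosetCx P) 1) : ⨆ i, P i = ⊤ := by
  classical
  rw [eq_top_iff]
  intro g _
  set L : Subgroup G := ⨆ i, P i with hL
  -- membership of cosets in `L`
  let good : CosetVert P → Prop := fun v => ∀ x : G, (x : G ⧸ P v.1) = v.2 → x ∈ L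
  have hgood : ∀ (i : I) (x : G), good ⟨i, (x : G ⧸ P i)⟩ ↔ x ∈ L := by
    intro i x
    constructor
    · intro h; exact h x rfl
    · intro hx y hy
      have h1 : y⁻¹ * x ∈ P i := QuotientGroup.eq.1 hy
      have h2 : y⁻¹ * x ∈ L := (le_iSup P i) h1
      have : y = x * (y⁻¹ * x)⁻¹ := by group
      rw [this]
      exact L.mul_mem hx (L.inv_mem h2)
  -- the functional counting good vertices
  let F : Ch (CosetVert P) →ₗ[ZMod 2] ZMod 2 :=
    Finsupp.lsum (ZMod 2) fun s => LinearMap.toSpanSingleton (ZMod 2) (ZMod 2)
      (if ∃ v, s = {v} ∧ good v then 1 else 0)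
  have hF1 : ∀ v, F (Finsupp.single {v} 1) = if good v then 1 else 0 := by
    intro v
    simp only [F, Finsupp.lsum_single, LinearMap.toSpanSingleton_apply, smul_eq_mul, one_mul]
    congr 1
    apply propext
    constructor
    · rintro ⟨w, hw, hg⟩
      rw [Finset.singleton_inj] at hw
      rwa [hw]
    · intro hg
      exact ⟨v, rfl, hg⟩
  have hbd : ∀ y ∈ chains (cosetCx P) 2, F (bd y) = 0 := by
    intro y hy
    have h1 : y = ∑ s ∈ y.support, Finsupp.single s (y s) := (Finsupp.sum_single y).symm
    rw [h1, map_sum, map_sum]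
    refine Finset.sum_eq_zero fun s hs => ?_
    obtain ⟨⟨x, hx⟩, hcard⟩ := hy hs
    obtain ⟨v, w, hvw, rfl⟩ := Finset.card_eq_two.1 hcard
    have hs1 : (Finsupp.single ({v, w} : Finset (CosetVert P)) (y {v, w}))
        = y {v, w} • Finsupp.single ({v, w} : Finset (CosetVert P)) (1 : ZMod 2) := by
      rw [Finsupp.smul_single, smul_eq_mul, mul_one]
    rw [hs1, map_smul, map_smul]
    have hb : bd (Finsupp.single ({v, w} : Finset (CosetVert P)) (1 : ZMod 2))
        = Finsupp.single {w} 1 + Finsupp.single {v} 1 := by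
      simp only [bd, Finsupp.lsum_single, LinearMap.sum_apply, Finsupp.lsingle_apply]
      rw [Finset.sum_pair hvw]
      congr 2
      · ext t
        simp only [Finset.mem_erase, Finset.mem_insert, Finset.mem_singleton]
        constructor
        · rintro ⟨h1, h2 | h2⟩
          · exact absurd h2 h1
          · exact h2
        · rintro rfl
          exact ⟨hvw.symm, Or.inr rfl⟩
      · ext t
        simp only [Finset.mem_erase, Finset.mem_insert, Finset.mem_singleton]
        constructor
        · rintro ⟨h1, h2 | h2⟩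
          · exact h2
          · exact absurd h2 h1
        · rintro rfl
          exact ⟨hvw, Or.inl rfl⟩
    have hv : v = ⟨v.1, (x : G ⧸ P v.1)⟩ := by
      rw [← hx v (by simp)]
    have hw : w = ⟨w.1, (x : G ⧸ P w.1)⟩ := by
      rw [← hx w (by simp)]
    have hgv : good v ↔ x ∈ L := by rw [hv]; exact hgood _ _
    have hgw : good w ↔ x ∈ L := by rw [hw]; exact hgood _ _
    rw [hb, map_add, hF1, hF1]
    simp only [hgv, hgw]
    rw [CharTwo.add_self_eq_zero, smul_zero]
  -- the cycle
  let v0 : CosetVert P := ⟨i0, ((1 : G) : G ⧸ P i0)⟩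
  let v1 : CosetVert P := ⟨i0, (g : G ⧸ P i0)⟩
  have hmem : ∀ x : G, Finsupp.single ({⟨i0, (x : G ⧸ P i0)⟩} : Finset (CosetVert P)) (1 : ZMod 2)
      ∈ chains (cosetCx P) 1 := by
    intro x
    refine Finsupp.single_mem_supported _ _ ⟨⟨x, ?_⟩, Finset.card_singleton _⟩
    intro v hv
    rw [Finset.mem_singleton] at hv
    rw [hv]
  obtain ⟨y, hy, hyz⟩ := h (Finsupp.single {v0} 1 + Finsupp.single {v1} 1)
    (add_mem (hmem 1) (hmem g)) (by
      rw [map_add]
      simp only [bd, Finsupp.lsum_single, Finsupp.lsingle_apply, Finset.sum_singleton]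
      have e : ∀ v : CosetVert P, ({v} : Finset (CosetVert P)).erase v = ∅ := by
        intro v; simp
      rw [e, e, ← Finsupp.single_add, CharTwo.add_self_eq_zero, Finsupp.single_zero])
  have h1 := hbd y hy
  rw [hyz, map_add, hF1, hF1] at h1
  have g0 : good v0 := (hgood i0 1).2 L.one_mem
  rw [if_pos g0] at h1
  by_contra hcon
  have g1 : ¬ good v1 := fun h => hcon ((hgood i0 g).1 h)
  rw [if_neg g1, add_zero] at h1
  exact one_ne_zero h1

end Generation

section Final

open Polynomial

variable {n p : ℕ} [Fact p.Prime] [NeZero n]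

omit [Fact p.Prime] in
/-- `Uplus` is contained in every subgroup containing the `Hsub` (given that they generate). -/
theorem Uplus_le_of_iSup (F : Subgroup (SLX n p)) (hF : ∀ j, Hsub n p j ≤ F)
    (h : ⨆ j, HsubU n p j = ⊤) : Uplus n p ≤ F := by
  have h2 : (⊤ : Subgroup (Uplus n p)) ≤ F.subgroupOf (Uplus n p) := by
    rw [← h]
    refine iSup_le fun j x hx => ?_
    rw [Subgroup.mem_subgroupOf]
    exact hF j (Subgroup.mem_subgroupOf.1 hx)
  intro A hA
  exact Subgroup.mem_subgroupOf.1 (h2 (Subgroup.mem_top (⟨A, hA⟩ : Uplus n p)))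

theorem Uplus_le_FG (hn : 5 ≤ n) (a : Frame (ZMod p)[X] (Fin n → (ZMod p)[X]))
    [DecidableEq (CosetVert (HsubU n p))] (h : ExactAt (cosetCx (HsubU n p)) 1) :
    Uplus n p ≤ (FG a).comap SpecialLinearGroup.toLin' :=
  Uplus_le_of_iSup _ (Hsub_le_FG hn a) (iSup_eq_top_of_exactAt _ 0 h)

end Final

end Crest.Agent.R066
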