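import Mathlib
import Crest.Agent.R066.SmallSet
import Crest.Agent.R066.Trickle

/-!
# Row 66: from rank-two spectral gaps to the mixing property of a coset system
-/

set_option autoImplicit false
set_option linter.unusedSectionVars false

open Finset

namespace Crest.Agent.R066

variable {G : Type*} [Group G] [Fintype G] {I : Type*} [Fintype I] [DecidableEq I]

/-- Spectral gap between the types `a`, `b` in the link of `κ`, for functions on `G`. -/
def PairGap (X : CosetSystem G I) (κ : Finset I) (a b : I) (lam : ℝ) : Prop :=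
  ∀ u v : G → ℝ, (∀ g, ∀ k ∈ X.K (insert a κ), u (g * k) = u g) →
    (∀ g, ∀ k ∈ X.K (insert b κ), v (g * k) = v g) →
    (∀ g, avg (X.K κ) u g = 0) → (∀ g, avg (X.K κ) v g = 0) →
    ∑ g, u g * v g ≤ lam * Real.sqrt (∑ g, u g ^ 2) * Real.sqrt (∑ g, v g ^ 2)

open Classical in
/-- The same on a finite group `H` with two subgroups. -/
def LocalGap (H : Subgroup G) (A B : Subgroup G) (lam : ℝ) : Prop :=
  ∀ u v : H → ℝ, (∀ g k : H, (k : G) ∈ A → u (g * k) = u g) →
    (∀ g k : H, (k : G) ∈ B → v (g * k) = v g) → ∑ g, u g = 0 → ∑ g, v g = 0 →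
    ∑ g, u g * v g ≤ lam * Real.sqrt (∑ g, u g ^ 2) * Real.sqrt (∑ g, v g ^ 2)

open Classical in
theorem sum_sum_mul (H : Subgroup G) (w : G → ℝ) :
    ∑ g : G, ∑ k : H, w (g * (k : G)) = Fintype.card H * ∑ g, w g := by
  rw [Finset.sum_comm]
  have : ∀ k : H, ∑ g : G, w (g * (k : G)) = ∑ g, w g := fun k =>
    Fintype.sum_equiv (Equiv.mulRight (k : G)) _ _ (fun g => by simp)
  rw [Finset.sum_congr rfl (fun k _ => this k)]
  simp

open Classical in
theorem pairGap_of_local (X : CosetSystem G I) (κ : Finset I) (a b : I) (lam : ℝ) (hlam : 0 ≤ lam)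
    (h : LocalGap (X.K κ) (X.K (insert a κ)) (X.K (insert b κ)) lam) : PairGap X κ a b lam := by
  intro u v hu hv hu0 hv0
  have hpos : (0 : ℝ) < Fintype.card (X.K κ) := by exact_mod_cast Fintype.card_pos
  have hz : ∀ w : G → ℝ, (∀ g, avg (X.K κ) w g = 0) → ∀ g, ∑ k : X.K κ, w (g * (k : G)) = 0 := by
    intro w hw g
    have := hw g
    unfold avg at this
    rcases div_eq_zero_iff.mp this with h1 | h1
    · exact h1
    · exact absurd h1 hpos.ne'
  have hloc : ∀ g : G, ∑ k : X.K κ, u (g * (k : G)) * v (g * (k : G)) ≤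
      lam * (Real.sqrt (∑ k : X.K κ, u (g * (k : G)) ^ 2) *
        Real.sqrt (∑ k : X.K κ, v (g * (k : G)) ^ 2)) := by
    intro g
    have := h (fun k => u (g * (k : G))) (fun k => v (g * (k : G)))
      (fun x k hk => by simp only [Subgroup.coe_mul, ← mul_assoc]; exact hu _ _ hk)
      (fun x k hk => by simp only [Subgroup.coe_mul, ← mul_assoc]; exact hv _ _ hk)
      (hz u hu0 g) (hz v hv0 g)
    rw [mul_assoc] at this
    exact this
  have h1 : (Fintype.card (X.K κ) : ℝ) * ∑ g, u g * v g ≤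
      lam * ∑ g : G, (Real.sqrt (∑ k : X.K κ, u (g * (k : G)) ^ 2) *
        Real.sqrt (∑ k : X.K κ, v (g * (k : G)) ^ 2)) := by
    rw [← sum_sum_mul (X.K κ) (fun g => u g * v g), Finset.mul_sum]
    exact Finset.sum_le_sum fun g _ => hloc g
  have h2 : ∑ g : G, (Real.sqrt (∑ k : X.K κ, u (g * (k : G)) ^ 2) *
        Real.sqrt (∑ k : X.K κ, v (g * (k : G)) ^ 2)) ≤
      Real.sqrt (∑ g : G, ∑ k : X.K κ, u (g * (k : G)) ^ 2) *
        Real.sqrt (∑ g : G, ∑ k : X.K κ, v (g * (k : G)) ^ 2) := by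
    refine (Real.sum_mul_le_sqrt_mul_sqrt _ _ _).trans (le_of_eq ?_)
    congr 2
    · refine Finset.sum_congr rfl fun g _ => Real.sq_sqrt (by positivity)
    · refine Finset.sum_congr rfl fun g _ => Real.sq_sqrt (by positivity)
  rw [sum_sum_mul (X.K κ) (fun g => u g ^ 2), sum_sum_mul (X.K κ) (fun g => v g ^ 2),
    Real.sqrt_mul hpos.le, Real.sqrt_mul hpos.le] at h2
  have h3 : Real.sqrt (Fintype.card (X.K κ) : ℝ) * Real.sqrt (∑ g, u g ^ 2) *
      (Real.sqrt (Fintype.card (X.K κ) : ℝ) * Real.sqrt (∑ g, v g ^ 2)) =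
      Fintype.card (X.K κ) * (Real.sqrt (∑ g, u g ^ 2) * Real.sqrt (∑ g, v g ^ 2)) := by
    have := Real.mul_self_sqrt hpos.le
    linear_combination (Real.sqrt (∑ g, u g ^ 2) * Real.sqrt (∑ g, v g ^ 2)) * this
  rw [h3] at h2
  have h4 : (Fintype.card (X.K κ) : ℝ) * ∑ g, u g * v g ≤
      Fintype.card (X.K κ) * (lam * Real.sqrt (∑ g, u g ^ 2) * Real.sqrt (∑ g, v g ^ 2)) := by
    calc (Fintype.card (X.K κ) : ℝ) * ∑ g, u g * v g ≤ _ := h1
      _ ≤ lam * (Fintype.card (X.K κ) *
          (Real.sqrt (∑ g, u g ^ 2) * Real.sqrt (∑ g, v g ^ 2))) := by gcongr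
      _ = _ := by ring
  exact le_of_mul_le_mul_left h4 hpos

/-- Right `K_T`-invariant functions. -/
def invSub (X : CosetSystem G I) (T : Finset I) : Submodule ℝ (EuclideanSpace ℝ G) where
  carrier := {u | ∀ g, ∀ k ∈ X.K T, u (g * k) = u g}
  add_mem' := by
    intro u v hu hv g k hk
    simp only [PiLp.add_apply]
    rw [hu g k hk, hv g k hk]
  zero_mem' := by intro g k _; simp
  smul_mem' := by
    intro c u hu g k hk
    simp only [PiLp.smul_apply]
    rw [hu g k hk]

theorem mem_invSub {X : CosetSystem G I} {T : Finset I} {u : EuclideanSpace ℝ G} :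
    u ∈ invSub X T ↔ ∀ g, ∀ k ∈ X.K T, u (g * k) = u g := Iff.rfl

theorem inner_eq_sum (u v : EuclideanSpace ℝ G) : @inner ℝ _ _ u v = ∑ g, u g * v g := by
  rw [PiLp.inner_apply]
  refine Finset.sum_congr rfl fun g _ => ?_
  simp [mul_comm]

theorem norm_eq_sqrt (u : EuclideanSpace ℝ G) : ‖u‖ = Real.sqrt (∑ g, u g ^ 2) := by
  rw [EuclideanSpace.norm_eq]
  congr 1
  refine Finset.sum_congr rfl fun g _ => ?_
  rw [Real.norm_eq_abs, sq_abs]

open Classical in
/-- averaging as an element of `EuclideanSpace`. -/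
noncomputable def avgE (X : CosetSystem G I) (T : Finset I) (u : EuclideanSpace ℝ G) :
    EuclideanSpace ℝ G := WithLp.toLp 2 (fun g => avg (X.K T) (fun x => u x) g)

open Classical in
theorem avgE_mem (X : CosetSystem G I) (T : Finset I) (u : EuclideanSpace ℝ G) :
    avgE X T u ∈ invSub X T := by
  intro g k hk
  simp only [avgE, avg]
  congr 1
  refine Fintype.sum_equiv (Equiv.mulLeft (⟨k, hk⟩ : X.K T)) _ _ (fun x => ?_)
  simp [mul_assoc]

open Classical in
theorem inner_avgE (X : CosetSystem G I) (T : Finset I) (u w : EuclideanSpace ℝ G)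
    (hw : w ∈ invSub X T) : @inner ℝ _ _ w (avgE X T u) = @inner ℝ _ _ w u := by
  rw [inner_eq_sum, inner_eq_sum]
  have hpos : (0 : ℝ) < Fintype.card (X.K T) := by exact_mod_cast Fintype.card_pos
  have h1 : ∀ g, w g * (avgE X T u) g =
      (∑ k : X.K T, (w (g * (k : G)) * u (g * (k : G)))) / Fintype.card (X.K T) := by
    intro g
    simp only [avgE, avg]
    rw [mul_div_assoc', Finset.mul_sum]
    congr 1
    refine Finset.sum_congr rfl fun k _ => ?_
    rw [hw g k k.2]
  rw [Finset.sum_congr rfl (fun g _ => h1 g), ← Finset.sum_div,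
    sum_sum_mul (X.K T) (fun g => w g * u g)]
  field_simp

theorem avgE_eq_zero_of_orth (X : CosetSystem G I) (T : Finset I) (u : EuclideanSpace ℝ G)
    (hu : u ∈ (invSub X T)ᗮ) : avgE X T u = 0 := by
  have h1 : @inner ℝ _ _ (avgE X T u) (avgE X T u) = (0 : ℝ) := by
    rw [inner_avgE X T u _ (avgE_mem X T u)]
    exact hu _ (avgE_mem X T u)
  exact inner_self_eq_zero.mp h1

theorem starProjection_eq_avgE (X : CosetSystem G I) (T : Finset I) (u : EuclideanSpace ℝ G) :
    (invSub X T).starProjection u = avgE X T u := by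
  refine Submodule.eq_starProjection_of_mem_orthogonal (avgE_mem X T u) ?_
  intro w hw
  rw [inner_sub_right, inner_avgE X T u w hw, sub_self]

theorem gap_of_pairGap (X : CosetSystem G I) (κ : Finset I) (a b : I) (lam : ℝ)
    (h : PairGap X κ a b lam) : Gap (invSub X) κ a b lam := by
  intro u hu v hv hu' hv'
  rw [inner_eq_sum, norm_eq_sqrt, norm_eq_sqrt]
  refine h (fun g => u g) (fun g => v g) hu hv ?_ ?_
  · intro g
    have := congrArg (fun w : EuclideanSpace ℝ G => w g) (avgE_eq_zero_of_orth X κ u hu')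
    simpa [avgE] using this
  · intro g
    have := congrArg (fun w : EuclideanSpace ℝ G => w g) (avgE_eq_zero_of_orth X κ v hv')
    simpa [avgE] using this

theorem invSub_mono (X : CosetSystem G I) (S T : Finset I) (h : S ⊆ T) :
    invSub X S ≤ invSub X T := by
  intro u hu g k hk
  exact hu g k (X.K_mono h hk)

theorem invSub_inf (X : CosetSystem G I) (κ : Finset I) (a b : I)
    (hgen : X.K κ ≤ X.K (insert a κ) ⊔ X.K (insert b κ)) :
    invSub X (insert a κ) ⊓ invSub X (insert b κ) ≤ invSub X κ := by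
  rintro u ⟨hu1, hu2⟩ g k hk
  let L : Subgroup G :=
    { carrier := {k | ∀ g, u (g * k) = u g}
      mul_mem' := by
        intro x y hx hy g
        rw [← mul_assoc, hy, hx]
      one_mem' := by intro g; simp
      inv_mem' := by
        intro x hx g
        have := hx (g * x⁻¹)
        rw [inv_mul_cancel_right] at this
        exact this.symm }
  have h1 : X.K (insert a κ) ≤ L := fun k hk g => hu1 g k hk
  have h2 : X.K (insert b κ) ≤ L := fun k hk g => hu2 g k hk
  exact (hgen.trans (sup_le h1 h2)) hk g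

/-- **Mixing from rank two gaps.** -/
theorem mix_of_base (X : CosetSystem G I) (lam0 : ℝ) (h0 : 0 ≤ lam0)
    (h1 : Fintype.card I * lam0 < 1)
    (hgen : ∀ (κ : Finset I) (a b : I), a ≠ b → a ∉ κ → b ∉ κ →
      X.K κ ≤ X.K (insert a κ) ⊔ X.K (insert b κ))
    (hbase : ∀ (κ : Finset I) (a b : I), a ≠ b → a ∉ κ → b ∉ κ → κᶜ.card = 2 →
      PairGap X κ a b lam0) :
    Mix X (Fintype.card I * (lam0 / (1 - Fintype.card I * lam0))) := by
  classical
  have hall := gap_all (invSub X) (invSub_mono X)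
    (fun κ a b hab ha hb => invSub_inf X κ a b (hgen κ a b hab ha hb)) lam0 h0 h1
    (fun κ a b hab ha hb hc => gap_of_pairGap X κ a b lam0 (hbase κ a b hab ha hb hc))
  set lam := lam0 / (1 - Fintype.card I * lam0) with hlam
  have hlam0 : 0 ≤ lam := div_nonneg h0 (by linarith)
  intro κ w hw S hS u v hu hv
  set U : EuclideanSpace ℝ G := WithLp.toLp 2 u with hU
  set Y : EuclideanSpace ℝ G := WithLp.toLp 2 v with hY
  have hUm : U ∈ invSub X (insert w κ) := hu
  have hYm : Y ∈ invSub X (κ ∪ S) := hv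
  set P := (invSub X κ).starProjection with hP
  have hPU : P U ∈ invSub X κ := Submodule.starProjection_apply_mem _ _
  have hPY : P Y ∈ invSub X κ := Submodule.starProjection_apply_mem _ _
  have hUo : U - P U ∈ (invSub X κ)ᗮ := Submodule.sub_starProjection_mem_orthogonal U
  have hYo : Y - P Y ∈ (invSub X κ)ᗮ := Submodule.sub_starProjection_mem_orthogonal Y
  have hUm' : U - P U ∈ invSub X (insert w κ) :=
    Submodule.sub_mem _ hUm (invSub_mono X _ _ (Finset.subset_insert _ _) hPU)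
  have hYm' : Y - P Y ∈ invSub X (κ ∪ S) :=
    Submodule.sub_mem _ hYm (invSub_mono X _ _ Finset.subset_union_left hPY)
  have hsw := swap_bound (invSub X) (invSub_mono X) lam hlam0 hall w S κ hw hS (U - P U) hUm' hUo
  have hsplit : @inner ℝ _ _ U Y = @inner ℝ _ _ (P U) (P Y) +
      @inner ℝ _ _ (U - P U) (Y - P Y) := by
    have e1 : @inner ℝ _ _ (P U) (Y - P Y) = (0 : ℝ) := hYo (P U) hPU
    have e2 : @inner ℝ _ _ (U - P U) (P Y) = (0 : ℝ) := by
      rw [real_inner_comm]; exact hUo (P Y) hPY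
    have e3 : U = P U + (U - P U) := by abel
    have e4 : Y = P Y + (Y - P Y) := by abel
    conv_lhs => rw [e3, e4]
    rw [inner_add_left, inner_add_right, inner_add_right, e1, e2]; ring
  have hin : @inner ℝ _ _ (U - P U) (Y - P Y) ≤
      (Fintype.card I * lam) * ‖U‖ * ‖Y‖ := by
    have e1 : @inner ℝ _ _ (U - P U) (Y - P Y) =
        @inner ℝ _ _ ((invSub X (κ ∪ S)).starProjection (U - P U)) (Y - P Y) := by
      have := (Submodule.sub_starProjection_mem_orthogonal
        (K := invSub X (κ ∪ S)) (U - P U)) (Y - P Y) hYm'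
      rw [inner_sub_right, sub_eq_zero] at this
      rw [real_inner_comm, this, real_inner_comm]
    rw [e1]
    have n1 : ‖U - P U‖ ≤ ‖U‖ := by
      have e0 : @inner ℝ _ _ U (P U) = ‖P U‖ ^ 2 := by
        have h1 : @inner ℝ _ _ (P U) (U - P U) = (0 : ℝ) := hUo (P U) hPU
        rw [inner_sub_right, sub_eq_zero] at h1
        rw [real_inner_comm, h1, real_inner_self_eq_norm_sq]
      have : ‖U - P U‖ ^ 2 = ‖U‖ ^ 2 - ‖P U‖ ^ 2 := by rw [norm_sub_sq_real, e0]; ring
      nlinarith [norm_nonneg (U - P U), norm_nonneg U, sq_nonneg ‖P U‖]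
    have n2 : ‖Y - P Y‖ ≤ ‖Y‖ := by
      have e0 : @inner ℝ _ _ Y (P Y) = ‖P Y‖ ^ 2 := by
        have h1 : @inner ℝ _ _ (P Y) (Y - P Y) = (0 : ℝ) := hYo (P Y) hPY
        rw [inner_sub_right, sub_eq_zero] at h1
        rw [real_inner_comm, h1, real_inner_self_eq_norm_sq]
      have : ‖Y - P Y‖ ^ 2 = ‖Y‖ ^ 2 - ‖P Y‖ ^ 2 := by rw [norm_sub_sq_real, e0]; ring
      nlinarith [norm_nonneg (Y - P Y), norm_nonneg Y, sq_nonneg ‖P Y‖]
    have hSc : (S.card : ℝ) ≤ Fintype.card I := by exact_mod_cast Finset.card_le_univ S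
    calc @inner ℝ _ _ ((invSub X (κ ∪ S)).starProjection (U - P U)) (Y - P Y)
        ≤ ‖(invSub X (κ ∪ S)).starProjection (U - P U)‖ * ‖Y - P Y‖ := real_inner_le_norm _ _
      _ ≤ (S.card * lam * ‖U - P U‖) * ‖Y - P Y‖ := by gcongr
      _ ≤ (Fintype.card I * lam * ‖U‖) * ‖Y‖ := by gcongr
      _ = _ := by ring
  rw [inner_eq_sum] at hsplit
  have hfin : ∑ g, u g * v g ≤ @inner ℝ _ _ (P U) (P Y) + (Fintype.card I * lam) * ‖U‖ * ‖Y‖ := by
    have : ∑ g, u g * v g = ∑ g, U g * Y g := rfl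
    rw [this, hsplit]; linarith
  have e5 : @inner ℝ _ _ (P U) (P Y) = ∑ g, avg (X.K κ) u g * avg (X.K κ) v g := by
    rw [hP, starProjection_eq_avgE, starProjection_eq_avgE, inner_eq_sum]
    rfl
  rw [e5, norm_eq_sqrt, norm_eq_sqrt] at hfin
  exact hfin

end Crest.Agent.R066
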